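import Vale.Agent.P237.Petty.Cor.Grid.N19.MidCert

/-!
# P237: a cell in dimension 19, checks
-/

namespace Vale.Agent.P237.Petty.Cor.Grid.N19.Mid

def head_ok : cell.headOk = true := by decide +kernel

def pieces0_ok : pieces0.all (pieceOk 18) = true := by decide +kernel

def pieces1_ok : pieces1.all (pieceOk 18) = true := by decide +kernel

def pieces2_ok : pieces2.all (pieceOk 18) = true := by decide +kernel

def pieces3_ok : pieces3.all (pieceOk 18) = true := by decide +kernel

def pieces4_ok : pieces4.all (pieceOk 18) = true := by decide +kernel

def pieces5_ok : pieces5.all (pieceOk 18) = true := by decide +kernel

def pieces6_ok : pieces6.all (pieceOk 18) = true := by decide +kernel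

def pieces7_ok : pieces7.all (pieceOk 18) = true := by decide +kernel

def pieces8_ok : pieces8.all (pieceOk 18) = true := by decide +kernel

def pieces9_ok : pieces9.all (pieceOk 18) = true := by decide +kernel

def pieces10_ok : pieces10.all (pieceOk 18) = true := by decide +kernel

def pieces11_ok : pieces11.all (pieceOk 18) = true := by decide +kernel

def pieces12_ok : pieces12.all (pieceOk 18) = true := by decide +kernel

def pieces13_ok : pieces13.all (pieceOk 18) = true := by decide +kernel

def pieces14_ok : pieces14.all (pieceOk 18) = true := by decide +kernel

def pieces15_ok : pieces15.all (pieceOk 18) = true := by decide +kernel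

def pieces16_ok : pieces16.all (pieceOk 18) = true := by decide +kernel

def pieces17_ok : pieces17.all (pieceOk 18) = true := by decide +kernel

def pieces18_ok : pieces18.all (pieceOk 18) = true := by decide +kernel

def pieces19_ok : pieces19.all (pieceOk 18) = true := by decide +kernel

def pieces20_ok : pieces20.all (pieceOk 18) = true := by decide +kernel

def pieces21_ok : pieces21.all (pieceOk 18) = true := by decide +kernel

def pieces22_ok : pieces22.all (pieceOk 18) = true := by decide +kernel

def pieces23_ok : pieces23.all (pieceOk 18) = true := by decide +kernel

def pieces24_ok : pieces24.all (pieceOk 18) = true := by decide +kernel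

def pieces25_ok : pieces25.all (pieceOk 18) = true := by decide +kernel

def pieces26_ok : pieces26.all (pieceOk 18) = true := by decide +kernel

def pieces27_ok : pieces27.all (pieceOk 18) = true := by decide +kernel

def pieces28_ok : pieces28.all (pieceOk 18) = true := by decide +kernel

def pieces29_ok : pieces29.all (pieceOk 18) = true := by decide +kernel

def pieces30_ok : pieces30.all (pieceOk 18) = true := by decide +kernel

def pieces31_ok : pieces31.all (pieceOk 18) = true := by decide +kernel

theorem allApp {a b : List (Piece × Bool)} {f : Piece × Bool → Bool} (ha : a.all f = true)
    (hb : b.all f = true) : (a ++ b).all f = true := by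
  rw [List.all_append, ha, hb]; rfl

theorem pieces_ok : cell.pieces.all (pieceOk cell.k.m) = true :=
  allApp (allApp (allApp (allApp (allApp (allApp (allApp (allApp (allApp (allApp (allApp (allApp (allApp (allApp (allApp (allApp (allApp (allApp (allApp (allApp (allApp (allApp (allApp (allApp (allApp (allApp (allApp (allApp (allApp (allApp (allApp (pieces0_ok) pieces1_ok) pieces2_ok) pieces3_ok) pieces4_ok) pieces5_ok) pieces6_ok) pieces7_ok) pieces8_ok) pieces9_ok) pieces10_ok) pieces11_ok) pieces12_ok) pieces13_ok) pieces14_ok) pieces15_ok) pieces16_ok) pieces17_ok) pieces18_ok) pieces19_ok) pieces20_ok) pieces21_ok) pieces22_ok) pieces23_ok) pieces24_ok) pieces25_ok) pieces26_ok) pieces27_ok) pieces28_ok) pieces29_ok) pieces30_ok) pieces31_ok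

def row0_ok : cell.rowOk table row0 = true := by decide +kernel

def row1_ok : cell.rowOk table row1 = true := by decide +kernel

def row2_ok : cell.rowOk table row2 = true := by decide +kernel

def row3_ok : cell.rowOk table row3 = true := by decide +kernel

def row4_ok : cell.rowOk table row4 = true := by decide +kernel

def row5_ok : cell.rowOk table row5 = true := by decide +kernel

def row6_ok : cell.rowOk table row6 = true := by decide +kernel

def row7_ok : cell.rowOk table row7 = true := by decide +kernel

def row8_ok : cell.rowOk table row8 = true := by decide +kernel

def row9_ok : cell.rowOk table row9 = true := by decide +kernel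

def row10_ok : cell.rowOk table row10 = true := by decide +kernel

def row11_ok : cell.rowOk table row11 = true := by decide +kernel

def row12_ok : cell.rowOk table row12 = true := by decide +kernel

def row13_ok : cell.rowOk table row13 = true := by decide +kernel

def row14_ok : cell.rowOk table row14 = true := by decide +kernel

def row15_ok : cell.rowOk table row15 = true := by decide +kernel

def row16_ok : cell.rowOk table row16 = true := by decide +kernel

def row17_ok : cell.rowOk table row17 = true := by decide +kernel

def row18_ok : cell.rowOk table row18 = true := by decide +kernel

def row19_ok : cell.rowOk table row19 = true := by decide +kernel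

def row20_ok : cell.rowOk table row20 = true := by decide +kernel

def row21_ok : cell.rowOk table row21 = true := by decide +kernel

def row22_ok : cell.rowOk table row22 = true := by decide +kernel

def row23_ok : cell.rowOk table row23 = true := by decide +kernel

def row24_ok : cell.rowOk table row24 = true := by decide +kernel

def row25_ok : cell.rowOk table row25 = true := by decide +kernel

def row26_ok : cell.rowOk table row26 = true := by decide +kernel

def row27_ok : cell.rowOk table row27 = true := by decide +kernel

def row28_ok : cell.rowOk table row28 = true := by decide +kernel

def row29_ok : cell.rowOk table row29 = true := by decide +kernel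

def row30_ok : cell.rowOk table row30 = true := by decide +kernel

def row31_ok : cell.rowOk table row31 = true := by decide +kernel

def row32_ok : cell.rowOk table row32 = true := by decide +kernel

def row33_ok : cell.rowOk table row33 = true := by decide +kernel

def row34_ok : cell.rowOk table row34 = true := by decide +kernel

def row35_ok : cell.rowOk table row35 = true := by decide +kernel

def row36_ok : cell.rowOk table row36 = true := by decide +kernel

def row37_ok : cell.rowOk table row37 = true := by decide +kernel

def row38_ok : cell.rowOk table row38 = true := by decide +kernel

def row39_ok : cell.rowOk table row39 = true := by decide +kernel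

def row40_ok : cell.rowOk table row40 = true := by decide +kernel

def row41_ok : cell.rowOk table row41 = true := by decide +kernel

def row42_ok : cell.rowOk table row42 = true := by decide +kernel

def row43_ok : cell.rowOk table row43 = true := by decide +kernel

def row44_ok : cell.rowOk table row44 = true := by decide +kernel

def row45_ok : cell.rowOk table row45 = true := by decide +kernel

def row46_ok : cell.rowOk table row46 = true := by decide +kernel

def row47_ok : cell.rowOk table row47 = true := by decide +kernel

def row48_ok : cell.rowOk table row48 = true := by decide +kernel

def row49_ok : cell.rowOk table row49 = true := by decide +kernel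

def row50_ok : cell.rowOk table row50 = true := by decide +kernel

def row51_ok : cell.rowOk table row51 = true := by decide +kernel

def row52_ok : cell.rowOk table row52 = true := by decide +kernel

def row53_ok : cell.rowOk table row53 = true := by decide +kernel

def row54_ok : cell.rowOk table row54 = true := by decide +kernel

def row55_ok : cell.rowOk table row55 = true := by decide +kernel

def row56_ok : cell.rowOk table row56 = true := by decide +kernel

def row57_ok : cell.rowOk table row57 = true := by decide +kernel

def row58_ok : cell.rowOk table row58 = true := by decide +kernel

def row59_ok : cell.rowOk table row59 = true := by decide +kernel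

def row60_ok : cell.rowOk table row60 = true := by decide +kernel

def row61_ok : cell.rowOk table row61 = true := by decide +kernel

def row62_ok : cell.rowOk table row62 = true := by decide +kernel

theorem rows_ok : cell.rows.all (cell.rowOk table) = true := by
  show List.all [row0, row1, row2, row3, row4, row5, row6, row7, row8, row9, row10, row11, row12, row13, row14, row15, row16, row17, row18, row19, row20, row21, row22, row23, row24, row25, row26, row27, row28, row29, row30, row31, row32, row33, row34, row35, row36, row37, row38, row39, row40, row41, row42, row43, row44, row45, row46, row47, row48, row49, row50, row51, row52, row53, row54, row55, row56, row57, row58, row59, row60, row61, row62] (cell.rowOk table) = true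
  simp only [List.all_cons, List.all_nil, row0_ok, row1_ok, row2_ok, row3_ok, row4_ok, row5_ok, row6_ok, row7_ok, row8_ok, row9_ok, row10_ok, row11_ok, row12_ok, row13_ok, row14_ok, row15_ok, row16_ok, row17_ok, row18_ok, row19_ok, row20_ok, row21_ok, row22_ok, row23_ok, row24_ok, row25_ok, row26_ok, row27_ok, row28_ok, row29_ok, row30_ok, row31_ok, row32_ok, row33_ok, row34_ok, row35_ok, row36_ok, row37_ok, row38_ok, row39_ok, row40_ok, row41_ok, row42_ok, row43_ok, row44_ok, row45_ok, row46_ok, row47_ok, row48_ok, row49_ok, row50_ok, row51_ok, row52_ok, row53_ok, row54_ok, row55_ok, row56_ok, row57_ok, row58_ok, row59_ok, row60_ok, row61_ok, row62_ok, Bool.and_self]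

def mean_ok : cell.meanOk table = true := by decide +kernel

end Vale.Agent.P237.Petty.Cor.Grid.N19.Mid
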