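import Vale.Agent.P237.Petty.Cor.Grid.N19.Low
import Vale.Agent.P237.Petty.Cor.Grid.N19.Mid
import Vale.Agent.P237.Petty.Cor.Grid.N19.High

/-!
# P237: the middle regime in dimension 19
-/

namespace Vale.Agent.P237.Petty.Cor.Grid.N19

/-- From `11 / 950` to `1 / 1`. -/
theorem corCell : CorCell 17 ((11 : ℝ) / 950) ((1 : ℝ) / 1) := fun ell hl => by

  have h1 := hl.1
  have h2 := hl.2
  rcases le_total ell ((1147915 : ℝ) / 16777216) with c | c
  · exact Low.corCell ell ⟨le_trans (by norm_num) h1, c⟩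
  rcases le_total ell ((7064091 : ℝ) / 16777216) with e | e
  · exact Mid.corCell ell ⟨le_trans (by norm_num) c, e⟩
  exact High.corCell ell ⟨le_trans (by norm_num) e, le_trans h2 (by norm_num)⟩

end Vale.Agent.P237.Petty.Cor.Grid.N19
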