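import Vale.Agent.P237.Petty.Cor.Grid.N19.HighCert

/-!
# P237: a cell in dimension 19, subdivisions
-/

namespace Vale.Agent.P237.Petty.Cor.Grid.N19.High

def covers0 : cell.Covers table row0.1 :=
  ⟨(.cut .d 0 (.cut .v 16777216 (.cut .v 8388608 (.cut .v 4194304 (.cut .v 2097152 (.void 6 ⟨0, 0, 100000, 0, 0, 0, 0, 0, 0, ⟨0, 0⟩, 0⟩ 0 0) (.pos 7 .mm ⟨0, 0, 110036, 0, 6841424, 0, 0, 0, 0, ⟨0, 0⟩, 0⟩ 0 0)) (.pos 5 .mm ⟨0, 0, 0, 0, 0, 0, 0, 0, 0, ⟨0, 0⟩, 0⟩ 0 0)) (.cut .d (-8388608) (.pos 3 .mm ⟨0, 0, 0, 0, 0, 0, 0, 0, 0, ⟨0, 0⟩, 0⟩ 0 0) (.pos 3 .mm ⟨0, 0, 0, 0, 0, 0, 0, 0, 0, ⟨0, 0⟩, 0⟩ 0 0))) (.cut .v 33554432 (.cut .v 25165824 (.cut .v 20971520 (.cut .v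 18874368 (.pos 17 .mp ⟨0, 0, 0, 0, 0, 0, 0, 0, 0, ⟨0, 0⟩, 0⟩ 0 0) (.pos 18 .mp ⟨0, 0, 0, 0, 0, 0, 0, 0, 0, ⟨0, 0⟩, 0⟩ 0 0)) (.pos 16 .mp ⟨0, 0, 0, 0, 0, 0, 0, 0, 0, ⟨0, 0⟩, 0⟩ 0 0)) (.pos 14 .mp ⟨0, 0, 0, 0, 0, 0, 0, 0, 0, ⟨0, 0⟩, 0⟩ 0 0)) (.pos 12 .mp ⟨3409789, 0, 0, 0, 0, 0, 0, 0, 0, ⟨0, 0⟩, 0⟩ 0 0))) (.cut .v 16777216 (.cut .v 8388608 (.cut .v 4194304 (.cut .v 2097152 (.void 6 ⟨0, 0, 63546, 0, 36454, 0, 0, 0, 0, ⟨0, 0⟩, 0⟩ 0 0) (.pos 7 .pm ⟨0, 0, 0, 0, 3516316, 0, 0, 0, 0, ⟨0, 0⟩, 0⟩ 0 0)) (.pos 5 .pm ⟨0, 0, 0, 0, 3861694, 0, 0, 0, 0, ⟨0, 0⟩, 0⟩ 0 0)) (.pos 3 .pm ⟨0, 0, 0, 0, 1058878, 0, 0, 0, 0, ⟨0, 0⟩, 0⟩ 0 0)) (.cut .v 33554432 (.cut .d 27092543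 (.cut .v 25165824 (.cut .d 13546271 (.cut .v 20971520 (.cut .d 6773135 (.cut .v 18874368 (.cut .d 3386567 (.pos 17 .pp ⟨0, 0, 0, 0, 0, 0, 0, 0, 0, ⟨0, 0⟩, 0⟩ 0 0) (.pos 17 .pp ⟨0, 0, 0, 0, 1953020, 0, 0, 0, 0, ⟨0, 0⟩, 0⟩ 0 0)) (.pos 18 .pp ⟨0, 0, 0, 0, 0, 0, 0, 0, 0, ⟨0, 0⟩, 0⟩ 0 0)) (.pos 15 .pp ⟨0, 0, 0, 0, 2172710, 0, 0, 0, 0, ⟨0, 0⟩, 0⟩ 0 0)) (.pos 16 .pp ⟨0, 0, 0, 0, 0, 0, 0, 0, 0, ⟨0, 0⟩, 0⟩ 0 0)) (.pos 13 .pp ⟨0, 0, 0, 0, 990996, 0, 0, 0, 1247956, ⟨0, 0⟩, 18567042⟩ 0 0)) (.cut .d 13546271 (.pos 14 .pp ⟨0, 0, 0, 0, 0, 0, 0, 0, 0, ⟨0, 0⟩, 0⟩ 0 0) (.pos 14 .pp ⟨0, 0, 0, 0, 0, 0, 0, 0, 1098067, ⟨0, 0⟩, 22080058⟩ 0 0))) (.pos 11 .pp ⟨0, 0, 0, 0, 3948156,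 0, 0, 0, 1241367, ⟨0, 0⟩, 19951585⟩ 0 0)) (.cut .d 27092543 (.pos 12 .pp ⟨3409789, 0, 0, 0, 0, 0, 0, 0, 0, ⟨0, 0⟩, 0⟩ 0 0) (.cut .v 50331648 (.pos 23 .pp ⟨0, 0, 0, 0, 0, 0, 9174766, 0, 26267247, ⟨0, 0⟩, 26257762⟩ 0 0) (.cut .d 40638814 (.cut .v 58720256 (.cut .d 33865678 (.pos 25 .pp ⟨0, 41232127, 0, 0, 0, 0, 1921476, 0, 0, ⟨0, 0⟩, 0⟩ 0 0) (.cut .v 54525952 (.pos 27 .pp ⟨0, 0, 0, 0, 0, 0, 0, 0, 20171388, ⟨0, 0⟩, 29646338⟩ 0 0) (.cut .v 56623104 (.pos 29 .pp ⟨0, 0, 0, 0, 0, 0, 0, 0, 26172786, ⟨0, 0⟩, 30532276⟩ 0 0) (.cut .d 37252246 (.pos 30 .pp ⟨0, 65552097, 0, 0, 0, 0, 12163410, 0, 6404189, ⟨0, 0⟩, 31103220⟩ 0 0) (.void 30 ⟨0, 26402, 0, 0, 0, 0, 18318,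 0, 55279, ⟨0, 0⟩, 31103220⟩ 0 0))))) (.pos 26 .pp ⟨0, 183762985, 0, 0, 0, 0, 55384533, 0, 0, ⟨0, 0⟩, 0⟩ 0 0)) (.void 24 ⟨0, 0, 0, 0, 0, 0, 48141, 0, 51859, ⟨0, 0⟩, 31225917⟩ 0 0))))))),
    by decide +kernel⟩

def covers1 : cell.Covers table row1.1 :=
  ⟨(.cut .d 0 (.cut .v 16777216 (.cut .v 8388608 (.cut .v 4194304 (.void 4 ⟨0, 0, 50000, 0, 50000, 0, 0, 0, 0, ⟨0, 0⟩, 0⟩ 0 0) (.pos 5 .mm ⟨0, 0, 0, 0, 0, 291076, 0, 0, 0, ⟨0, 0⟩, 0⟩ 0 0)) (.cut .v 12582912 (.pos 8 .mm ⟨0, 0, 0, 0, 0, 436614, 0, 0, 0, ⟨0, 0⟩, 0⟩ 0 0) (.cut .v 14680064 (.pos 34 .mm ⟨0, 0, 0, 0, 0, 509383, 0, 0, 0, ⟨0, 0⟩, 0⟩ 0 0) (.pos 35 .mm ⟨0, 0, 0, 0, 0, 215456, 0, 0, 0, ⟨0, 0⟩, 0⟩ 0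 0)))) (.cut .v 67108864 (.cut .v 33554432 (.cut .v 25165824 (.cut .v 20971520 (.cut .v 18874368 (.pos 17 .mp ⟨0, 0, 0, 0, 0, 0, 0, 0, 0, ⟨0, 0⟩, 0⟩ 0 0) (.pos 18 .mp ⟨0, 0, 0, 0, 0, 0, 0, 0, 0, ⟨0, 0⟩, 0⟩ 0 0)) (.pos 16 .mp ⟨0, 0, 0, 0, 0, 0, 0, 0, 0, ⟨0, 0⟩, 0⟩ 0 0)) (.pos 14 .mp ⟨0, 0, 0, 0, 0, 0, 0, 0, 0, ⟨0, 0⟩, 0⟩ 0 0)) (.pos 12 .mp ⟨3438685, 0, 0, 0, 0, 0, 0, 0, 0, ⟨0, 0⟩, 0⟩ 0 0)) (.void 37 ⟨100000, 0, 0, 0, 0, 0, 0, 0, 0, ⟨0, 0⟩, 0⟩ 0 0))) (.cut .v 16777216 (.cut .v 8388608 (.void 2 ⟨0, 0, 0, 0, 100000, 0, 0, 0, 0, ⟨0, 0⟩, 0⟩ 0 0) (.pos 3 .pm ⟨0, 0, 0, 0, 1109099, 0, 0, 0, 0, ⟨0, 0⟩, 0⟩ 0 0)) (.cut .d 74206918 (.cut .v 67108864 (.cut .d 37103459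 (.cut .v 33554432 (.cut .d 18551729 (.cut .v 25165824 (.cut .v 20971520 (.cut .d 9275864 (.cut .v 18874368 (.cut .d 4637932 (.pos 17 .pp ⟨0, 0, 0, 0, 0, 0, 0, 0, 0, ⟨0, 0⟩, 0⟩ 0 0) (.pos 17 .pp ⟨0, 0, 0, 0, 0, 0, 0, 0, 0, ⟨0, 0⟩, 0⟩ 0 0)) (.pos 18 .pp ⟨0, 0, 0, 0, 3184508, 0, 0, 0, 0, ⟨0, 0⟩, 0⟩ 0 0)) (.void 15 ⟨0, 0, 0, 0, 100000, 0, 0, 0, 0, ⟨0, 0⟩, 0⟩ 0 0)) (.pos 16 .pp ⟨0, 0, 0, 0, 9378200, 0, 0, 0, 0, ⟨0, 0⟩, 0⟩ 0 0)) (.pos 14 .pp ⟨0, 0, 0, 0, 0, 0, 0, 0, 1188032, ⟨0, 0⟩, 22080058⟩ 0 0)) (.pos 11 .pp ⟨0, 0, 0, 0, 33521695, 0, 0, 0, 837215, ⟨0, 0⟩, 19951585⟩ 0 0)) (.cut .d 18551729 (.pos 12 .pp ⟨0, 0, 0, 0, 0, 0, 0, 0, 592000, ⟨0, 0⟩, 28215802⟩ 0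 0) (.cut .v 50331648 (.pos 23 .pp ⟨0, 6521573, 0, 0, 0, 0, 0, 0, 15071430, ⟨0, 0⟩, 26257762⟩ 0 0) (.cut .v 58720256 (.cut .d 27827594 (.pos 25 .pp ⟨0, 19638556, 0, 0, 0, 0, 0, 0, 687082, ⟨0, 0⟩, 30200715⟩ 0 0) (.cut .v 54525952 (.pos 27 .pp ⟨0, 51588426, 0, 0, 0, 0, 0, 0, 6857291, ⟨0, 0⟩, 29646338⟩ 0 0) (.pos 28 .pp ⟨0, 66676065, 0, 0, 0, 0, 0, 0, 1256216, ⟨0, 0⟩, 30811139⟩ 0 0))) (.pos 26 .pp ⟨0, 96290796, 0, 0, 0, 0, 1177065, 0, 0, ⟨0, 0⟩, 0⟩ 0 0))))) (.cut .v 33554432 (.void 11 ⟨0, 0, 0, 0, 0, 0, 0, 0, 100000, ⟨0, 0⟩, 19951585⟩ 0 0) (.void 12 ⟨0, 48958, 0, 0, 0, 0, 0, 0, 51042, ⟨0, 0⟩, 28215802⟩ 0 0))) (.cut .v 134217728 (.cut .d 37103459 (.pos 38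 .pp ⟨194632324, 394928412, 0, 0, 0, 0, 0, 0, 0, ⟨0, 0⟩, 0⟩ 0 0) (.void 38 ⟨0, 100000, 0, 0, 0, 0, 0, 0, 0, ⟨0, 0⟩, 0⟩ 0 0)) (.void 39 ⟨0, 0, 0, 0, 0, 0, 100000, 0, 0, ⟨0, 0⟩, 0⟩ 0 0))) (.void 36 ⟨0, 56976, 0, 0, 0, 0, 0, 0, 43024, ⟨0, 0⟩, 33554432⟩ 0 0)))),
    by decide +kernel⟩

def covers2 : cell.Covers table row2.1 :=
  ⟨(.cut .d 0 (.cut .v 16777216 (.cut .v 8388608 (.cut .v 4194304 (.void 4 ⟨0, 0, 50000, 0, 50000, 0, 0, 0, 0, ⟨0, 0⟩, 0⟩ 0 0) (.pos 5 .mm ⟨0, 0, 0, 0, 0, 347139, 0, 0, 0, ⟨0, 0⟩, 0⟩ 0 0)) (.cut .v 12582912 (.pos 8 .mm ⟨0, 0, 0, 0, 0, 520708, 0, 0, 0, ⟨0, 0⟩, 0⟩ 0 0) (.cut .v 14680064 (.pos 34 .mm ⟨0, 0, 0, 0, 0, 607493, 0, 0, 0, ⟨0,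 0⟩, 0⟩ 0 0) (.pos 35 .mm ⟨0, 0, 0, 0, 0, 527858, 0, 0, 0, ⟨0, 0⟩, 0⟩ 0 0)))) (.cut .v 67108864 (.cut .v 33554432 (.cut .v 25165824 (.cut .v 20971520 (.pos 15 .mp ⟨0, 0, 0, 0, 0, 0, 0, 0, 0, ⟨0, 0⟩, 0⟩ 0 0) (.pos 16 .mp ⟨0, 0, 0, 0, 0, 0, 0, 0, 0, ⟨0, 0⟩, 0⟩ 0 0)) (.pos 14 .mp ⟨0, 0, 0, 0, 0, 0, 0, 0, 0, ⟨0, 0⟩, 0⟩ 0 0)) (.pos 12 .mp ⟨3628460, 0, 0, 0, 0, 0, 0, 0, 0, ⟨0, 0⟩, 0⟩ 0 0)) (.void 37 ⟨100000, 0, 0, 0, 0, 0, 0, 0, 0, ⟨0, 0⟩, 0⟩ 0 0))) (.cut .v 16777216 (.cut .v 8388608 (.void 2 ⟨0, 0, 0, 0, 100000, 0, 0, 0, 0, ⟨0, 0⟩, 0⟩ 0 0) (.cut .v 12582912 (.pos 8 .pm ⟨0, 0, 0, 0, 0, 0, 0, 0, 0, ⟨0, 0⟩, 0⟩ 0 0) (.cut .s 3407872 (.pos 9 .pm ⟨0, 0, 0, 0, 779943,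 0, 0, 0, 0, ⟨0, 0⟩, 0⟩ 0 0) (.pos 9 .pm ⟨0, 0, 0, 0, 565441, 0, 0, 0, 0, ⟨0, 0⟩, 0⟩ 0 0)))) (.cut .d 38295820 (.cut .v 67108864 (.cut .v 33554432 (.cut .d 19147910 (.cut .v 25165824 (.cut .v 20971520 (.cut .d 9573955 (.cut .v 18874368 (.cut .d 4786977 (.pos 17 .pp ⟨0, 0, 0, 0, 0, 0, 0, 0, 0, ⟨0, 0⟩, 0⟩ 0 0) (.pos 17 .pp ⟨0, 0, 0, 0, 0, 0, 0, 0, 0, ⟨0, 0⟩, 0⟩ 0 0)) (.pos 18 .pp ⟨0, 0, 0, 0, 0, 0, 0, 0, 0, ⟨0, 0⟩, 0⟩ 0 0)) (.pos 15 .pp ⟨0, 0, 0, 0, 4843617, 0, 0, 0, 562698, ⟨0, 0⟩, 17739746⟩ 0 0)) (.pos 16 .pp ⟨0, 0, 0, 0, 4702406, 0, 0, 0, 687219, ⟨0, 0⟩, 19632256⟩ 0 0)) (.pos 14 .pp ⟨0, 0, 0, 0, 0, 0, 0, 0, 0, ⟨0, 0⟩, 0⟩ 0 0)) (.pos 11 .pp ⟨0, 0, 0, 0,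 23509348, 0, 0, 0, 669800, ⟨0, 0⟩, 19951585⟩ 0 0)) (.cut .d 19147910 (.pos 12 .pp ⟨0, 0, 0, 0, 0, 0, 0, 0, 473620, ⟨0, 0⟩, 28215802⟩ 0 0) (.cut .v 50331648 (.cut .d 28721865 (.pos 23 .pp ⟨0, 6500127, 0, 0, 0, 0, 0, 0, 629465, ⟨0, 0⟩, 26257762⟩ 0 0) (.cut .v 41943040 (.pos 42 .pp ⟨0, 23359478, 0, 0, 0, 0, 0, 0, 7916707, ⟨0, 0⟩, 25087789⟩ 0 0) (.cut .v 46137344 (.pos 44 .pp ⟨0, 39620125, 0, 0, 0, 0, 0, 0, 5676860, ⟨0, 0⟩, 27166774⟩ 0 0) (.pos 45 .pp ⟨0, 58657455, 0, 0, 0, 0, 0, 0, 704355, ⟨0, 0⟩, 28433700⟩ 0 0)))) (.cut .d 28721865 (.pos 24 .pp ⟨0, 40840794, 0, 0, 0, 0, 0, 0, 539553, ⟨0, 0⟩, 31225917⟩ 0 0) (.pos 24 .pp ⟨0, 99492657, 0, 0, 0, 0, 0, 0, 668320,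 ⟨0, 0⟩, 31225917⟩ 0 0))))) (.cut .d 19147910 (.pos 37 .pp ⟨0, 244346379, 0, 0, 0, 0, 993162, 0, 0, ⟨0, 0⟩, 0⟩ 0 0) (.void 37 ⟨0, 100000, 0, 0, 0, 0, 0, 0, 0, ⟨0, 0⟩, 0⟩ 0 0))) (.void 36 ⟨0, 72659, 0, 0, 0, 0, 0, 0, 27341, ⟨0, 0⟩, 33554432⟩ 0 0)))),
    by decide +kernel⟩

def covers3 : cell.Covers table row3.1 :=
  ⟨(.cut .d 0 (.cut .v 16777216 (.cut .v 8388608 (.cut .v 4194304 (.void 4 ⟨0, 0, 50000, 0, 50000, 0, 0, 0, 0, ⟨0, 0⟩, 0⟩ 0 0) (.pos 5 .mm ⟨0, 0, 0, 0, 0, 1238572, 0, 0, 0, ⟨0, 0⟩, 0⟩ 0 0)) (.cut .v 12582912 (.pos 8 .mm ⟨0, 0, 0, 0, 0, 1139152, 0, 0, 0, ⟨0, 0⟩, 0⟩ 0 0) (.cut .v 14680064 (.pos 34 .mm ⟨0, 0, 0, 0, 0, 831194, 0, 0, 0, ⟨0, 0⟩, 0⟩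 0 0) (.pos 35 .mm ⟨0, 0, 0, 0, 0, 649561, 0, 0, 0, ⟨0, 0⟩, 0⟩ 0 0)))) (.cut .v 67108864 (.cut .v 33554432 (.cut .v 25165824 (.cut .v 20971520 (.pos 15 .mp ⟨0, 0, 0, 0, 0, 0, 0, 0, 0, ⟨0, 0⟩, 0⟩ 0 0) (.pos 16 .mp ⟨0, 0, 0, 0, 0, 0, 0, 0, 0, ⟨0, 0⟩, 0⟩ 0 0)) (.pos 14 .mp ⟨0, 0, 0, 0, 0, 0, 0, 0, 0, ⟨0, 0⟩, 0⟩ 0 0)) (.pos 12 .mp ⟨3843525, 0, 0, 0, 0, 0, 0, 0, 0, ⟨0, 0⟩, 0⟩ 0 0)) (.void 37 ⟨100000, 0, 0, 0, 0, 0, 0, 0, 0, ⟨0, 0⟩, 0⟩ 0 0))) (.cut .v 16777216 (.cut .v 8388608 (.void 2 ⟨0, 0, 0, 0, 100000, 0, 0, 0, 0, ⟨0, 0⟩, 0⟩ 0 0) (.cut .v 12582912 (.pos 8 .pm ⟨0, 0, 0, 0, 0, 0, 0, 0, 0, ⟨0, 0⟩, 0⟩ 0 0) (.cut .v 14680064 (.pos 34 .pm ⟨0, 0, 0, 0, 0, 0, 0,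 0, 0, ⟨0, 0⟩, 0⟩ 0 0) (.pos 35 .pm ⟨0, 0, 0, 0, 0, 0, 0, 0, 197240, ⟨0, 0⟩, 16226390⟩ 0 0)))) (.cut .v 67108864 (.cut .d 28636973 (.cut .v 33554432 (.cut .v 25165824 (.cut .v 20971520 (.cut .d 14318486 (.cut .d 7159243 (.cut .d 3579621 (.pos 15 .pp ⟨0, 0, 0, 0, 0, 0, 0, 0, 0, ⟨0, 0⟩, 0⟩ 0 0) (.pos 15 .pp ⟨0, 0, 0, 0, 0, 0, 0, 0, 0, ⟨0, 0⟩, 0⟩ 0 0)) (.pos 15 .pp ⟨0, 0, 0, 0, 0, 0, 0, 0, 0, ⟨0, 0⟩, 0⟩ 0 0)) (.pos 15 .pp ⟨0, 0, 0, 0, 1208509, 0, 0, 0, 1487864, ⟨0, 0⟩, 17739746⟩ 0 0)) (.pos 16 .pp ⟨0, 0, 0, 0, 3836366, 0, 0, 0, 545654, ⟨0, 0⟩, 19632256⟩ 0 0)) (.pos 14 .pp ⟨0, 0, 0, 0, 0, 0, 0, 0, 1298385, ⟨0, 0⟩, 22080058⟩ 0 0)) (.cut .v 50331648 (.pos 23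 .pp ⟨0, 13128753, 0, 0, 0, 0, 0, 0, 1421472, ⟨0, 0⟩, 26257762⟩ 0 0) (.pos 24 .pp ⟨0, 87179151, 0, 0, 0, 0, 0, 0, 530648, ⟨0, 0⟩, 31225917⟩ 0 0))) (.cut .v 33554432 (.pos 11 .pp ⟨0, 0, 0, 0, 0, 0, 0, 0, 11527820, ⟨0, 0⟩, 19951585⟩ 0 0) (.cut .v 50331648 (.cut .d 42955460 (.cut .d 35796216 (.cut .v 41943040 (.cut .v 37748736 (.pos 46 .pp ⟨0, 21339562, 0, 0, 0, 0, 0, 0, 7026089, ⟨0, 0⟩, 24435601⟩ 0 0) (.pos 47 .pp ⟨0, 31626569, 0, 0, 0, 0, 0, 0, 7560564, ⟨0, 0⟩, 25837502⟩ 0 0)) (.pos 43 .pp ⟨0, 54592654, 0, 0, 0, 0, 0, 0, 1039899, ⟨0, 0⟩, 27764203⟩ 0 0)) (.void 23 ⟨0, 74280, 0, 0, 0, 0, 0, 0, 25720, ⟨0, 0⟩, 26257762⟩ 0 0)) (.void 23 ⟨0, 38858, 0, 0, 0, 0,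 0, 0, 61142, ⟨0, 0⟩, 26257762⟩ 0 0)) (.void 24 ⟨0, 100000, 0, 0, 0, 0, 0, 0, 0, ⟨0, 0⟩, 0⟩ 0 0)))) (.cut .v 134217728 (.cut .d 28636973 (.pos 38 .pp ⟨0, 202844584, 0, 0, 0, 0, 862392, 0, 0, ⟨0, 0⟩, 0⟩ 0 0) (.void 38 ⟨0, 100000, 0, 0, 0, 0, 0, 0, 0, ⟨0, 0⟩, 0⟩ 0 0)) (.void 39 ⟨0, 100000, 0, 0, 0, 0, 0, 0, 0, ⟨0, 0⟩, 0⟩ 0 0))))),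
    by decide +kernel⟩

def covers4 : cell.Covers table row4.1 :=
  ⟨(.cut .d 0 (.cut .v 16777216 (.cut .v 8388608 (.cut .v 4194304 (.void 4 ⟨0, 0, 50000, 0, 50000, 0, 0, 0, 0, ⟨0, 0⟩, 0⟩ 0 0) (.pos 5 .mm ⟨0, 0, 0, 0, 0, 792291, 0, 0, 0, ⟨0, 0⟩, 0⟩ 0 0)) (.cut .v 12582912 (.pos 8 .mm ⟨0, 0, 0, 0, 0, 1188436, 0, 0, 0, ⟨0, 0⟩, 0⟩ 0 0) (.cut .v 14680064 (.pos 34 .mm ⟨0, 0, 0, 0, 0, 964611, 0, 0, 0, ⟨0, 0⟩, 0⟩ 0 0) (.pos 35 .mm ⟨0, 0, 0, 0, 0, 709659, 0, 0, 0, ⟨0, 0⟩, 0⟩ 0 0)))) (.cut .v 67108864 (.cut .v 33554432 (.cut .v 25165824 (.pos 13 .mp ⟨0, 0, 0, 0, 0, 0, 0, 0, 0, ⟨0, 0⟩, 0⟩ 0 0) (.pos 14 .mp ⟨0, 0, 0, 0, 0, 0, 0, 0, 0, ⟨0, 0⟩, 0⟩ 0 0)) (.pos 12 .mp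 ⟨12470753, 0, 0, 0, 0, 0, 0, 0, 0, ⟨0, 0⟩, 0⟩ 0 0)) (.void 37 ⟨100000, 0, 0, 0, 0, 0, 0, 0, 0, ⟨0, 0⟩, 0⟩ 0 0))) (.cut .v 16777216 (.cut .v 8388608 (.void 2 ⟨0, 0, 0, 0, 100000, 0, 0, 0, 0, ⟨0, 0⟩, 0⟩ 0 0) (.cut .v 12582912 (.pos 8 .pm ⟨0, 0, 0, 0, 0, 0, 0, 0, 0, ⟨0, 0⟩, 0⟩ 0 0) (.cut .v 14680064 (.pos 34 .pm ⟨0, 0, 0, 0, 0, 0, 0, 0, 0, ⟨0, 0⟩, 0⟩ 0 0) (.pos 35 .pm ⟨0, 0, 0, 0, 0, 0, 0, 0, 45756, ⟨0, 0⟩, 16226390⟩ 0 0)))) (.cut .v 67108864 (.cut .v 33554432 (.cut .d 22734344 (.cut .v 25165824 (.cut .v 20971520 (.cut .d 11367172 (.pos 15 .pp ⟨0, 0, 0, 0, 0, 0, 0, 0, 0, ⟨0, 0⟩, 0⟩ 0 0) (.pos 15 .pp ⟨0, 0, 0, 0, 0, 0, 0, 0, 700188, ⟨0, 0⟩, 17739746⟩ 0 0))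 (.pos 16 .pp ⟨0, 0, 0, 0, 0, 0, 0, 0, 1273695, ⟨0, 0⟩, 19632256⟩ 0 0)) (.pos 14 .pp ⟨0, 0, 0, 0, 0, 0, 0, 0, 799608, ⟨0, 0⟩, 22080058⟩ 0 0)) (.cut .v 25165824 (.pos 13 .pp ⟨0, 0, 0, 0, 0, 0, 0, 0, 4750053, ⟨0, 0⟩, 18567042⟩ 0 0) (.cut .d 34101516 (.cut .d 28417930 (.cut .s 4882432 (.pos 14 .pp ⟨0, 6613079, 0, 0, 0, 0, 0, 0, 2410517, ⟨0, 0⟩, 22080058⟩ 0 0) (.pos 14 .pp ⟨0, 7234180, 0, 0, 0, 0, 0, 0, 2608968, ⟨0, 0⟩, 22080058⟩ 0 0)) (.pos 14 .pp ⟨0, 34097503, 0, 0, 0, 0, 0, 0, 9441575, ⟨0, 0⟩, 22080058⟩ 0 0)) (.void 14 ⟨0, 0, 0, 3594, 0, 0, 0, 0, 96406, ⟨0, 0⟩, 22080058⟩ 0 0)))) (.cut .d 22734344 (.pos 12 .pp ⟨0, 0, 0, 0, 0, 0, 0, 0, 774858, ⟨0, 0⟩, 28215802⟩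 0 0) (.cut .d 34101516 (.cut .v 50331648 (.cut .d 28417930 (.pos 23 .pp ⟨0, 24166167, 0, 0, 0, 0, 0, 0, 1309180, ⟨0, 0⟩, 26257762⟩ 0 0) (.cut .d 31259723 (.pos 23 .pp ⟨0, 31279710, 0, 0, 0, 0, 0, 0, 1309180, ⟨0, 0⟩, 26257762⟩ 0 0) (.void 23 ⟨0, 80174, 0, 0, 0, 0, 0, 0, 19826, ⟨0, 0⟩, 26257762⟩ 0 0))) (.void 24 ⟨0, 100000, 0, 0, 0, 0, 0, 0, 0, ⟨0, 0⟩, 0⟩ 0 0)) (.void 12 ⟨0, 80861, 0, 0, 0, 0, 0, 0, 19139, ⟨0, 0⟩, 28215802⟩ 0 0)))) (.cut .d 22734344 (.pos 37 .pp ⟨129664834, 297648313, 0, 0, 0, 0, 0, 0, 0, ⟨0, 0⟩, 0⟩ 0 0) (.void 37 ⟨0, 100000, 0, 0, 0, 0, 0, 0, 0, ⟨0, 0⟩, 0⟩ 0 0))))),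
    by decide +kernel⟩

def covers5 : cell.Covers table row5.1 :=
  ⟨(.cut .d 0 (.cut .v 16777216 (.cut .v 8388608 (.cut .v 4194304 (.void 4 ⟨0, 0, 59906, 0, 40094, 0, 0, 0, 0, ⟨0, 0⟩, 0⟩ 0 0) (.pos 5 .mm ⟨0, 0, 0, 0, 0, 156264, 0, 0, 0, ⟨0, 0⟩, 0⟩ 0 0)) (.cut .v 12582912 (.pos 8 .mm ⟨0, 0, 0, 0, 0, 490360, 0, 0, 0, ⟨0, 0⟩, 0⟩ 0 0) (.cut .v 14680064 (.pos 34 .mm ⟨0, 0, 0, 0, 0, 387878, 0, 0, 0, ⟨0, 0⟩, 0⟩ 0 0) (.pos 35 .mm ⟨0, 0, 0, 0, 0, 240295, 0, 0, 0, ⟨0, 0⟩, 0⟩ 0 0)))) (.cut .v 268435456 (.cut .v 67108864 (.cut .v 33554432 (.cut .v 25165824 (.pos 13 .mp ⟨0, 0, 0, 0, 0, 0, 0, 0, 0, ⟨0, 0⟩, 0⟩ 0 0) (.pos 14 .mp ⟨0, 0, 0, 0, 0, 0, 0, 0, 0, ⟨0, 0⟩, 0⟩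 0 0)) (.pos 12 .mp ⟨7293044, 0, 0, 0, 0, 0, 0, 0, 0, ⟨0, 0⟩, 0⟩ 0 0)) (.void 37 ⟨100000, 0, 0, 0, 0, 0, 0, 0, 0, ⟨0, 0⟩, 0⟩ 0 0)) (.void 50 ⟨0, 100000, 0, 0, 0, 0, 0, 0, 0, ⟨0, 0⟩, 0⟩ 0 0))) (.cut .v 16777216 (.cut .v 8388608 (.cut .v 4194304 (.void 4 ⟨0, 0, 50000, 0, 50000, 0, 0, 0, 0, ⟨0, 0⟩, 0⟩ 0 0) (.pos 5 .pm ⟨0, 0, 0, 0, 0, 0, 0, 0, 0, ⟨0, 0⟩, 0⟩ 0 0)) (.cut .v 12582912 (.pos 8 .pm ⟨0, 0, 0, 0, 0, 0, 0, 0, 0, ⟨0, 0⟩, 0⟩ 0 0) (.cut .v 14680064 (.pos 34 .pm ⟨0, 0, 0, 0, 0, 0, 0, 0, 81942, ⟨0, 0⟩, 15100357⟩ 0 0) (.cut .v 15728640 (.pos 51 .pm ⟨0, 0, 0, 0, 0, 0, 0, 0, 154660, ⟨0, 0⟩, 15966684⟩ 0 0) (.pos 52 .pm ⟨0, 0, 0, 0, 0, 0, 0, 0, 189978, ⟨0, 0⟩,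 16508694⟩ 0 0))))) (.cut .v 268435456 (.cut .v 67108864 (.cut .v 33554432 (.cut .v 25165824 (.cut .d 18454939 (.cut .v 20971520 (.pos 15 .pp ⟨0, 0, 0, 0, 0, 0, 0, 0, 0, ⟨0, 0⟩, 0⟩ 0 0) (.pos 16 .pp ⟨0, 0, 0, 0, 0, 0, 0, 0, 306070, ⟨0, 0⟩, 19632256⟩ 0 0)) (.cut .d 27682408 (.cut .v 20971520 (.pos 15 .pp ⟨0, 0, 0, 0, 0, 0, 0, 0, 924866, ⟨0, 0⟩, 17739746⟩ 0 0) (.pos 16 .pp ⟨0, 0, 0, 0, 0, 0, 0, 0, 3405658, ⟨0, 0⟩, 19632256⟩ 0 0)) (.void 13 ⟨0, 59740, 0, 0, 0, 0, 0, 0, 40260, ⟨0, 0⟩, 18567042⟩ 0 0))) (.cut .d 18454939 (.pos 14 .pp ⟨0, 0, 0, 0, 0, 0, 0, 0, 544294, ⟨0, 0⟩, 22080058⟩ 0 0) (.cut .d 27682408 (.pos 14 .pp ⟨0, 6610870, 0, 0, 0, 0, 0, 0, 1901070,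 ⟨0, 0⟩, 22080058⟩ 0 0) (.void 14 ⟨0, 84820, 0, 0, 0, 0, 0, 0, 15180, ⟨0, 0⟩, 22080058⟩ 0 0)))) (.cut .d 18454939 (.pos 12 .pp ⟨0, 0, 0, 0, 0, 0, 0, 0, 0, ⟨0, 0⟩, 0⟩ 0 0) (.cut .d 27682408 (.pos 12 .pp ⟨0, 28509269, 0, 0, 0, 0, 0, 0, 557791, ⟨0, 0⟩, 28215802⟩ 0 0) (.void 12 ⟨0, 100000, 0, 0, 0, 0, 0, 0, 0, ⟨0, 0⟩, 0⟩ 0 0)))) (.cut .d 18454939 (.pos 37 .pp ⟨0, 152026910, 0, 0, 0, 0, 0, 0, 0, ⟨0, 0⟩, 0⟩ 0 0) (.void 37 ⟨0, 100000, 0, 0, 0, 0, 0, 0, 0, ⟨0, 0⟩, 0⟩ 0 0))) (.void 50 ⟨0, 72474, 0, 27526, 0, 0, 0, 0, 0, ⟨0, 0⟩, 0⟩ 0 0)))),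
    by decide +kernel⟩

def covers6 : cell.Covers table row6.1 :=
  ⟨(.cut .d 0 (.cut .v 16777216 (.cut .d (-8388608) (.void 1 ⟨0, 0, 0, 0, 0, 100000, 0, 0, 0, ⟨0, 0⟩, 0⟩ 0 0) (.cut .v 8388608 (.cut .v 4194304 (.void 4 ⟨0, 0, 100000, 0, 0, 0, 0, 0, 0, ⟨0, 0⟩, 0⟩ 0 0) (.pos 5 .mm ⟨0, 0, 0, 0, 0, 0, 0, 0, 0, ⟨0, 0⟩, 0⟩ 0 0)) (.cut .v 12582912 (.pos 8 .mm ⟨0, 0, 0, 0, 0, 0, 0, 0, 0, ⟨0, 0⟩, 0⟩ 0 0) (.cut .v 14680064 (.pos 34 .mm ⟨0, 0, 0, 0, 0, 0, 0, 0, 0, ⟨0, 0⟩, 0⟩ 0 0) (.pos 35 .mm ⟨0, 0, 0, 0, 0, 0, 0, 0, 0, ⟨0, 0⟩, 0⟩ 0 0))))) (.cut .v 268435456 (.cut .v 67108864 (.cut .v 33554432 (.pos 11 .mp ⟨0, 0, 0, 0, 0, 0, 0, 0, 0, ⟨0, 0⟩, 0⟩ 0 0) (.pos 12 .mp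 ⟨4034022, 0, 0, 0, 0, 0, 0, 0, 0, ⟨0, 0⟩, 0⟩ 0 0)) (.void 37 ⟨100000, 0, 0, 0, 0, 0, 0, 0, 0, ⟨0, 0⟩, 0⟩ 0 0)) (.void 50 ⟨0, 100000, 0, 0, 0, 0, 0, 0, 0, ⟨0, 0⟩, 0⟩ 0 0))) (.cut .v 16777216 (.cut .v 8388608 (.cut .v 4194304 (.void 4 ⟨0, 0, 50000, 0, 50000, 0, 0, 0, 0, ⟨0, 0⟩, 0⟩ 0 0) (.pos 5 .pm ⟨0, 0, 0, 0, 764725, 0, 0, 0, 452832, ⟨0, 0⟩, 9975792⟩ 0 0)) (.cut .v 12582912 (.pos 8 .pm ⟨0, 0, 0, 0, 0, 0, 0, 0, 425562, ⟨0, 0⟩, 13128881⟩ 0 0) (.cut .d 14953607 (.cut .d 7476803 (.cut .v 14680064 (.cut .d 3738401 (.pos 34 .pm ⟨0, 0, 0, 0, 0, 0, 0, 0, 0, ⟨0, 0⟩, 0⟩ 0 0) (.pos 34 .pm ⟨0, 0, 0, 0, 0, 0, 0, 0, 0, ⟨0, 0⟩, 0⟩ 0 0)) (.cut .d 3738401 (.pos 35 .pm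 ⟨0, 0, 0, 0, 0, 0, 0, 0, 0, ⟨0, 0⟩, 0⟩ 0 0) (.pos 35 .pm ⟨0, 0, 0, 0, 0, 0, 0, 0, 0, ⟨0, 0⟩, 0⟩ 0 0))) (.pos 9 .pm ⟨0, 0, 0, 0, 0, 0, 0, 0, 0, ⟨0, 0⟩, 0⟩ 0 0)) (.pos 9 .pm ⟨0, 0, 0, 0, 0, 0, 0, 0, 265304, ⟨0, 0⟩, 15612959⟩ 0 0)))) (.cut .v 268435456 (.cut .v 67108864 (.cut .v 33554432 (.cut .v 25165824 (.cut .d 14953607 (.pos 13 .pp ⟨0, 0, 0, 0, 0, 0, 0, 0, 0, ⟨0, 0⟩, 0⟩ 0 0) (.pos 13 .pp ⟨0, 0, 0, 0, 0, 0, 0, 0, 280149, ⟨0, 0⟩, 18567042⟩ 0 0)) (.pos 14 .pp ⟨0, 6706684, 0, 0, 0, 0, 0, 0, 281598, ⟨0, 0⟩, 22080058⟩ 0 0)) (.pos 12 .pp ⟨0, 21435078, 0, 0, 0, 0, 0, 0, 0, ⟨0, 0⟩, 0⟩ 0 0)) (.pos 37 .pp ⟨0, 316278300, 0, 0, 0, 0, 0, 0, 0, ⟨0, 0⟩, 0⟩ 0 0)) (.void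 50 ⟨0, 0, 0, 100000, 0, 0, 0, 0, 0, ⟨0, 0⟩, 0⟩ 0 0)))),
    by decide +kernel⟩

def covers7 : cell.Covers table row7.1 :=
  ⟨(.cut .d 0 (.cut .v 16777216 (.cut .d (-8388608) (.void 1 ⟨0, 0, 0, 0, 0, 100000, 0, 0, 0, ⟨0, 0⟩, 0⟩ 0 0) (.cut .v 8388608 (.cut .v 4194304 (.void 4 ⟨0, 0, 100000, 0, 0, 0, 0, 0, 0, ⟨0, 0⟩, 0⟩ 0 0) (.pos 5 .mm ⟨0, 0, 0, 0, 0, 0, 0, 0, 0, ⟨0, 0⟩, 0⟩ 0 0)) (.cut .v 12582912 (.pos 8 .mm ⟨0, 0, 0, 0, 0, 0, 0, 0, 0, ⟨0, 0⟩, 0⟩ 0 0) (.cut .v 14680064 (.pos 34 .mm ⟨0, 0, 0, 0, 0, 296803, 0, 0, 0, ⟨0, 0⟩, 0⟩ 0 0) (.pos 35 .mm ⟨0, 0, 0, 0, 0, 490676, 0, 0, 0, ⟨0, 0⟩, 0⟩ 0 0))))) (.cut .v 268435456 (.cut .v 67108864 (.cut .v 33554432 (.cut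 .v 25165824 (.pos 13 .mp ⟨0, 0, 0, 0, 0, 1997939, 0, 0, 0, ⟨0, 0⟩, 0⟩ 0 0) (.pos 14 .mp ⟨23256536, 0, 0, 0, 0, 0, 0, 0, 0, ⟨0, 0⟩, 0⟩ 0 0)) (.pos 12 .mp ⟨51663811, 0, 0, 0, 0, 0, 0, 0, 0, ⟨0, 0⟩, 0⟩ 0 0)) (.void 37 ⟨100000, 0, 0, 0, 0, 0, 0, 0, 0, ⟨0, 0⟩, 0⟩ 0 0)) (.void 50 ⟨69003, 30997, 0, 0, 0, 0, 0, 0, 0, ⟨0, 0⟩, 0⟩ 0 0))) (.cut .v 16777216 (.cut .v 8388608 (.cut .v 4194304 (.void 4 ⟨0, 0, 50000, 0, 50000, 0, 0, 0, 0, ⟨0, 0⟩, 0⟩ 0 0) (.pos 5 .pm ⟨0, 0, 0, 0, 0, 0, 0, 0, 230640, ⟨0, 0⟩, 9975792⟩ 0 0)) (.cut .d 12260274 (.cut .v 12582912 (.pos 8 .pm ⟨0, 0, 0, 0, 0, 0, 0, 0, 0, ⟨0, 0⟩, 0⟩ 0 0) (.cut .v 14680064 (.cut .d 6130137 (.cut .s 7176192 (.cut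 .d 3065068 (.pos 34 .pm ⟨0, 0, 0, 0, 0, 0, 0, 0, 0, ⟨0, 0⟩, 0⟩ 0 0) (.pos 34 .pm ⟨0, 0, 0, 0, 0, 0, 0, 0, 0, ⟨0, 0⟩, 0⟩ 0 0)) (.pos 34 .pm ⟨0, 0, 0, 0, 0, 0, 0, 0, 0, ⟨0, 0⟩, 0⟩ 0 0)) (.pos 34 .pm ⟨0, 0, 0, 0, 0, 0, 0, 0, 0, ⟨0, 0⟩, 0⟩ 0 0)) (.cut .d 6130137 (.pos 35 .pm ⟨0, 0, 0, 0, 0, 0, 0, 0, 0, ⟨0, 0⟩, 0⟩ 0 0) (.pos 35 .pm ⟨0, 0, 0, 0, 0, 0, 0, 0, 0, ⟨0, 0⟩, 0⟩ 0 0)))) (.pos 3 .pm ⟨0, 0, 0, 0, 0, 0, 0, 0, 191069, ⟨0, 0⟩, 14107901⟩ 0 0))) (.cut .v 268435456 (.cut .v 67108864 (.cut .v 33554432 (.pos 11 .pp ⟨0, 0, 0, 0, 0, 0, 0, 0, 0, ⟨0, 0⟩, 0⟩ 0 0) (.pos 12 .pp ⟨0, 8179941, 0, 0, 0, 0, 0, 0, 0, ⟨0, 0⟩, 0⟩ 0 0)) (.pos 37 .pp ⟨0, 38102449, 0, 0, 0, 0,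 0, 0, 0, ⟨0, 0⟩, 0⟩ 0 0)) (.void 50 ⟨0, 0, 0, 100000, 0, 0, 0, 0, 0, ⟨0, 0⟩, 0⟩ 0 0)))),
    by decide +kernel⟩

def covers8 : cell.Covers table row8.1 :=
  ⟨(.cut .d 0 (.cut .v 16777216 (.cut .d (-8388608) (.void 1 ⟨0, 0, 0, 0, 0, 100000, 0, 0, 0, ⟨0, 0⟩, 0⟩ 0 0) (.cut .v 8388608 (.cut .v 4194304 (.void 4 ⟨0, 0, 100000, 0, 0, 0, 0, 0, 0, ⟨0, 0⟩, 0⟩ 0 0) (.pos 5 .mm ⟨0, 0, 0, 0, 0, 0, 0, 0, 0, ⟨0, 0⟩, 0⟩ 0 0)) (.cut .v 12582912 (.cut .s 7798784 (.pos 8 .mm ⟨0, 0, 0, 0, 0, 868506, 0, 0, 0, ⟨0, 0⟩, 0⟩ 0 0) (.pos 8 .mm ⟨0, 0, 0, 0, 0, 2720367, 0, 0, 0, ⟨0, 0⟩, 0⟩ 0 0)) (.cut .d (-4194304) (.cut .v 14680064 (.pos 34 .mm ⟨0, 0, 0, 0, 0, 6011140, 0, 0, 0, ⟨0,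 0⟩, 0⟩ 0 0) (.pos 35 .mm ⟨0, 0, 0, 0, 0, 7849233, 0, 0, 0, ⟨0, 0⟩, 0⟩ 0 0)) (.cut .v 14680064 (.cut .s 7798784 (.cut .s 7667712 (.pos 34 .mm ⟨0, 0, 0, 0, 0, 858746, 0, 0, 0, ⟨0, 0⟩, 0⟩ 0 0) (.pos 34 .mm ⟨0, 0, 0, 0, 0, 1503816, 0, 0, 0, ⟨0, 0⟩, 0⟩ 0 0)) (.cut .d (-2097152) (.cut .s 7929856 (.pos 34 .mm ⟨0, 0, 0, 0, 0, 3457236, 0, 0, 0, ⟨0, 0⟩, 0⟩ 0 0) (.pos 34 .mm ⟨0, 0, 0, 0, 0, 5043674, 0, 0, 0, ⟨0, 0⟩, 0⟩ 0 0)) (.pos 34 .mm ⟨0, 0, 0, 0, 0, 2649423, 0, 0, 0, ⟨0, 0⟩, 0⟩ 0 0))) (.cut .s 7798784 (.pos 35 .mm ⟨0, 0, 0, 0, 0, 1573866, 0, 0, 0, ⟨0, 0⟩, 0⟩ 0 0) (.cut .s 7929856 (.pos 35 .mm ⟨0, 0, 0, 0, 0, 3544782, 0, 0, 0, ⟨0, 0⟩, 0⟩ 0 0) (.pos 35 .mm ⟨0,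 0, 0, 0, 0, 5175085, 0, 0, 0, ⟨0, 0⟩, 0⟩ 0 0)))))))) (.cut .v 268435456 (.cut .v 67108864 (.cut .v 33554432 (.cut .d (-8388608) (.void 11 ⟨0, 0, 0, 0, 0, 100000, 0, 0, 0, ⟨0, 0⟩, 0⟩ 0 0) (.cut .d (-4194304) (.pos 11 .mp ⟨25339013, 0, 0, 0, 0, 0, 0, 0, 0, ⟨0, 0⟩, 0⟩ 0 0) (.pos 11 .mp ⟨6721683, 0, 0, 0, 0, 0, 0, 0, 0, ⟨0, 0⟩, 0⟩ 0 0))) (.pos 12 .mp ⟨177087957, 0, 0, 0, 0, 0, 0, 0, 0, ⟨0, 0⟩, 0⟩ 0 0)) (.void 37 ⟨100000, 0, 0, 0, 0, 0, 0, 0, 0, ⟨0, 0⟩, 0⟩ 0 0)) (.void 50 ⟨67546, 32454, 0, 0, 0, 0, 0, 0, 0, ⟨0, 0⟩, 0⟩ 0 0))) (.cut .v 16777216 (.cut .v 8388608 (.cut .v 4194304 (.cut .v 2097152 (.void 6 ⟨0, 0, 50000, 0, 50000, 0, 0, 0, 0, ⟨0, 0⟩, 0⟩ 0 0) (.pos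 7 .pm ⟨0, 0, 0, 0, 2297023, 0, 0, 0, 981118, ⟨0, 0⟩, 7053950⟩ 0 0)) (.pos 5 .pm ⟨0, 0, 0, 0, 0, 0, 0, 0, 542184, ⟨0, 0⟩, 9975792⟩ 0 0)) (.cut .v 12582912 (.pos 8 .pm ⟨0, 0, 0, 0, 0, 0, 0, 0, 0, ⟨0, 0⟩, 0⟩ 0 0) (.cut .v 14680064 (.pos 34 .pm ⟨0, 0, 0, 0, 0, 0, 0, 0, 0, ⟨0, 0⟩, 0⟩ 0 0) (.pos 35 .pm ⟨0, 0, 0, 0, 0, 0, 0, 0, 0, ⟨0, 0⟩, 0⟩ 0 0)))) (.cut .v 268435456 (.cut .v 67108864 (.cut .v 33554432 (.pos 11 .pp ⟨0, 0, 0, 0, 0, 0, 0, 0, 0, ⟨0, 0⟩, 0⟩ 0 0) (.pos 12 .pp ⟨5821726, 0, 0, 0, 0, 0, 0, 0, 0, ⟨0, 0⟩, 0⟩ 0 0)) (.pos 37 .pp ⟨36581582, 0, 0, 0, 0, 0, 0, 0, 0, ⟨0, 0⟩, 0⟩ 0 0)) (.void 50 ⟨0, 0, 0, 100000, 0, 0, 0, 0, 0, ⟨0, 0⟩, 0⟩ 0 0)))),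
    by decide +kernel⟩

def covers9 : cell.Covers table row9.1 :=
  ⟨(.cut .d 0 (.cut .v 16777216 (.cut .d (-8388608) (.void 1 ⟨0, 0, 0, 0, 0, 100000, 0, 0, 0, ⟨0, 0⟩, 0⟩ 0 0) (.cut .v 8388608 (.cut .v 4194304 (.void 4 ⟨0, 0, 100000, 0, 0, 0, 0, 0, 0, ⟨0, 0⟩, 0⟩ 0 0) (.pos 5 .mm ⟨0, 0, 0, 0, 0, 3947881, 0, 0, 0, ⟨0, 0⟩, 0⟩ 0 0)) (.cut .d (-4194304) (.cut .v 12582912 (.pos 8 .mm ⟨0, 0, 0, 0, 0, 16514455, 0, 0, 0, ⟨0, 0⟩, 0⟩ 0 0) (.cut .v 14680064 (.pos 34 .mm ⟨0, 0, 0, 0, 0, 23594561, 0, 0, 0, ⟨0, 0⟩, 0⟩ 0 0) (.pos 35 .mm ⟨1027551, 0, 0, 0, 0, 29577140, 0, 0, 0, ⟨0, 0⟩, 0⟩ 0 0))) (.cut .v 12582912 (.cut .s 8323072 (.pos 8 .mm ⟨0, 0, 0, 0, 0, 5811055, 0,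 0, 0, ⟨0, 0⟩, 0⟩ 0 0) (.cut .d (-2097152) (.pos 8 .mm ⟨0, 0, 0, 0, 0, 12460894, 0, 0, 0, ⟨0, 0⟩, 0⟩ 0 0) (.pos 8 .mm ⟨0, 0, 0, 0, 0, 8680362, 0, 0, 0, ⟨0, 0⟩, 0⟩ 0 0))) (.cut .s 8323072 (.cut .s 8192000 (.cut .v 14680064 (.cut .d (-2097152) (.pos 34 .mm ⟨0, 0, 0, 0, 0, 7171575, 0, 0, 0, ⟨0, 0⟩, 0⟩ 0 0) (.pos 34 .mm ⟨0, 0, 0, 0, 0, 5032427, 0, 0, 0, ⟨0, 0⟩, 0⟩ 0 0)) (.cut .d (-2097152) (.pos 35 .mm ⟨0, 0, 0, 0, 0, 7951137, 0, 0, 0, ⟨0, 0⟩, 0⟩ 0 0) (.pos 35 .mm ⟨0, 0, 0, 0, 0, 6430563, 0, 0, 0, ⟨0, 0⟩, 0⟩ 0 0))) (.cut .v 14680064 (.cut .d (-2097152) (.pos 34 .mm ⟨0, 0, 0, 0, 0, 9904180, 0, 0, 0, ⟨0, 0⟩, 0⟩ 0 0) (.cut .d (-1048576) (.pos 34 .mm ⟨0, 0, 0,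 0, 0, 8171879, 0, 0, 0, ⟨0, 0⟩, 0⟩ 0 0) (.pos 34 .mm ⟨0, 0, 0, 0, 0, 0, 0, 0, 0, ⟨0, 0⟩, 0⟩ 0 0))) (.cut .d (-2097152) (.pos 35 .mm ⟨0, 0, 0, 0, 0, 10918311, 0, 0, 0, ⟨0, 0⟩, 0⟩ 0 0) (.pos 35 .mm ⟨0, 0, 0, 0, 0, 8575880, 0, 0, 0, ⟨0, 0⟩, 0⟩ 0 0)))) (.cut .d (-2097152) (.cut .v 14680064 (.cut .d (-3145728) (.pos 34 .mm ⟨0, 0, 0, 0, 0, 17241768, 0, 0, 0, ⟨0, 0⟩, 0⟩ 0 0) (.cut .l 11925068 (.pos 34 .mm ⟨0, 0, 0, 0, 0, 16223226, 0, 0, 0, ⟨0, 0⟩, 0⟩ 0 0) (.pos 34 .mm ⟨0, 0, 0, 0, 0, 12361916, 0, 0, 0, ⟨0, 0⟩, 0⟩ 0 0))) (.cut .d (-3145728) (.pos 35 .mm ⟨24572579, 0, 0, 0, 0, 0, 0, 0, 0, ⟨0, 0⟩, 0⟩ 0 0) (.cut .l 11925068 (.pos 35 .mm ⟨0, 0, 0, 0, 0, 17685119,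 0, 0, 0, ⟨0, 0⟩, 0⟩ 0 0) (.pos 35 .mm ⟨6292194, 0, 0, 0, 0, 8703871, 0, 0, 0, ⟨0, 0⟩, 0⟩ 0 0)))) (.cut .l 11925068 (.cut .v 14680064 (.cut .d (-1048576) (.cut .s 8454144 (.pos 34 .mm ⟨0, 0, 0, 0, 0, 10796463, 0, 0, 0, ⟨0, 0⟩, 0⟩ 0 0) (.pos 34 .mm ⟨0, 0, 0, 0, 0, 13731481, 0, 0, 0, ⟨0, 0⟩, 0⟩ 0 0)) (.pos 34 .mm ⟨0, 0, 0, 0, 0, 0, 0, 0, 0, ⟨0, 0⟩, 0⟩ 0 0)) (.cut .s 8454144 (.pos 35 .mm ⟨0, 0, 0, 0, 0, 11172071, 0, 0, 0, ⟨0, 0⟩, 0⟩ 0 0) (.pos 35 .mm ⟨0, 0, 0, 0, 0, 14198993, 0, 0, 0, ⟨0, 0⟩, 0⟩ 0 0))) (.pos 9 .mm ⟨0, 0, 0, 0, 0, 0, 0, 0, 0, ⟨0, 0⟩, 0⟩ 0 0)))))))) (.cut .v 268435456 (.cut .v 67108864 (.cut .d (-8388608) (.void 10 ⟨0, 0, 0, 0, 0, 100000, 0,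 0, 0, ⟨0, 0⟩, 0⟩ 0 0) (.cut .v 33554432 (.cut .d (-4194304) (.void 11 ⟨100000, 0, 0, 0, 0, 0, 0, 0, 0, ⟨0, 0⟩, 0⟩ 0 0) (.cut .d (-2097152) (.cut .s 8323072 (.pos 11 .mp ⟨19716297, 0, 0, 0, 0, 0, 0, 0, 0, ⟨0, 0⟩, 0⟩ 0 0) (.pos 11 .mp ⟨33196932, 0, 0, 0, 0, 0, 0, 0, 0, ⟨0, 0⟩, 0⟩ 0 0)) (.pos 11 .mp ⟨13958583, 0, 0, 0, 0, 0, 0, 0, 0, ⟨0, 0⟩, 0⟩ 0 0))) (.pos 12 .mp ⟨196944230, 0, 0, 0, 0, 0, 0, 0, 0, ⟨0, 0⟩, 0⟩ 0 0))) (.void 37 ⟨100000, 0, 0, 0, 0, 0, 0, 0, 0, ⟨0, 0⟩, 0⟩ 0 0)) (.void 50 ⟨66150, 33850, 0, 0, 0, 0, 0, 0, 0, ⟨0, 0⟩, 0⟩ 0 0))) (.cut .v 16777216 (.cut .v 8388608 (.cut .v 4194304 (.cut .v 2097152 (.void 6 ⟨0, 0, 50000, 0, 50000, 0, 0, 0, 0, ⟨0,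 0⟩, 0⟩ 0 0) (.pos 7 .pm ⟨0, 0, 0, 0, 0, 0, 0, 0, 2094939, ⟨0, 0⟩, 7053950⟩ 0 0)) (.pos 5 .pm ⟨0, 607525, 0, 0, 0, 0, 0, 0, 0, ⟨0, 0⟩, 0⟩ 0 0)) (.cut .v 12582912 (.cut .d 9070610 (.pos 8 .pm ⟨0, 0, 0, 0, 0, 0, 0, 0, 0, ⟨0, 0⟩, 0⟩ 0 0) (.pos 8 .pm ⟨0, 3174498, 0, 0, 0, 0, 0, 0, 0, ⟨0, 0⟩, 0⟩ 0 0)) (.pos 9 .pm ⟨0, 108201, 0, 0, 0, 0, 0, 0, 0, ⟨0, 0⟩, 0⟩ 0 0))) (.cut .v 268435456 (.cut .v 67108864 (.cut .v 33554432 (.pos 11 .pp ⟨0, 0, 0, 0, 0, 0, 0, 0, 0, ⟨0, 0⟩, 0⟩ 0 0) (.pos 12 .pp ⟨16186255, 0, 0, 0, 0, 0, 0, 0, 0, ⟨0, 0⟩, 0⟩ 0 0)) (.pos 37 .pp ⟨215295167, 179638831, 0, 0, 0, 0, 0, 0, 0, ⟨0, 0⟩, 0⟩ 0 0)) (.void 50 ⟨0, 0, 0, 100000, 0, 0, 0, 0, 0, ⟨0, 0⟩,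 0⟩ 0 0)))),
    by decide +kernel⟩

def covers10 : cell.Covers table row10.1 :=
  ⟨(.cut .d 0 (.cut .v 16777216 (.cut .d (-8388608) (.void 1 ⟨0, 0, 0, 0, 0, 100000, 0, 0, 0, ⟨0, 0⟩, 0⟩ 0 0) (.cut .d (-4194304) (.void 1 ⟨0, 0, 0, 0, 0, 100000, 0, 0, 0, ⟨0, 0⟩, 0⟩ 0 0) (.cut .v 8388608 (.cut .v 4194304 (.void 4 ⟨0, 0, 100000, 0, 0, 0, 0, 0, 0, ⟨0, 0⟩, 0⟩ 0 0) (.pos 5 .mm ⟨0, 0, 0, 0, 0, 11098893, 0, 0, 0, ⟨0, 0⟩, 0⟩ 0 0)) (.cut .v 12582912 (.cut .v 10485760 (.pos 55 .mm ⟨0, 0, 0, 0, 0, 15758055, 0, 0, 0, ⟨0, 0⟩, 0⟩ 0 0) (.cut .d (-2097152) (.cut .s 8814592 (.pos 56 .mm ⟨0, 0, 0, 0, 0, 19313371, 0, 0, 0, ⟨0, 0⟩, 0⟩ 0 0) (.pos 56 .mm ⟨0, 0, 0, 0, 0, 28105167,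 0, 0, 0, ⟨0, 0⟩, 0⟩ 0 0)) (.cut .s 8814592 (.pos 56 .mm ⟨0, 0, 0, 0, 0, 14089683, 0, 0, 0, ⟨0, 0⟩, 0⟩ 0 0) (.cut .d (-1048576) (.pos 56 .mm ⟨0, 0, 0, 0, 0, 23340094, 0, 0, 0, ⟨0, 0⟩, 0⟩ 0 0) (.pos 56 .mm ⟨0, 0, 0, 0, 0, 15951674, 0, 0, 0, ⟨0, 0⟩, 0⟩ 0 0))))) (.cut .d (-2097152) (.cut .d (-3145728) (.cut .d (-3670016) (.void 9 ⟨0, 0, 0, 0, 0, 100000, 0, 0, 0, ⟨0, 0⟩, 0⟩ 0 0) (.cut .l 11925068 (.void 9 ⟨0, 0, 0, 0, 0, 100000, 0, 0, 0, ⟨0, 0⟩, 0⟩ 0 0) (.cut .v 14680064 (.cut .s 8814592 (.pos 34 .mm ⟨0, 0, 0, 0, 0, 24873659, 0, 0, 0, ⟨0, 0⟩, 0⟩ 0 0) (.pos 34 .mm ⟨8722124, 0, 0, 0, 0, 29659537, 0, 0, 0, ⟨0, 0⟩, 0⟩ 0 0)) (.pos 35 .mm ⟨42813431, 0, 0, 0, 0,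 0, 0, 0, 0, ⟨0, 0⟩, 0⟩ 0 0)))) (.cut .l 11925068 (.cut .d (-2621440) (.void 9 ⟨0, 0, 0, 0, 0, 100000, 0, 0, 0, ⟨0, 0⟩, 0⟩ 0 0) (.cut .l 9494579 (.void 9 ⟨0, 0, 0, 0, 0, 100000, 0, 0, 0, ⟨0, 0⟩, 0⟩ 0 0) (.cut .v 14680064 (.cut .s 8814592 (.pos 34 .mm ⟨0, 0, 0, 0, 0, 23059941, 0, 0, 0, ⟨0, 0⟩, 0⟩ 0 0) (.pos 34 .mm ⟨0, 0, 0, 0, 0, 34613461, 0, 0, 0, ⟨0, 0⟩, 0⟩ 0 0)) (.pos 35 .mm ⟨0, 0, 0, 0, 0, 34758651, 0, 0, 0, ⟨0, 0⟩, 0⟩ 0 0)))) (.cut .s 8814592 (.cut .v 14680064 (.cut .s 8699904 (.pos 34 .mm ⟨0, 0, 0, 0, 0, 18231804, 0, 0, 0, ⟨0, 0⟩, 0⟩ 0 0) (.pos 34 .mm ⟨0, 0, 0, 0, 0, 22579976, 0, 0, 0, ⟨0, 0⟩, 0⟩ 0 0)) (.pos 35 .mm ⟨15115119, 0, 0, 0, 0, 9571335,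 0, 0, 0, ⟨0, 0⟩, 0⟩ 0 0)) (.cut .v 14680064 (.cut .s 8929280 (.pos 34 .mm ⟨0, 0, 0, 0, 0, 27478055, 0, 0, 0, ⟨0, 0⟩, 0⟩ 0 0) (.cut .d (-2621440) (.pos 34 .mm ⟨0, 0, 0, 0, 0, 34692739, 0, 0, 0, ⟨0, 0⟩, 0⟩ 0 0) (.pos 34 .mm ⟨0, 0, 0, 0, 0, 30939492, 0, 0, 0, ⟨0, 0⟩, 0⟩ 0 0))) (.cut .s 8929280 (.pos 35 .mm ⟨24699101, 0, 0, 0, 0, 9351054, 0, 0, 0, ⟨0, 0⟩, 0⟩ 0 0) (.pos 35 .mm ⟨31586542, 0, 0, 0, 0, 8964653, 0, 0, 0, ⟨0, 0⟩, 0⟩ 0 0)))))) (.cut .l 11925068 (.cut .d (-1048576) (.cut .s 8814592 (.cut .v 14680064 (.cut .s 8699904 (.pos 34 .mm ⟨0, 0, 0, 0, 0, 17074352, 0, 0, 0, ⟨0, 0⟩, 0⟩ 0 0) (.cut .s 8757248 (.pos 34 .mm ⟨0, 0, 0, 0, 0, 19879095, 0, 0, 0, ⟨0,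 0⟩, 0⟩ 0 0) (.pos 34 .mm ⟨0, 0, 0, 0, 0, 21964775, 0, 0, 0, ⟨0, 0⟩, 0⟩ 0 0))) (.cut .s 8699904 (.pos 35 .mm ⟨0, 0, 0, 0, 0, 19225505, 0, 0, 0, ⟨0, 0⟩, 0⟩ 0 0) (.pos 35 .mm ⟨0, 0, 0, 0, 0, 23428782, 0, 0, 0, ⟨0, 0⟩, 0⟩ 0 0))) (.cut .v 14680064 (.cut .s 8929280 (.cut .d (-1572864) (.pos 34 .mm ⟨0, 0, 0, 0, 0, 27074677, 0, 0, 0, ⟨0, 0⟩, 0⟩ 0 0) (.pos 34 .mm ⟨0, 0, 0, 0, 0, 24132525, 0, 0, 0, ⟨0, 0⟩, 0⟩ 0 0)) (.cut .d (-1572864) (.pos 34 .mm ⟨0, 0, 0, 0, 0, 32208264, 0, 0, 0, ⟨0, 0⟩, 0⟩ 0 0) (.pos 34 .mm ⟨0, 0, 0, 0, 0, 28508574, 0, 0, 0, ⟨0, 0⟩, 0⟩ 0 0))) (.cut .s 8929280 (.pos 35 .mm ⟨0, 0, 0, 0, 0, 28129763, 0, 0, 0, ⟨0, 0⟩, 0⟩ 0 0) (.pos 35 .mm ⟨0, 0,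 0, 0, 0, 33333538, 0, 0, 0, ⟨0, 0⟩, 0⟩ 0 0)))) (.cut .v 14680064 (.pos 34 .mm ⟨0, 0, 0, 0, 0, 12564266, 0, 0, 0, ⟨0, 0⟩, 0⟩ 0 0) (.pos 35 .mm ⟨0, 0, 0, 0, 0, 16079381, 0, 0, 0, ⟨0, 0⟩, 0⟩ 0 0))) (.pos 9 .mm ⟨0, 0, 0, 0, 0, 12221448, 0, 0, 0, ⟨0, 0⟩, 0⟩ 0 0))))))) (.cut .v 268435456 (.cut .v 67108864 (.cut .d (-8388608) (.void 10 ⟨0, 0, 0, 0, 0, 100000, 0, 0, 0, ⟨0, 0⟩, 0⟩ 0 0) (.cut .v 33554432 (.cut .d (-4194304) (.void 11 ⟨100000, 0, 0, 0, 0, 0, 0, 0, 0, ⟨0, 0⟩, 0⟩ 0 0) (.cut .v 25165824 (.cut .d (-2097152) (.pos 13 .mp ⟨54755328, 0, 0, 0, 0, 0, 0, 0, 0, ⟨0, 0⟩, 0⟩ 0 0) (.cut .s 8814592 (.pos 13 .mp ⟨17755227, 0, 0, 0, 0, 9160531, 0, 0, 0, ⟨0, 0⟩, 0⟩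 0 0) (.pos 13 .mp ⟨21217756, 0, 0, 0, 0, 15699243, 0, 0, 0, ⟨0, 0⟩, 0⟩ 0 0))) (.pos 14 .mp ⟨86093842, 0, 0, 0, 0, 0, 0, 0, 0, ⟨0, 0⟩, 0⟩ 0 0))) (.pos 12 .mp ⟨470148923, 0, 0, 0, 0, 0, 0, 0, 0, ⟨0, 0⟩, 0⟩ 0 0))) (.void 37 ⟨100000, 0, 0, 0, 0, 0, 0, 0, 0, ⟨0, 0⟩, 0⟩ 0 0)) (.void 50 ⟨64975, 35025, 0, 0, 0, 0, 0, 0, 0, ⟨0, 0⟩, 0⟩ 0 0))) (.cut .v 16777216 (.cut .v 8388608 (.cut .v 4194304 (.cut .v 2097152 (.void 6 ⟨0, 0, 50000, 0, 50000, 0, 0, 0, 0, ⟨0, 0⟩, 0⟩ 0 0) (.pos 7 .pm ⟨0, 0, 0, 0, 0, 0, 0, 0, 1136714, ⟨0, 0⟩, 7053950⟩ 0 0)) (.cut .d 8004398 (.pos 5 .pm ⟨0, 0, 0, 0, 0, 0, 0, 0, 0, ⟨0, 0⟩, 0⟩ 0 0) (.pos 5 .pm ⟨0, 8726573, 0, 0, 0, 0, 0, 0, 0, ⟨0, 0⟩,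 0⟩ 0 0))) (.cut .v 12582912 (.cut .d 8004398 (.pos 8 .pm ⟨0, 0, 0, 0, 0, 0, 0, 0, 0, ⟨0, 0⟩, 0⟩ 0 0) (.cut .d 12006597 (.pos 8 .pm ⟨0, 0, 0, 0, 0, 0, 0, 0, 0, ⟨0, 0⟩, 0⟩ 0 0) (.cut .d 14007696 (.cut .v 10485760 (.pos 55 .pm ⟨0, 12838052, 0, 0, 0, 0, 0, 0, 0, ⟨0, 0⟩, 0⟩ 0 0) (.pos 56 .pm ⟨0, 12469280, 0, 0, 0, 0, 0, 0, 0, ⟨0, 0⟩, 0⟩ 0 0)) (.pos 8 .pm ⟨0, 26336308, 0, 0, 0, 0, 0, 0, 0, ⟨0, 0⟩, 0⟩ 0 0)))) (.cut .d 8004398 (.pos 9 .pm ⟨0, 0, 0, 0, 0, 0, 0, 0, 0, ⟨0, 0⟩, 0⟩ 0 0) (.cut .d 12006597 (.pos 9 .pm ⟨0, 0, 0, 0, 0, 0, 0, 0, 0, ⟨0, 0⟩, 0⟩ 0 0) (.pos 9 .pm ⟨0, 16696189, 0, 0, 0, 0, 0, 0, 0, ⟨0, 0⟩, 0⟩ 0 0))))) (.cut .v 268435456 (.cut .v 67108864 (.cut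 .v 33554432 (.pos 11 .pp ⟨0, 0, 0, 0, 0, 0, 0, 0, 0, ⟨0, 0⟩, 0⟩ 0 0) (.pos 12 .pp ⟨28472010, 0, 0, 0, 0, 0, 0, 0, 0, ⟨0, 0⟩, 0⟩ 0 0)) (.cut .v 134217728 (.pos 38 .pp ⟨177620389, 5134454, 0, 0, 0, 0, 0, 0, 0, ⟨0, 0⟩, 0⟩ 0 0) (.void 39 ⟨38573, 61427, 0, 0, 0, 0, 0, 0, 0, ⟨0, 0⟩, 0⟩ 0 0))) (.void 50 ⟨0, 0, 0, 100000, 0, 0, 0, 0, 0, ⟨0, 0⟩, 0⟩ 0 0)))),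
    by decide +kernel⟩

def covers11 : cell.Covers table row11.1 :=
  ⟨(.cut .d 0 (.cut .v 16777216 (.cut .d (-8388608) (.void 1 ⟨0, 0, 0, 0, 0, 100000, 0, 0, 0, ⟨0, 0⟩, 0⟩ 0 0) (.cut .d (-4194304) (.void 1 ⟨0, 0, 0, 0, 0, 100000, 0, 0, 0, ⟨0, 0⟩, 0⟩ 0 0) (.cut .v 8388608 (.cut .v 4194304 (.void 4 ⟨0, 0, 100000, 0, 0, 0, 0, 0, 0, ⟨0, 0⟩, 0⟩ 0 0) (.pos 5 .mm ⟨0, 0, 0, 0, 0, 25572900, 0, 0, 0, ⟨0, 0⟩, 0⟩ 0 0)) (.cut .d (-2097152) (.cut .l 11925068 (.void 3 ⟨0, 0, 0, 0, 0, 100000, 0, 0, 0, ⟨0, 0⟩, 0⟩ 0 0) (.cut .v 12582912 (.cut .d (-3145728) (.pos 8 .mm ⟨0, 0, 0, 0, 0, 66553849, 0, 0, 0, ⟨0, 0⟩, 0⟩ 0 0) (.cut .s 9306112 (.pos 8 .mm ⟨0, 0, 0, 0, 0, 36634301,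 0, 0, 0, ⟨0, 0⟩, 0⟩ 0 0) (.pos 8 .mm ⟨0, 0, 0, 0, 0, 53642534, 0, 0, 0, ⟨0, 0⟩, 0⟩ 0 0))) (.cut .d (-3145728) (.cut .v 14680064 (.pos 34 .mm ⟨16990487, 0, 0, 0, 0, 69274670, 0, 0, 0, ⟨0, 0⟩, 0⟩ 0 0) (.void 35 ⟨100000, 0, 0, 0, 0, 0, 0, 0, 0, ⟨0, 0⟩, 0⟩ 0 0)) (.cut .s 9306112 (.cut .v 14680064 (.cut .s 9175040 (.cut .d (-2621440) (.pos 34 .mm ⟨5210131, 0, 0, 0, 0, 37153467, 0, 0, 0, ⟨0, 0⟩, 0⟩ 0 0) (.pos 34 .mm ⟨0, 0, 0, 0, 0, 37085490, 0, 0, 0, ⟨0, 0⟩, 0⟩ 0 0)) (.cut .d (-2621440) (.pos 34 .mm ⟨7538996, 0, 0, 0, 0, 44334828, 0, 0, 0, ⟨0, 0⟩, 0⟩ 0 0) (.cut .l 14355557 (.pos 34 .mm ⟨0, 0, 0, 0, 0, 48529466, 0, 0, 0, ⟨0, 0⟩, 0⟩ 0 0) (.pos 34 .mm ⟨13001451,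 0, 0, 0, 0, 29004863, 0, 0, 0, ⟨0, 0⟩, 0⟩ 0 0)))) (.cut .s 9175040 (.pos 35 .mm ⟨43428510, 0, 0, 0, 0, 5414779, 0, 0, 0, ⟨0, 0⟩, 0⟩ 0 0) (.pos 35 .mm ⟨54862808, 0, 0, 0, 0, 4012409, 0, 0, 0, ⟨0, 0⟩, 0⟩ 0 0))) (.cut .v 14680064 (.cut .d (-2621440) (.cut .d (-2883584) (.pos 34 .mm ⟨19140765, 0, 0, 0, 0, 61162922, 0, 0, 0, ⟨0, 0⟩, 0⟩ 0 0) (.cut .s 9437184 (.pos 34 .mm ⟨10974102, 0, 0, 0, 0, 50104891, 0, 0, 0, ⟨0, 0⟩, 0⟩ 0 0) (.pos 34 .mm ⟨16412937, 0, 0, 0, 0, 56178341, 0, 0, 0, ⟨0, 0⟩, 0⟩ 0 0))) (.cut .s 9437184 (.cut .l 14355557 (.pos 34 .mm ⟨0, 0, 0, 0, 0, 58846159, 0, 0, 0, ⟨0, 0⟩, 0⟩ 0 0) (.pos 34 .mm ⟨20096881, 0, 0, 0, 0, 30373761, 0, 0, 0, ⟨0, 0⟩,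 0⟩ 0 0)) (.cut .l 14355557 (.pos 34 .mm ⟨7559492, 0, 0, 0, 0, 62784463, 0, 0, 0, ⟨0, 0⟩, 0⟩ 0 0) (.cut .v 13631488 (.pos 53 .mm ⟨0, 0, 0, 0, 0, 59445632, 0, 0, 0, ⟨0, 0⟩, 0⟩ 0 0) (.pos 54 .mm ⟨33675339, 0, 0, 0, 0, 30196198, 0, 0, 0, ⟨0, 0⟩, 0⟩ 0 0))))) (.pos 35 .mm ⟨77228314, 0, 0, 0, 0, 0, 0, 0, 0, ⟨0, 0⟩, 0⟩ 0 0)))))) (.cut .v 12582912 (.cut .l 11925068 (.cut .v 10485760 (.pos 55 .mm ⟨0, 0, 0, 0, 0, 28427218, 0, 0, 0, ⟨0, 0⟩, 0⟩ 0 0) (.cut .d (-1048576) (.cut .s 9306112 (.pos 56 .mm ⟨0, 0, 0, 0, 0, 34670162, 0, 0, 0, ⟨0, 0⟩, 0⟩ 0 0) (.cut .s 9437184 (.pos 56 .mm ⟨0, 0, 0, 0, 0, 44682375, 0, 0, 0, ⟨0, 0⟩, 0⟩ 0 0) (.pos 56 .mm ⟨0, 0, 0, 0, 0, 52599531,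 0, 0, 0, ⟨0, 0⟩, 0⟩ 0 0))) (.cut .s 9306112 (.pos 56 .mm ⟨0, 0, 0, 0, 0, 24140505, 0, 0, 0, ⟨0, 0⟩, 0⟩ 0 0) (.pos 56 .mm ⟨0, 0, 0, 0, 0, 34535371, 0, 0, 0, ⟨0, 0⟩, 0⟩ 0 0)))) (.pos 8 .mm ⟨0, 0, 0, 0, 0, 26028945, 0, 0, 0, ⟨0, 0⟩, 0⟩ 0 0)) (.cut .d (-1048576) (.cut .l 11925068 (.cut .s 9306112 (.cut .s 9175040 (.cut .v 14680064 (.cut .d (-1572864) (.pos 34 .mm ⟨0, 0, 0, 0, 0, 38967498, 0, 0, 0, ⟨0, 0⟩, 0⟩ 0 0) (.cut .s 9109504 (.pos 34 .mm ⟨0, 0, 0, 0, 0, 32871454, 0, 0, 0, ⟨0, 0⟩, 0⟩ 0 0) (.pos 34 .mm ⟨0, 0, 0, 0, 0, 36280717, 0, 0, 0, ⟨0, 0⟩, 0⟩ 0 0))) (.cut .d (-1572864) (.pos 35 .mm ⟨0, 0, 0, 0, 0, 42324893, 0, 0, 0, ⟨0, 0⟩, 0⟩ 0 0) (.pos 35 .mm ⟨0,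 0, 0, 0, 0, 38004355, 0, 0, 0, ⟨0, 0⟩, 0⟩ 0 0))) (.cut .v 14680064 (.cut .d (-1572864) (.pos 34 .mm ⟨0, 0, 0, 0, 0, 47256644, 0, 0, 0, ⟨0, 0⟩, 0⟩ 0 0) (.cut .s 9240576 (.pos 34 .mm ⟨0, 0, 0, 0, 0, 39906899, 0, 0, 0, ⟨0, 0⟩, 0⟩ 0 0) (.pos 34 .mm ⟨0, 0, 0, 0, 0, 43753034, 0, 0, 0, ⟨0, 0⟩, 0⟩ 0 0))) (.cut .d (-1572864) (.pos 35 .mm ⟨0, 0, 0, 0, 0, 52169492, 0, 0, 0, ⟨0, 0⟩, 0⟩ 0 0) (.pos 35 .mm ⟨0, 0, 0, 0, 0, 45886307, 0, 0, 0, ⟨0, 0⟩, 0⟩ 0 0)))) (.cut .d (-1572864) (.cut .l 9494579 (.void 9 ⟨0, 0, 0, 0, 0, 100000, 0, 0, 0, ⟨0, 0⟩, 0⟩ 0 0) (.cut .v 14680064 (.cut .s 9437184 (.pos 34 .mm ⟨0, 0, 0, 0, 0, 55420487, 0, 0, 0, ⟨0, 0⟩, 0⟩ 0 0) (.pos 34 .mm ⟨0,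 0, 0, 0, 0, 66150999, 0, 0, 0, ⟨0, 0⟩, 0⟩ 0 0)) (.cut .s 9437184 (.pos 35 .mm ⟨6608958, 0, 0, 0, 0, 53866837, 0, 0, 0, ⟨0, 0⟩, 0⟩ 0 0) (.pos 35 .mm ⟨18842121, 0, 0, 0, 0, 52650751, 0, 0, 0, ⟨0, 0⟩, 0⟩ 0 0)))) (.cut .l 9494579 (.cut .v 14680064 (.cut .d (-1310720) (.pos 34 .mm ⟨0, 0, 0, 0, 0, 64046783, 0, 0, 0, ⟨0, 0⟩, 0⟩ 0 0) (.cut .s 9437184 (.pos 34 .mm ⟨0, 0, 0, 0, 0, 49998572, 0, 0, 0, ⟨0, 0⟩, 0⟩ 0 0) (.pos 34 .mm ⟨0, 0, 0, 0, 0, 59634611, 0, 0, 0, ⟨0, 0⟩, 0⟩ 0 0))) (.cut .s 9437184 (.pos 35 .mm ⟨0, 0, 0, 0, 0, 56835931, 0, 0, 0, ⟨0, 0⟩, 0⟩ 0 0) (.pos 35 .mm ⟨0, 0, 0, 0, 0, 68409746, 0, 0, 0, ⟨0, 0⟩, 0⟩ 0 0))) (.cut .v 14680064 (.cut .s 9437184 (.pos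 34 .mm ⟨0, 0, 0, 0, 0, 45684074, 0, 0, 0, ⟨0, 0⟩, 0⟩ 0 0) (.pos 34 .mm ⟨0, 0, 0, 0, 0, 54834385, 0, 0, 0, ⟨0, 0⟩, 0⟩ 0 0)) (.pos 35 .mm ⟨0, 0, 0, 0, 0, 54459162, 0, 0, 0, ⟨0, 0⟩, 0⟩ 0 0))))) (.cut .d (-1572864) (.cut .d (-1835008) (.cut .l 14355557 (.cut .s 9306112 (.cut .v 14680064 (.pos 34 .mm ⟨0, 0, 0, 0, 0, 35554472, 0, 0, 0, ⟨0, 0⟩, 0⟩ 0 0) (.pos 35 .mm ⟨8284722, 0, 0, 0, 0, 31551681, 0, 0, 0, ⟨0, 0⟩, 0⟩ 0 0)) (.cut .v 14680064 (.cut .s 9437184 (.pos 34 .mm ⟨0, 0, 0, 0, 0, 51489588, 0, 0, 0, ⟨0, 0⟩, 0⟩ 0 0) (.pos 34 .mm ⟨0, 0, 0, 0, 0, 62283709, 0, 0, 0, ⟨0, 0⟩, 0⟩ 0 0)) (.pos 35 .mm ⟨51601446, 0, 0, 0, 0, 13619100, 0, 0, 0, ⟨0, 0⟩, 0⟩ 0 0))) (.pos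 9 .mm ⟨0, 0, 0, 0, 0, 0, 0, 0, 0, ⟨0, 0⟩, 0⟩ 0 0)) (.pos 9 .mm ⟨0, 0, 0, 0, 0, 32842070, 0, 0, 0, ⟨0, 0⟩, 0⟩ 0 0)) (.pos 9 .mm ⟨0, 0, 0, 0, 0, 0, 0, 0, 0, ⟨0, 0⟩, 0⟩ 0 0))) (.cut .d (-524288) (.cut .l 11925068 (.cut .d (-786432) (.cut .l 9494579 (.cut .l 8279334 (.cut .v 14680064 (.cut .s 9306112 (.pos 34 .mm ⟨0, 0, 0, 0, 0, 32663098, 0, 0, 0, ⟨0, 0⟩, 0⟩ 0 0) (.cut .s 9437184 (.pos 34 .mm ⟨0, 0, 0, 0, 0, 44045674, 0, 0, 0, ⟨0, 0⟩, 0⟩ 0 0) (.pos 34 .mm ⟨0, 0, 0, 0, 0, 53046065, 0, 0, 0, ⟨0, 0⟩, 0⟩ 0 0))) (.cut .s 9306112 (.pos 35 .mm ⟨0, 0, 0, 0, 0, 37821242, 0, 0, 0, ⟨0, 0⟩, 0⟩ 0 0) (.pos 35 .mm ⟨0, 0, 0, 0, 0, 54207005, 0, 0, 0, ⟨0, 0⟩, 0⟩ 0 0))) (.pos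 9 .mm ⟨0, 0, 0, 0, 0, 0, 0, 0, 0, ⟨0, 0⟩, 0⟩ 0 0)) (.pos 9 .mm ⟨0, 0, 0, 0, 0, 0, 0, 0, 0, ⟨0, 0⟩, 0⟩ 0 0)) (.pos 9 .mm ⟨0, 0, 0, 0, 0, 0, 0, 0, 0, ⟨0, 0⟩, 0⟩ 0 0)) (.pos 9 .mm ⟨0, 0, 0, 0, 0, 0, 0, 0, 0, ⟨0, 0⟩, 0⟩ 0 0)) (.pos 9 .mm ⟨0, 0, 0, 0, 0, 0, 0, 0, 0, ⟨0, 0⟩, 0⟩ 0 0)))))))) (.cut .v 268435456 (.cut .v 67108864 (.cut .d (-8388608) (.void 10 ⟨0, 0, 0, 0, 0, 100000, 0, 0, 0, ⟨0, 0⟩, 0⟩ 0 0) (.cut .d (-4194304) (.void 10 ⟨100000, 0, 0, 0, 0, 0, 0, 0, 0, ⟨0, 0⟩, 0⟩ 0 0) (.cut .v 33554432 (.cut .v 25165824 (.cut .d (-2097152) (.cut .s 9306112 (.pos 13 .mp ⟨87173784, 0, 0, 0, 0, 0, 0, 0, 0, ⟨0, 0⟩, 0⟩ 0 0) (.pos 13 .mp ⟨130236901, 0, 0, 0, 0, 0, 0,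 0, 0, ⟨0, 0⟩, 0⟩ 0 0)) (.cut .d (-1048576) (.cut .s 9306112 (.pos 13 .mp ⟨61101632, 0, 0, 0, 0, 0, 0, 0, 0, ⟨0, 0⟩, 0⟩ 0 0) (.pos 13 .mp ⟨83873994, 0, 0, 0, 0, 0, 0, 0, 0, ⟨0, 0⟩, 0⟩ 0 0)) (.pos 13 .mp ⟨22807742, 0, 0, 0, 0, 25156843, 0, 0, 0, ⟨0, 0⟩, 0⟩ 0 0))) (.pos 14 .mp ⟨180391517, 0, 0, 0, 0, 0, 0, 0, 0, ⟨0, 0⟩, 0⟩ 0 0)) (.pos 12 .mp ⟨541148059, 0, 0, 0, 0, 0, 0, 0, 0, ⟨0, 0⟩, 0⟩ 0 0)))) (.void 37 ⟨100000, 0, 0, 0, 0, 0, 0, 0, 0, ⟨0, 0⟩, 0⟩ 0 0)) (.void 50 ⟨63682, 36318, 0, 0, 0, 0, 0, 0, 0, ⟨0, 0⟩, 0⟩ 0 0))) (.cut .v 16777216 (.cut .v 8388608 (.cut .v 4194304 (.cut .v 2097152 (.cut .v 1048576 (.void 61 ⟨0, 0, 50000, 0, 50000, 0, 0, 0, 0, ⟨0, 0⟩,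 0⟩ 0 0) (.pos 62 .pm ⟨0, 0, 2080071, 0, 0, 0, 0, 0, 4336911, ⟨0, 0⟩, 4987896⟩ 0 0)) (.pos 7 .pm ⟨0, 5208884, 0, 0, 0, 0, 0, 0, 0, ⟨0, 0⟩, 0⟩ 0 0)) (.cut .d 7172869 (.pos 5 .pm ⟨0, 0, 0, 0, 0, 0, 0, 0, 0, ⟨0, 0⟩, 0⟩ 0 0) (.cut .d 10759303 (.pos 5 .pm ⟨0, 0, 0, 0, 0, 0, 0, 0, 0, ⟨0, 0⟩, 0⟩ 0 0) (.cut .d 12552520 (.cut .d 11655911 (.pos 5 .pm ⟨0, 0, 0, 0, 0, 0, 0, 0, 0, ⟨0, 0⟩, 0⟩ 0 0) (.pos 5 .pm ⟨0, 26731425, 0, 0, 0, 0, 0, 0, 0, ⟨0, 0⟩, 0⟩ 0 0)) (.pos 5 .pm ⟨0, 36578397, 0, 0, 0, 0, 0, 0, 0, ⟨0, 0⟩, 0⟩ 0 0))))) (.cut .d 7172869 (.cut .v 12582912 (.pos 8 .pm ⟨0, 0, 0, 0, 0, 0, 0, 0, 0, ⟨0, 0⟩, 0⟩ 0 0) (.pos 9 .pm ⟨0, 0, 0, 0, 0, 0, 0, 0, 0, ⟨0, 0⟩, 0⟩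 0 0)) (.cut .d 10759303 (.pos 3 .pm ⟨0, 0, 0, 0, 0, 0, 0, 0, 0, ⟨0, 0⟩, 0⟩ 0 0) (.cut .v 12582912 (.cut .d 12552520 (.cut .l 11925068 (.cut .v 10485760 (.cut .s 9306112 (.pos 55 .pm ⟨0, 16946117, 0, 0, 0, 0, 0, 0, 0, ⟨0, 0⟩, 0⟩ 0 0) (.cut .d 11655911 (.pos 55 .pm ⟨0, 0, 0, 0, 0, 0, 0, 0, 0, ⟨0, 0⟩, 0⟩ 0 0) (.cut .s 9437184 (.pos 55 .pm ⟨0, 27156455, 0, 0, 0, 0, 0, 0, 0, ⟨0, 0⟩, 0⟩ 0 0) (.cut .v 9437184 (.pos 63 .pm ⟨0, 33064747, 0, 0, 0, 0, 0, 0, 0, ⟨0, 0⟩, 0⟩ 0 0) (.pos 64 .pm ⟨0, 33706614, 0, 0, 0, 0, 0, 0, 0, ⟨0, 0⟩, 0⟩ 0 0))))) (.cut .s 9306112 (.pos 56 .pm ⟨0, 16900770, 0, 0, 0, 0, 0, 0, 0, ⟨0, 0⟩, 0⟩ 0 0) (.cut .s 9437184 (.pos 56 .pm ⟨0, 25511897,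 0, 0, 0, 0, 0, 0, 0, ⟨0, 0⟩, 0⟩ 0 0) (.pos 56 .pm ⟨0, 31952643, 0, 0, 0, 0, 0, 0, 0, ⟨0, 0⟩, 0⟩ 0 0)))) (.pos 8 .pm ⟨0, 17089119, 0, 0, 0, 0, 0, 0, 0, ⟨0, 0⟩, 0⟩ 0 0)) (.cut .s 9306112 (.cut .v 10485760 (.pos 55 .pm ⟨0, 27647352, 0, 0, 0, 0, 0, 0, 0, ⟨0, 0⟩, 0⟩ 0 0) (.pos 56 .pm ⟨0, 28412670, 0, 0, 0, 0, 0, 0, 0, ⟨0, 0⟩, 0⟩ 0 0)) (.pos 8 .pm ⟨0, 160182602, 0, 0, 0, 0, 0, 0, 0, ⟨0, 0⟩, 0⟩ 0 0))) (.cut .d 12552520 (.pos 9 .pm ⟨0, 19823940, 0, 0, 0, 0, 0, 0, 0, ⟨0, 0⟩, 0⟩ 0 0) (.pos 9 .pm ⟨0, 41282569, 0, 0, 0, 0, 0, 0, 0, ⟨0, 0⟩, 0⟩ 0 0)))))) (.cut .v 268435456 (.cut .v 67108864 (.cut .v 33554432 (.pos 11 .pp ⟨0, 2028293, 0, 0, 0, 0, 0, 0, 0, ⟨0, 0⟩, 0⟩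 0 0) (.pos 12 .pp ⟨42403177, 0, 0, 0, 0, 0, 0, 0, 0, ⟨0, 0⟩, 0⟩ 0 0)) (.cut .v 134217728 (.cut .v 100663296 (.pos 40 .pp ⟨287884491, 0, 0, 0, 0, 0, 0, 0, 0, ⟨0, 0⟩, 0⟩ 0 0) (.pos 41 .pp ⟨967924318, 481376265, 0, 0, 0, 0, 0, 0, 0, ⟨0, 0⟩, 0⟩ 0 0)) (.void 39 ⟨38048, 61952, 0, 0, 0, 0, 0, 0, 0, ⟨0, 0⟩, 0⟩ 0 0))) (.void 50 ⟨0, 0, 0, 100000, 0, 0, 0, 0, 0, ⟨0, 0⟩, 0⟩ 0 0)))),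
    by decide +kernel⟩

def covers12 : cell.Covers table row12.1 :=
  ⟨(.cut .d 0 (.cut .v 16777216 (.cut .d (-8388608) (.void 1 ⟨0, 0, 0, 0, 0, 100000, 0, 0, 0, ⟨0, 0⟩, 0⟩ 0 0) (.cut .d (-4194304) (.void 1 ⟨0, 0, 0, 0, 0, 100000, 0, 0, 0, ⟨0, 0⟩, 0⟩ 0 0) (.cut .v 8388608 (.cut .v 4194304 (.void 4 ⟨0, 0, 100000, 0, 0, 0, 0, 0, 0, ⟨0, 0⟩, 0⟩ 0 0) (.cut .d (-2097152) (.pos 5 .mm ⟨0, 0, 0, 0, 0, 64669769, 0, 0, 0, ⟨0, 0⟩, 0⟩ 0 0) (.pos 5 .mm ⟨0, 0, 0, 0, 0, 41940245, 0, 0, 0, ⟨0, 0⟩, 0⟩ 0 0))) (.cut .d (-2097152) (.cut .d (-3145728) (.void 3 ⟨0, 0, 0, 0, 0, 100000, 0, 0, 0, ⟨0, 0⟩, 0⟩ 0 0) (.cut .l 11925068 (.void 3 ⟨0, 0, 0, 0, 0, 100000, 0, 0, 0, ⟨0, 0⟩,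 0⟩ 0 0) (.cut .v 12582912 (.cut .d (-2621440) (.pos 8 .mm ⟨0, 0, 0, 0, 0, 110956580, 0, 0, 0, ⟨0, 0⟩, 0⟩ 0 0) (.cut .s 9830400 (.pos 8 .mm ⟨0, 0, 0, 0, 0, 71213794, 0, 0, 0, ⟨0, 0⟩, 0⟩ 0 0) (.pos 8 .mm ⟨0, 0, 0, 0, 0, 98706897, 0, 0, 0, ⟨0, 0⟩, 0⟩ 0 0))) (.cut .v 14680064 (.cut .s 9830400 (.cut .d (-2621440) (.cut .s 9699328 (.pos 34 .mm ⟨31373266, 0, 0, 0, 0, 56014479, 0, 0, 0, ⟨0, 0⟩, 0⟩ 0 0) (.pos 34 .mm ⟨42588043, 0, 0, 0, 0, 62167577, 0, 0, 0, ⟨0, 0⟩, 0⟩ 0 0)) (.cut .l 14355557 (.cut .s 9699328 (.pos 34 .mm ⟨11717947, 0, 0, 0, 0, 71891509, 0, 0, 0, ⟨0, 0⟩, 0⟩ 0 0) (.pos 34 .mm ⟨16719699, 0, 0, 0, 0, 83993129, 0, 0, 0, ⟨0, 0⟩, 0⟩ 0 0)) (.cut .s 9699328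 (.cut .v 13631488 (.pos 53 .mm ⟨0, 0, 0, 0, 0, 69977336, 0, 0, 0, ⟨0, 0⟩, 0⟩ 0 0) (.pos 54 .mm ⟨44411421, 0, 0, 0, 0, 30593028, 0, 0, 0, ⟨0, 0⟩, 0⟩ 0 0)) (.cut .v 13631488 (.pos 53 .mm ⟨5540730, 0, 0, 0, 0, 78345913, 0, 0, 0, ⟨0, 0⟩, 0⟩ 0 0) (.pos 54 .mm ⟨60898648, 0, 0, 0, 0, 28192891, 0, 0, 0, ⟨0, 0⟩, 0⟩ 0 0))))) (.cut .d (-2621440) (.void 34 ⟨0, 0, 0, 0, 0, 100000, 0, 0, 0, ⟨0, 0⟩, 0⟩ 0 0) (.cut .l 14355557 (.pos 34 .mm ⟨23197481, 0, 0, 0, 0, 114052862, 0, 0, 0, ⟨0, 0⟩, 0⟩ 0 0) (.cut .v 13631488 (.cut .s 9961472 (.cut .d (-2359296) (.pos 53 .mm ⟨27101260, 0, 0, 0, 0, 76056907, 0, 0, 0, ⟨0, 0⟩, 0⟩ 0 0) (.pos 53 .mm ⟨9872634, 0, 0, 0, 0, 85389286, 0,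 0, 0, ⟨0, 0⟩, 0⟩ 0 0)) (.cut .d (-2359296) (.pos 53 .mm ⟨39726138, 0, 0, 0, 0, 80441257, 0, 0, 0, ⟨0, 0⟩, 0⟩ 0 0) (.pos 53 .mm ⟨18259281, 0, 0, 0, 0, 93093567, 0, 0, 0, ⟨0, 0⟩, 0⟩ 0 0))) (.cut .s 9961472 (.pos 54 .mm ⟨79854809, 0, 0, 0, 0, 24636714, 0, 0, 0, ⟨0, 0⟩, 0⟩ 0 0) (.pos 54 .mm ⟨99418264, 0, 0, 0, 0, 21342656, 0, 0, 0, ⟨0, 0⟩, 0⟩ 0 0)))))) (.cut .s 9830400 (.pos 35 .mm ⟨105713687, 0, 0, 0, 0, 0, 0, 0, 0, ⟨0, 0⟩, 0⟩ 0 0) (.pos 35 .mm ⟨143475770, 0, 0, 0, 0, 0, 0, 0, 0, ⟨0, 0⟩, 0⟩ 0 0)))))) (.cut .d (-1048576) (.cut .v 12582912 (.cut .s 9830400 (.cut .l 11925068 (.cut .s 9699328 (.pos 8 .mm ⟨0, 0, 0, 0, 0, 61645910, 0, 0, 0, ⟨0, 0⟩, 0⟩ 0 0) (.pos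 8 .mm ⟨0, 0, 0, 0, 0, 72093075, 0, 0, 0, ⟨0, 0⟩, 0⟩ 0 0)) (.pos 8 .mm ⟨0, 0, 0, 0, 0, 55577543, 0, 0, 0, ⟨0, 0⟩, 0⟩ 0 0)) (.cut .v 10485760 (.pos 55 .mm ⟨0, 0, 0, 0, 0, 71135355, 0, 0, 0, ⟨0, 0⟩, 0⟩ 0 0) (.cut .l 11925068 (.cut .s 9961472 (.pos 56 .mm ⟨0, 0, 0, 0, 0, 83902584, 0, 0, 0, ⟨0, 0⟩, 0⟩ 0 0) (.pos 56 .mm ⟨0, 0, 0, 0, 0, 96825243, 0, 0, 0, ⟨0, 0⟩, 0⟩ 0 0)) (.cut .s 9961472 (.pos 56 .mm ⟨0, 0, 0, 0, 0, 75557835, 0, 0, 0, ⟨0, 0⟩, 0⟩ 0 0) (.pos 56 .mm ⟨0, 0, 0, 0, 0, 87272591, 0, 0, 0, ⟨0, 0⟩, 0⟩ 0 0))))) (.cut .l 11925068 (.cut .d (-1572864) (.cut .d (-1835008) (.void 9 ⟨0, 0, 0, 0, 0, 100000, 0, 0, 0, ⟨0, 0⟩, 0⟩ 0 0) (.cut .l 9494579 (.void 9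 ⟨0, 0, 0, 0, 0, 100000, 0, 0, 0, ⟨0, 0⟩, 0⟩ 0 0) (.cut .l 10709823 (.void 9 ⟨0, 0, 0, 0, 0, 100000, 0, 0, 0, ⟨0, 0⟩, 0⟩ 0 0) (.cut .s 9830400 (.cut .v 14680064 (.pos 34 .mm ⟨0, 0, 0, 0, 0, 84400484, 0, 0, 0, ⟨0, 0⟩, 0⟩ 0 0) (.cut .s 9699328 (.pos 35 .mm ⟨25217210, 0, 0, 0, 0, 52726157, 0, 0, 0, ⟨0, 0⟩, 0⟩ 0 0) (.pos 35 .mm ⟨35303983, 0, 0, 0, 0, 57256105, 0, 0, 0, ⟨0, 0⟩, 0⟩ 0 0))) (.cut .v 14680064 (.pos 34 .mm ⟨4953968, 0, 0, 0, 0, 115389076, 0, 0, 0, ⟨0, 0⟩, 0⟩ 0 0) (.pos 35 .mm ⟨61131306, 0, 0, 0, 0, 59477873, 0, 0, 0, ⟨0, 0⟩, 0⟩ 0 0)))))) (.cut .s 9830400 (.cut .l 9494579 (.cut .d (-1310720) (.pos 9 .mm ⟨0, 0, 0, 0, 0, 100186111, 0, 0, 0, ⟨0, 0⟩,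 0⟩ 0 0) (.cut .v 14680064 (.cut .s 9699328 (.pos 34 .mm ⟨0, 0, 0, 0, 0, 71310805, 0, 0, 0, ⟨0, 0⟩, 0⟩ 0 0) (.pos 34 .mm ⟨0, 0, 0, 0, 0, 84548578, 0, 0, 0, ⟨0, 0⟩, 0⟩ 0 0)) (.cut .s 9699328 (.pos 35 .mm ⟨0, 0, 0, 0, 0, 77779328, 0, 0, 0, ⟨0, 0⟩, 0⟩ 0 0) (.pos 35 .mm ⟨0, 0, 0, 0, 0, 94170275, 0, 0, 0, ⟨0, 0⟩, 0⟩ 0 0)))) (.cut .s 9699328 (.cut .v 14680064 (.pos 34 .mm ⟨0, 0, 0, 0, 0, 65398192, 0, 0, 0, ⟨0, 0⟩, 0⟩ 0 0) (.pos 35 .mm ⟨3974896, 0, 0, 0, 0, 68379664, 0, 0, 0, ⟨0, 0⟩, 0⟩ 0 0)) (.cut .d (-1310720) (.cut .v 14680064 (.pos 34 .mm ⟨0, 0, 0, 0, 0, 82133946, 0, 0, 0, ⟨0, 0⟩, 0⟩ 0 0) (.pos 35 .mm ⟨13890235, 0, 0, 0, 0, 74603774, 0, 0, 0, ⟨0, 0⟩, 0⟩ 0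 0)) (.pos 9 .mm ⟨0, 0, 0, 0, 0, 73155325, 0, 0, 0, ⟨0, 0⟩, 0⟩ 0 0)))) (.cut .l 9494579 (.cut .d (-1310720) (.void 9 ⟨0, 0, 0, 0, 0, 100000, 0, 0, 0, ⟨0, 0⟩, 0⟩ 0 0) (.cut .l 8279334 (.void 9 ⟨0, 0, 0, 0, 0, 100000, 0, 0, 0, ⟨0, 0⟩, 0⟩ 0 0) (.cut .v 14680064 (.cut .s 9961472 (.pos 34 .mm ⟨0, 0, 0, 0, 0, 97089806, 0, 0, 0, ⟨0, 0⟩, 0⟩ 0 0) (.pos 34 .mm ⟨0, 0, 0, 0, 0, 113620253, 0, 0, 0, ⟨0, 0⟩, 0⟩ 0 0)) (.cut .s 9961472 (.pos 35 .mm ⟨0, 0, 0, 0, 0, 109548103, 0, 0, 0, ⟨0, 0⟩, 0⟩ 0 0) (.pos 35 .mm ⟨0, 0, 0, 0, 0, 131163032, 0, 0, 0, ⟨0, 0⟩, 0⟩ 0 0))))) (.cut .v 14680064 (.cut .d (-1310720) (.cut .s 9961472 (.pos 34 .mm ⟨0, 0, 0, 0, 0, 97111661, 0, 0, 0,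 ⟨0, 0⟩, 0⟩ 0 0) (.pos 34 .mm ⟨0, 0, 0, 0, 0, 113624100, 0, 0, 0, ⟨0, 0⟩, 0⟩ 0 0)) (.cut .s 9961472 (.pos 34 .mm ⟨0, 0, 0, 0, 0, 86403620, 0, 0, 0, ⟨0, 0⟩, 0⟩ 0 0) (.pos 34 .mm ⟨0, 0, 0, 0, 0, 101294724, 0, 0, 0, ⟨0, 0⟩, 0⟩ 0 0))) (.cut .v 15728640 (.cut .s 9961472 (.cut .d (-1310720) (.cut .l 10709823 (.pos 51 .mm ⟨0, 0, 0, 0, 0, 111362101, 0, 0, 0, ⟨0, 0⟩, 0⟩ 0 0) (.pos 51 .mm ⟨19164679, 0, 0, 0, 0, 79301574, 0, 0, 0, ⟨0, 0⟩, 0⟩ 0 0)) (.pos 51 .mm ⟨7011062, 0, 0, 0, 0, 87407036, 0, 0, 0, ⟨0, 0⟩, 0⟩ 0 0)) (.cut .d (-1310720) (.cut .s 10027008 (.pos 51 .mm ⟨32740646, 0, 0, 0, 0, 81285832, 0, 0, 0, ⟨0, 0⟩, 0⟩ 0 0) (.pos 51 .mm ⟨37720961, 0, 0, 0, 0, 84634783,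 0, 0, 0, ⟨0, 0⟩, 0⟩ 0 0)) (.pos 51 .mm ⟨16764589, 0, 0, 0, 0, 92712191, 0, 0, 0, ⟨0, 0⟩, 0⟩ 0 0))) (.pos 52 .mm ⟨112744905, 0, 0, 0, 0, 0, 0, 0, 0, ⟨0, 0⟩, 0⟩ 0 0)))))) (.cut .d (-1572864) (.cut .s 9830400 (.cut .l 14355557 (.cut .v 14680064 (.cut .s 9699328 (.cut .s 9633792 (.pos 34 .mm ⟨0, 0, 0, 0, 0, 68339636, 0, 0, 0, ⟨0, 0⟩, 0⟩ 0 0) (.pos 34 .mm ⟨0, 0, 0, 0, 0, 74654171, 0, 0, 0, ⟨0, 0⟩, 0⟩ 0 0)) (.cut .d (-1835008) (.pos 34 .mm ⟨4175994, 0, 0, 0, 0, 84671908, 0, 0, 0, ⟨0, 0⟩, 0⟩ 0 0) (.pos 34 .mm ⟨0, 0, 0, 0, 0, 80094944, 0, 0, 0, ⟨0, 0⟩, 0⟩ 0 0))) (.cut .s 9699328 (.pos 35 .mm ⟨33615980, 0, 0, 0, 0, 43612305, 0, 0, 0, ⟨0, 0⟩, 0⟩ 0 0) (.pos 35 .mm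 ⟨46089294, 0, 0, 0, 0, 45151585, 0, 0, 0, ⟨0, 0⟩, 0⟩ 0 0))) (.pos 9 .mm ⟨9383159, 0, 0, 0, 0, 0, 0, 0, 0, ⟨0, 0⟩, 0⟩ 0 0)) (.cut .v 14680064 (.cut .l 14355557 (.cut .s 9961472 (.cut .v 13631488 (.pos 53 .mm ⟨0, 0, 0, 0, 0, 92410325, 0, 0, 0, ⟨0, 0⟩, 0⟩ 0 0) (.cut .d (-1835008) (.cut .s 9895936 (.pos 54 .mm ⟨12845089, 0, 0, 0, 0, 86721481, 0, 0, 0, ⟨0, 0⟩, 0⟩ 0 0) (.pos 54 .mm ⟨15630007, 0, 0, 0, 0, 91848324, 0, 0, 0, ⟨0, 0⟩, 0⟩ 0 0)) (.cut .s 9895936 (.pos 54 .mm ⟨0, 0, 0, 0, 0, 93456196, 0, 0, 0, ⟨0, 0⟩, 0⟩ 0 0) (.pos 54 .mm ⟨0, 0, 0, 0, 0, 101177872, 0, 0, 0, ⟨0, 0⟩, 0⟩ 0 0)))) (.cut .v 13631488 (.pos 53 .mm ⟨0, 0, 0, 0, 0, 107455339, 0, 0, 0, ⟨0, 0⟩,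 0⟩ 0 0) (.cut .d (-1835008) (.cut .s 10027008 (.pos 54 .mm ⟨18741616, 0, 0, 0, 0, 96997967, 0, 0, 0, ⟨0, 0⟩, 0⟩ 0 0) (.pos 54 .mm ⟨23078384, 0, 0, 0, 0, 101158540, 0, 0, 0, ⟨0, 0⟩, 0⟩ 0 0)) (.cut .v 14155776 (.pos 67 .mm ⟨0, 0, 0, 0, 0, 108371968, 0, 0, 0, ⟨0, 0⟩, 0⟩ 0 0) (.pos 68 .mm ⟨45264410, 0, 0, 0, 0, 67417679, 0, 0, 0, ⟨0, 0⟩, 0⟩ 0 0))))) (.cut .s 9961472 (.pos 34 .mm ⟨28436124, 0, 0, 0, 0, 52253809, 0, 0, 0, ⟨0, 0⟩, 0⟩ 0 0) (.cut .v 13631488 (.pos 53 .mm ⟨0, 0, 0, 0, 0, 99762070, 0, 0, 0, ⟨0, 0⟩, 0⟩ 0 0) (.pos 54 .mm ⟨46715562, 0, 0, 0, 0, 55131102, 0, 0, 0, ⟨0, 0⟩, 0⟩ 0 0)))) (.pos 35 .mm ⟨114631777, 0, 0, 0, 0, 0, 0, 0, 0, ⟨0, 0⟩, 0⟩ 0 0)))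 (.cut .v 14680064 (.pos 34 .mm ⟨19326882, 0, 0, 0, 0, 33653999, 0, 0, 0, ⟨0, 0⟩, 0⟩ 0 0) (.pos 35 .mm ⟨65038933, 0, 0, 0, 0, 0, 0, 0, 0, ⟨0, 0⟩, 0⟩ 0 0))))) (.cut .l 11925068 (.cut .v 12582912 (.cut .d (-524288) (.cut .s 9830400 (.pos 8 .mm ⟨0, 0, 0, 0, 0, 54044701, 0, 0, 0, ⟨0, 0⟩, 0⟩ 0 0) (.cut .s 9961472 (.pos 8 .mm ⟨0, 0, 0, 0, 0, 68852352, 0, 0, 0, ⟨0, 0⟩, 0⟩ 0 0) (.pos 8 .mm ⟨0, 0, 0, 0, 0, 78587521, 0, 0, 0, ⟨0, 0⟩, 0⟩ 0 0))) (.pos 8 .mm ⟨0, 0, 0, 0, 0, 0, 0, 0, 0, ⟨0, 0⟩, 0⟩ 0 0)) (.cut .d (-524288) (.cut .l 9494579 (.cut .s 9830400 (.cut .v 14680064 (.cut .d (-786432) (.cut .l 8279334 (.cut .s 9699328 (.pos 34 .mm ⟨0, 0, 0, 0, 0, 64425463, 0,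 0, 0, ⟨0, 0⟩, 0⟩ 0 0) (.cut .s 9764864 (.pos 34 .mm ⟨0, 0, 0, 0, 0, 73577532, 0, 0, 0, ⟨0, 0⟩, 0⟩ 0 0) (.pos 34 .mm ⟨0, 0, 0, 0, 0, 80177064, 0, 0, 0, ⟨0, 0⟩, 0⟩ 0 0))) (.pos 34 .mm ⟨0, 0, 0, 0, 0, 57780194, 0, 0, 0, ⟨0, 0⟩, 0⟩ 0 0)) (.pos 34 .mm ⟨0, 0, 0, 0, 0, 52374517, 0, 0, 0, ⟨0, 0⟩, 0⟩ 0 0)) (.cut .s 9699328 (.pos 35 .mm ⟨0, 0, 0, 0, 0, 68191636, 0, 0, 0, ⟨0, 0⟩, 0⟩ 0 0) (.cut .s 9764864 (.pos 35 .mm ⟨0, 0, 0, 0, 0, 76948818, 0, 0, 0, ⟨0, 0⟩, 0⟩ 0 0) (.pos 35 .mm ⟨0, 0, 0, 0, 0, 83520096, 0, 0, 0, ⟨0, 0⟩, 0⟩ 0 0)))) (.cut .d (-786432) (.cut .l 8279334 (.cut .v 14680064 (.cut .d (-917504) (.pos 34 .mm ⟨0, 0, 0, 0, 0, 108931442, 0, 0, 0, ⟨0, 0⟩, 0⟩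 0 0) (.cut .s 9961472 (.pos 34 .mm ⟨0, 0, 0, 0, 0, 88265435, 0, 0, 0, ⟨0, 0⟩, 0⟩ 0 0) (.pos 34 .mm ⟨0, 0, 0, 0, 0, 103992103, 0, 0, 0, ⟨0, 0⟩, 0⟩ 0 0))) (.cut .s 9961472 (.pos 35 .mm ⟨0, 0, 0, 0, 0, 100958242, 0, 0, 0, ⟨0, 0⟩, 0⟩ 0 0) (.cut .d (-917504) (.pos 35 .mm ⟨0, 0, 0, 0, 0, 128694730, 0, 0, 0, ⟨0, 0⟩, 0⟩ 0 0) (.pos 35 .mm ⟨0, 0, 0, 0, 0, 113855683, 0, 0, 0, ⟨0, 0⟩, 0⟩ 0 0)))) (.cut .d (-917504) (.cut .v 14680064 (.pos 34 .mm ⟨0, 0, 0, 0, 0, 90496769, 0, 0, 0, ⟨0, 0⟩, 0⟩ 0 0) (.pos 35 .mm ⟨93685, 0, 0, 0, 0, 100750899, 0, 0, 0, ⟨0, 0⟩, 0⟩ 0 0)) (.pos 9 .mm ⟨0, 0, 0, 0, 0, 0, 0, 0, 0, ⟨0, 0⟩, 0⟩ 0 0))) (.cut .v 14680064 (.cut .s 9961472 (.pos 34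 .mm ⟨0, 0, 0, 0, 0, 72735444, 0, 0, 0, ⟨0, 0⟩, 0⟩ 0 0) (.pos 34 .mm ⟨0, 0, 0, 0, 0, 86826143, 0, 0, 0, ⟨0, 0⟩, 0⟩ 0 0)) (.pos 35 .mm ⟨0, 0, 0, 0, 0, 89563904, 0, 0, 0, ⟨0, 0⟩, 0⟩ 0 0)))) (.pos 9 .mm ⟨0, 0, 0, 0, 0, 0, 0, 0, 0, ⟨0, 0⟩, 0⟩ 0 0)) (.pos 9 .mm ⟨0, 0, 0, 0, 0, 0, 0, 0, 0, ⟨0, 0⟩, 0⟩ 0 0))) (.pos 3 .mm ⟨0, 0, 0, 0, 0, 0, 0, 0, 0, ⟨0, 0⟩, 0⟩ 0 0))))))) (.cut .v 268435456 (.cut .v 67108864 (.cut .d (-8388608) (.void 10 ⟨0, 0, 0, 0, 0, 100000, 0, 0, 0, ⟨0, 0⟩, 0⟩ 0 0) (.cut .d (-4194304) (.void 10 ⟨100000, 0, 0, 0, 0, 0, 0, 0, 0, ⟨0, 0⟩, 0⟩ 0 0) (.cut .v 33554432 (.cut .d (-2097152) (.pos 11 .mp ⟨331500452, 0, 0, 0, 0, 0, 0, 0, 0, ⟨0, 0⟩, 0⟩ 0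 0) (.cut .v 25165824 (.cut .v 20971520 (.cut .d (-1048576) (.cut .s 9830400 (.pos 15 .mp ⟨112079879, 0, 0, 0, 0, 0, 0, 0, 0, ⟨0, 0⟩, 0⟩ 0 0) (.pos 15 .mp ⟨147102629, 0, 0, 0, 0, 0, 0, 0, 0, ⟨0, 0⟩, 0⟩ 0 0)) (.cut .d (-524288) (.cut .d (-786432) (.pos 15 .mp ⟨111697604, 0, 0, 0, 0, 0, 0, 0, 0, ⟨0, 0⟩, 0⟩ 0 0) (.pos 15 .mp ⟨50390005, 0, 0, 0, 0, 41642889, 0, 0, 0, ⟨0, 0⟩, 0⟩ 0 0)) (.pos 15 .mp ⟨0, 0, 0, 0, 0, 0, 0, 0, 0, ⟨0, 0⟩, 0⟩ 0 0))) (.pos 16 .mp ⟨160251584, 0, 0, 0, 0, 0, 0, 0, 0, ⟨0, 0⟩, 0⟩ 0 0)) (.pos 14 .mp ⟨231451128, 0, 0, 0, 0, 0, 0, 0, 0, ⟨0, 0⟩, 0⟩ 0 0))) (.pos 12 .mp ⟨984890566, 0, 0, 0, 0, 0, 0, 0, 0, ⟨0, 0⟩, 0⟩ 0 0)))) (.void 37 ⟨100000,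 0, 0, 0, 0, 0, 0, 0, 0, ⟨0, 0⟩, 0⟩ 0 0)) (.void 50 ⟨62439, 37561, 0, 0, 0, 0, 0, 0, 0, ⟨0, 0⟩, 0⟩ 0 0))) (.cut .v 16777216 (.cut .v 8388608 (.cut .v 4194304 (.cut .v 2097152 (.cut .v 1048576 (.pos 61 .pm ⟨0, 0, 28849298, 0, 25668093, 0, 0, 0, 7410107, ⟨0, 0⟩, 1983364⟩ 0 0) (.pos 62 .pm ⟨0, 465374, 0, 0, 0, 0, 0, 0, 5311359, ⟨0, 0⟩, 4987896⟩ 0 0)) (.pos 7 .pm ⟨0, 9813291, 0, 0, 0, 0, 0, 0, 0, ⟨0, 0⟩, 0⟩ 0 0)) (.cut .d 6320185 (.pos 5 .pm ⟨0, 0, 0, 0, 0, 0, 0, 0, 0, ⟨0, 0⟩, 0⟩ 0 0) (.cut .d 9480278 (.pos 5 .pm ⟨0, 0, 0, 0, 0, 0, 0, 0, 0, ⟨0, 0⟩, 0⟩ 0 0) (.cut .l 11925068 (.cut .d 11060324 (.cut .s 9830400 (.pos 5 .pm ⟨0, 0, 0, 0, 0, 0, 0, 0, 0, ⟨0, 0⟩,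 0⟩ 0 0) (.cut .d 10270301 (.pos 5 .pm ⟨0, 0, 0, 0, 0, 0, 0, 0, 0, ⟨0, 0⟩, 0⟩ 0 0) (.cut .s 9961472 (.pos 5 .pm ⟨0, 38727103, 0, 0, 0, 0, 0, 0, 0, ⟨0, 0⟩, 0⟩ 0 0) (.pos 5 .pm ⟨0, 44915484, 0, 0, 0, 0, 0, 0, 0, ⟨0, 0⟩, 0⟩ 0 0)))) (.cut .s 9830400 (.cut .d 11850347 (.cut .s 9699328 (.pos 5 .pm ⟨0, 32992850, 0, 0, 0, 0, 0, 0, 0, ⟨0, 0⟩, 0⟩ 0 0) (.pos 5 .pm ⟨0, 41185477, 0, 0, 0, 0, 0, 0, 0, ⟨0, 0⟩, 0⟩ 0 0)) (.pos 5 .pm ⟨0, 108604764, 0, 0, 0, 0, 0, 0, 0, ⟨0, 0⟩, 0⟩ 0 0)) (.pos 5 .pm ⟨0, 61396193, 0, 0, 0, 0, 0, 0, 0, ⟨0, 0⟩, 0⟩ 0 0))) (.pos 5 .pm ⟨0, 38078289, 0, 0, 0, 0, 0, 0, 0, ⟨0, 0⟩, 0⟩ 0 0))))) (.cut .d 6320185 (.pos 3 .pm ⟨0, 0, 0, 0, 0, 0, 0, 0, 0,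 ⟨0, 0⟩, 0⟩ 0 0) (.cut .d 9480278 (.pos 3 .pm ⟨0, 0, 0, 0, 0, 0, 0, 0, 0, ⟨0, 0⟩, 0⟩ 0 0) (.cut .v 12582912 (.cut .l 11925068 (.cut .d 11060324 (.cut .v 10485760 (.cut .s 9830400 (.pos 55 .pm ⟨0, 26930118, 0, 0, 0, 0, 0, 0, 0, ⟨0, 0⟩, 0⟩ 0 0) (.cut .d 10270301 (.pos 55 .pm ⟨0, 0, 0, 0, 0, 0, 0, 0, 0, ⟨0, 0⟩, 0⟩ 0 0) (.cut .s 9961472 (.pos 55 .pm ⟨0, 41609449, 0, 0, 0, 0, 0, 0, 0, ⟨0, 0⟩, 0⟩ 0 0) (.pos 55 .pm ⟨0, 49355051, 0, 0, 0, 0, 0, 0, 0, ⟨0, 0⟩, 0⟩ 0 0)))) (.pos 56 .pm ⟨0, 31250670, 0, 0, 0, 0, 0, 0, 0, ⟨0, 0⟩, 0⟩ 0 0)) (.cut .s 9830400 (.cut .v 10485760 (.cut .d 11850347 (.cut .l 9494579 (.cut .l 8279334 (.cut .s 9699328 (.cut .v 9437184 (.cut .d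 11455335 (.pos 63 .pm ⟨0, 31358111, 0, 0, 0, 0, 0, 0, 0, ⟨0, 0⟩, 0⟩ 0 0) (.pos 63 .pm ⟨0, 36287324, 0, 0, 0, 0, 0, 0, 0, ⟨0, 0⟩, 0⟩ 0 0)) (.pos 64 .pm ⟨0, 34875981, 0, 0, 0, 0, 0, 0, 0, ⟨0, 0⟩, 0⟩ 0 0)) (.cut .v 9437184 (.cut .d 11455335 (.pos 63 .pm ⟨0, 39682957, 0, 0, 0, 0, 0, 0, 0, ⟨0, 0⟩, 0⟩ 0 0) (.pos 63 .pm ⟨0, 89897456, 0, 0, 0, 0, 0, 0, 0, ⟨0, 0⟩, 0⟩ 0 0)) (.pos 64 .pm ⟨0, 43899048, 0, 0, 0, 0, 0, 0, 0, ⟨0, 0⟩, 0⟩ 0 0))) (.pos 55 .pm ⟨0, 37057540, 0, 0, 0, 0, 0, 0, 0, ⟨0, 0⟩, 0⟩ 0 0)) (.pos 55 .pm ⟨0, 35239722, 0, 0, 0, 0, 0, 0, 0, ⟨0, 0⟩, 0⟩ 0 0)) (.void 55 ⟨0, 100000, 0, 0, 0, 0, 0, 0, 0, ⟨0, 0⟩, 0⟩ 0 0)) (.pos 56 .pm ⟨0, 46843291, 0, 0, 0,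 0, 0, 0, 0, ⟨0, 0⟩, 0⟩ 0 0)) (.pos 8 .pm ⟨0, 89088594, 0, 0, 0, 0, 0, 0, 0, ⟨0, 0⟩, 0⟩ 0 0))) (.pos 8 .pm ⟨0, 42251359, 0, 0, 0, 0, 0, 0, 0, ⟨0, 0⟩, 0⟩ 0 0)) (.pos 9 .pm ⟨0, 52353916, 0, 0, 0, 0, 0, 0, 0, ⟨0, 0⟩, 0⟩ 0 0))))) (.cut .v 268435456 (.cut .d 6320185 (.cut .v 67108864 (.cut .v 33554432 (.pos 11 .pp ⟨0, 0, 0, 0, 0, 0, 0, 0, 0, ⟨0, 0⟩, 0⟩ 0 0) (.pos 12 .pp ⟨133913650, 0, 0, 0, 0, 0, 0, 0, 0, ⟨0, 0⟩, 0⟩ 0 0)) (.cut .v 134217728 (.cut .v 100663296 (.pos 40 .pp ⟨742984196, 0, 0, 0, 0, 0, 0, 0, 0, ⟨0, 0⟩, 0⟩ 0 0) (.cut .v 117440512 (.pos 73 .pp ⟨1502569139, 0, 0, 0, 0, 0, 0, 0, 0, ⟨0, 0⟩, 0⟩ 0 0) (.pos 74 .pp ⟨2691162797, 1047434443, 0, 0, 0, 0, 0,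 0, 0, ⟨0, 0⟩, 0⟩ 0 0))) (.void 39 ⟨41157, 58843, 0, 0, 0, 0, 0, 0, 0, ⟨0, 0⟩, 0⟩ 0 0))) (.pos 36 .pp ⟨0, 34862710, 0, 0, 0, 0, 0, 0, 0, ⟨0, 0⟩, 0⟩ 0 0)) (.void 50 ⟨0, 0, 0, 100000, 0, 0, 0, 0, 0, ⟨0, 0⟩, 0⟩ 0 0)))),
    by decide +kernel⟩

def covers13 : cell.Covers table row13.1 :=
  ⟨(.cut .d 0 (.cut .v 16777216 (.cut .d (-8388608) (.void 1 ⟨0, 0, 0, 0, 0, 100000, 0, 0, 0, ⟨0, 0⟩, 0⟩ 0 0) (.cut .d (-4194304) (.void 1 ⟨0, 0, 0, 0, 0, 100000, 0, 0, 0, ⟨0, 0⟩, 0⟩ 0 0) (.cut .v 8388608 (.cut .v 4194304 (.void 4 ⟨0, 0, 100000, 0, 0, 0, 0, 0, 0, ⟨0, 0⟩, 0⟩ 0 0) (.cut .d (-2097152) (.void 5 ⟨0, 0, 100000, 0, 0, 0, 0, 0, 0, ⟨0, 0⟩, 0⟩ 0 0) (.pos 5 .mm ⟨0, 0,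 2642177, 0, 0, 69166130, 0, 0, 0, ⟨0, 0⟩, 0⟩ 0 0))) (.cut .d (-2097152) (.cut .d (-3145728) (.void 3 ⟨0, 0, 0, 0, 0, 100000, 0, 0, 0, ⟨0, 0⟩, 0⟩ 0 0) (.cut .d (-2621440) (.void 3 ⟨0, 0, 0, 0, 0, 100000, 0, 0, 0, ⟨0, 0⟩, 0⟩ 0 0) (.cut .l 11925068 (.void 3 ⟨0, 0, 0, 0, 0, 100000, 0, 0, 0, ⟨0, 0⟩, 0⟩ 0 0) (.cut .l 14355557 (.void 3 ⟨0, 0, 0, 0, 0, 100000, 0, 0, 0, ⟨0, 0⟩, 0⟩ 0 0) (.cut .v 12582912 (.cut .s 10289152 (.pos 8 .mm ⟨0, 0, 0, 0, 0, 128587084, 0, 0, 0, ⟨0, 0⟩, 0⟩ 0 0) (.pos 8 .mm ⟨0, 0, 0, 0, 0, 164459680, 0, 0, 0, ⟨0, 0⟩, 0⟩ 0 0)) (.cut .d (-2359296) (.pos 9 .mm ⟨61289689, 0, 0, 0, 0, 183738562, 0, 0, 0, ⟨0, 0⟩, 0⟩ 0 0) (.cut .v 14680064 (.cut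 .v 13631488 (.cut .s 10289152 (.cut .s 10190848 (.pos 53 .mm ⟨24600668, 0, 0, 0, 0, 101641448, 0, 0, 0, ⟨0, 0⟩, 0⟩ 0 0) (.pos 53 .mm ⟨33959500, 0, 0, 0, 0, 106918975, 0, 0, 0, ⟨0, 0⟩, 0⟩ 0 0)) (.cut .s 10387456 (.pos 53 .mm ⟨45624941, 0, 0, 0, 0, 110317795, 0, 0, 0, ⟨0, 0⟩, 0⟩ 0 0) (.pos 53 .mm ⟨48691234, 0, 0, 0, 0, 129037547, 0, 0, 0, ⟨0, 0⟩, 0⟩ 0 0))) (.pos 54 .mm ⟨161749748, 0, 0, 0, 0, 0, 0, 0, 0, ⟨0, 0⟩, 0⟩ 0 0)) (.pos 35 .mm ⟨181263767, 0, 0, 0, 0, 0, 0, 0, 0, ⟨0, 0⟩, 0⟩ 0 0)))))))) (.cut .d (-1048576) (.cut .v 12582912 (.cut .l 11925068 (.cut .s 10289152 (.pos 8 .mm ⟨0, 0, 0, 0, 0, 117277123, 0, 0, 0, ⟨0, 0⟩, 0⟩ 0 0) (.pos 8 .mm ⟨0, 0, 0, 0, 0,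 144039442, 0, 0, 0, ⟨0, 0⟩, 0⟩ 0 0)) (.cut .d (-1572864) (.cut .s 10289152 (.pos 8 .mm ⟨0, 0, 0, 0, 0, 111369308, 0, 0, 0, ⟨0, 0⟩, 0⟩ 0 0) (.cut .s 10387456 (.pos 8 .mm ⟨0, 0, 0, 0, 0, 130772437, 0, 0, 0, ⟨0, 0⟩, 0⟩ 0 0) (.pos 8 .mm ⟨0, 0, 0, 0, 0, 144980869, 0, 0, 0, ⟨0, 0⟩, 0⟩ 0 0))) (.pos 8 .mm ⟨0, 0, 0, 0, 0, 93379723, 0, 0, 0, ⟨0, 0⟩, 0⟩ 0 0))) (.cut .l 11925068 (.cut .d (-1572864) (.void 9 ⟨0, 0, 0, 0, 0, 100000, 0, 0, 0, ⟨0, 0⟩, 0⟩ 0 0) (.cut .l 9494579 (.cut .s 10289152 (.cut .v 14680064 (.pos 34 .mm ⟨0, 0, 0, 0, 0, 144016475, 0, 0, 0, ⟨0, 0⟩, 0⟩ 0 0) (.cut .v 15728640 (.pos 51 .mm ⟨0, 0, 0, 0, 0, 159642571, 0, 0, 0, ⟨0, 0⟩, 0⟩ 0 0) (.pos 52 .mm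 ⟨68741679, 0, 0, 0, 0, 93873931, 0, 0, 0, ⟨0, 0⟩, 0⟩ 0 0))) (.pos 9 .mm ⟨0, 0, 0, 0, 0, 222168341, 0, 0, 0, ⟨0, 0⟩, 0⟩ 0 0)) (.cut .v 14680064 (.cut .s 10289152 (.cut .d (-1310720) (.cut .s 10190848 (.pos 34 .mm ⟨0, 0, 0, 0, 0, 128990682, 0, 0, 0, ⟨0, 0⟩, 0⟩ 0 0) (.pos 34 .mm ⟨0, 0, 0, 0, 0, 143363642, 0, 0, 0, ⟨0, 0⟩, 0⟩ 0 0)) (.cut .s 10190848 (.pos 34 .mm ⟨0, 0, 0, 0, 0, 116792156, 0, 0, 0, ⟨0, 0⟩, 0⟩ 0 0) (.pos 34 .mm ⟨0, 0, 0, 0, 0, 130835414, 0, 0, 0, ⟨0, 0⟩, 0⟩ 0 0))) (.cut .d (-1310720) (.cut .s 10387456 (.pos 34 .mm ⟨7357028, 0, 0, 0, 0, 151718944, 0, 0, 0, ⟨0, 0⟩, 0⟩ 0 0) (.pos 34 .mm ⟨15009251, 0, 0, 0, 0, 161051201, 0, 0, 0, ⟨0, 0⟩, 0⟩ 0 0))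 (.cut .s 10387456 (.pos 34 .mm ⟨0, 0, 0, 0, 0, 145995402, 0, 0, 0, ⟨0, 0⟩, 0⟩ 0 0) (.pos 34 .mm ⟨0, 0, 0, 0, 0, 162293251, 0, 0, 0, ⟨0, 0⟩, 0⟩ 0 0)))) (.cut .v 15728640 (.cut .s 10289152 (.cut .d (-1310720) (.cut .s 10190848 (.cut .l 10709823 (.pos 51 .mm ⟨11579939, 0, 0, 0, 0, 135822563, 0, 0, 0, ⟨0, 0⟩, 0⟩ 0 0) (.pos 51 .mm ⟨43057151, 0, 0, 0, 0, 86249566, 0, 0, 0, ⟨0, 0⟩, 0⟩ 0 0)) (.pos 51 .mm ⟨56813650, 0, 0, 0, 0, 92276654, 0, 0, 0, ⟨0, 0⟩, 0⟩ 0 0)) (.cut .l 10709823 (.cut .s 10190848 (.pos 51 .mm ⟨0, 0, 0, 0, 0, 131891831, 0, 0, 0, ⟨0, 0⟩, 0⟩ 0 0) (.cut .d (-1179648) (.pos 51 .mm ⟨5417107, 0, 0, 0, 0, 147616218, 0, 0, 0, ⟨0, 0⟩, 0⟩ 0 0) (.pos 51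 .mm ⟨20099523, 0, 0, 0, 0, 116351932, 0, 0, 0, ⟨0, 0⟩, 0⟩ 0 0))) (.pos 51 .mm ⟨21153413, 0, 0, 0, 0, 99219313, 0, 0, 0, ⟨0, 0⟩, 0⟩ 0 0))) (.cut .d (-1310720) (.cut .s 10387456 (.pos 51 .mm ⟨66423890, 0, 0, 0, 0, 98612108, 0, 0, 0, ⟨0, 0⟩, 0⟩ 0 0) (.pos 51 .mm ⟨77138663, 0, 0, 0, 0, 104764291, 0, 0, 0, ⟨0, 0⟩, 0⟩ 0 0)) (.cut .s 10387456 (.cut .d (-1179648) (.cut .l 10709823 (.pos 51 .mm ⟨11087505, 0, 0, 0, 0, 159115649, 0, 0, 0, ⟨0, 0⟩, 0⟩ 0 0) (.pos 51 .mm ⟨29750483, 0, 0, 0, 0, 120658971, 0, 0, 0, ⟨0, 0⟩, 0⟩ 0 0)) (.pos 51 .mm ⟨28975371, 0, 0, 0, 0, 121819504, 0, 0, 0, ⟨0, 0⟩, 0⟩ 0 0)) (.cut .l 10709823 (.cut .v 15204352 (.pos 69 .mm ⟨0, 0, 0, 0, 0,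 176965994, 0, 0, 0, ⟨0, 0⟩, 0⟩ 0 0) (.pos 70 .mm ⟨57536782, 0, 0, 0, 0, 118362939, 0, 0, 0, ⟨0, 0⟩, 0⟩ 0 0)) (.pos 51 .mm ⟨39453069, 0, 0, 0, 0, 121143357, 0, 0, 0, ⟨0, 0⟩, 0⟩ 0 0))))) (.pos 52 .mm ⟨163964029, 0, 0, 0, 0, 0, 0, 0, 0, ⟨0, 0⟩, 0⟩ 0 0))))) (.cut .d (-1572864) (.cut .v 14680064 (.cut .l 14355557 (.cut .s 10289152 (.cut .d (-1835008) (.cut .s 10190848 (.pos 34 .mm ⟨25066544, 0, 0, 0, 0, 111550726, 0, 0, 0, ⟨0, 0⟩, 0⟩ 0 0) (.pos 34 .mm ⟨26995637, 0, 0, 0, 0, 131152843, 0, 0, 0, ⟨0, 0⟩, 0⟩ 0 0)) (.cut .v 13631488 (.pos 53 .mm ⟨0, 0, 0, 0, 0, 124679210, 0, 0, 0, ⟨0, 0⟩, 0⟩ 0 0) (.cut .s 10190848 (.cut .v 14155776 (.pos 67 .mm ⟨1516697, 0, 0,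 0, 0, 121858208, 0, 0, 0, ⟨0, 0⟩, 0⟩ 0 0) (.pos 68 .mm ⟨58352598, 0, 0, 0, 0, 69861732, 0, 0, 0, ⟨0, 0⟩, 0⟩ 0 0)) (.cut .l 13140312 (.pos 54 .mm ⟨20225521, 0, 0, 0, 0, 128033621, 0, 0, 0, ⟨0, 0⟩, 0⟩ 0 0) (.pos 54 .mm ⟨46604357, 0, 0, 0, 0, 85365664, 0, 0, 0, ⟨0, 0⟩, 0⟩ 0 0))))) (.cut .d (-1835008) (.pos 34 .mm ⟨34138073, 0, 0, 0, 0, 160863602, 0, 0, 0, ⟨0, 0⟩, 0⟩ 0 0) (.cut .v 13631488 (.pos 53 .mm ⟨0, 0, 0, 0, 0, 155407908, 0, 0, 0, ⟨0, 0⟩, 0⟩ 0 0) (.cut .l 13140312 (.pos 54 .mm ⟨27545697, 0, 0, 0, 0, 152124459, 0, 0, 0, ⟨0, 0⟩, 0⟩ 0 0) (.cut .s 10387456 (.pos 54 .mm ⟨58133982, 0, 0, 0, 0, 88047264, 0, 0, 0, ⟨0, 0⟩, 0⟩ 0 0) (.pos 54 .mm ⟨70507920, 0,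 0, 0, 0, 90741569, 0, 0, 0, ⟨0, 0⟩, 0⟩ 0 0)))))) (.cut .s 10289152 (.cut .d (-1835008) (.cut .v 13631488 (.cut .s 10190848 (.pos 53 .mm ⟨6188654, 0, 0, 0, 0, 111800367, 0, 0, 0, ⟨0, 0⟩, 0⟩ 0 0) (.pos 53 .mm ⟨9734582, 0, 0, 0, 0, 122385540, 0, 0, 0, ⟨0, 0⟩, 0⟩ 0 0)) (.pos 54 .mm ⟨79551289, 0, 0, 0, 0, 49141553, 0, 0, 0, ⟨0, 0⟩, 0⟩ 0 0)) (.pos 34 .mm ⟨34138073, 0, 0, 0, 0, 0, 0, 0, 0, ⟨0, 0⟩, 0⟩ 0 0)) (.cut .d (-1835008) (.cut .v 13631488 (.cut .s 10387456 (.cut .l 15570802 (.pos 53 .mm ⟨25809871, 0, 0, 0, 0, 125595356, 0, 0, 0, ⟨0, 0⟩, 0⟩ 0 0) (.pos 53 .mm ⟨57678387, 0, 0, 0, 0, 73712258, 0, 0, 0, ⟨0, 0⟩, 0⟩ 0 0)) (.cut .v 13107200 (.pos 65 .mm ⟨6454497,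 0, 0, 0, 0, 148566893, 0, 0, 0, ⟨0, 0⟩, 0⟩ 0 0) (.pos 66 .mm ⟨85663917, 0, 0, 0, 0, 73647828, 0, 0, 0, ⟨0, 0⟩, 0⟩ 0 0))) (.pos 54 .mm ⟨123304071, 0, 0, 0, 0, 37172497, 0, 0, 0, ⟨0, 0⟩, 0⟩ 0 0)) (.cut .s 10387456 (.pos 34 .mm ⟨42973406, 0, 0, 0, 0, 83289022, 0, 0, 0, ⟨0, 0⟩, 0⟩ 0 0) (.pos 34 .mm ⟨52976423, 0, 0, 0, 0, 86588556, 0, 0, 0, ⟨0, 0⟩, 0⟩ 0 0))))) (.pos 35 .mm ⟨164078380, 0, 0, 0, 0, 0, 0, 0, 0, ⟨0, 0⟩, 0⟩ 0 0)) (.cut .d (-1310720) (.cut .v 14680064 (.cut .l 14355557 (.cut .l 13140312 (.cut .s 10289152 (.cut .s 10190848 (.pos 34 .mm ⟨8009016, 0, 0, 0, 0, 108242047, 0, 0, 0, ⟨0, 0⟩, 0⟩ 0 0) (.pos 34 .mm ⟨0, 0, 0, 0, 0, 135496861, 0, 0, 0, ⟨0, 0⟩,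 0⟩ 0 0)) (.cut .d (-1441792) (.cut .s 10387456 (.pos 34 .mm ⟨10375758, 0, 0, 0, 0, 144751119, 0, 0, 0, ⟨0, 0⟩, 0⟩ 0 0) (.pos 34 .mm ⟨15528601, 0, 0, 0, 0, 156922536, 0, 0, 0, ⟨0, 0⟩, 0⟩ 0 0)) (.pos 34 .mm ⟨12228810, 0, 0, 0, 0, 132991994, 0, 0, 0, ⟨0, 0⟩, 0⟩ 0 0))) (.pos 34 .mm ⟨36974818, 0, 0, 0, 0, 55626714, 0, 0, 0, ⟨0, 0⟩, 0⟩ 0 0)) (.pos 34 .mm ⟨0, 0, 0, 0, 0, 0, 0, 0, 0, ⟨0, 0⟩, 0⟩ 0 0)) (.pos 35 .mm ⟨131287533, 0, 0, 0, 0, 0, 0, 0, 0, ⟨0, 0⟩, 0⟩ 0 0)) (.pos 9 .mm ⟨16032740, 0, 0, 0, 0, 0, 0, 0, 0, ⟨0, 0⟩, 0⟩ 0 0))))) (.cut .l 11925068 (.cut .d (-524288) (.cut .v 12582912 (.cut .d (-786432) (.cut .s 10289152 (.pos 8 .mm ⟨0, 0, 0, 0, 0, 99036243,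 0, 0, 0, ⟨0, 0⟩, 0⟩ 0 0) (.pos 8 .mm ⟨0, 0, 0, 0, 0, 120450354, 0, 0, 0, ⟨0, 0⟩, 0⟩ 0 0)) (.pos 8 .mm ⟨0, 0, 0, 0, 0, 89387096, 0, 0, 0, ⟨0, 0⟩, 0⟩ 0 0)) (.cut .l 9494579 (.cut .d (-786432) (.cut .s 10289152 (.cut .v 14680064 (.cut .v 13631488 (.pos 53 .mm ⟨0, 0, 0, 0, 0, 116779292, 0, 0, 0, ⟨0, 0⟩, 0⟩ 0 0) (.cut .s 10190848 (.pos 54 .mm ⟨0, 0, 0, 0, 0, 119521968, 0, 0, 0, ⟨0, 0⟩, 0⟩ 0 0) (.pos 54 .mm ⟨0, 0, 0, 0, 0, 132994110, 0, 0, 0, ⟨0, 0⟩, 0⟩ 0 0))) (.cut .l 8279334 (.cut .d (-917504) (.pos 35 .mm ⟨0, 0, 0, 0, 0, 167841105, 0, 0, 0, ⟨0, 0⟩, 0⟩ 0 0) (.cut .s 10190848 (.pos 35 .mm ⟨0, 0, 0, 0, 0, 133988700, 0, 0, 0, ⟨0, 0⟩, 0⟩ 0 0) (.pos 35 .mm ⟨0,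 0, 0, 0, 0, 153264950, 0, 0, 0, ⟨0, 0⟩, 0⟩ 0 0))) (.cut .d (-917504) (.cut .s 10190848 (.pos 35 .mm ⟨0, 0, 0, 0, 0, 132101785, 0, 0, 0, ⟨0, 0⟩, 0⟩ 0 0) (.cut .v 15728640 (.pos 51 .mm ⟨0, 0, 0, 0, 0, 144527166, 0, 0, 0, ⟨0, 0⟩, 0⟩ 0 0) (.pos 52 .mm ⟨22248853, 0, 0, 0, 0, 127536851, 0, 0, 0, ⟨0, 0⟩, 0⟩ 0 0))) (.pos 35 .mm ⟨2149264, 0, 0, 0, 0, 119545026, 0, 0, 0, ⟨0, 0⟩, 0⟩ 0 0)))) (.cut .v 14680064 (.cut .s 10387456 (.cut .l 8279334 (.pos 34 .mm ⟨0, 0, 0, 0, 0, 152174417, 0, 0, 0, ⟨0, 0⟩, 0⟩ 0 0) (.pos 34 .mm ⟨0, 0, 0, 0, 0, 141703089, 0, 0, 0, ⟨0, 0⟩, 0⟩ 0 0)) (.pos 34 .mm ⟨0, 0, 0, 0, 0, 161899601, 0, 0, 0, ⟨0, 0⟩, 0⟩ 0 0)) (.cut .l 8279334 (.cut .s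 10387456 (.cut .s 10338304 (.pos 35 .mm ⟨0, 0, 0, 0, 0, 170259658, 0, 0, 0, ⟨0, 0⟩, 0⟩ 0 0) (.pos 35 .mm ⟨0, 0, 0, 0, 0, 180022323, 0, 0, 0, ⟨0, 0⟩, 0⟩ 0 0)) (.pos 35 .mm ⟨0, 0, 0, 0, 0, 199674367, 0, 0, 0, ⟨0, 0⟩, 0⟩ 0 0)) (.cut .d (-917504) (.cut .v 15728640 (.cut .s 10387456 (.pos 51 .mm ⟨0, 0, 0, 0, 0, 162148899, 0, 0, 0, ⟨0, 0⟩, 0⟩ 0 0) (.pos 51 .mm ⟨0, 0, 0, 0, 0, 180648637, 0, 0, 0, ⟨0, 0⟩, 0⟩ 0 0)) (.cut .s 10387456 (.pos 52 .mm ⟨31468303, 0, 0, 0, 0, 134236730, 0, 0, 0, ⟨0, 0⟩, 0⟩ 0 0) (.pos 52 .mm ⟨41090656, 0, 0, 0, 0, 141423913, 0, 0, 0, ⟨0, 0⟩, 0⟩ 0 0))) (.cut .s 10387456 (.pos 35 .mm ⟨10334319, 0, 0, 0, 0, 136194675, 0, 0, 0, ⟨0, 0⟩, 0⟩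 0 0) (.cut .v 15728640 (.pos 51 .mm ⟨0, 0, 0, 0, 0, 167078237, 0, 0, 0, ⟨0, 0⟩, 0⟩ 0 0) (.pos 52 .mm ⟨22815351, 0, 0, 0, 0, 151180983, 0, 0, 0, ⟨0, 0⟩, 0⟩ 0 0))))))) (.cut .l 8279334 (.cut .d (-655360) (.cut .s 10289152 (.cut .l 7671712 (.cut .v 14680064 (.pos 34 .mm ⟨0, 0, 0, 0, 0, 115772298, 0, 0, 0, ⟨0, 0⟩, 0⟩ 0 0) (.cut .s 10190848 (.pos 35 .mm ⟨0, 0, 0, 0, 0, 121598111, 0, 0, 0, ⟨0, 0⟩, 0⟩ 0 0) (.pos 35 .mm ⟨0, 0, 0, 0, 0, 138389207, 0, 0, 0, ⟨0, 0⟩, 0⟩ 0 0))) (.pos 9 .mm ⟨0, 0, 0, 0, 0, 92239925, 0, 0, 0, ⟨0, 0⟩, 0⟩ 0 0)) (.cut .v 14680064 (.cut .s 10387456 (.pos 34 .mm ⟨0, 0, 0, 0, 0, 137901953, 0, 0, 0, ⟨0, 0⟩, 0⟩ 0 0) (.pos 34 .mm ⟨0, 0, 0, 0,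 0, 153801998, 0, 0, 0, ⟨0, 0⟩, 0⟩ 0 0)) (.cut .s 10387456 (.cut .v 15728640 (.pos 51 .mm ⟨0, 0, 0, 0, 0, 150730372, 0, 0, 0, ⟨0, 0⟩, 0⟩ 0 0) (.pos 52 .mm ⟨0, 0, 0, 0, 0, 162611760, 0, 0, 0, ⟨0, 0⟩, 0⟩ 0 0)) (.cut .l 7671712 (.cut .s 10436608 (.pos 35 .mm ⟨0, 0, 0, 0, 0, 175731953, 0, 0, 0, ⟨0, 0⟩, 0⟩ 0 0) (.pos 35 .mm ⟨0, 0, 0, 0, 0, 187472210, 0, 0, 0, ⟨0, 0⟩, 0⟩ 0 0)) (.pos 35 .mm ⟨0, 0, 0, 0, 0, 167544222, 0, 0, 0, ⟨0, 0⟩, 0⟩ 0 0))))) (.cut .v 14680064 (.pos 34 .mm ⟨0, 0, 0, 0, 0, 95167727, 0, 0, 0, ⟨0, 0⟩, 0⟩ 0 0) (.pos 35 .mm ⟨0, 0, 0, 0, 0, 113472096, 0, 0, 0, ⟨0, 0⟩, 0⟩ 0 0))) (.pos 9 .mm ⟨0, 0, 0, 0, 0, 0, 0, 0, 0, ⟨0, 0⟩, 0⟩ 0 0))) (.cut .v 14680064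 (.pos 34 .mm ⟨0, 0, 0, 0, 0, 101602788, 0, 0, 0, ⟨0, 0⟩, 0⟩ 0 0) (.cut .s 10289152 (.pos 35 .mm ⟨2782411, 0, 0, 0, 0, 0, 0, 0, 0, ⟨0, 0⟩, 0⟩ 0 0) (.pos 35 .mm ⟨19691254, 0, 0, 0, 0, 116670748, 0, 0, 0, ⟨0, 0⟩, 0⟩ 0 0))))) (.cut .v 12582912 (.pos 8 .mm ⟨0, 0, 0, 0, 0, 0, 0, 0, 0, ⟨0, 0⟩, 0⟩ 0 0) (.pos 9 .mm ⟨0, 0, 0, 0, 0, 0, 0, 0, 0, ⟨0, 0⟩, 0⟩ 0 0))) (.pos 3 .mm ⟨0, 0, 0, 0, 0, 0, 0, 0, 0, ⟨0, 0⟩, 0⟩ 0 0))))))) (.cut .v 268435456 (.cut .v 67108864 (.cut .d (-8388608) (.void 10 ⟨0, 0, 0, 0, 0, 100000, 0, 0, 0, ⟨0, 0⟩, 0⟩ 0 0) (.cut .d (-4194304) (.void 10 ⟨100000, 0, 0, 0, 0, 0, 0, 0, 0, ⟨0, 0⟩, 0⟩ 0 0) (.cut .d (-2097152) (.void 10 ⟨100000, 0, 0, 0,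 0, 0, 0, 0, 0, ⟨0, 0⟩, 0⟩ 0 0) (.cut .v 33554432 (.cut .v 25165824 (.cut .v 20971520 (.cut .d (-1048576) (.pos 15 .mp ⟨209393849, 0, 0, 0, 0, 0, 0, 0, 0, ⟨0, 0⟩, 0⟩ 0 0) (.cut .d (-524288) (.cut .s 10289152 (.pos 15 .mp ⟨136363014, 0, 0, 0, 0, 0, 0, 0, 0, ⟨0, 0⟩, 0⟩ 0 0) (.cut .d (-786432) (.pos 15 .mp ⟨216076340, 0, 0, 0, 0, 0, 0, 0, 0, ⟨0, 0⟩, 0⟩ 0 0) (.pos 15 .mp ⟨152945705, 0, 0, 0, 0, 0, 0, 0, 0, ⟨0, 0⟩, 0⟩ 0 0))) (.pos 15 .mp ⟨0, 0, 0, 0, 0, 0, 0, 0, 0, ⟨0, 0⟩, 0⟩ 0 0))) (.pos 16 .mp ⟨249766712, 0, 0, 0, 0, 0, 0, 0, 0, ⟨0, 0⟩, 0⟩ 0 0)) (.pos 14 .mp ⟨360494562, 0, 0, 0, 0, 0, 0, 0, 0, ⟨0, 0⟩, 0⟩ 0 0)) (.pos 12 .mp ⟨1069688531, 0, 0, 0, 0, 0, 0, 0,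 0, ⟨0, 0⟩, 0⟩ 0 0))))) (.void 37 ⟨100000, 0, 0, 0, 0, 0, 0, 0, 0, ⟨0, 0⟩, 0⟩ 0 0)) (.void 50 ⟨61538, 38462, 0, 0, 0, 0, 0, 0, 0, ⟨0, 0⟩, 0⟩ 0 0))) (.cut .v 16777216 (.cut .v 8388608 (.cut .v 4194304 (.cut .v 2097152 (.cut .v 1048576 (.pos 61 .pm ⟨0, 0, 3129276, 0, 0, 0, 0, 0, 7396791, ⟨0, 0⟩, 1983364⟩ 0 0) (.pos 62 .pm ⟨0, 5572571, 0, 0, 0, 0, 0, 0, 0, ⟨0, 0⟩, 0⟩ 0 0)) (.pos 7 .pm ⟨0, 11918877, 0, 0, 0, 0, 0, 0, 0, ⟨0, 0⟩, 0⟩ 0 0)) (.cut .d 5556092 (.pos 5 .pm ⟨0, 0, 0, 0, 0, 0, 0, 0, 0, ⟨0, 0⟩, 0⟩ 0 0) (.cut .d 8334138 (.pos 5 .pm ⟨0, 0, 0, 0, 0, 0, 0, 0, 0, ⟨0, 0⟩, 0⟩ 0 0) (.cut .d 9723161 (.pos 5 .pm ⟨0, 36121262, 0, 0, 0, 0, 0, 0, 0, ⟨0, 0⟩, 0⟩ 0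 0) (.cut .d 10417673 (.cut .s 10289152 (.pos 5 .pm ⟨0, 46461212, 0, 0, 0, 0, 0, 0, 0, ⟨0, 0⟩, 0⟩ 0 0) (.pos 5 .pm ⟨0, 61715255, 0, 0, 0, 0, 0, 0, 0, ⟨0, 0⟩, 0⟩ 0 0)) (.pos 5 .pm ⟨0, 70086518, 0, 0, 0, 0, 0, 0, 0, ⟨0, 0⟩, 0⟩ 0 0)))))) (.cut .d 5556092 (.pos 3 .pm ⟨0, 0, 0, 0, 0, 0, 0, 0, 0, ⟨0, 0⟩, 0⟩ 0 0) (.cut .d 8334138 (.pos 3 .pm ⟨0, 0, 0, 0, 0, 0, 0, 0, 0, ⟨0, 0⟩, 0⟩ 0 0) (.cut .d 9723161 (.pos 3 .pm ⟨0, 34014090, 0, 0, 0, 0, 0, 0, 0, ⟨0, 0⟩, 0⟩ 0 0) (.cut .d 10417673 (.pos 3 .pm ⟨0, 57638849, 0, 0, 0, 0, 0, 0, 0, ⟨0, 0⟩, 0⟩ 0 0) (.pos 3 .pm ⟨0, 85008510, 0, 0, 0, 0, 0, 0, 0, ⟨0, 0⟩, 0⟩ 0 0)))))) (.cut .v 268435456 (.cut .d 5556092 (.cut .d 2778046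 (.cut .v 67108864 (.cut .v 33554432 (.pos 11 .pp ⟨0, 0, 0, 0, 0, 0, 0, 0, 0, ⟨0, 0⟩, 0⟩ 0 0) (.pos 12 .pp ⟨345560360, 0, 0, 0, 0, 0, 0, 0, 0, ⟨0, 0⟩, 0⟩ 0 0)) (.cut .v 134217728 (.cut .v 100663296 (.pos 40 .pp ⟨1457464742, 0, 0, 0, 0, 0, 0, 0, 0, ⟨0, 0⟩, 0⟩ 0 0) (.cut .d 1389023 (.pos 41 .pp ⟨4226957601, 0, 0, 0, 0, 0, 0, 0, 0, ⟨0, 0⟩, 0⟩ 0 0) (.pos 41 .pp ⟨2186491945, 335131868, 0, 0, 0, 0, 0, 0, 0, ⟨0, 0⟩, 0⟩ 0 0))) (.void 39 ⟨42490, 57510, 0, 0, 0, 0, 0, 0, 0, ⟨0, 0⟩, 0⟩ 0 0))) (.pos 36 .pp ⟨0, 0, 0, 0, 0, 0, 0, 0, 0, ⟨0, 0⟩, 0⟩ 0 0)) (.pos 36 .pp ⟨0, 48113101, 0, 0, 0, 0, 0, 0, 0, ⟨0, 0⟩, 0⟩ 0 0)) (.void 50 ⟨0, 0, 0, 100000, 0, 0, 0, 0, 0, ⟨0, 0⟩,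 0⟩ 0 0)))),
    by decide +kernel⟩

def covers14 : cell.Covers table row14.1 :=
  ⟨(.cut .d 0 (.cut .v 16777216 (.cut .d (-8388608) (.void 1 ⟨0, 0, 502, 0, 0, 98918, 0, 0, 0, ⟨0, 0⟩, 0⟩ 0 0) (.cut .d (-4194304) (.void 1 ⟨0, 0, 0, 0, 0, 100000, 0, 0, 0, ⟨0, 0⟩, 0⟩ 0 0) (.cut .v 8388608 (.cut .v 4194304 (.void 4 ⟨0, 0, 100000, 0, 0, 0, 0, 0, 0, ⟨0, 0⟩, 0⟩ 0 0) (.cut .d (-2097152) (.void 5 ⟨0, 0, 100000, 0, 0, 0, 0, 0, 0, ⟨0, 0⟩, 0⟩ 0 0) (.pos 5 .mm ⟨0, 0, 8467193, 0, 0, 100422064, 0, 0, 0, ⟨0, 0⟩, 0⟩ 0 0))) (.cut .d (-2097152) (.cut .v 12582912 (.pos 8 .mm ⟨0, 0, 0, 0, 0, 276791923, 0, 0, 0, ⟨0, 0⟩, 0⟩ 0 0) (.cut .v 14680064 (.pos 34 .mm ⟨61441009, 0, 0,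 0, 0, 271165818, 0, 0, 0, ⟨0, 0⟩, 0⟩ 0 0) (.void 35 ⟨100000, 0, 0, 0, 0, 0, 0, 0, 0, ⟨0, 0⟩, 0⟩ 0 0))) (.cut .d (-1048576) (.cut .v 12582912 (.cut .l 11925068 (.cut .s 10682368 (.pos 8 .mm ⟨0, 0, 0, 0, 0, 175046047, 0, 0, 0, ⟨0, 0⟩, 0⟩ 0 0) (.pos 8 .mm ⟨0, 0, 0, 0, 0, 213970461, 0, 0, 0, ⟨0, 0⟩, 0⟩ 0 0)) (.cut .d (-1572864) (.cut .l 14355557 (.pos 8 .mm ⟨0, 0, 0, 0, 0, 212814272, 0, 0, 0, ⟨0, 0⟩, 0⟩ 0 0) (.cut .v 10485760 (.pos 55 .mm ⟨0, 0, 0, 0, 0, 152377863, 0, 0, 0, ⟨0, 0⟩, 0⟩ 0 0) (.cut .s 10682368 (.pos 56 .mm ⟨0, 0, 0, 0, 0, 169765221, 0, 0, 0, ⟨0, 0⟩, 0⟩ 0 0) (.cut .d (-1835008) (.pos 56 .mm ⟨0, 0, 0, 0, 0, 222130880, 0, 0, 0, ⟨0, 0⟩, 0⟩ 0 0)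 (.pos 56 .mm ⟨0, 0, 0, 0, 0, 196574726, 0, 0, 0, ⟨0, 0⟩, 0⟩ 0 0))))) (.cut .s 10682368 (.pos 8 .mm ⟨0, 0, 0, 0, 0, 135610412, 0, 0, 0, ⟨0, 0⟩, 0⟩ 0 0) (.cut .s 10780672 (.pos 8 .mm ⟨0, 0, 0, 0, 0, 160586633, 0, 0, 0, ⟨0, 0⟩, 0⟩ 0 0) (.pos 8 .mm ⟨0, 0, 0, 0, 0, 176833218, 0, 0, 0, ⟨0, 0⟩, 0⟩ 0 0))))) (.cut .l 11925068 (.cut .d (-1572864) (.void 9 ⟨0, 0, 0, 0, 0, 100000, 0, 0, 0, ⟨0, 0⟩, 0⟩ 0 0) (.cut .l 9494579 (.void 9 ⟨0, 0, 0, 0, 0, 100000, 0, 0, 0, ⟨0, 0⟩, 0⟩ 0 0) (.cut .v 14680064 (.cut .s 10682368 (.cut .d (-1310720) (.pos 34 .mm ⟨21639337, 0, 0, 0, 0, 188918565, 0, 0, 0, ⟨0, 0⟩, 0⟩ 0 0) (.cut .s 10584064 (.pos 34 .mm ⟨0, 0, 0, 0, 0, 179962736, 0,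 0, 0, ⟨0, 0⟩, 0⟩ 0 0) (.pos 34 .mm ⟨0, 0, 0, 0, 0, 199263516, 0, 0, 0, ⟨0, 0⟩, 0⟩ 0 0))) (.cut .d (-1310720) (.void 34 ⟨0, 0, 0, 0, 0, 100000, 0, 0, 0, ⟨0, 0⟩, 0⟩ 0 0) (.cut .s 10780672 (.pos 34 .mm ⟨0, 0, 0, 0, 0, 219889181, 0, 0, 0, ⟨0, 0⟩, 0⟩ 0 0) (.pos 34 .mm ⟨5576339, 0, 0, 0, 0, 235049438, 0, 0, 0, ⟨0, 0⟩, 0⟩ 0 0)))) (.cut .d (-1310720) (.pos 35 .mm ⟨244351770, 0, 0, 0, 0, 0, 0, 0, 0, ⟨0, 0⟩, 0⟩ 0 0) (.cut .v 15728640 (.cut .s 10682368 (.cut .v 15204352 (.cut .s 10584064 (.cut .l 10709823 (.pos 69 .mm ⟨6056253, 0, 0, 0, 0, 188805876, 0, 0, 0, ⟨0, 0⟩, 0⟩ 0 0) (.pos 69 .mm ⟨49915590, 0, 0, 0, 0, 126508177, 0, 0, 0, ⟨0, 0⟩, 0⟩ 0 0)) (.cut .l 10709823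 (.pos 69 .mm ⟨13211234, 0, 0, 0, 0, 201051488, 0, 0, 0, ⟨0, 0⟩, 0⟩ 0 0) (.pos 69 .mm ⟨51317869, 0, 0, 0, 0, 146990062, 0, 0, 0, ⟨0, 0⟩, 0⟩ 0 0))) (.pos 70 .mm ⟨111653677, 0, 0, 0, 0, 90842652, 0, 0, 0, ⟨0, 0⟩, 0⟩ 0 0)) (.cut .s 10780672 (.pos 51 .mm ⟨88624819, 0, 0, 0, 0, 134125298, 0, 0, 0, ⟨0, 0⟩, 0⟩ 0 0) (.pos 51 .mm ⟨101313176, 0, 0, 0, 0, 141881540, 0, 0, 0, ⟨0, 0⟩, 0⟩ 0 0))) (.pos 52 .mm ⟨236371999, 0, 0, 0, 0, 0, 0, 0, 0, ⟨0, 0⟩, 0⟩ 0 0)))))) (.cut .d (-1572864) (.cut .v 14680064 (.cut .l 14355557 (.cut .d (-1835008) (.void 34 ⟨0, 0, 0, 0, 0, 100000, 0, 0, 0, ⟨0, 0⟩, 0⟩ 0 0) (.cut .l 13140312 (.void 34 ⟨0, 0, 0, 0, 0, 100000, 0, 0, 0, ⟨0, 0⟩, 0⟩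 0 0) (.cut .s 10682368 (.cut .d (-1703936) (.pos 34 .mm ⟨37543847, 0, 0, 0, 0, 187096661, 0, 0, 0, ⟨0, 0⟩, 0⟩ 0 0) (.cut .v 13631488 (.pos 53 .mm ⟨0, 0, 0, 0, 0, 185549850, 0, 0, 0, ⟨0, 0⟩, 0⟩ 0 0) (.pos 54 .mm ⟨80942558, 0, 0, 0, 0, 102902799, 0, 0, 0, ⟨0, 0⟩, 0⟩ 0 0))) (.cut .v 13631488 (.pos 53 .mm ⟨39414473, 0, 0, 0, 0, 195982425, 0, 0, 0, ⟨0, 0⟩, 0⟩ 0 0) (.pos 54 .mm ⟨175060359, 0, 0, 0, 0, 48746332, 0, 0, 0, ⟨0, 0⟩, 0⟩ 0 0))))) (.cut .s 10682368 (.cut .v 13631488 (.cut .d (-1835008) (.cut .l 15570802 (.pos 53 .mm ⟨39489366, 0, 0, 0, 0, 165167065, 0, 0, 0, ⟨0, 0⟩, 0⟩ 0 0) (.cut .s 10584064 (.pos 53 .mm ⟨79450375, 0, 0, 0, 0, 84003068, 0, 0, 0, ⟨0,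 0⟩, 0⟩ 0 0) (.cut .d (-1966080) (.pos 53 .mm ⟨57993510, 0, 0, 0, 0, 142987303, 0, 0, 0, ⟨0, 0⟩, 0⟩ 0 0) (.pos 53 .mm ⟨76351785, 0, 0, 0, 0, 100842558, 0, 0, 0, ⟨0, 0⟩, 0⟩ 0 0)))) (.cut .s 10584064 (.pos 53 .mm ⟨54956344, 0, 0, 0, 0, 103595941, 0, 0, 0, ⟨0, 0⟩, 0⟩ 0 0) (.cut .v 13107200 (.pos 65 .mm ⟨0, 0, 0, 0, 0, 177646564, 0, 0, 0, ⟨0, 0⟩, 0⟩ 0 0) (.pos 66 .mm ⟨72137063, 0, 0, 0, 0, 109663757, 0, 0, 0, ⟨0, 0⟩, 0⟩ 0 0)))) (.pos 54 .mm ⟨177596256, 0, 0, 0, 0, 0, 0, 0, 0, ⟨0, 0⟩, 0⟩ 0 0)) (.cut .v 13631488 (.cut .d (-1835008) (.cut .s 10780672 (.cut .v 13107200 (.pos 65 .mm ⟨55433601, 0, 0, 0, 0, 153090185, 0, 0, 0, ⟨0, 0⟩, 0⟩ 0 0) (.pos 66 .mm ⟨225566219,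 0, 0, 0, 0, 0, 0, 0, 0, ⟨0, 0⟩, 0⟩ 0 0)) (.pos 53 .mm ⟨72026743, 0, 0, 0, 0, 164965460, 0, 0, 0, ⟨0, 0⟩, 0⟩ 0 0)) (.cut .s 10780672 (.cut .v 13107200 (.pos 65 .mm ⟨11884915, 0, 0, 0, 0, 185341575, 0, 0, 0, ⟨0, 0⟩, 0⟩ 0 0) (.pos 66 .mm ⟨88198673, 0, 0, 0, 0, 111066375, 0, 0, 0, ⟨0, 0⟩, 0⟩ 0 0)) (.cut .v 13107200 (.pos 65 .mm ⟨16464979, 0, 0, 0, 0, 200333478, 0, 0, 0, ⟨0, 0⟩, 0⟩ 0 0) (.pos 66 .mm ⟨104976982, 0, 0, 0, 0, 112728661, 0, 0, 0, ⟨0, 0⟩, 0⟩ 0 0)))) (.pos 54 .mm ⟨214891201, 0, 0, 0, 0, 0, 0, 0, 0, ⟨0, 0⟩, 0⟩ 0 0)))) (.pos 35 .mm ⟨239866143, 0, 0, 0, 0, 0, 0, 0, 0, ⟨0, 0⟩, 0⟩ 0 0)) (.cut .l 14355557 (.cut .v 14680064 (.cut .d (-1310720) (.cut .s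 10682368 (.cut .v 13631488 (.pos 53 .mm ⟨0, 0, 0, 0, 0, 174890580, 0, 0, 0, ⟨0, 0⟩, 0⟩ 0 0) (.cut .l 13140312 (.cut .s 10584064 (.cut .d (-1441792) (.pos 54 .mm ⟨26842682, 0, 0, 0, 0, 163497072, 0, 0, 0, ⟨0, 0⟩, 0⟩ 0 0) (.pos 54 .mm ⟨43525294, 0, 0, 0, 0, 125344264, 0, 0, 0, ⟨0, 0⟩, 0⟩ 0 0)) (.cut .v 14155776 (.pos 67 .mm ⟨14726923, 0, 0, 0, 0, 183612089, 0, 0, 0, ⟨0, 0⟩, 0⟩ 0 0) (.pos 68 .mm ⟨76589713, 0, 0, 0, 0, 120017963, 0, 0, 0, ⟨0, 0⟩, 0⟩ 0 0))) (.pos 54 .mm ⟨60439247, 0, 0, 0, 0, 104964067, 0, 0, 0, ⟨0, 0⟩, 0⟩ 0 0))) (.cut .v 13631488 (.cut .s 10780672 (.pos 53 .mm ⟨0, 0, 0, 0, 0, 203854395, 0, 0, 0, ⟨0, 0⟩, 0⟩ 0 0) (.pos 53 .mm ⟨0, 0, 0, 0, 0,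 223586012, 0, 0, 0, ⟨0, 0⟩, 0⟩ 0 0)) (.cut .s 10780672 (.cut .d (-1441792) (.pos 54 .mm ⟨91628855, 0, 0, 0, 0, 118880582, 0, 0, 0, ⟨0, 0⟩, 0⟩ 0 0) (.pos 54 .mm ⟨69187591, 0, 0, 0, 0, 133975864, 0, 0, 0, ⟨0, 0⟩, 0⟩ 0 0)) (.pos 54 .mm ⟨101136601, 0, 0, 0, 0, 124145599, 0, 0, 0, ⟨0, 0⟩, 0⟩ 0 0)))) (.cut .s 10682368 (.pos 34 .mm ⟨36721585, 0, 0, 0, 0, 93606555, 0, 0, 0, ⟨0, 0⟩, 0⟩ 0 0) (.cut .v 13631488 (.pos 53 .mm ⟨0, 0, 0, 0, 0, 188639953, 0, 0, 0, ⟨0, 0⟩, 0⟩ 0 0) (.pos 54 .mm ⟨60087627, 0, 0, 0, 0, 126635980, 0, 0, 0, ⟨0, 0⟩, 0⟩ 0 0)))) (.cut .d (-1310720) (.pos 35 .mm ⟨205586577, 0, 0, 0, 0, 0, 0, 0, 0, ⟨0, 0⟩, 0⟩ 0 0) (.pos 35 .mm ⟨160031451, 0, 0,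 0, 0, 0, 0, 0, 0, ⟨0, 0⟩, 0⟩ 0 0))) (.pos 9 .mm ⟨75364163, 0, 0, 0, 0, 55974346, 0, 0, 0, ⟨0, 0⟩, 0⟩ 0 0))))) (.cut .l 11925068 (.cut .d (-524288) (.cut .v 12582912 (.cut .l 9494579 (.cut .d (-786432) (.pos 8 .mm ⟨0, 0, 0, 0, 0, 177244550, 0, 0, 0, ⟨0, 0⟩, 0⟩ 0 0) (.pos 8 .mm ⟨0, 0, 0, 0, 0, 140385910, 0, 0, 0, ⟨0, 0⟩, 0⟩ 0 0)) (.pos 8 .mm ⟨0, 0, 0, 0, 0, 125113216, 0, 0, 0, ⟨0, 0⟩, 0⟩ 0 0)) (.cut .l 9494579 (.cut .d (-786432) (.cut .s 10682368 (.cut .v 14680064 (.cut .s 10584064 (.pos 34 .mm ⟨0, 0, 0, 0, 0, 178770865, 0, 0, 0, ⟨0, 0⟩, 0⟩ 0 0) (.pos 34 .mm ⟨0, 0, 0, 0, 0, 197224181, 0, 0, 0, ⟨0, 0⟩, 0⟩ 0 0)) (.cut .l 8279334 (.cut .s 10584064 (.pos 35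 .mm ⟨668116, 0, 0, 0, 0, 222953106, 0, 0, 0, ⟨0, 0⟩, 0⟩ 0 0) (.pos 35 .mm ⟨8060414, 0, 0, 0, 0, 236711652, 0, 0, 0, ⟨0, 0⟩, 0⟩ 0 0)) (.cut .v 15728640 (.cut .s 10584064 (.cut .d (-917504) (.pos 51 .mm ⟨3768367, 0, 0, 0, 0, 195488186, 0, 0, 0, ⟨0, 0⟩, 0⟩ 0 0) (.pos 51 .mm ⟨0, 0, 0, 0, 0, 185930566, 0, 0, 0, ⟨0, 0⟩, 0⟩ 0 0)) (.cut .d (-917504) (.pos 51 .mm ⟨10791210, 0, 0, 0, 0, 208381968, 0, 0, 0, ⟨0, 0⟩, 0⟩ 0 0) (.pos 51 .mm ⟨0, 0, 0, 0, 0, 206720041, 0, 0, 0, ⟨0, 0⟩, 0⟩ 0 0))) (.cut .s 10584064 (.cut .d (-917504) (.pos 52 .mm ⟨130358806, 0, 0, 0, 0, 82723710, 0, 0, 0, ⟨0, 0⟩, 0⟩ 0 0) (.pos 52 .mm ⟨30840060, 0, 0, 0, 0, 160379704, 0, 0, 0, ⟨0, 0⟩, 0⟩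 0 0)) (.pos 52 .mm ⟨58720334, 0, 0, 0, 0, 154883676, 0, 0, 0, ⟨0, 0⟩, 0⟩ 0 0))))) (.cut .v 14680064 (.pos 34 .mm ⟨0, 0, 0, 0, 0, 230383574, 0, 0, 0, ⟨0, 0⟩, 0⟩ 0 0) (.cut .d (-917504) (.pos 35 .mm ⟨22635673, 0, 0, 0, 0, 257404489, 0, 0, 0, ⟨0, 0⟩, 0⟩ 0 0) (.cut .l 8279334 (.void 35 ⟨0, 0, 0, 0, 0, 100000, 0, 0, 0, ⟨0, 0⟩, 0⟩ 0 0) (.cut .v 15728640 (.cut .s 10780672 (.pos 51 .mm ⟨0, 0, 0, 0, 0, 228994536, 0, 0, 0, ⟨0, 0⟩, 0⟩ 0 0) (.pos 51 .mm ⟨3520967, 0, 0, 0, 0, 247674426, 0, 0, 0, ⟨0, 0⟩, 0⟩ 0 0)) (.pos 52 .mm ⟨87873776, 0, 0, 0, 0, 149229497, 0, 0, 0, ⟨0, 0⟩, 0⟩ 0 0)))))) (.cut .l 8279334 (.cut .d (-655360) (.cut .s 10682368 (.cut .v 14680064 (.pos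 34 .mm ⟨0, 0, 0, 0, 0, 177791675, 0, 0, 0, ⟨0, 0⟩, 0⟩ 0 0) (.cut .s 10584064 (.cut .v 15728640 (.pos 51 .mm ⟨0, 0, 0, 0, 0, 186259188, 0, 0, 0, ⟨0, 0⟩, 0⟩ 0 0) (.cut .l 7671712 (.pos 52 .mm ⟨0, 0, 0, 0, 0, 208121483, 0, 0, 0, ⟨0, 0⟩, 0⟩ 0 0) (.pos 52 .mm ⟨16061250, 0, 0, 0, 0, 171911835, 0, 0, 0, ⟨0, 0⟩, 0⟩ 0 0))) (.cut .d (-720896) (.pos 35 .mm ⟨0, 0, 0, 0, 0, 228972838, 0, 0, 0, ⟨0, 0⟩, 0⟩ 0 0) (.cut .l 7671712 (.pos 35 .mm ⟨0, 0, 0, 0, 0, 227174653, 0, 0, 0, ⟨0, 0⟩, 0⟩ 0 0) (.pos 35 .mm ⟨11867318, 0, 0, 0, 0, 178249257, 0, 0, 0, ⟨0, 0⟩, 0⟩ 0 0))))) (.cut .v 14680064 (.pos 34 .mm ⟨0, 0, 0, 0, 0, 218813391, 0, 0, 0, ⟨0, 0⟩, 0⟩ 0 0) (.cut .s 10780672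 (.cut .s 10731520 (.pos 35 .mm ⟨0, 0, 0, 0, 0, 239458163, 0, 0, 0, ⟨0, 0⟩, 0⟩ 0 0) (.pos 35 .mm ⟨0, 0, 0, 0, 0, 252010855, 0, 0, 0, ⟨0, 0⟩, 0⟩ 0 0)) (.pos 35 .mm ⟨723483, 0, 0, 0, 0, 271251712, 0, 0, 0, ⟨0, 0⟩, 0⟩ 0 0)))) (.cut .v 14680064 (.pos 34 .mm ⟨0, 0, 0, 0, 0, 160786158, 0, 0, 0, ⟨0, 0⟩, 0⟩ 0 0) (.cut .d (-589824) (.cut .l 7671712 (.cut .s 10682368 (.cut .s 10584064 (.pos 35 .mm ⟨0, 0, 0, 0, 0, 180859186, 0, 0, 0, ⟨0, 0⟩, 0⟩ 0 0) (.pos 35 .mm ⟨0, 0, 0, 0, 0, 207638146, 0, 0, 0, ⟨0, 0⟩, 0⟩ 0 0)) (.cut .s 10780672 (.pos 35 .mm ⟨0, 0, 0, 0, 0, 235596206, 0, 0, 0, ⟨0, 0⟩, 0⟩ 0 0) (.pos 35 .mm ⟨0, 0, 0, 0, 0, 264103063, 0, 0, 0, ⟨0, 0⟩, 0⟩ 0 0))) (.pos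 35 .mm ⟨19870920, 0, 0, 0, 0, 92963079, 0, 0, 0, ⟨0, 0⟩, 0⟩ 0 0)) (.pos 35 .mm ⟨1905918, 0, 0, 0, 0, 170649700, 0, 0, 0, ⟨0, 0⟩, 0⟩ 0 0)))) (.cut .v 14680064 (.pos 34 .mm ⟨0, 0, 0, 0, 0, 150630317, 0, 0, 0, ⟨0, 0⟩, 0⟩ 0 0) (.cut .s 10682368 (.pos 35 .mm ⟨16197233, 0, 0, 0, 0, 130011957, 0, 0, 0, ⟨0, 0⟩, 0⟩ 0 0) (.cut .v 15728640 (.pos 51 .mm ⟨0, 0, 0, 0, 0, 208142429, 0, 0, 0, ⟨0, 0⟩, 0⟩ 0 0) (.pos 52 .mm ⟨37818619, 0, 0, 0, 0, 172702074, 0, 0, 0, ⟨0, 0⟩, 0⟩ 0 0)))))) (.cut .d (-786432) (.cut .d (-917504) (.cut .l 10709823 (.cut .v 14680064 (.cut .s 10682368 (.pos 34 .mm ⟨0, 0, 0, 0, 0, 174247013, 0, 0, 0, ⟨0, 0⟩, 0⟩ 0 0) (.pos 34 .mm ⟨0, 0, 0, 0, 0,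 217966808, 0, 0, 0, ⟨0, 0⟩, 0⟩ 0 0)) (.cut .v 15728640 (.cut .s 10682368 (.cut .s 10584064 (.pos 51 .mm ⟨23551372, 0, 0, 0, 0, 153629445, 0, 0, 0, ⟨0, 0⟩, 0⟩ 0 0) (.pos 51 .mm ⟨33362930, 0, 0, 0, 0, 161216906, 0, 0, 0, ⟨0, 0⟩, 0⟩ 0 0)) (.cut .s 10780672 (.pos 51 .mm ⟨43820212, 0, 0, 0, 0, 169276588, 0, 0, 0, ⟨0, 0⟩, 0⟩ 0 0) (.pos 51 .mm ⟨54859354, 0, 0, 0, 0, 177907277, 0, 0, 0, ⟨0, 0⟩, 0⟩ 0 0))) (.pos 52 .mm ⟨189730261, 0, 0, 0, 0, 0, 0, 0, 0, ⟨0, 0⟩, 0⟩ 0 0))) (.pos 9 .mm ⟨31866328, 0, 0, 0, 0, 0, 0, 0, 0, ⟨0, 0⟩, 0⟩ 0 0)) (.pos 9 .mm ⟨28838897, 0, 0, 0, 0, 92326589, 0, 0, 0, ⟨0, 0⟩, 0⟩ 0 0)) (.pos 9 .mm ⟨4169218, 0, 0, 0, 0, 0, 0, 0, 0, ⟨0, 0⟩, 0⟩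 0 0)))) (.cut .v 12582912 (.pos 8 .mm ⟨0, 0, 0, 0, 0, 0, 0, 0, 0, ⟨0, 0⟩, 0⟩ 0 0) (.pos 9 .mm ⟨0, 0, 0, 0, 0, 0, 0, 0, 0, ⟨0, 0⟩, 0⟩ 0 0))) (.pos 3 .mm ⟨0, 0, 0, 0, 0, 0, 0, 0, 0, ⟨0, 0⟩, 0⟩ 0 0))))))) (.cut .v 268435456 (.cut .v 67108864 (.cut .d (-8388608) (.void 10 ⟨0, 0, 0, 0, 0, 100000, 0, 0, 0, ⟨0, 0⟩, 0⟩ 0 0) (.cut .d (-4194304) (.void 10 ⟨100000, 0, 0, 0, 0, 0, 0, 0, 0, ⟨0, 0⟩, 0⟩ 0 0) (.cut .d (-2097152) (.void 10 ⟨100000, 0, 0, 0, 0, 0, 0, 0, 0, ⟨0, 0⟩, 0⟩ 0 0) (.cut .v 33554432 (.cut .v 25165824 (.cut .v 20971520 (.cut .d (-1048576) (.pos 15 .mp ⟨304128297, 0, 0, 0, 0, 0, 0, 0, 0, ⟨0, 0⟩, 0⟩ 0 0) (.cut .d (-524288) (.cut .s 10682368 (.cut .s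 10584064 (.pos 15 .mp ⟨180462540, 0, 0, 0, 0, 0, 0, 0, 0, ⟨0, 0⟩, 0⟩ 0 0) (.pos 15 .mp ⟨196231506, 0, 0, 0, 0, 0, 0, 0, 0, ⟨0, 0⟩, 0⟩ 0 0)) (.pos 15 .mp ⟨226876658, 0, 0, 0, 0, 0, 0, 0, 0, ⟨0, 0⟩, 0⟩ 0 0)) (.pos 15 .mp ⟨19861845, 0, 0, 0, 0, 0, 0, 0, 0, ⟨0, 0⟩, 0⟩ 0 0))) (.pos 16 .mp ⟨354122937, 0, 0, 0, 0, 0, 0, 0, 0, ⟨0, 0⟩, 0⟩ 0 0)) (.pos 14 .mp ⟨512986400, 0, 0, 0, 0, 0, 0, 0, 0, ⟨0, 0⟩, 0⟩ 0 0)) (.pos 12 .mp ⟨1504439210, 0, 0, 0, 0, 0, 0, 0, 0, ⟨0, 0⟩, 0⟩ 0 0))))) (.void 37 ⟨100000, 0, 0, 0, 0, 0, 0, 0, 0, ⟨0, 0⟩, 0⟩ 0 0)) (.void 50 ⟨60664, 39336, 0, 0, 0, 0, 0, 0, 0, ⟨0, 0⟩, 0⟩ 0 0))) (.cut .v 16777216 (.cut .v 8388608 (.cut .v 4194304 (.cut .v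 2097152 (.cut .v 1048576 (.pos 61 .pm ⟨0, 0, 749524, 0, 0, 0, 0, 0, 7616386, ⟨0, 0⟩, 1983364⟩ 0 0) (.pos 62 .pm ⟨0, 7714837, 0, 0, 0, 0, 0, 0, 0, ⟨0, 0⟩, 0⟩ 0 0)) (.pos 7 .pm ⟨0, 14463071, 0, 0, 0, 0, 0, 0, 0, ⟨0, 0⟩, 0⟩ 0 0)) (.cut .d 5033166 (.pos 5 .pm ⟨0, 0, 0, 0, 0, 0, 0, 0, 0, ⟨0, 0⟩, 0⟩ 0 0) (.cut .d 7549749 (.pos 5 .pm ⟨0, 0, 0, 0, 0, 0, 0, 0, 0, ⟨0, 0⟩, 0⟩ 0 0) (.cut .d 8808040 (.pos 5 .pm ⟨0, 40939130, 0, 0, 0, 0, 0, 0, 0, ⟨0, 0⟩, 0⟩ 0 0) (.cut .d 9437186 (.pos 5 .pm ⟨0, 58373192, 0, 0, 0, 0, 0, 0, 0, ⟨0, 0⟩, 0⟩ 0 0) (.pos 5 .pm ⟨0, 82023245, 0, 0, 0, 0, 0, 0, 0, ⟨0, 0⟩, 0⟩ 0 0)))))) (.cut .d 5033166 (.pos 3 .pm ⟨0, 0, 0, 0, 0, 0, 0, 0, 0, ⟨0,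 0⟩, 0⟩ 0 0) (.cut .d 7549749 (.pos 3 .pm ⟨0, 0, 0, 0, 0, 0, 0, 0, 0, ⟨0, 0⟩, 0⟩ 0 0) (.pos 3 .pm ⟨0, 75008351, 0, 0, 0, 0, 0, 0, 0, ⟨0, 0⟩, 0⟩ 0 0)))) (.cut .v 268435456 (.cut .d 5033166 (.cut .v 67108864 (.cut .v 33554432 (.pos 11 .pp ⟨0, 0, 0, 0, 0, 0, 0, 0, 0, ⟨0, 0⟩, 0⟩ 0 0) (.cut .v 50331648 (.pos 23 .pp ⟨273745374, 0, 0, 0, 0, 0, 0, 0, 0, ⟨0, 0⟩, 0⟩ 0 0) (.pos 24 .pp ⟨669703309, 0, 0, 0, 0, 0, 0, 0, 0, ⟨0, 0⟩, 0⟩ 0 0))) (.cut .v 134217728 (.cut .d 2516583 (.cut .d 1258291 (.cut .v 100663296 (.pos 40 .pp ⟨2484411338, 0, 0, 0, 0, 0, 0, 0, 0, ⟨0, 0⟩, 0⟩ 0 0) (.pos 41 .pp ⟨5551263584, 0, 0, 0, 0, 0, 0, 0, 0, ⟨0, 0⟩, 0⟩ 0 0)) (.cut .v 100663296 (.pos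 40 .pp ⟨1235264495, 0, 0, 0, 0, 0, 0, 0, 0, ⟨0, 0⟩, 0⟩ 0 0) (.pos 41 .pp ⟨2900369579, 707649093, 0, 0, 0, 0, 0, 0, 0, ⟨0, 0⟩, 0⟩ 0 0))) (.pos 38 .pp ⟨0, 0, 0, 0, 0, 0, 0, 0, 0, ⟨0, 0⟩, 0⟩ 0 0)) (.void 39 ⟨40138, 59862, 0, 0, 0, 0, 0, 0, 0, ⟨0, 0⟩, 0⟩ 0 0))) (.pos 36 .pp ⟨0, 62583642, 0, 0, 0, 0, 0, 0, 0, ⟨0, 0⟩, 0⟩ 0 0)) (.void 50 ⟨0, 0, 0, 100000, 0, 0, 0, 0, 0, ⟨0, 0⟩, 0⟩ 0 0)))),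
    by decide +kernel⟩

def covers15 : cell.Covers table row15.1 :=
  ⟨(.cut .d 0 (.cut .v 16777216 (.cut .d (-8388608) (.pos 1 .mm ⟨0, 0, 0, 0, 0, 167772160000, 0, 0, 0, ⟨0, 0⟩, 0⟩ 0 0) (.cut .d (-4194304) (.void 1 ⟨0, 0, 0, 0, 0, 100000, 0, 0, 0, ⟨0, 0⟩, 0⟩ 0 0) (.cut .d (-2097152) (.void 1 ⟨0, 0, 0, 0, 0, 100000, 0, 0, 0, ⟨0, 0⟩, 0⟩ 0 0) (.cut .v 8388608 (.cut .v 4194304 (.void 4 ⟨0, 0, 100000, 0, 0, 0, 0, 0, 0, ⟨0, 0⟩, 0⟩ 0 0) (.cut .d (-1048576) (.pos 5 .mm ⟨0, 0, 61034131, 0, 0, 146925547, 0, 0, 0, ⟨0, 0⟩, 0⟩ 0 0) (.pos 5 .mm ⟨0, 0, 11722450, 0, 0, 126252308, 0, 0, 0, ⟨0, 0⟩, 0⟩ 0 0))) (.cut .d (-1048576) (.cut .v 12582912 (.cut .l 11925068 (.cut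 .s 11108352 (.pos 8 .mm ⟨0, 0, 0, 0, 0, 266118367, 0, 0, 0, ⟨0, 0⟩, 0⟩ 0 0) (.pos 8 .mm ⟨0, 0, 0, 0, 0, 329631769, 0, 0, 0, ⟨0, 0⟩, 0⟩ 0 0)) (.cut .d (-1572864) (.cut .l 14355557 (.void 8 ⟨0, 0, 0, 0, 0, 100000, 0, 0, 0, ⟨0, 0⟩, 0⟩ 0 0) (.cut .v 10485760 (.pos 55 .mm ⟨0, 0, 0, 0, 0, 241508690, 0, 0, 0, ⟨0, 0⟩, 0⟩ 0 0) (.cut .s 11108352 (.cut .d (-1835008) (.pos 56 .mm ⟨0, 0, 0, 0, 0, 280445415, 0, 0, 0, ⟨0, 0⟩, 0⟩ 0 0) (.pos 56 .mm ⟨0, 0, 0, 0, 0, 243274982, 0, 0, 0, ⟨0, 0⟩, 0⟩ 0 0)) (.cut .s 11223040 (.pos 56 .mm ⟨31869149, 0, 0, 0, 0, 269879035, 0, 0, 0, ⟨0, 0⟩, 0⟩ 0 0) (.pos 56 .mm ⟨41432136, 0, 0, 0, 0, 292897438, 0, 0, 0, ⟨0, 0⟩, 0⟩ 0 0))))) (.cut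 .v 10485760 (.pos 55 .mm ⟨0, 0, 0, 0, 0, 192363049, 0, 0, 0, ⟨0, 0⟩, 0⟩ 0 0) (.cut .s 11108352 (.cut .s 10993664 (.pos 56 .mm ⟨0, 0, 0, 0, 0, 203791924, 0, 0, 0, ⟨0, 0⟩, 0⟩ 0 0) (.pos 56 .mm ⟨0, 0, 0, 0, 0, 227805138, 0, 0, 0, ⟨0, 0⟩, 0⟩ 0 0)) (.cut .l 14355557 (.pos 56 .mm ⟨0, 0, 0, 0, 0, 284172066, 0, 0, 0, ⟨0, 0⟩, 0⟩ 0 0) (.pos 56 .mm ⟨0, 0, 0, 0, 0, 253012678, 0, 0, 0, ⟨0, 0⟩, 0⟩ 0 0)))))) (.cut .l 11925068 (.cut .d (-1572864) (.void 9 ⟨0, 0, 0, 0, 0, 100000, 0, 0, 0, ⟨0, 0⟩, 0⟩ 0 0) (.cut .d (-1310720) (.void 9 ⟨0, 0, 0, 0, 0, 100000, 0, 0, 0, ⟨0, 0⟩, 0⟩ 0 0) (.cut .l 9494579 (.void 9 ⟨0, 0, 0, 0, 0, 100000, 0, 0, 0, ⟨0, 0⟩, 0⟩ 0 0) (.cut .l 10709823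 (.pos 9 .mm ⟨31893749, 0, 0, 0, 0, 405197628, 0, 0, 0, ⟨0, 0⟩, 0⟩ 0 0) (.cut .v 14680064 (.cut .s 11108352 (.cut .s 10993664 (.pos 34 .mm ⟨11352473, 0, 0, 0, 0, 254795912, 0, 0, 0, ⟨0, 0⟩, 0⟩ 0 0) (.pos 34 .mm ⟨19148528, 0, 0, 0, 0, 276914716, 0, 0, 0, ⟨0, 0⟩, 0⟩ 0 0)) (.pos 34 .mm ⟨28122188, 0, 0, 0, 0, 323149344, 0, 0, 0, ⟨0, 0⟩, 0⟩ 0 0)) (.pos 35 .mm ⟨250981607, 0, 0, 0, 0, 37597835, 0, 0, 0, ⟨0, 0⟩, 0⟩ 0 0)))))) (.cut .d (-1572864) (.cut .l 14355557 (.void 9 ⟨0, 0, 0, 0, 0, 100000, 0, 0, 0, ⟨0, 0⟩, 0⟩ 0 0) (.cut .v 14680064 (.cut .v 13631488 (.cut .s 11108352 (.cut .d (-1835008) (.pos 53 .mm ⟨199571950, 0, 0, 0, 0, 59120751, 0, 0, 0, ⟨0, 0⟩, 0⟩ 0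 0) (.cut .s 10993664 (.cut .l 15570802 (.pos 53 .mm ⟨44980469, 0, 0, 0, 0, 210806143, 0, 0, 0, ⟨0, 0⟩, 0⟩ 0 0) (.pos 53 .mm ⟨99648059, 0, 0, 0, 0, 119927731, 0, 0, 0, ⟨0, 0⟩, 0⟩ 0 0)) (.pos 53 .mm ⟨140923168, 0, 0, 0, 0, 111607122, 0, 0, 0, ⟨0, 0⟩, 0⟩ 0 0))) (.cut .s 11223040 (.pos 53 .mm ⟨204376921, 0, 0, 0, 0, 81436278, 0, 0, 0, ⟨0, 0⟩, 0⟩ 0 0) (.pos 53 .mm ⟨231723403, 0, 0, 0, 0, 82881647, 0, 0, 0, ⟨0, 0⟩, 0⟩ 0 0))) (.pos 54 .mm ⟨298946386, 0, 0, 0, 0, 0, 0, 0, 0, ⟨0, 0⟩, 0⟩ 0 0)) (.pos 35 .mm ⟨337416887, 0, 0, 0, 0, 0, 0, 0, 0, ⟨0, 0⟩, 0⟩ 0 0))) (.cut .v 14680064 (.cut .s 11108352 (.cut .l 14355557 (.cut .d (-1310720) (.cut .v 13631488 (.cut .s 10993664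 (.pos 53 .mm ⟨0, 0, 0, 0, 0, 247550841, 0, 0, 0, ⟨0, 0⟩, 0⟩ 0 0) (.pos 53 .mm ⟨24119090, 0, 0, 0, 0, 251645873, 0, 0, 0, ⟨0, 0⟩, 0⟩ 0 0)) (.cut .s 10993664 (.pos 54 .mm ⟨124590039, 0, 0, 0, 0, 121991757, 0, 0, 0, ⟨0, 0⟩, 0⟩ 0 0) (.pos 54 .mm ⟨144625067, 0, 0, 0, 0, 129175287, 0, 0, 0, ⟨0, 0⟩, 0⟩ 0 0))) (.cut .v 13631488 (.pos 53 .mm ⟨0, 0, 0, 0, 0, 233278709, 0, 0, 0, ⟨0, 0⟩, 0⟩ 0 0) (.cut .s 10993664 (.pos 54 .mm ⟨58056897, 0, 0, 0, 0, 176365276, 0, 0, 0, ⟨0, 0⟩, 0⟩ 0 0) (.pos 54 .mm ⟨71954209, 0, 0, 0, 0, 188569610, 0, 0, 0, ⟨0, 0⟩, 0⟩ 0 0)))) (.cut .s 10993664 (.pos 34 .mm ⟨76539580, 0, 0, 0, 0, 123900029, 0, 0, 0, ⟨0, 0⟩, 0⟩ 0 0) (.pos 34 .mm ⟨93141883,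 0, 0, 0, 0, 128969733, 0, 0, 0, ⟨0, 0⟩, 0⟩ 0 0))) (.cut .d (-1310720) (.cut .v 13631488 (.cut .l 14355557 (.pos 53 .mm ⟨33430181, 0, 0, 0, 0, 294721638, 0, 0, 0, ⟨0, 0⟩, 0⟩ 0 0) (.pos 53 .mm ⟨110469455, 0, 0, 0, 0, 160220427, 0, 0, 0, ⟨0, 0⟩, 0⟩ 0 0)) (.pos 54 .mm ⟨235925803, 0, 0, 0, 0, 77795658, 0, 0, 0, ⟨0, 0⟩, 0⟩ 0 0)) (.cut .v 13631488 (.cut .s 11223040 (.pos 53 .mm ⟨0, 0, 0, 0, 0, 273398708, 0, 0, 0, ⟨0, 0⟩, 0⟩ 0 0) (.pos 53 .mm ⟨0, 0, 0, 0, 0, 303707307, 0, 0, 0, ⟨0, 0⟩, 0⟩ 0 0)) (.pos 54 .mm ⟨112920243, 0, 0, 0, 0, 180078078, 0, 0, 0, ⟨0, 0⟩, 0⟩ 0 0)))) (.pos 35 .mm ⟨279957714, 0, 0, 0, 0, 0, 0, 0, 0, ⟨0, 0⟩, 0⟩ 0 0))))) (.cut .l 11925068 (.cut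 .d (-524288) (.cut .v 12582912 (.cut .l 9494579 (.cut .d (-786432) (.pos 8 .mm ⟨0, 0, 0, 0, 0, 276630590, 0, 0, 0, ⟨0, 0⟩, 0⟩ 0 0) (.cut .s 11108352 (.pos 8 .mm ⟨0, 0, 0, 0, 0, 198108033, 0, 0, 0, ⟨0, 0⟩, 0⟩ 0 0) (.pos 8 .mm ⟨0, 0, 0, 0, 0, 245422670, 0, 0, 0, ⟨0, 0⟩, 0⟩ 0 0))) (.cut .s 11108352 (.pos 8 .mm ⟨0, 0, 0, 0, 0, 180626543, 0, 0, 0, ⟨0, 0⟩, 0⟩ 0 0) (.pos 8 .mm ⟨0, 0, 0, 0, 0, 224574439, 0, 0, 0, ⟨0, 0⟩, 0⟩ 0 0))) (.cut .l 9494579 (.cut .d (-786432) (.cut .d (-917504) (.void 9 ⟨0, 0, 0, 0, 0, 100000, 0, 0, 0, ⟨0, 0⟩, 0⟩ 0 0) (.cut .l 8279334 (.void 9 ⟨0, 0, 0, 0, 0, 100000, 0, 0, 0, ⟨0, 0⟩, 0⟩ 0 0) (.cut .s 11108352 (.cut .v 14680064 (.pos 34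 .mm ⟨0, 0, 0, 0, 0, 274553320, 0, 0, 0, ⟨0, 0⟩, 0⟩ 0 0) (.cut .v 15728640 (.cut .s 10993664 (.pos 51 .mm ⟨10223667, 0, 0, 0, 0, 270320974, 0, 0, 0, ⟨0, 0⟩, 0⟩ 0 0) (.pos 51 .mm ⟨19321696, 0, 0, 0, 0, 292085519, 0, 0, 0, ⟨0, 0⟩, 0⟩ 0 0)) (.pos 52 .mm ⟨184269289, 0, 0, 0, 0, 110027558, 0, 0, 0, ⟨0, 0⟩, 0⟩ 0 0))) (.cut .s 11223040 (.pos 9 .mm ⟨23292999, 0, 0, 0, 0, 351067416, 0, 0, 0, ⟨0, 0⟩, 0⟩ 0 0) (.pos 9 .mm ⟨34397910, 0, 0, 0, 0, 377866567, 0, 0, 0, ⟨0, 0⟩, 0⟩ 0 0))))) (.cut .s 11108352 (.cut .v 14680064 (.cut .s 10993664 (.pos 34 .mm ⟨0, 0, 0, 0, 0, 234016768, 0, 0, 0, ⟨0, 0⟩, 0⟩ 0 0) (.pos 34 .mm ⟨0, 0, 0, 0, 0, 261328224, 0, 0, 0, ⟨0, 0⟩, 0⟩ 0 0))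 (.cut .l 8279334 (.cut .d (-655360) (.cut .s 10993664 (.pos 35 .mm ⟨7885744, 0, 0, 0, 0, 296986202, 0, 0, 0, ⟨0, 0⟩, 0⟩ 0 0) (.pos 35 .mm ⟨17784604, 0, 0, 0, 0, 319601234, 0, 0, 0, ⟨0, 0⟩, 0⟩ 0 0)) (.cut .s 10993664 (.cut .l 7671712 (.cut .d (-589824) (.pos 35 .mm ⟨6515822, 0, 0, 0, 0, 294445212, 0, 0, 0, ⟨0, 0⟩, 0⟩ 0 0) (.pos 35 .mm ⟨0, 0, 0, 0, 0, 281316698, 0, 0, 0, ⟨0, 0⟩, 0⟩ 0 0)) (.pos 35 .mm ⟨30992309, 0, 0, 0, 0, 195217433, 0, 0, 0, ⟨0, 0⟩, 0⟩ 0 0)) (.cut .v 15728640 (.pos 51 .mm ⟨0, 0, 0, 0, 0, 291286637, 0, 0, 0, ⟨0, 0⟩, 0⟩ 0 0) (.cut .v 16252928 (.pos 75 .mm ⟨0, 0, 0, 0, 0, 306205171, 0, 0, 0, ⟨0, 0⟩, 0⟩ 0 0) (.cut .s 11051008 (.pos 76 .mm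 ⟨41015942, 0, 0, 0, 0, 262399386, 0, 0, 0, ⟨0, 0⟩, 0⟩ 0 0) (.pos 76 .mm ⟨44759706, 0, 0, 0, 0, 274458476, 0, 0, 0, ⟨0, 0⟩, 0⟩ 0 0)))))) (.cut .d (-655360) (.cut .v 15728640 (.cut .s 10993664 (.pos 51 .mm ⟨0, 0, 0, 0, 0, 261090443, 0, 0, 0, ⟨0, 0⟩, 0⟩ 0 0) (.pos 51 .mm ⟨0, 0, 0, 0, 0, 293059109, 0, 0, 0, ⟨0, 0⟩, 0⟩ 0 0)) (.pos 52 .mm ⟨66659669, 0, 0, 0, 0, 205495650, 0, 0, 0, ⟨0, 0⟩, 0⟩ 0 0)) (.pos 35 .mm ⟨28253046, 0, 0, 0, 0, 0, 0, 0, 0, ⟨0, 0⟩, 0⟩ 0 0)))) (.cut .v 14680064 (.cut .l 8279334 (.pos 34 .mm ⟨0, 0, 0, 0, 0, 321302697, 0, 0, 0, ⟨0, 0⟩, 0⟩ 0 0) (.pos 34 .mm ⟨0, 0, 0, 0, 0, 287516136, 0, 0, 0, ⟨0, 0⟩, 0⟩ 0 0)) (.cut .l 8279334 (.cut .d (-655360)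 (.pos 35 .mm ⟨28253046, 0, 0, 0, 0, 374403551, 0, 0, 0, ⟨0, 0⟩, 0⟩ 0 0) (.cut .v 15728640 (.pos 51 .mm ⟨0, 0, 0, 0, 0, 338644290, 0, 0, 0, ⟨0, 0⟩, 0⟩ 0 0) (.cut .s 11223040 (.cut .v 16252928 (.pos 75 .mm ⟨0, 0, 0, 0, 0, 339959226, 0, 0, 0, ⟨0, 0⟩, 0⟩ 0 0) (.pos 76 .mm ⟨66934877, 0, 0, 0, 0, 272080689, 0, 0, 0, ⟨0, 0⟩, 0⟩ 0 0)) (.cut .v 16252928 (.pos 75 .mm ⟨3383613, 0, 0, 0, 0, 371960301, 0, 0, 0, ⟨0, 0⟩, 0⟩ 0 0) (.pos 76 .mm ⟨75505608, 0, 0, 0, 0, 298224178, 0, 0, 0, ⟨0, 0⟩, 0⟩ 0 0))))) (.cut .d (-655360) (.cut .v 15728640 (.pos 51 .mm ⟨0, 0, 0, 0, 0, 340137107, 0, 0, 0, ⟨0, 0⟩, 0⟩ 0 0) (.pos 52 .mm ⟨96830374, 0, 0, 0, 0, 236877224, 0, 0, 0, ⟨0, 0⟩,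 0⟩ 0 0)) (.pos 35 .mm ⟨51088364, 0, 0, 0, 0, 163675739, 0, 0, 0, ⟨0, 0⟩, 0⟩ 0 0)))))) (.cut .d (-786432) (.cut .v 14680064 (.cut .s 11108352 (.cut .s 10993664 (.pos 34 .mm ⟨0, 0, 0, 0, 0, 237436554, 0, 0, 0, ⟨0, 0⟩, 0⟩ 0 0) (.pos 34 .mm ⟨0, 0, 0, 0, 0, 266402904, 0, 0, 0, ⟨0, 0⟩, 0⟩ 0 0)) (.cut .l 10709823 (.pos 34 .mm ⟨0, 0, 0, 0, 0, 328225234, 0, 0, 0, ⟨0, 0⟩, 0⟩ 0 0) (.pos 34 .mm ⟨0, 0, 0, 0, 0, 296149476, 0, 0, 0, ⟨0, 0⟩, 0⟩ 0 0))) (.cut .v 15728640 (.cut .s 11108352 (.cut .d (-917504) (.cut .s 10993664 (.pos 51 .mm ⟨75554159, 0, 0, 0, 0, 179788437, 0, 0, 0, ⟨0, 0⟩, 0⟩ 0 0) (.pos 51 .mm ⟨91380637, 0, 0, 0, 0, 192240883, 0, 0, 0, ⟨0, 0⟩, 0⟩ 0 0)) (.pos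 51 .mm ⟨50161888, 0, 0, 0, 0, 200369838, 0, 0, 0, ⟨0, 0⟩, 0⟩ 0 0)) (.cut .d (-917504) (.pos 51 .mm ⟨161529596, 0, 0, 0, 0, 161834475, 0, 0, 0, ⟨0, 0⟩, 0⟩ 0 0) (.pos 51 .mm ⟨78596515, 0, 0, 0, 0, 230230053, 0, 0, 0, ⟨0, 0⟩, 0⟩ 0 0))) (.pos 52 .mm ⟨275176982, 0, 0, 0, 0, 0, 0, 0, 0, ⟨0, 0⟩, 0⟩ 0 0))) (.pos 9 .mm ⟨46613601, 0, 0, 0, 0, 74348203, 0, 0, 0, ⟨0, 0⟩, 0⟩ 0 0)))) (.cut .v 12582912 (.pos 8 .mm ⟨0, 0, 0, 0, 0, 137434869, 0, 0, 0, ⟨0, 0⟩, 0⟩ 0 0) (.cut .v 14680064 (.pos 34 .mm ⟨0, 0, 0, 0, 0, 187789181, 0, 0, 0, ⟨0, 0⟩, 0⟩ 0 0) (.cut .s 11108352 (.pos 35 .mm ⟨24101792, 0, 0, 0, 0, 0, 0, 0, 0, ⟨0, 0⟩, 0⟩ 0 0) (.cut .v 15728640 (.pos 51 .mm ⟨0, 0, 0,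 0, 0, 274571845, 0, 0, 0, ⟨0, 0⟩, 0⟩ 0 0) (.pos 52 .mm ⟨49568439, 0, 0, 0, 0, 229519564, 0, 0, 0, ⟨0, 0⟩, 0⟩ 0 0)))))) (.pos 3 .mm ⟨20181681, 0, 0, 0, 0, 0, 0, 0, 0, ⟨0, 0⟩, 0⟩ 0 0))))))) (.cut .v 268435456 (.cut .v 67108864 (.cut .d (-8388608) (.void 10 ⟨0, 0, 0, 0, 0, 100000, 0, 0, 0, ⟨0, 0⟩, 0⟩ 0 0) (.cut .d (-4194304) (.void 10 ⟨100000, 0, 0, 0, 0, 0, 0, 0, 0, ⟨0, 0⟩, 0⟩ 0 0) (.cut .d (-2097152) (.void 10 ⟨100000, 0, 0, 0, 0, 0, 0, 0, 0, ⟨0, 0⟩, 0⟩ 0 0) (.cut .v 33554432 (.cut .v 25165824 (.cut .d (-1048576) (.cut .s 11108352 (.pos 13 .mp ⟨440577367, 0, 0, 0, 0, 0, 0, 0, 0, ⟨0, 0⟩, 0⟩ 0 0) (.pos 13 .mp ⟨538830395, 0, 0, 0, 0, 0, 0, 0, 0, ⟨0, 0⟩, 0⟩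 0 0)) (.cut .d (-524288) (.cut .s 11108352 (.pos 13 .mp ⟨289592075, 0, 0, 0, 0, 0, 0, 0, 0, ⟨0, 0⟩, 0⟩ 0 0) (.pos 13 .mp ⟨414982489, 0, 0, 0, 0, 0, 0, 0, 0, ⟨0, 0⟩, 0⟩ 0 0)) (.pos 13 .mp ⟨211839001, 0, 0, 0, 0, 0, 0, 0, 0, ⟨0, 0⟩, 0⟩ 0 0))) (.pos 14 .mp ⟨734314192, 0, 0, 0, 0, 0, 0, 0, 0, ⟨0, 0⟩, 0⟩ 0 0)) (.cut .v 50331648 (.pos 23 .mp ⟨1387583996, 0, 0, 0, 0, 0, 0, 0, 0, ⟨0, 0⟩, 0⟩ 0 0) (.void 24 ⟨100000, 0, 0, 0, 0, 0, 0, 0, 0, ⟨0, 0⟩, 0⟩ 0 0)))))) (.void 37 ⟨100000, 0, 0, 0, 0, 0, 0, 0, 0, ⟨0, 0⟩, 0⟩ 0 0)) (.void 50 ⟨59674, 40326, 0, 0, 0, 0, 0, 0, 0, ⟨0, 0⟩, 0⟩ 0 0))) (.cut .v 16777216 (.cut .v 8388608 (.cut .v 4194304 (.cut .v 2097152 (.cut .v 1048576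 (.cut .v 524288 (.pos 81 .pm ⟨0, 0, 1274369, 0, 0, 0, 0, 0, 7665432, ⟨0, 0⟩, 1402450⟩ 0 0) (.pos 82 .pm ⟨0, 4790068, 0, 0, 0, 0, 0, 0, 0, ⟨0, 0⟩, 0⟩ 0 0)) (.pos 62 .pm ⟨0, 10725879, 0, 0, 0, 0, 0, 0, 0, ⟨0, 0⟩, 0⟩ 0 0)) (.cut .d 4548041 (.pos 7 .pm ⟨0, 0, 15970404, 0, 0, 0, 0, 0, 0, ⟨0, 0⟩, 0⟩ 0 0) (.pos 7 .pm ⟨0, 45085893, 0, 0, 0, 0, 0, 0, 0, ⟨0, 0⟩, 0⟩ 0 0))) (.cut .d 4548041 (.pos 5 .pm ⟨0, 0, 0, 0, 0, 0, 0, 0, 0, ⟨0, 0⟩, 0⟩ 0 0) (.cut .d 6822062 (.pos 5 .pm ⟨0, 0, 0, 0, 0, 0, 0, 0, 0, ⟨0, 0⟩, 0⟩ 0 0) (.cut .s 11108352 (.pos 5 .pm ⟨0, 67725255, 0, 0, 0, 0, 0, 0, 0, ⟨0, 0⟩, 0⟩ 0 0) (.pos 5 .pm ⟨0, 92297201, 0, 0, 0, 0, 0, 0, 0, ⟨0, 0⟩, 0⟩ 0 0)))))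 (.cut .d 4548041 (.pos 3 .pm ⟨0, 0, 0, 0, 0, 0, 0, 0, 0, ⟨0, 0⟩, 0⟩ 0 0) (.pos 3 .pm ⟨0, 73934997, 0, 0, 0, 0, 0, 0, 0, ⟨0, 0⟩, 0⟩ 0 0))) (.cut .v 268435456 (.cut .d 4548041 (.cut .v 67108864 (.cut .v 33554432 (.pos 11 .pp ⟨0, 0, 0, 0, 0, 0, 0, 0, 0, ⟨0, 0⟩, 0⟩ 0 0) (.cut .v 50331648 (.pos 23 .pp ⟨383091471, 0, 0, 0, 0, 0, 0, 0, 0, ⟨0, 0⟩, 0⟩ 0 0) (.cut .d 2274020 (.pos 24 .pp ⟨1221102382, 0, 0, 0, 0, 0, 0, 0, 0, ⟨0, 0⟩, 0⟩ 0 0) (.pos 24 .pp ⟨0, 0, 0, 0, 0, 0, 0, 0, 0, ⟨0, 0⟩, 0⟩ 0 0)))) (.cut .v 134217728 (.cut .d 2274020 (.cut .d 1137010 (.cut .d 568505 (.pos 38 .pp ⟨8085617317, 0, 0, 0, 0, 0, 0, 0, 0, ⟨0, 0⟩, 0⟩ 0 0) (.cut .v 100663296 (.pos 40 .pp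 ⟨2998010932, 0, 0, 0, 0, 0, 0, 0, 0, ⟨0, 0⟩, 0⟩ 0 0) (.cut .v 117440512 (.pos 73 .pp ⟨5377198412, 0, 0, 0, 0, 0, 0, 0, 0, ⟨0, 0⟩, 0⟩ 0 0) (.cut .v 125829120 (.cut .d 852757 (.void 85 ⟨100000, 0, 0, 0, 0, 0, 0, 0, 0, ⟨0, 0⟩, 0⟩ 0 0) (.cut .d 994883 (.pos 85 .pp ⟨10776816646, 0, 0, 0, 0, 0, 0, 0, 0, ⟨0, 0⟩, 0⟩ 0 0) (.cut .v 121634816 (.pos 87 .pp ⟨5582911542, 0, 0, 0, 0, 0, 0, 0, 0, ⟨0, 0⟩, 0⟩ 0 0) (.pos 88 .pp ⟨6272665690, 991476417, 0, 0, 0, 0, 0, 0, 0, ⟨0, 0⟩, 0⟩ 0 0)))) (.void 86 ⟨41318, 58682, 0, 0, 0, 0, 0, 0, 0, ⟨0, 0⟩, 0⟩ 0 0))))) (.cut .v 100663296 (.pos 40 .pp ⟨1739344440, 0, 0, 0, 0, 0, 0, 0, 0, ⟨0, 0⟩, 0⟩ 0 0) (.cut .v 117440512 (.pos 73 .pp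 ⟨3568657057, 0, 0, 0, 0, 0, 0, 0, 0, ⟨0, 0⟩, 0⟩ 0 0) (.pos 74 .pp ⟨4957486779, 1060572141, 0, 0, 0, 0, 0, 0, 0, ⟨0, 0⟩, 0⟩ 0 0)))) (.pos 38 .pp ⟨0, 0, 0, 0, 0, 0, 0, 0, 0, ⟨0, 0⟩, 0⟩ 0 0)) (.void 39 ⟨39452, 60548, 0, 0, 0, 0, 0, 0, 0, ⟨0, 0⟩, 0⟩ 0 0))) (.pos 36 .pp ⟨0, 83665241, 0, 0, 0, 0, 0, 0, 0, ⟨0, 0⟩, 0⟩ 0 0)) (.void 50 ⟨0, 0, 0, 100000, 0, 0, 0, 0, 0, ⟨0, 0⟩, 0⟩ 0 0)))),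
    by decide +kernel⟩

def covers16 : cell.Covers table row16.1 :=
  ⟨(.cut .d 0 (.cut .v 16777216 (.cut .d (-8388608) (.void 1 ⟨0, 0, 0, 0, 0, 100000, 0, 0, 0, ⟨0, 0⟩, 0⟩ 0 0) (.cut .d (-4194304) (.void 1 ⟨0, 0, 2296, 0, 0, 97616, 0, 0, 0, ⟨0, 0⟩, 0⟩ 0 0) (.cut .d (-2097152) (.void 1 ⟨0, 0, 0, 0, 0, 100000, 0, 0, 0, ⟨0, 0⟩, 0⟩ 0 0) (.cut .v 8388608 (.cut .v 4194304 (.void 4 ⟨0, 0, 100000, 0, 0, 0, 0, 0, 0, ⟨0, 0⟩, 0⟩ 0 0) (.cut .d (-1048576) (.void 5 ⟨0, 0, 100000, 0, 0, 0, 0, 0, 0, ⟨0, 0⟩, 0⟩ 0 0) (.pos 5 .mm ⟨0, 0, 21529206, 0, 0, 183977124, 0, 0, 0, ⟨0, 0⟩, 0⟩ 0 0))) (.cut .d (-1048576) (.cut .l 11925068 (.cut .v 12582912 (.pos 8 .mm ⟨0, 0, 0, 0,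 0, 449716712, 0, 0, 0, ⟨0, 0⟩, 0⟩ 0 0) (.pos 9 .mm ⟨61063247, 0, 0, 0, 0, 563831857, 0, 0, 0, ⟨0, 0⟩, 0⟩ 0 0)) (.cut .d (-1572864) (.cut .v 12582912 (.pos 8 .mm ⟨38846871, 0, 0, 0, 0, 373638356, 0, 0, 0, ⟨0, 0⟩, 0⟩ 0 0) (.pos 9 .mm ⟨425763616, 0, 0, 0, 0, 0, 0, 0, 0, ⟨0, 0⟩, 0⟩ 0 0)) (.cut .v 12582912 (.cut .l 14355557 (.pos 8 .mm ⟨0, 0, 0, 0, 0, 345036479, 0, 0, 0, ⟨0, 0⟩, 0⟩ 0 0) (.pos 8 .mm ⟨0, 0, 0, 0, 0, 279486953, 0, 0, 0, ⟨0, 0⟩, 0⟩ 0 0)) (.cut .s 11534336 (.cut .v 14680064 (.cut .d (-1310720) (.pos 34 .mm ⟨191099435, 0, 0, 0, 0, 144056847, 0, 0, 0, ⟨0, 0⟩, 0⟩ 0 0) (.pos 34 .mm ⟨92367261, 0, 0, 0, 0, 228314953, 0, 0, 0, ⟨0, 0⟩, 0⟩ 0 0)) (.pos 35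 .mm ⟨427140204, 0, 0, 0, 0, 0, 0, 0, 0, ⟨0, 0⟩, 0⟩ 0 0)) (.pos 9 .mm ⟨219605567, 0, 0, 0, 0, 206960112, 0, 0, 0, ⟨0, 0⟩, 0⟩ 0 0))))) (.cut .l 11925068 (.cut .d (-524288) (.cut .v 12582912 (.cut .l 9494579 (.cut .s 11534336 (.pos 8 .mm ⟨0, 0, 0, 0, 0, 320274563, 0, 0, 0, ⟨0, 0⟩, 0⟩ 0 0) (.pos 8 .mm ⟨0, 0, 0, 0, 0, 387942725, 0, 0, 0, ⟨0, 0⟩, 0⟩ 0 0)) (.cut .d (-786432) (.pos 8 .mm ⟨0, 0, 0, 0, 0, 312723945, 0, 0, 0, ⟨0, 0⟩, 0⟩ 0 0) (.pos 8 .mm ⟨0, 0, 0, 0, 0, 233433086, 0, 0, 0, ⟨0, 0⟩, 0⟩ 0 0))) (.cut .l 9494579 (.cut .d (-786432) (.void 9 ⟨0, 0, 0, 0, 0, 100000, 0, 0, 0, ⟨0, 0⟩, 0⟩ 0 0) (.cut .s 11534336 (.cut .v 14680064 (.cut .l 8279334 (.pos 34 .mm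 ⟨0, 0, 0, 0, 0, 396896238, 0, 0, 0, ⟨0, 0⟩, 0⟩ 0 0) (.pos 34 .mm ⟨0, 0, 0, 0, 0, 349201155, 0, 0, 0, ⟨0, 0⟩, 0⟩ 0 0)) (.cut .l 8279334 (.cut .s 11436032 (.cut .s 11386880 (.pos 35 .mm ⟨9949132, 0, 0, 0, 0, 417405321, 0, 0, 0, ⟨0, 0⟩, 0⟩ 0 0) (.pos 35 .mm ⟨13046556, 0, 0, 0, 0, 435280054, 0, 0, 0, ⟨0, 0⟩, 0⟩ 0 0)) (.pos 35 .mm ⟨16224216, 0, 0, 0, 0, 467954711, 0, 0, 0, ⟨0, 0⟩, 0⟩ 0 0)) (.cut .v 15728640 (.pos 51 .mm ⟨0, 0, 0, 0, 0, 391517308, 0, 0, 0, ⟨0, 0⟩, 0⟩ 0 0) (.pos 52 .mm ⟨134686537, 0, 0, 0, 0, 226188897, 0, 0, 0, ⟨0, 0⟩, 0⟩ 0 0)))) (.cut .l 8279334 (.pos 9 .mm ⟨13370685, 0, 0, 0, 0, 548515550, 0, 0, 0, ⟨0, 0⟩, 0⟩ 0 0) (.cut .d (-655360) (.pos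 9 .mm ⟨18999656, 0, 0, 0, 0, 520349881, 0, 0, 0, ⟨0, 0⟩, 0⟩ 0 0) (.pos 9 .mm ⟨6978591, 0, 0, 0, 0, 445461533, 0, 0, 0, ⟨0, 0⟩, 0⟩ 0 0))))) (.cut .d (-786432) (.cut .v 14680064 (.cut .l 10709823 (.pos 34 .mm ⟨0, 0, 0, 0, 0, 407632351, 0, 0, 0, ⟨0, 0⟩, 0⟩ 0 0) (.pos 34 .mm ⟨0, 0, 0, 0, 0, 353475851, 0, 0, 0, ⟨0, 0⟩, 0⟩ 0 0)) (.pos 35 .mm ⟨182169963, 0, 0, 0, 0, 205507557, 0, 0, 0, ⟨0, 0⟩, 0⟩ 0 0)) (.pos 9 .mm ⟨46591855, 0, 0, 0, 0, 229543382, 0, 0, 0, ⟨0, 0⟩, 0⟩ 0 0)))) (.cut .v 12582912 (.pos 8 .mm ⟨0, 0, 0, 0, 0, 212427744, 0, 0, 0, ⟨0, 0⟩, 0⟩ 0 0) (.cut .d (-262144) (.cut .l 9494579 (.cut .d (-393216) (.cut .v 14680064 (.pos 34 .mm ⟨0, 0, 0, 0, 0, 336832353,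 0, 0, 0, ⟨0, 0⟩, 0⟩ 0 0) (.cut .l 8279334 (.cut .l 7671712 (.cut .s 11534336 (.cut .d (-458752) (.cut .s 11436032 (.pos 35 .mm ⟨6797491, 0, 0, 0, 0, 416155478, 0, 0, 0, ⟨0, 0⟩, 0⟩ 0 0) (.pos 35 .mm ⟨15194914, 0, 0, 0, 0, 449490896, 0, 0, 0, ⟨0, 0⟩, 0⟩ 0 0)) (.pos 35 .mm ⟨42193222, 0, 0, 0, 0, 0, 0, 0, 0, ⟨0, 0⟩, 0⟩ 0 0)) (.cut .d (-458752) (.pos 35 .mm ⟨23036875, 0, 0, 0, 0, 501439953, 0, 0, 0, ⟨0, 0⟩, 0⟩ 0 0) (.pos 35 .mm ⟨16893033, 0, 0, 0, 0, 451428093, 0, 0, 0, ⟨0, 0⟩, 0⟩ 0 0))) (.pos 35 .mm ⟨32483605, 0, 0, 0, 0, 294901334, 0, 0, 0, ⟨0, 0⟩, 0⟩ 0 0)) (.pos 35 .mm ⟨37099277, 0, 0, 0, 0, 0, 0, 0, 0, ⟨0, 0⟩, 0⟩ 0 0))) (.pos 9 .mm ⟨0, 0, 0, 0, 0, 0, 0,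 0, 0, ⟨0, 0⟩, 0⟩ 0 0)) (.pos 9 .mm ⟨0, 0, 0, 0, 0, 0, 0, 0, 0, ⟨0, 0⟩, 0⟩ 0 0)) (.pos 9 .mm ⟨0, 0, 0, 0, 0, 0, 0, 0, 0, ⟨0, 0⟩, 0⟩ 0 0)))) (.pos 3 .mm ⟨20158076, 0, 0, 0, 0, 119407902, 0, 0, 0, ⟨0, 0⟩, 0⟩ 0 0))))))) (.cut .v 268435456 (.cut .v 67108864 (.cut .d (-8388608) (.void 10 ⟨100000, 0, 0, 0, 0, 0, 0, 0, 0, ⟨0, 0⟩, 0⟩ 0 0) (.cut .d (-4194304) (.void 10 ⟨100000, 0, 0, 0, 0, 0, 0, 0, 0, ⟨0, 0⟩, 0⟩ 0 0) (.cut .d (-2097152) (.void 10 ⟨100000, 0, 0, 0, 0, 0, 0, 0, 0, ⟨0, 0⟩, 0⟩ 0 0) (.cut .v 33554432 (.cut .d (-1048576) (.pos 11 .mp ⟨988242625, 0, 0, 0, 0, 0, 0, 0, 0, ⟨0, 0⟩, 0⟩ 0 0) (.cut .v 25165824 (.cut .d (-524288) (.pos 13 .mp ⟨512775228, 0, 0,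 0, 0, 0, 0, 0, 0, ⟨0, 0⟩, 0⟩ 0 0) (.cut .s 11534336 (.pos 13 .mp ⟨298610864, 0, 0, 0, 0, 0, 0, 0, 0, ⟨0, 0⟩, 0⟩ 0 0) (.pos 13 .mp ⟨341546666, 0, 0, 0, 0, 0, 0, 0, 0, ⟨0, 0⟩, 0⟩ 0 0))) (.pos 14 .mp ⟨829362768, 0, 0, 0, 0, 0, 0, 0, 0, ⟨0, 0⟩, 0⟩ 0 0))) (.cut .v 50331648 (.pos 23 .mp ⟨1835606380, 0, 0, 0, 0, 0, 0, 0, 0, ⟨0, 0⟩, 0⟩ 0 0) (.void 24 ⟨100000, 0, 0, 0, 0, 0, 0, 0, 0, ⟨0, 0⟩, 0⟩ 0 0)))))) (.void 37 ⟨100000, 0, 0, 0, 0, 0, 0, 0, 0, ⟨0, 0⟩, 0⟩ 0 0)) (.void 50 ⟨73843, 24816, 0, 1341, 0, 0, 0, 0, 0, ⟨0, 0⟩, 0⟩ 0 0))) (.cut .v 16777216 (.cut .v 8388608 (.cut .v 4194304 (.cut .v 2097152 (.cut .v 1048576 (.cut .v 524288 (.pos 81 .pm ⟨0, 1271450, 0, 0,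 0, 0, 0, 0, 0, ⟨0, 0⟩, 0⟩ 0 0) (.pos 82 .pm ⟨0, 5977934, 0, 0, 0, 0, 0, 0, 0, ⟨0, 0⟩, 0⟩ 0 0)) (.pos 62 .pm ⟨0, 12020157, 0, 0, 0, 0, 0, 0, 0, ⟨0, 0⟩, 0⟩ 0 0)) (.cut .d 4024593 (.pos 7 .pm ⟨0, 0, 28371884, 0, 0, 0, 0, 0, 0, ⟨0, 0⟩, 0⟩ 0 0) (.pos 7 .pm ⟨0, 52562678, 0, 0, 0, 0, 0, 0, 0, ⟨0, 0⟩, 0⟩ 0 0))) (.cut .d 4024593 (.pos 5 .pm ⟨0, 0, 3598343, 0, 0, 0, 0, 0, 0, ⟨0, 0⟩, 0⟩ 0 0) (.cut .d 6036890 (.pos 5 .pm ⟨0, 0, 0, 0, 0, 0, 0, 0, 0, ⟨0, 0⟩, 0⟩ 0 0) (.pos 5 .pm ⟨0, 95680936, 0, 0, 0, 0, 0, 0, 0, ⟨0, 0⟩, 0⟩ 0 0)))) (.cut .d 4024593 (.pos 3 .pm ⟨0, 0, 0, 0, 0, 0, 0, 0, 0, ⟨0, 0⟩, 0⟩ 0 0) (.pos 3 .pm ⟨0, 93195684, 0, 0, 0, 0, 0, 0, 0, ⟨0, 0⟩, 0⟩ 0 0)))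 (.cut .v 268435456 (.cut .d 4024593 (.cut .v 67108864 (.cut .v 33554432 (.pos 11 .pp ⟨0, 0, 0, 0, 0, 0, 0, 0, 0, ⟨0, 0⟩, 0⟩ 0 0) (.cut .d 2012296 (.cut .v 50331648 (.pos 23 .pp ⟨707603361, 0, 0, 0, 0, 0, 0, 0, 0, ⟨0, 0⟩, 0⟩ 0 0) (.cut .d 1006148 (.pos 24 .pp ⟨1947364190, 0, 0, 0, 0, 0, 0, 0, 0, ⟨0, 0⟩, 0⟩ 0 0) (.pos 24 .pp ⟨0, 0, 0, 0, 0, 0, 0, 0, 0, ⟨0, 0⟩, 0⟩ 0 0))) (.pos 12 .pp ⟨0, 0, 0, 0, 0, 0, 0, 0, 0, ⟨0, 0⟩, 0⟩ 0 0))) (.cut .v 134217728 (.cut .d 2012296 (.cut .d 1006148 (.cut .d 503074 (.pos 38 .pp ⟨9923987950, 0, 0, 0, 0, 0, 0, 0, 0, ⟨0, 0⟩, 0⟩ 0 0) (.cut .v 100663296 (.cut .v 83886080 (.pos 89 .pp ⟨2968692898, 0, 0, 0, 0, 0, 0, 0, 0, ⟨0, 0⟩,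 0⟩ 0 0) (.pos 90 .pp ⟨4587193984, 0, 0, 0, 0, 0, 0, 0, 0, ⟨0, 0⟩, 0⟩ 0 0)) (.cut .v 117440512 (.pos 73 .pp ⟨6397781576, 0, 0, 0, 0, 0, 0, 0, 0, ⟨0, 0⟩, 0⟩ 0 0) (.cut .v 125829120 (.cut .d 754611 (.void 85 ⟨100000, 0, 0, 0, 0, 0, 0, 0, 0, ⟨0, 0⟩, 0⟩ 0 0) (.cut .s 11534336 (.cut .s 11436032 (.pos 85 .pp ⟨6906041106, 768391353, 0, 0, 0, 0, 0, 0, 0, ⟨0, 0⟩, 0⟩ 0 0) (.pos 85 .pp ⟨7138610594, 754919827, 0, 0, 0, 0, 0, 0, 0, ⟨0, 0⟩, 0⟩ 0 0)) (.pos 85 .pp ⟨7406086929, 761881518, 0, 0, 0, 0, 0, 0, 0, ⟨0, 0⟩, 0⟩ 0 0))) (.pos 86 .pp ⟨11140705656, 5366560080, 0, 0, 0, 0, 0, 0, 0, ⟨0, 0⟩, 0⟩ 0 0))))) (.cut .v 100663296 (.pos 40 .pp ⟨2390349288, 0, 0, 0, 0, 0, 0, 0,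 0, ⟨0, 0⟩, 0⟩ 0 0) (.cut .d 1509222 (.cut .v 117440512 (.cut .l 11925068 (.pos 73 .pp ⟨5636570261, 0, 0, 0, 0, 0, 0, 0, 0, ⟨0, 0⟩, 0⟩ 0 0) (.pos 73 .pp ⟨4681089402, 0, 0, 0, 0, 0, 0, 0, 0, ⟨0, 0⟩, 0⟩ 0 0)) (.cut .l 11925068 (.pos 74 .pp ⟨7016956877, 1983517737, 0, 0, 0, 0, 0, 0, 0, ⟨0, 0⟩, 0⟩ 0 0) (.cut .v 125829120 (.cut .v 121634816 (.pos 87 .pp ⟨5427820152, 0, 0, 0, 0, 0, 0, 0, 0, ⟨0, 0⟩, 0⟩ 0 0) (.pos 88 .pp ⟨6078382985, 1081420311, 0, 0, 0, 0, 0, 0, 0, ⟨0, 0⟩, 0⟩ 0 0)) (.void 86 ⟨0, 100000, 0, 0, 0, 0, 0, 0, 0, ⟨0, 0⟩, 0⟩ 0 0)))) (.pos 41 .pp ⟨0, 1348684543, 0, 0, 0, 0, 0, 0, 0, ⟨0, 0⟩, 0⟩ 0 0)))) (.pos 38 .pp ⟨0, 0, 0, 0, 0, 0, 0, 0, 0, ⟨0, 0⟩,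 0⟩ 0 0)) (.void 39 ⟨38969, 61031, 0, 0, 0, 0, 0, 0, 0, ⟨0, 0⟩, 0⟩ 0 0))) (.pos 36 .pp ⟨0, 107014167, 0, 0, 0, 0, 0, 0, 0, ⟨0, 0⟩, 0⟩ 0 0)) (.void 50 ⟨0, 0, 0, 100000, 0, 0, 0, 0, 0, ⟨0, 0⟩, 0⟩ 0 0)))),
    by decide +kernel⟩

def covers17 : cell.Covers table row17.1 :=
  ⟨(.cut .d 0 (.cut .v 16777216 (.cut .d (-8388608) (.void 1 ⟨0, 0, 0, 0, 0, 100000, 0, 0, 0, ⟨0, 0⟩, 0⟩ 0 0) (.cut .d (-4194304) (.pos 1 .mm ⟨0, 0, 0, 0, 0, 167772160000, 0, 0, 0, ⟨0, 0⟩, 0⟩ 0 0) (.cut .d (-2097152) (.void 1 ⟨0, 0, 0, 0, 0, 100000, 0, 0, 0, ⟨0, 0⟩, 0⟩ 0 0) (.cut .v 8388608 (.cut .v 4194304 (.void 4 ⟨0, 0, 100000, 0, 0, 0, 0, 0, 0, ⟨0, 0⟩, 0⟩ 0 0) (.cut .d (-1048576) (.void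 5 ⟨0, 0, 100000, 0, 0, 0, 0, 0, 0, ⟨0, 0⟩, 0⟩ 0 0) (.cut .d (-524288) (.pos 5 .mm ⟨0, 0, 33012331, 0, 0, 329700622, 0, 0, 0, ⟨0, 0⟩, 0⟩ 0 0) (.pos 5 .mm ⟨0, 0, 12820336, 0, 0, 218567241, 0, 0, 0, ⟨0, 0⟩, 0⟩ 0 0)))) (.cut .d (-1048576) (.cut .d (-1572864) (.void 3 ⟨0, 0, 0, 0, 0, 100000, 0, 0, 0, ⟨0, 0⟩, 0⟩ 0 0) (.cut .l 11925068 (.void 3 ⟨0, 0, 0, 0, 0, 100000, 0, 0, 0, ⟨0, 0⟩, 0⟩ 0 0) (.cut .v 12582912 (.pos 8 .mm ⟨0, 0, 0, 0, 0, 534081946, 0, 0, 0, ⟨0, 0⟩, 0⟩ 0 0) (.pos 9 .mm ⟨438273474, 0, 0, 0, 0, 113610933, 0, 0, 0, ⟨0, 0⟩, 0⟩ 0 0)))) (.cut .d (-524288) (.cut .l 11925068 (.cut .d (-786432) (.cut .v 12582912 (.pos 8 .mm ⟨0, 0, 0, 0, 0, 573817219,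 0, 0, 0, ⟨0, 0⟩, 0⟩ 0 0) (.pos 9 .mm ⟨0, 0, 0, 0, 0, 810870731, 0, 0, 0, ⟨0, 0⟩, 0⟩ 0 0)) (.cut .l 9494579 (.cut .v 12582912 (.pos 8 .mm ⟨0, 0, 0, 0, 0, 504667525, 0, 0, 0, ⟨0, 0⟩, 0⟩ 0 0) (.cut .s 11993088 (.pos 9 .mm ⟨0, 0, 0, 0, 0, 656742355, 0, 0, 0, ⟨0, 0⟩, 0⟩ 0 0) (.pos 9 .mm ⟨0, 0, 0, 0, 0, 801782111, 0, 0, 0, ⟨0, 0⟩, 0⟩ 0 0))) (.cut .v 12582912 (.pos 8 .mm ⟨0, 0, 0, 0, 0, 360149655, 0, 0, 0, ⟨0, 0⟩, 0⟩ 0 0) (.pos 9 .mm ⟨52735831, 0, 0, 0, 0, 452200374, 0, 0, 0, ⟨0, 0⟩, 0⟩ 0 0)))) (.cut .v 12582912 (.pos 8 .mm ⟨0, 0, 0, 0, 0, 340857416, 0, 0, 0, ⟨0, 0⟩, 0⟩ 0 0) (.pos 9 .mm ⟨209398589, 0, 0, 0, 0, 136071396, 0, 0, 0, ⟨0, 0⟩, 0⟩ 0 0))) (.cut .v 12582912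 (.pos 8 .mm ⟨0, 0, 0, 0, 0, 292751751, 0, 0, 0, ⟨0, 0⟩, 0⟩ 0 0) (.cut .d (-262144) (.cut .v 14680064 (.pos 34 .mm ⟨0, 0, 0, 0, 0, 448664492, 0, 0, 0, ⟨0, 0⟩, 0⟩ 0 0) (.cut .d (-393216) (.pos 35 .mm ⟨32376944, 0, 0, 0, 0, 543940931, 0, 0, 0, ⟨0, 0⟩, 0⟩ 0 0) (.pos 35 .mm ⟨32376944, 0, 0, 0, 0, 134951964, 0, 0, 0, ⟨0, 0⟩, 0⟩ 0 0))) (.pos 9 .mm ⟨0, 0, 0, 0, 0, 0, 0, 0, 0, ⟨0, 0⟩, 0⟩ 0 0))))))))) (.cut .v 268435456 (.cut .v 67108864 (.cut .d (-8388608) (.void 10 ⟨100000, 0, 0, 0, 0, 0, 0, 0, 0, ⟨0, 0⟩, 0⟩ 0 0) (.cut .d (-4194304) (.void 10 ⟨100000, 0, 0, 0, 0, 0, 0, 0, 0, ⟨0, 0⟩, 0⟩ 0 0) (.cut .d (-2097152) (.void 10 ⟨100000, 0, 0, 0, 0, 0, 0, 0, 0, ⟨0, 0⟩,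 0⟩ 0 0) (.cut .d (-1048576) (.pos 10 .mp ⟨3889057151, 0, 0, 0, 0, 0, 0, 0, 0, ⟨0, 0⟩, 0⟩ 0 0) (.cut .v 33554432 (.cut .v 25165824 (.cut .d (-524288) (.pos 13 .mp ⟨781433203, 0, 0, 0, 0, 0, 0, 0, 0, ⟨0, 0⟩, 0⟩ 0 0) (.cut .s 11993088 (.pos 13 .mp ⟨383850962, 0, 0, 0, 0, 0, 0, 0, 0, ⟨0, 0⟩, 0⟩ 0 0) (.pos 13 .mp ⟨453055727, 0, 0, 0, 0, 0, 0, 0, 0, ⟨0, 0⟩, 0⟩ 0 0))) (.pos 14 .mp ⟨1165413576, 0, 0, 0, 0, 0, 0, 0, 0, ⟨0, 0⟩, 0⟩ 0 0)) (.pos 12 .mp ⟨3286355237, 0, 0, 0, 0, 0, 0, 0, 0, ⟨0, 0⟩, 0⟩ 0 0)))))) (.void 37 ⟨100000, 0, 0, 0, 0, 0, 0, 0, 0, ⟨0, 0⟩, 0⟩ 0 0)) (.void 50 ⟨96547, 0, 0, 3453, 0, 0, 0, 0, 0, ⟨0, 0⟩, 0⟩ 0 0))) (.cut .v 16777216 (.cut .v 8388608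 (.cut .v 4194304 (.cut .v 2097152 (.cut .v 1048576 (.cut .v 524288 (.pos 81 .pm ⟨0, 2970666, 0, 0, 0, 0, 0, 0, 0, ⟨0, 0⟩, 0⟩ 0 0) (.pos 82 .pm ⟨0, 9514544, 0, 0, 0, 0, 0, 0, 0, ⟨0, 0⟩, 0⟩ 0 0)) (.pos 62 .pm ⟨0, 18017479, 0, 0, 0, 0, 0, 0, 0, ⟨0, 0⟩, 0⟩ 0 0)) (.cut .d 3608508 (.pos 7 .pm ⟨0, 0, 42946753, 0, 0, 0, 0, 0, 0, ⟨0, 0⟩, 0⟩ 0 0) (.cut .d 5412762 (.pos 7 .pm ⟨0, 0, 0, 0, 0, 0, 0, 0, 0, ⟨0, 0⟩, 0⟩ 0 0) (.pos 7 .pm ⟨0, 97978405, 0, 0, 0, 0, 0, 0, 0, ⟨0, 0⟩, 0⟩ 0 0)))) (.cut .d 3608508 (.pos 5 .pm ⟨0, 0, 9000259, 0, 0, 0, 0, 0, 0, ⟨0, 0⟩, 0⟩ 0 0) (.cut .d 5412762 (.pos 5 .pm ⟨0, 0, 0, 0, 0, 0, 0, 0, 0, ⟨0, 0⟩, 0⟩ 0 0) (.pos 5 .pm ⟨0, 126348235, 0,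 0, 0, 0, 0, 0, 0, ⟨0, 0⟩, 0⟩ 0 0)))) (.cut .d 3608508 (.pos 3 .pm ⟨0, 0, 0, 0, 0, 0, 0, 0, 0, ⟨0, 0⟩, 0⟩ 0 0) (.pos 3 .pm ⟨0, 129297114, 0, 0, 0, 0, 0, 0, 0, ⟨0, 0⟩, 0⟩ 0 0))) (.cut .v 268435456 (.cut .d 3608508 (.cut .v 67108864 (.cut .v 33554432 (.pos 11 .pp ⟨15783417, 0, 0, 0, 0, 0, 0, 0, 0, ⟨0, 0⟩, 0⟩ 0 0) (.cut .v 50331648 (.pos 23 .pp ⟨661822750, 0, 0, 0, 0, 0, 0, 0, 0, ⟨0, 0⟩, 0⟩ 0 0) (.cut .d 1804254 (.cut .d 902127 (.pos 24 .pp ⟨2582834183, 0, 0, 0, 0, 0, 0, 0, 0, ⟨0, 0⟩, 0⟩ 0 0) (.pos 24 .pp ⟨0, 0, 0, 0, 0, 0, 0, 0, 0, ⟨0, 0⟩, 0⟩ 0 0)) (.pos 24 .pp ⟨0, 0, 0, 0, 0, 0, 0, 0, 0, ⟨0, 0⟩, 0⟩ 0 0)))) (.cut .v 134217728 (.cut .d 1804254 (.cut .d 902127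 (.cut .d 451063 (.pos 38 .pp ⟨12365655171, 0, 0, 0, 0, 0, 0, 0, 0, ⟨0, 0⟩, 0⟩ 0 0) (.cut .v 100663296 (.cut .v 83886080 (.pos 89 .pp ⟨3961954945, 0, 0, 0, 0, 0, 0, 0, 0, ⟨0, 0⟩, 0⟩ 0 0) (.pos 90 .pp ⟨6100880942, 0, 0, 0, 0, 0, 0, 0, 0, ⟨0, 0⟩, 0⟩ 0 0)) (.cut .v 117440512 (.pos 73 .pp ⟨8373514389, 0, 0, 0, 0, 0, 0, 0, 0, ⟨0, 0⟩, 0⟩ 0 0) (.cut .d 676595 (.void 74 ⟨100000, 0, 0, 0, 0, 0, 0, 0, 0, ⟨0, 0⟩, 0⟩ 0 0) (.cut .l 11925068 (.void 74 ⟨100000, 0, 0, 0, 0, 0, 0, 0, 0, ⟨0, 0⟩, 0⟩ 0 0) (.cut .d 789361 (.pos 74 .pp ⟨14582568469, 795360182, 0, 0, 0, 0, 0, 0, 0, ⟨0, 0⟩, 0⟩ 0 0) (.cut .s 11993088 (.cut .v 125829120 (.pos 85 .pp ⟨8284950126, 0, 0, 0, 0, 0,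 0, 0, 0, ⟨0, 0⟩, 0⟩ 0 0) (.cut .s 11862016 (.pos 86 .pp ⟨9140143054, 1945931200, 0, 0, 0, 0, 0, 0, 0, ⟨0, 0⟩, 0⟩ 0 0) (.cut .d 845744 (.pos 86 .pp ⟨10452712982, 1608014412, 0, 0, 0, 0, 0, 0, 0, ⟨0, 0⟩, 0⟩ 0 0) (.cut .s 11927552 (.pos 86 .pp ⟨9159459027, 1800048983, 0, 0, 0, 0, 0, 0, 0, ⟨0, 0⟩, 0⟩ 0 0) (.pos 86 .pp ⟨9311583708, 1819400556, 0, 0, 0, 0, 0, 0, 0, ⟨0, 0⟩, 0⟩ 0 0))))) (.cut .v 125829120 (.pos 85 .pp ⟨9194652609, 0, 0, 0, 0, 0, 0, 0, 0, ⟨0, 0⟩, 0⟩ 0 0) (.cut .v 130023424 (.cut .d 845744 (.pos 93 .pp ⟨10211005916, 1700567537, 0, 0, 0, 0, 0, 0, 0, ⟨0, 0⟩, 0⟩ 0 0) (.pos 93 .pp ⟨9554979297, 1934071767, 0, 0, 0, 0, 0, 0, 0, ⟨0, 0⟩, 0⟩ 0 0)) (.void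 94 ⟨0, 100000, 0, 0, 0, 0, 0, 0, 0, ⟨0, 0⟩, 0⟩ 0 0)))))))))) (.cut .v 100663296 (.cut .v 83886080 (.pos 89 .pp ⟨2375544837, 0, 0, 0, 0, 0, 0, 0, 0, ⟨0, 0⟩, 0⟩ 0 0) (.pos 90 .pp ⟨4030536795, 0, 0, 0, 0, 0, 0, 0, 0, ⟨0, 0⟩, 0⟩ 0 0)) (.cut .d 1353190 (.cut .v 117440512 (.cut .v 109051904 (.pos 91 .pp ⟨6075898608, 0, 0, 0, 0, 0, 0, 0, 0, ⟨0, 0⟩, 0⟩ 0 0) (.cut .s 11993088 (.pos 92 .pp ⟨6827060213, 0, 0, 0, 0, 0, 0, 0, 0, ⟨0, 0⟩, 0⟩ 0 0) (.pos 92 .pp ⟨7428535269, 0, 0, 0, 0, 0, 0, 0, 0, ⟨0, 0⟩, 0⟩ 0 0))) (.cut .v 125829120 (.cut .d 1127658 (.cut .s 11993088 (.cut .l 11925068 (.pos 85 .pp ⟨8590489038, 779014180, 0, 0, 0, 0, 0, 0, 0, ⟨0, 0⟩, 0⟩ 0 0) (.cut .d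 1014892 (.cut .s 11862016 (.pos 85 .pp ⟨7962858314, 722764707, 0, 0, 0, 0, 0, 0, 0, ⟨0, 0⟩, 0⟩ 0 0) (.pos 85 .pp ⟨8388207068, 688074585, 0, 0, 0, 0, 0, 0, 0, ⟨0, 0⟩, 0⟩ 0 0)) (.pos 85 .pp ⟨7292329636, 1414025831, 0, 0, 0, 0, 0, 0, 0, ⟨0, 0⟩, 0⟩ 0 0))) (.cut .l 11925068 (.cut .v 121634816 (.pos 87 .pp ⟨9107567538, 523040587, 0, 0, 0, 0, 0, 0, 0, ⟨0, 0⟩, 0⟩ 0 0) (.cut .d 1014892 (.pos 88 .pp ⟨9825242931, 1165744250, 0, 0, 0, 0, 0, 0, 0, ⟨0, 0⟩, 0⟩ 0 0) (.pos 88 .pp ⟨9192827163, 1893257248, 0, 0, 0, 0, 0, 0, 0, ⟨0, 0⟩, 0⟩ 0 0))) (.cut .d 1014892 (.pos 85 .pp ⟨8931202741, 596533740, 0, 0, 0, 0, 0, 0, 0, ⟨0, 0⟩, 0⟩ 0 0) (.pos 85 .pp ⟨7950863621, 1328575067,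 0, 0, 0, 0, 0, 0, 0, ⟨0, 0⟩, 0⟩ 0 0)))) (.cut .l 11925068 (.cut .s 11993088 (.pos 85 .pp ⟨7572742527, 1507663311, 0, 0, 0, 0, 0, 0, 0, ⟨0, 0⟩, 0⟩ 0 0) (.cut .s 12124160 (.pos 85 .pp ⟨8028282477, 1444727211, 0, 0, 0, 0, 0, 0, 0, ⟨0, 0⟩, 0⟩ 0 0) (.pos 85 .pp ⟨8226346523, 1407834448, 0, 0, 0, 0, 0, 0, 0, ⟨0, 0⟩, 0⟩ 0 0))) (.pos 85 .pp ⟨0, 2369616964, 0, 0, 0, 0, 0, 0, 0, ⟨0, 0⟩, 0⟩ 0 0))) (.cut .s 11993088 (.cut .s 11862016 (.pos 86 .pp ⟨8337620423, 2079290781, 0, 0, 0, 0, 0, 0, 0, ⟨0, 0⟩, 0⟩ 0 0) (.pos 86 .pp ⟨8589843860, 2797217421, 0, 0, 0, 0, 0, 0, 0, ⟨0, 0⟩, 0⟩ 0 0)) (.pos 86 .pp ⟨9571380173, 2886285361, 0, 0, 0, 0, 0, 0, 0, ⟨0, 0⟩, 0⟩ 0 0)))) (.pos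 41 .pp ⟨0, 1911054245, 0, 0, 0, 0, 0, 0, 0, ⟨0, 0⟩, 0⟩ 0 0)))) (.pos 38 .pp ⟨0, 96928352, 0, 0, 0, 0, 0, 0, 0, ⟨0, 0⟩, 0⟩ 0 0)) (.void 39 ⟨38196, 61804, 0, 0, 0, 0, 0, 0, 0, ⟨0, 0⟩, 0⟩ 0 0))) (.pos 36 .pp ⟨0, 153942590, 0, 0, 0, 0, 0, 0, 0, ⟨0, 0⟩, 0⟩ 0 0)) (.void 50 ⟨0, 0, 0, 100000, 0, 0, 0, 0, 0, ⟨0, 0⟩, 0⟩ 0 0)))),
    by decide +kernel⟩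

def covers18 : cell.Covers table row18.1 :=
  ⟨(.cut .d 0 (.cut .v 16777216 (.cut .d (-8388608) (.void 1 ⟨0, 0, 0, 0, 0, 100000, 0, 0, 0, ⟨0, 0⟩, 0⟩ 0 0) (.cut .d (-4194304) (.void 1 ⟨0, 0, 1572, 0, 0, 98408, 0, 0, 0, ⟨0, 0⟩, 0⟩ 0 0) (.cut .d (-2097152) (.void 1 ⟨0, 0, 0, 0, 0, 100000, 0, 0, 0, ⟨0, 0⟩, 0⟩ 0 0) (.cut .v 8388608 (.cut .v 4194304 (.void 4 ⟨0, 0, 100000, 0, 0, 0, 0, 0, 0, ⟨0, 0⟩, 0⟩ 0 0) (.cut .d (-1048576) (.void 5 ⟨0, 0, 100000, 0, 0, 0, 0, 0, 0, ⟨0, 0⟩, 0⟩ 0 0) (.cut .d (-524288) (.pos 5 .mm ⟨0, 0, 226766882, 0, 0, 485993941, 0, 0, 0, ⟨0, 0⟩, 0⟩ 0 0) (.pos 5 .mm ⟨0, 0, 39838356, 0, 0, 361762939, 0, 0, 0, ⟨0, 0⟩, 0⟩ 0 0)))) (.cut .d (-1048576)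 (.cut .v 12582912 (.pos 8 .mm ⟨0, 0, 13414087, 0, 0, 944524901, 0, 0, 0, ⟨0, 0⟩, 0⟩ 0 0) (.pos 9 .mm ⟨944667150, 0, 0, 0, 0, 0, 0, 0, 0, ⟨0, 0⟩, 0⟩ 0 0)) (.cut .l 11925068 (.cut .d (-524288) (.cut .l 9494579 (.pos 3 .mm ⟨0, 0, 0, 0, 0, 1148371232, 0, 0, 0, ⟨0, 0⟩, 0⟩ 0 0) (.cut .v 12582912 (.pos 8 .mm ⟨0, 0, 0, 0, 0, 547393466, 0, 0, 0, ⟨0, 0⟩, 0⟩ 0 0) (.pos 9 .mm ⟨0, 0, 0, 0, 0, 818833841, 0, 0, 0, ⟨0, 0⟩, 0⟩ 0 0))) (.cut .d (-262144) (.cut .l 9494579 (.cut .l 8279334 (.cut .l 7671712 (.cut .d (-393216) (.pos 3 .mm ⟨0, 0, 0, 0, 0, 1056083382, 0, 0, 0, ⟨0, 0⟩, 0⟩ 0 0) (.cut .v 12582912 (.pos 8 .mm ⟨0, 0, 0, 0, 0, 566426622, 0, 0, 0, ⟨0, 0⟩, 0⟩ 0 0) (.pos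 9 .mm ⟨0, 0, 0, 0, 0, 854705504, 0, 0, 0, ⟨0, 0⟩, 0⟩ 0 0))) (.pos 3 .mm ⟨0, 0, 0, 0, 0, 587773147, 0, 0, 0, ⟨0, 0⟩, 0⟩ 0 0)) (.pos 3 .mm ⟨0, 0, 0, 0, 0, 450623902, 0, 0, 0, ⟨0, 0⟩, 0⟩ 0 0)) (.pos 3 .mm ⟨0, 0, 0, 0, 0, 0, 0, 0, 0, ⟨0, 0⟩, 0⟩ 0 0)) (.pos 3 .mm ⟨0, 0, 0, 0, 0, 0, 0, 0, 0, ⟨0, 0⟩, 0⟩ 0 0))) (.cut .v 12582912 (.pos 8 .mm ⟨0, 0, 0, 0, 0, 400572824, 0, 0, 0, ⟨0, 0⟩, 0⟩ 0 0) (.pos 9 .mm ⟨209463200, 0, 0, 0, 0, 273093337, 0, 0, 0, ⟨0, 0⟩, 0⟩ 0 0)))))))) (.cut .v 268435456 (.cut .v 67108864 (.cut .d (-8388608) (.void 10 ⟨100000, 0, 0, 0, 0, 0, 0, 0, 0, ⟨0, 0⟩, 0⟩ 0 0) (.cut .d (-4194304) (.void 10 ⟨100000, 0, 0, 0, 0, 0, 0, 0, 0, ⟨0, 0⟩, 0⟩ 0 0)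 (.cut .d (-2097152) (.void 10 ⟨100000, 0, 0, 0, 0, 0, 0, 0, 0, ⟨0, 0⟩, 0⟩ 0 0) (.cut .v 33554432 (.cut .d (-1048576) (.void 11 ⟨100000, 0, 0, 0, 0, 0, 0, 0, 0, ⟨0, 0⟩, 0⟩ 0 0) (.cut .d (-524288) (.pos 11 .mp ⟨1397272650, 0, 0, 0, 0, 0, 0, 0, 0, ⟨0, 0⟩, 0⟩ 0 0) (.cut .d (-262144) (.cut .v 25165824 (.pos 13 .mp ⟨692391350, 0, 0, 0, 0, 0, 0, 0, 0, ⟨0, 0⟩, 0⟩ 0 0) (.pos 14 .mp ⟨1758403533, 0, 0, 0, 0, 0, 0, 0, 0, ⟨0, 0⟩, 0⟩ 0 0)) (.pos 11 .mp ⟨531447843, 0, 0, 0, 0, 0, 0, 0, 0, ⟨0, 0⟩, 0⟩ 0 0)))) (.pos 12 .mp ⟨4943951424, 0, 0, 0, 0, 0, 0, 0, 0, ⟨0, 0⟩, 0⟩ 0 0))))) (.void 37 ⟨100000, 0, 0, 0, 0, 0, 0, 0, 0, ⟨0, 0⟩, 0⟩ 0 0)) (.void 50 ⟨96405, 0, 0, 3595, 0,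 0, 0, 0, 0, ⟨0, 0⟩, 0⟩ 0 0))) (.cut .v 16777216 (.cut .v 8388608 (.cut .v 4194304 (.cut .v 2097152 (.cut .v 1048576 (.cut .v 524288 (.pos 81 .pm ⟨0, 4501323, 0, 0, 0, 0, 0, 0, 0, ⟨0, 0⟩, 0⟩ 0 0) (.pos 82 .pm ⟨0, 12034728, 0, 0, 0, 0, 0, 0, 0, ⟨0, 0⟩, 0⟩ 0 0)) (.pos 62 .pm ⟨0, 21711583, 0, 0, 0, 0, 0, 0, 0, ⟨0, 0⟩, 0⟩ 0 0)) (.cut .d 3095263 (.pos 7 .pm ⟨0, 0, 90691187, 0, 0, 0, 0, 0, 0, ⟨0, 0⟩, 0⟩ 0 0) (.cut .d 4642894 (.pos 7 .pm ⟨0, 0, 0, 0, 0, 0, 0, 0, 0, ⟨0, 0⟩, 0⟩ 0 0) (.pos 7 .pm ⟨0, 129745366, 0, 0, 0, 0, 0, 0, 0, ⟨0, 0⟩, 0⟩ 0 0)))) (.cut .d 3095263 (.pos 5 .pm ⟨0, 0, 26753352, 0, 0, 0, 0, 0, 0, ⟨0, 0⟩, 0⟩ 0 0) (.cut .d 4642894 (.pos 5 .pm ⟨0, 0,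 0, 0, 0, 0, 0, 0, 0, ⟨0, 0⟩, 0⟩ 0 0) (.pos 5 .pm ⟨0, 173232480, 0, 0, 0, 0, 0, 0, 0, ⟨0, 0⟩, 0⟩ 0 0)))) (.cut .d 3095263 (.pos 3 .pm ⟨0, 0, 0, 0, 0, 0, 0, 0, 0, ⟨0, 0⟩, 0⟩ 0 0) (.pos 3 .pm ⟨0, 186154063, 0, 0, 0, 0, 0, 0, 0, ⟨0, 0⟩, 0⟩ 0 0))) (.cut .v 268435456 (.cut .d 3095263 (.cut .v 67108864 (.cut .v 33554432 (.pos 11 .pp ⟨25560934, 0, 0, 0, 0, 0, 0, 0, 0, ⟨0, 0⟩, 0⟩ 0 0) (.cut .v 50331648 (.pos 23 .pp ⟨892965610, 0, 0, 0, 0, 0, 0, 0, 0, ⟨0, 0⟩, 0⟩ 0 0) (.cut .d 1547631 (.pos 24 .pp ⟨2535765075, 0, 0, 0, 0, 0, 0, 0, 0, ⟨0, 0⟩, 0⟩ 0 0) (.pos 24 .pp ⟨0, 0, 0, 0, 0, 0, 0, 0, 0, ⟨0, 0⟩, 0⟩ 0 0)))) (.cut .v 134217728 (.cut .d 1547631 (.cut .d 773815 (.cut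 .d 386907 (.pos 38 .pp ⟨14481387296, 0, 0, 0, 0, 0, 0, 0, 0, ⟨0, 0⟩, 0⟩ 0 0) (.cut .v 100663296 (.pos 40 .pp ⟨6507810759, 0, 0, 0, 0, 0, 0, 0, 0, ⟨0, 0⟩, 0⟩ 0 0) (.cut .v 117440512 (.pos 73 .pp ⟨11031090601, 0, 0, 0, 0, 0, 0, 0, 0, ⟨0, 0⟩, 0⟩ 0 0) (.pos 74 .pp ⟨18919367926, 0, 0, 0, 0, 0, 0, 0, 0, ⟨0, 0⟩, 0⟩ 0 0)))) (.cut .v 100663296 (.pos 40 .pp ⟨3903330627, 0, 0, 0, 0, 0, 0, 0, 0, ⟨0, 0⟩, 0⟩ 0 0) (.cut .d 1160723 (.cut .v 117440512 (.cut .s 12484608 (.pos 73 .pp ⟨8474634947, 0, 0, 0, 0, 0, 0, 0, 0, ⟨0, 0⟩, 0⟩ 0 0) (.pos 73 .pp ⟨8865110929, 0, 0, 0, 0, 0, 0, 0, 0, ⟨0, 0⟩, 0⟩ 0 0)) (.cut .v 125829120 (.cut .l 11925068 (.cut .d 967269 (.pos 85 .pp ⟨13771868403,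 383396955, 0, 0, 0, 0, 0, 0, 0, ⟨0, 0⟩, 0⟩ 0 0) (.cut .l 9494579 (.cut .l 8279334 (.cut .s 12484608 (.cut .v 121634816 (.cut .d 1063996 (.pos 87 .pp ⟨11195266750, 828709318, 0, 0, 0, 0, 0, 0, 0, ⟨0, 0⟩, 0⟩ 0 0) (.cut .s 12369920 (.pos 87 .pp ⟨9143460063, 879426391, 0, 0, 0, 0, 0, 0, 0, ⟨0, 0⟩, 0⟩ 0 0) (.pos 87 .pp ⟨9076839584, 1335118227, 0, 0, 0, 0, 0, 0, 0, ⟨0, 0⟩, 0⟩ 0 0))) (.pos 88 .pp ⟨15890193687, 11063919322, 0, 0, 0, 0, 0, 0, 0, ⟨0, 0⟩, 0⟩ 0 0)) (.cut .v 121634816 (.pos 87 .pp ⟨9636488193, 608122615, 0, 0, 0, 0, 0, 0, 0, ⟨0, 0⟩, 0⟩ 0 0) (.pos 88 .pp ⟨10651316563, 2214257695, 0, 0, 0, 0, 0, 0, 0, ⟨0, 0⟩, 0⟩ 0 0))) (.pos 85 .pp ⟨9510847922, 820616550,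 0, 0, 0, 0, 0, 0, 0, ⟨0, 0⟩, 0⟩ 0 0)) (.pos 85 .pp ⟨8991803862, 1668594918, 0, 0, 0, 0, 0, 0, 0, ⟨0, 0⟩, 0⟩ 0 0))) (.pos 85 .pp ⟨9359622751, 368646539, 0, 0, 0, 0, 0, 0, 0, ⟨0, 0⟩, 0⟩ 0 0)) (.cut .l 11925068 (.pos 86 .pp ⟨48110511107, 60031644811, 0, 0, 0, 0, 0, 0, 0, ⟨0, 0⟩, 0⟩ 0 0) (.pos 86 .pp ⟨10672516780, 2397285741, 0, 0, 0, 0, 0, 0, 0, ⟨0, 0⟩, 0⟩ 0 0)))) (.pos 41 .pp ⟨0, 2600248017, 0, 0, 0, 0, 0, 0, 0, ⟨0, 0⟩, 0⟩ 0 0)))) (.pos 38 .pp ⟨0, 166855150, 0, 0, 0, 0, 0, 0, 0, ⟨0, 0⟩, 0⟩ 0 0)) (.void 39 ⟨37659, 62341, 0, 0, 0, 0, 0, 0, 0, ⟨0, 0⟩, 0⟩ 0 0))) (.pos 36 .pp ⟨0, 241266548, 0, 0, 0, 0, 0, 0, 0, ⟨0, 0⟩, 0⟩ 0 0)) (.void 50 ⟨0, 0, 0, 100000, 0,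 0, 0, 0, 0, ⟨0, 0⟩, 0⟩ 0 0)))),
    by decide +kernel⟩

def covers19 : cell.Covers table row19.1 :=
  ⟨(.cut .d 0 (.cut .v 16777216 (.cut .d (-8388608) (.void 1 ⟨0, 0, 0, 0, 0, 100000, 0, 0, 0, ⟨0, 0⟩, 0⟩ 0 0) (.cut .d (-4194304) (.pos 1 .mm ⟨0, 0, 0, 0, 0, 167772160000, 0, 0, 0, ⟨0, 0⟩, 0⟩ 0 0) (.cut .d (-2097152) (.void 1 ⟨0, 0, 0, 0, 0, 100000, 0, 0, 0, ⟨0, 0⟩, 0⟩ 0 0) (.cut .d (-1048576) (.void 1 ⟨0, 0, 0, 0, 0, 100000, 0, 0, 0, ⟨0, 0⟩, 0⟩ 0 0) (.cut .v 8388608 (.cut .v 4194304 (.void 4 ⟨0, 0, 100000, 0, 0, 0, 0, 0, 0, ⟨0, 0⟩, 0⟩ 0 0) (.cut .d (-524288) (.void 5 ⟨0, 0, 100000, 0, 0, 0, 0, 0, 0, ⟨0, 0⟩, 0⟩ 0 0) (.pos 5 .mm ⟨0, 0, 29699797, 0, 0, 415073157,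 0, 0, 0, ⟨0, 0⟩, 0⟩ 0 0))) (.cut .d (-524288) (.pos 3 .mm ⟨0, 0, 0, 0, 0, 1448202468, 0, 0, 0, ⟨0, 0⟩, 0⟩ 0 0) (.cut .d (-262144) (.cut .v 12582912 (.pos 8 .mm ⟨0, 0, 0, 0, 0, 674204311, 0, 0, 0, ⟨0, 0⟩, 0⟩ 0 0) (.pos 9 .mm ⟨0, 0, 0, 0, 0, 1034223248, 0, 0, 0, ⟨0, 0⟩, 0⟩ 0 0)) (.pos 3 .mm ⟨0, 0, 0, 0, 0, 0, 0, 0, 0, ⟨0, 0⟩, 0⟩ 0 0)))))))) (.cut .v 268435456 (.cut .v 67108864 (.cut .d (-8388608) (.void 10 ⟨100000, 0, 0, 0, 0, 0, 0, 0, 0, ⟨0, 0⟩, 0⟩ 0 0) (.cut .d (-4194304) (.void 10 ⟨100000, 0, 0, 0, 0, 0, 0, 0, 0, ⟨0, 0⟩, 0⟩ 0 0) (.cut .v 33554432 (.cut .d (-2097152) (.void 11 ⟨100000, 0, 0, 0, 0, 0, 0, 0, 0, ⟨0, 0⟩, 0⟩ 0 0) (.cut .d (-1048576) (.void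 11 ⟨100000, 0, 0, 0, 0, 0, 0, 0, 0, ⟨0, 0⟩, 0⟩ 0 0) (.cut .d (-524288) (.pos 11 .mp ⟨2781750849, 0, 0, 0, 0, 0, 0, 0, 0, ⟨0, 0⟩, 0⟩ 0 0) (.cut .v 25165824 (.pos 13 .mp ⟨686483926, 0, 0, 0, 0, 0, 0, 0, 0, ⟨0, 0⟩, 0⟩ 0 0) (.pos 14 .mp ⟨1328125083, 0, 0, 0, 0, 0, 0, 0, 0, ⟨0, 0⟩, 0⟩ 0 0))))) (.pos 12 .mp ⟨8469758054, 0, 0, 0, 0, 0, 0, 0, 0, ⟨0, 0⟩, 0⟩ 0 0)))) (.void 37 ⟨100000, 0, 0, 0, 0, 0, 0, 0, 0, ⟨0, 0⟩, 0⟩ 0 0)) (.void 50 ⟨96261, 0, 0, 3739, 0, 0, 0, 0, 0, ⟨0, 0⟩, 0⟩ 0 0))) (.cut .v 16777216 (.cut .v 8388608 (.cut .v 4194304 (.cut .v 2097152 (.cut .d 2680896 (.void 6 ⟨0, 0, 100000, 0, 0, 0, 0, 0, 0, ⟨0, 0⟩, 0⟩ 0 0) (.cut .v 1048576 (.cut .v 524288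 (.pos 81 .pm ⟨0, 18499646, 0, 0, 0, 0, 0, 0, 0, ⟨0, 0⟩, 0⟩ 0 0) (.pos 82 .pm ⟨0, 50899114, 0, 0, 0, 0, 0, 0, 0, ⟨0, 0⟩, 0⟩ 0 0)) (.cut .d 4021344 (.pos 62 .pm ⟨0, 0, 0, 0, 0, 0, 0, 0, 0, ⟨0, 0⟩, 0⟩ 0 0) (.pos 62 .pm ⟨0, 121104301, 0, 0, 0, 0, 0, 0, 0, ⟨0, 0⟩, 0⟩ 0 0)))) (.cut .d 2680896 (.pos 7 .pm ⟨0, 0, 143102311, 0, 0, 0, 0, 0, 0, ⟨0, 0⟩, 0⟩ 0 0) (.cut .d 4021344 (.pos 7 .pm ⟨0, 0, 0, 0, 0, 0, 0, 0, 0, ⟨0, 0⟩, 0⟩ 0 0) (.cut .d 4691568 (.pos 7 .pm ⟨0, 124812057, 0, 0, 0, 0, 0, 0, 0, ⟨0, 0⟩, 0⟩ 0 0) (.pos 7 .pm ⟨0, 230533228, 0, 0, 0, 0, 0, 0, 0, ⟨0, 0⟩, 0⟩ 0 0))))) (.cut .d 2680896 (.pos 5 .pm ⟨0, 0, 29699797, 0, 0, 0, 0, 0, 0, ⟨0, 0⟩, 0⟩ 0 0) (.cut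 .d 4021344 (.pos 5 .pm ⟨0, 0, 0, 0, 0, 0, 0, 0, 0, ⟨0, 0⟩, 0⟩ 0 0) (.cut .d 4691568 (.pos 5 .pm ⟨0, 175867846, 0, 0, 0, 0, 0, 0, 0, ⟨0, 0⟩, 0⟩ 0 0) (.pos 5 .pm ⟨0, 302530849, 0, 0, 0, 0, 0, 0, 0, ⟨0, 0⟩, 0⟩ 0 0))))) (.cut .d 2680896 (.pos 3 .pm ⟨0, 0, 0, 0, 0, 0, 0, 0, 0, ⟨0, 0⟩, 0⟩ 0 0) (.pos 3 .pm ⟨0, 272254431, 0, 0, 0, 0, 0, 0, 0, ⟨0, 0⟩, 0⟩ 0 0))) (.cut .v 268435456 (.cut .d 2680896 (.cut .v 67108864 (.cut .v 33554432 (.pos 11 .pp ⟨2094261, 0, 0, 0, 0, 0, 0, 0, 0, ⟨0, 0⟩, 0⟩ 0 0) (.cut .v 50331648 (.pos 23 .pp ⟨1090745443, 0, 0, 0, 0, 0, 0, 0, 0, ⟨0, 0⟩, 0⟩ 0 0) (.cut .d 1340448 (.pos 24 .pp ⟨2920226314, 0, 0, 0, 0, 0, 0, 0, 0, ⟨0, 0⟩, 0⟩ 0 0) (.pos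 24 .pp ⟨0, 0, 0, 0, 0, 0, 0, 0, 0, ⟨0, 0⟩, 0⟩ 0 0)))) (.cut .v 134217728 (.cut .d 1340448 (.cut .d 670224 (.pos 38 .pp ⟨14321361646, 0, 0, 0, 0, 0, 0, 0, 0, ⟨0, 0⟩, 0⟩ 0 0) (.cut .v 100663296 (.pos 40 .pp ⟨4651194415, 0, 0, 0, 0, 0, 0, 0, 0, ⟨0, 0⟩, 0⟩ 0 0) (.cut .d 1005336 (.cut .v 117440512 (.pos 73 .pp ⟨9863564836, 0, 0, 0, 0, 0, 0, 0, 0, ⟨0, 0⟩, 0⟩ 0 0) (.pos 74 .pp ⟨13217369167, 1048648823, 0, 0, 0, 0, 0, 0, 0, ⟨0, 0⟩, 0⟩ 0 0)) (.pos 41 .pp ⟨0, 3026735530, 0, 0, 0, 0, 0, 0, 0, ⟨0, 0⟩, 0⟩ 0 0)))) (.pos 38 .pp ⟨0, 0, 0, 0, 0, 0, 0, 0, 0, ⟨0, 0⟩, 0⟩ 0 0)) (.void 39 ⟨36979, 63021, 0, 0, 0, 0, 0, 0, 0, ⟨0, 0⟩, 0⟩ 0 0))) (.pos 36 .pp ⟨0, 375171974, 0,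 0, 0, 0, 0, 0, 0, ⟨0, 0⟩, 0⟩ 0 0)) (.void 50 ⟨0, 0, 0, 100000, 0, 0, 0, 0, 0, ⟨0, 0⟩, 0⟩ 0 0)))),
    by decide +kernel⟩

def covers20 : cell.Covers table row20.1 :=
  ⟨(.cut .d 0 (.cut .v 16777216 (.cut .d (-8388608) (.void 1 ⟨0, 0, 0, 0, 0, 100000, 0, 0, 0, ⟨0, 0⟩, 0⟩ 0 0) (.cut .d (-4194304) (.pos 1 .mm ⟨0, 0, 460721239, 0, 0, 167311438761, 0, 0, 0, ⟨0, 0⟩, 0⟩ 0 0) (.cut .d (-2097152) (.void 1 ⟨0, 0, 0, 0, 0, 92413, 0, 0, 0, ⟨0, 0⟩, 0⟩ 0 0) (.cut .d (-1048576) (.void 1 ⟨0, 0, 0, 0, 0, 100000, 0, 0, 0, ⟨0, 0⟩, 0⟩ 0 0) (.cut .v 8388608 (.cut .v 4194304 (.void 4 ⟨0, 0, 100000, 0, 0, 0, 0, 0, 0, ⟨0, 0⟩, 0⟩ 0 0) (.pos 5 .mm ⟨0, 0, 660951152, 0, 0, 0, 0,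 0, 0, ⟨0, 0⟩, 0⟩ 0 0)) (.cut .d (-524288) (.pos 3 .mm ⟨0, 0, 0, 0, 0, 11450364292, 0, 0, 0, ⟨0, 0⟩, 0⟩ 0 0) (.pos 3 .mm ⟨0, 0, 0, 0, 0, 760895009, 0, 0, 0, ⟨0, 0⟩, 0⟩ 0 0))))))) (.cut .v 268435456 (.cut .v 67108864 (.cut .v 33554432 (.cut .d (-8388608) (.void 11 ⟨100000, 0, 0, 0, 0, 0, 0, 0, 0, ⟨0, 0⟩, 0⟩ 0 0) (.cut .d (-4194304) (.void 11 ⟨100000, 0, 0, 0, 0, 0, 0, 0, 0, ⟨0, 0⟩, 0⟩ 0 0) (.cut .d (-2097152) (.void 11 ⟨100000, 0, 0, 0, 0, 0, 0, 0, 0, ⟨0, 0⟩, 0⟩ 0 0) (.cut .d (-1048576) (.void 11 ⟨100000, 0, 0, 0, 0, 0, 0, 0, 0, ⟨0, 0⟩, 0⟩ 0 0) (.cut .d (-524288) (.pos 11 .mp ⟨23970868805, 0, 0, 0, 0, 0, 0, 0, 0, ⟨0, 0⟩, 0⟩ 0 0) (.pos 11 .mp ⟨1013481673,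 0, 0, 0, 0, 0, 0, 0, 0, ⟨0, 0⟩, 0⟩ 0 0)))))) (.pos 12 .mp ⟨51981753575, 0, 0, 0, 0, 0, 0, 0, 0, ⟨0, 0⟩, 0⟩ 0 0)) (.void 37 ⟨100000, 0, 0, 0, 0, 0, 0, 0, 0, ⟨0, 0⟩, 0⟩ 0 0)) (.void 50 ⟨96109, 0, 0, 3891, 0, 0, 0, 0, 0, ⟨0, 0⟩, 0⟩ 0 0))) (.cut .v 16777216 (.cut .v 8388608 (.cut .v 4194304 (.cut .v 2097152 (.cut .d 2242500 (.void 6 ⟨0, 0, 100000, 0, 0, 0, 0, 0, 0, ⟨0, 0⟩, 0⟩ 0 0) (.cut .v 1048576 (.cut .v 524288 (.cut .v 262144 (.pos 105 .pm ⟨0, 14996974, 0, 0, 0, 0, 0, 0, 0, ⟨0, 0⟩, 0⟩ 0 0) (.pos 106 .pm ⟨0, 43462453, 0, 0, 0, 0, 0, 0, 0, ⟨0, 0⟩, 0⟩ 0 0)) (.pos 82 .pm ⟨0, 73433476, 0, 0, 0, 0, 0, 0, 0, ⟨0, 0⟩, 0⟩ 0 0)) (.cut .d 3363750 (.pos 62 .pm ⟨0,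 0, 0, 0, 0, 0, 0, 0, 0, ⟨0, 0⟩, 0⟩ 0 0) (.cut .d 3924375 (.pos 62 .pm ⟨0, 141831973, 0, 0, 0, 0, 0, 0, 0, ⟨0, 0⟩, 0⟩ 0 0) (.pos 62 .pm ⟨0, 219469636, 0, 0, 0, 0, 0, 0, 0, ⟨0, 0⟩, 0⟩ 0 0))))) (.cut .d 2242500 (.pos 7 .pm ⟨0, 0, 226392968, 0, 0, 0, 0, 0, 0, ⟨0, 0⟩, 0⟩ 0 0) (.cut .d 3363750 (.pos 7 .pm ⟨0, 0, 0, 0, 0, 0, 0, 0, 0, ⟨0, 0⟩, 0⟩ 0 0) (.cut .s 13500416 (.pos 7 .pm ⟨0, 166621454, 0, 0, 0, 0, 0, 0, 0, ⟨0, 0⟩, 0⟩ 0 0) (.cut .d 3924375 (.cut .d 3644062 (.pos 7 .pm ⟨0, 203183321, 0, 0, 0, 0, 0, 0, 0, ⟨0, 0⟩, 0⟩ 0 0) (.pos 7 .pm ⟨0, 268463128, 0, 0, 0, 0, 0, 0, 0, ⟨0, 0⟩, 0⟩ 0 0)) (.pos 7 .pm ⟨0, 419006302, 0, 0, 0, 0, 0, 0, 0, ⟨0, 0⟩, 0⟩ 0 0))))))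 (.cut .d 2242500 (.pos 5 .pm ⟨0, 0, 65221760, 0, 0, 0, 0, 0, 0, ⟨0, 0⟩, 0⟩ 0 0) (.cut .d 3363750 (.pos 5 .pm ⟨0, 0, 0, 0, 0, 0, 0, 0, 0, ⟨0, 0⟩, 0⟩ 0 0) (.cut .d 3924375 (.pos 5 .pm ⟨0, 271213142, 0, 0, 0, 0, 0, 0, 0, ⟨0, 0⟩, 0⟩ 0 0) (.cut .s 13500416 (.pos 5 .pm ⟨0, 287984812, 0, 0, 0, 0, 0, 0, 0, ⟨0, 0⟩, 0⟩ 0 0) (.pos 5 .pm ⟨0, 558597989, 0, 0, 0, 0, 0, 0, 0, ⟨0, 0⟩, 0⟩ 0 0)))))) (.cut .d 2242500 (.pos 3 .pm ⟨0, 0, 0, 0, 0, 0, 0, 0, 0, ⟨0, 0⟩, 0⟩ 0 0) (.pos 3 .pm ⟨0, 423156203, 0, 0, 0, 0, 0, 0, 0, ⟨0, 0⟩, 0⟩ 0 0))) (.cut .v 268435456 (.cut .d 2242500 (.cut .l 11925068 (.cut .v 67108864 (.cut .v 33554432 (.pos 11 .pp ⟨0, 0, 0, 0, 0, 0, 0, 0, 0, ⟨0,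 0⟩, 0⟩ 0 0) (.pos 12 .pp ⟨1528052682, 0, 0, 0, 0, 0, 0, 0, 0, ⟨0, 0⟩, 0⟩ 0 0)) (.cut .v 134217728 (.cut .d 1121250 (.cut .v 100663296 (.pos 40 .pp ⟨7009226391, 0, 0, 0, 0, 0, 0, 0, 0, ⟨0, 0⟩, 0⟩ 0 0) (.pos 41 .pp ⟨13910301911, 0, 0, 0, 0, 0, 0, 0, 0, ⟨0, 0⟩, 0⟩ 0 0)) (.pos 38 .pp ⟨0, 0, 0, 0, 0, 0, 0, 0, 0, ⟨0, 0⟩, 0⟩ 0 0)) (.void 39 ⟨36360, 63640, 0, 0, 0, 0, 0, 0, 0, ⟨0, 0⟩, 0⟩ 0 0))) (.pos 36 .pp ⟨1180568568, 1272191501, 0, 0, 0, 0, 0, 0, 0, ⟨0, 0⟩, 0⟩ 0 0)) (.pos 36 .pp ⟨0, 627806772, 0, 0, 0, 0, 0, 0, 0, ⟨0, 0⟩, 0⟩ 0 0)) (.void 50 ⟨0, 0, 0, 100000, 0, 0, 0, 0, 0, ⟨0, 0⟩, 0⟩ 0 0)))),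
    by decide +kernel⟩

def covers21 : cell.Covers table row21.1 :=
  ⟨(.cut .d 0 (.cut .v 16777216 (.cut .d (-8388608) (.void 1 ⟨0, 0, 0, 0, 0, 100000, 0, 0, 0, ⟨0, 0⟩, 0⟩ 0 0) (.cut .v 8388608 (.pos 2 .mm ⟨0, 0, 2888065120, 0, 0, 0, 0, 0, 0, ⟨0, 0⟩, 0⟩ 0 0) (.cut .d (-4194304) (.void 3 ⟨100000, 0, 0, 0, 0, 0, 0, 0, 0, ⟨0, 0⟩, 0⟩ 0 0) (.cut .d (-2097152) (.void 3 ⟨86373, 0, 13627, 0, 0, 0, 0, 0, 0, ⟨0, 0⟩, 0⟩ 0 0) (.pos 3 .mm ⟨0, 0, 0, 0, 0, 1974589920, 0, 0, 0, ⟨0, 0⟩, 0⟩ 0 0))))) (.cut .v 268435456 (.cut .v 67108864 (.cut .v 33554432 (.cut .d (-8388608) (.void 11 ⟨100000, 0, 0, 0, 0, 0, 0, 0, 0, ⟨0, 0⟩, 0⟩ 0 0) (.cut .d (-4194304) (.void 11 ⟨100000,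 0, 0, 0, 0, 0, 0, 0, 0, ⟨0, 0⟩, 0⟩ 0 0) (.cut .d (-2097152) (.void 11 ⟨100000, 0, 0, 0, 0, 0, 0, 0, 0, ⟨0, 0⟩, 0⟩ 0 0) (.pos 11 .mp ⟨2710341544, 0, 0, 0, 0, 0, 0, 0, 0, ⟨0, 0⟩, 0⟩ 0 0)))) (.pos 12 .mp ⟨61168023593, 0, 0, 0, 0, 0, 0, 0, 0, ⟨0, 0⟩, 0⟩ 0 0)) (.void 37 ⟨100000, 0, 0, 0, 0, 0, 0, 0, 0, ⟨0, 0⟩, 0⟩ 0 0)) (.void 50 ⟨95984, 0, 0, 4016, 0, 0, 0, 0, 0, ⟨0, 0⟩, 0⟩ 0 0))) (.cut .v 16777216 (.cut .v 8388608 (.cut .v 4194304 (.cut .v 2097152 (.cut .d 1837506 (.void 6 ⟨0, 0, 100000, 0, 0, 0, 0, 0, 0, ⟨0, 0⟩, 0⟩ 0 0) (.cut .v 1048576 (.cut .v 524288 (.cut .v 262144 (.pos 105 .pm ⟨0, 21296486, 0, 0, 0, 0, 0, 0, 0, ⟨0, 0⟩, 0⟩ 0 0) (.pos 106 .pm ⟨0, 53505381,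 0, 0, 0, 0, 0, 0, 0, ⟨0, 0⟩, 0⟩ 0 0)) (.pos 82 .pm ⟨0, 89203761, 0, 0, 0, 0, 0, 0, 0, ⟨0, 0⟩, 0⟩ 0 0)) (.cut .d 2756259 (.pos 62 .pm ⟨0, 0, 0, 0, 0, 0, 0, 0, 0, ⟨0, 0⟩, 0⟩ 0 0) (.cut .d 3215635 (.pos 62 .pm ⟨0, 153337427, 0, 0, 0, 0, 0, 0, 0, ⟨0, 0⟩, 0⟩ 0 0) (.cut .s 13959168 (.pos 62 .pm ⟨0, 190453820, 0, 0, 0, 0, 0, 0, 0, ⟨0, 0⟩, 0⟩ 0 0) (.pos 62 .pm ⟨0, 312125434, 0, 0, 0, 0, 0, 0, 0, ⟨0, 0⟩, 0⟩ 0 0)))))) (.cut .d 1837506 (.pos 7 .pm ⟨0, 0, 373810267, 0, 0, 0, 0, 0, 0, ⟨0, 0⟩, 0⟩ 0 0) (.cut .d 2756259 (.pos 7 .pm ⟨0, 0, 0, 0, 0, 0, 0, 0, 0, ⟨0, 0⟩, 0⟩ 0 0) (.cut .l 11925068 (.cut .l 9494579 (.cut .l 8279334 (.cut .l 7671712 (.cut .d 3215635 (.cut .s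 13959168 (.pos 7 .pm ⟨0, 0, 0, 0, 0, 0, 0, 0, 0, ⟨0, 0⟩, 0⟩ 0 0) (.cut .v 3145728 (.pos 83 .pm ⟨0, 246240093, 0, 0, 0, 0, 0, 0, 0, ⟨0, 0⟩, 0⟩ 0 0) (.pos 84 .pm ⟨0, 336979967, 0, 0, 0, 0, 0, 0, 0, ⟨0, 0⟩, 0⟩ 0 0))) (.cut .s 13959168 (.cut .d 3445323 (.pos 7 .pm ⟨0, 208330449, 0, 0, 0, 0, 0, 0, 0, ⟨0, 0⟩, 0⟩ 0 0) (.pos 7 .pm ⟨0, 282657054, 0, 0, 0, 0, 0, 0, 0, ⟨0, 0⟩, 0⟩ 0 0)) (.pos 7 .pm ⟨0, 471043780, 0, 0, 0, 0, 0, 0, 0, ⟨0, 0⟩, 0⟩ 0 0))) (.pos 7 .pm ⟨0, 251913118, 0, 0, 0, 0, 0, 0, 0, ⟨0, 0⟩, 0⟩ 0 0)) (.pos 7 .pm ⟨0, 228116968, 0, 0, 0, 0, 0, 0, 0, ⟨0, 0⟩, 0⟩ 0 0)) (.pos 7 .pm ⟨0, 224901838, 0, 0, 0, 0, 0, 0, 0, ⟨0, 0⟩, 0⟩ 0 0)) (.pos 7 .pm ⟨0, 218471582,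 0, 0, 0, 0, 0, 0, 0, ⟨0, 0⟩, 0⟩ 0 0))))) (.cut .d 1837506 (.pos 5 .pm ⟨0, 0, 131060493, 0, 0, 0, 0, 0, 0, ⟨0, 0⟩, 0⟩ 0 0) (.cut .d 2756259 (.pos 5 .pm ⟨0, 0, 0, 0, 0, 0, 0, 0, 0, ⟨0, 0⟩, 0⟩ 0 0) (.cut .s 13959168 (.pos 5 .pm ⟨0, 335023464, 0, 0, 0, 0, 0, 0, 0, ⟨0, 0⟩, 0⟩ 0 0) (.pos 5 .pm ⟨0, 550066682, 0, 0, 0, 0, 0, 0, 0, ⟨0, 0⟩, 0⟩ 0 0))))) (.cut .d 1837506 (.pos 3 .pm ⟨0, 0, 0, 0, 0, 0, 0, 0, 0, ⟨0, 0⟩, 0⟩ 0 0) (.pos 3 .pm ⟨0, 553314218, 0, 0, 0, 0, 0, 0, 0, ⟨0, 0⟩, 0⟩ 0 0))) (.cut .v 268435456 (.cut .v 67108864 (.pos 10 .pp ⟨0, 123238080, 0, 0, 0, 0, 0, 0, 0, ⟨0, 0⟩, 0⟩ 0 0) (.cut .v 134217728 (.cut .v 100663296 (.pos 40 .pp ⟨3238004888, 0, 0, 0,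 0, 0, 0, 0, 0, ⟨0, 0⟩, 0⟩ 0 0) (.pos 41 .pp ⟨7845913846, 0, 0, 0, 0, 0, 0, 0, 0, ⟨0, 0⟩, 0⟩ 0 0)) (.pos 39 .pp ⟨67472440195, 100299719805, 0, 0, 0, 0, 0, 0, 0, ⟨0, 0⟩, 0⟩ 0 0))) (.void 50 ⟨0, 0, 0, 100000, 0, 0, 0, 0, 0, ⟨0, 0⟩, 0⟩ 0 0)))),
    by decide +kernel⟩

def covers22 : cell.Covers table row22.1 :=
  ⟨(.cut .d 0 (.cut .v 16777216 (.cut .v 8388608 (.pos 2 .mm ⟨0, 0, 6869035794, 0, 0, 0, 0, 0, 0, ⟨0, 0⟩, 0⟩ 0 0) (.cut .d (-8388608) (.void 3 ⟨100000, 0, 0, 0, 0, 0, 0, 0, 0, ⟨0, 0⟩, 0⟩ 0 0) (.cut .d (-4194304) (.void 3 ⟨100000, 0, 0, 0, 0, 0, 0, 0, 0, ⟨0, 0⟩, 0⟩ 0 0) (.pos 3 .mm ⟨0, 0, 369164702, 0, 0, 3773167955, 0, 0, 0, ⟨0, 0⟩, 0⟩ 0 0)))) (.cut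 .v 268435456 (.cut .v 67108864 (.cut .v 33554432 (.cut .d (-8388608) (.void 11 ⟨100000, 0, 0, 0, 0, 0, 0, 0, 0, ⟨0, 0⟩, 0⟩ 0 0) (.cut .d (-4194304) (.void 11 ⟨100000, 0, 0, 0, 0, 0, 0, 0, 0, ⟨0, 0⟩, 0⟩ 0 0) (.pos 11 .mp ⟨5481796819, 0, 0, 0, 0, 0, 0, 0, 0, ⟨0, 0⟩, 0⟩ 0 0))) (.pos 12 .mp ⟨71068637748, 0, 0, 0, 0, 0, 0, 0, 0, ⟨0, 0⟩, 0⟩ 0 0)) (.void 37 ⟨100000, 0, 0, 0, 0, 0, 0, 0, 0, ⟨0, 0⟩, 0⟩ 0 0)) (.void 50 ⟨95886, 0, 0, 4114, 0, 0, 0, 0, 0, ⟨0, 0⟩, 0⟩ 0 0))) (.cut .v 16777216 (.cut .v 8388608 (.cut .v 4194304 (.cut .v 2097152 (.cut .d 1553447 (.void 6 ⟨0, 0, 100000, 0, 0, 0, 0, 0, 0, ⟨0, 0⟩, 0⟩ 0 0) (.cut .v 1048576 (.cut .d 2330170 (.pos 61 .pm ⟨0,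 0, 2937731785, 0, 0, 0, 0, 0, 0, ⟨0, 0⟩, 0⟩ 0 0) (.cut .v 524288 (.cut .v 262144 (.pos 105 .pm ⟨0, 35007851, 0, 0, 0, 0, 0, 0, 0, ⟨0, 0⟩, 0⟩ 0 0) (.pos 106 .pm ⟨0, 93821523, 0, 0, 0, 0, 0, 0, 0, ⟨0, 0⟩, 0⟩ 0 0)) (.pos 82 .pm ⟨0, 159583170, 0, 0, 0, 0, 0, 0, 0, ⟨0, 0⟩, 0⟩ 0 0))) (.cut .d 2330170 (.pos 62 .pm ⟨0, 0, 0, 0, 0, 0, 0, 0, 0, ⟨0, 0⟩, 0⟩ 0 0) (.cut .l 11925068 (.cut .l 9494579 (.cut .l 8279334 (.cut .l 7671712 (.cut .d 2718532 (.cut .s 14319616 (.pos 62 .pm ⟨0, 0, 0, 0, 0, 0, 0, 0, 0, ⟨0, 0⟩, 0⟩ 0 0) (.pos 62 .pm ⟨0, 218182444, 0, 0, 0, 0, 0, 0, 0, ⟨0, 0⟩, 0⟩ 0 0)) (.cut .s 14319616 (.cut .d 2912713 (.pos 62 .pm ⟨0, 190314598, 0, 0, 0, 0, 0, 0,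 0, ⟨0, 0⟩, 0⟩ 0 0) (.pos 62 .pm ⟨0, 273925337, 0, 0, 0, 0, 0, 0, 0, ⟨0, 0⟩, 0⟩ 0 0)) (.pos 62 .pm ⟨0, 389473022, 0, 0, 0, 0, 0, 0, 0, ⟨0, 0⟩, 0⟩ 0 0))) (.pos 62 .pm ⟨0, 216804171, 0, 0, 0, 0, 0, 0, 0, ⟨0, 0⟩, 0⟩ 0 0)) (.pos 62 .pm ⟨0, 178050226, 0, 0, 0, 0, 0, 0, 0, ⟨0, 0⟩, 0⟩ 0 0)) (.pos 62 .pm ⟨0, 163520724, 0, 0, 0, 0, 0, 0, 0, ⟨0, 0⟩, 0⟩ 0 0)) (.pos 62 .pm ⟨0, 159462941, 0, 0, 0, 0, 0, 0, 0, ⟨0, 0⟩, 0⟩ 0 0))))) (.cut .d 1553447 (.pos 7 .pm ⟨0, 0, 577755208, 0, 0, 0, 0, 0, 0, ⟨0, 0⟩, 0⟩ 0 0) (.cut .d 2330170 (.pos 7 .pm ⟨0, 0, 0, 0, 0, 0, 0, 0, 0, ⟨0, 0⟩, 0⟩ 0 0) (.cut .l 11925068 (.cut .l 9494579 (.cut .l 8279334 (.cut .l 7671712 (.cut .d 2718532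 (.cut .s 14319616 (.pos 7 .pm ⟨0, 0, 0, 0, 0, 0, 0, 0, 0, ⟨0, 0⟩, 0⟩ 0 0) (.pos 7 .pm ⟨0, 326051044, 0, 0, 0, 0, 0, 0, 0, ⟨0, 0⟩, 0⟩ 0 0)) (.cut .l 7367901 (.cut .s 14319616 (.cut .s 14237696 (.pos 7 .pm ⟨0, 286338584, 0, 0, 0, 0, 0, 0, 0, ⟨0, 0⟩, 0⟩ 0 0) (.pos 7 .pm ⟨0, 362985706, 0, 0, 0, 0, 0, 0, 0, ⟨0, 0⟩, 0⟩ 0 0)) (.cut .s 14401536 (.pos 7 .pm ⟨0, 461585508, 0, 0, 0, 0, 0, 0, 0, ⟨0, 0⟩, 0⟩ 0 0) (.pos 7 .pm ⟨0, 616414539, 0, 0, 0, 0, 0, 0, 0, ⟨0, 0⟩, 0⟩ 0 0))) (.pos 7 .pm ⟨0, 418040003, 0, 0, 0, 0, 0, 0, 0, ⟨0, 0⟩, 0⟩ 0 0))) (.pos 7 .pm ⟨0, 330099615, 0, 0, 0, 0, 0, 0, 0, ⟨0, 0⟩, 0⟩ 0 0)) (.pos 7 .pm ⟨0, 305702813, 0, 0, 0, 0, 0, 0, 0, ⟨0, 0⟩, 0⟩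 0 0)) (.pos 7 .pm ⟨0, 301635864, 0, 0, 0, 0, 0, 0, 0, ⟨0, 0⟩, 0⟩ 0 0)) (.pos 7 .pm ⟨0, 293501971, 0, 0, 0, 0, 0, 0, 0, ⟨0, 0⟩, 0⟩ 0 0))))) (.cut .d 1553447 (.pos 5 .pm ⟨0, 0, 85148246, 0, 0, 0, 0, 0, 0, ⟨0, 0⟩, 0⟩ 0 0) (.cut .d 2330170 (.pos 5 .pm ⟨0, 0, 0, 0, 0, 0, 0, 0, 0, ⟨0, 0⟩, 0⟩ 0 0) (.cut .s 14319616 (.pos 5 .pm ⟨0, 472212906, 0, 0, 0, 0, 0, 0, 0, ⟨0, 0⟩, 0⟩ 0 0) (.pos 5 .pm ⟨0, 717113448, 0, 0, 0, 0, 0, 0, 0, ⟨0, 0⟩, 0⟩ 0 0))))) (.cut .d 1553447 (.pos 3 .pm ⟨0, 0, 0, 0, 0, 0, 0, 0, 0, ⟨0, 0⟩, 0⟩ 0 0) (.pos 3 .pm ⟨0, 797531348, 0, 0, 0, 0, 0, 0, 0, ⟨0, 0⟩, 0⟩ 0 0))) (.cut .v 268435456 (.cut .v 67108864 (.pos 10 .pp ⟨0, 405145087, 0, 0, 0, 0, 0,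 0, 0, ⟨0, 0⟩, 0⟩ 0 0) (.pos 37 .pp ⟨6733907009, 7303111645, 0, 0, 0, 0, 0, 0, 0, ⟨0, 0⟩, 0⟩ 0 0)) (.void 50 ⟨0, 0, 0, 100000, 0, 0, 0, 0, 0, ⟨0, 0⟩, 0⟩ 0 0)))),
    by decide +kernel⟩

def covers23 : cell.Covers table row23.1 :=
  ⟨(.cut .d 0 (.cut .v 16777216 (.cut .v 8388608 (.pos 2 .mm ⟨0, 0, 9103484794, 0, 0, 0, 0, 0, 0, ⟨0, 0⟩, 0⟩ 0 0) (.cut .d (-8388608) (.void 3 ⟨100000, 0, 0, 0, 0, 0, 0, 0, 0, ⟨0, 0⟩, 0⟩ 0 0) (.pos 3 .mm ⟨0, 0, 716623625, 0, 0, 8723848355, 0, 0, 0, ⟨0, 0⟩, 0⟩ 0 0))) (.cut .v 268435456 (.cut .v 67108864 (.cut .v 33554432 (.cut .d (-8388608) (.void 11 ⟨100000, 0, 0, 0, 0, 0, 0, 0, 0, ⟨0, 0⟩, 0⟩ 0 0) (.pos 11 .mp ⟨0, 0, 0, 0, 0,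 19623263404, 0, 0, 0, ⟨0, 0⟩, 0⟩ 0 0)) (.pos 12 .mp ⟨89778123878, 0, 0, 0, 0, 0, 0, 0, 0, ⟨0, 0⟩, 0⟩ 0 0)) (.void 37 ⟨100000, 0, 0, 0, 0, 0, 0, 0, 0, ⟨0, 0⟩, 0⟩ 0 0)) (.void 50 ⟨95794, 0, 0, 4206, 0, 0, 0, 0, 0, ⟨0, 0⟩, 0⟩ 0 0))) (.cut .v 16777216 (.cut .v 8388608 (.cut .v 4194304 (.cut .v 2097152 (.cut .d 1328514 (.void 6 ⟨0, 0, 100000, 0, 0, 0, 0, 0, 0, ⟨0, 0⟩, 0⟩ 0 0) (.cut .v 1048576 (.cut .v 524288 (.cut .v 262144 (.cut .v 131072 (.pos 107 .pm ⟨0, 23505623, 0, 0, 0, 0, 0, 0, 0, ⟨0, 0⟩, 0⟩ 0 0) (.pos 108 .pm ⟨0, 55961833, 0, 0, 0, 0, 0, 0, 0, ⟨0, 0⟩, 0⟩ 0 0)) (.pos 106 .pm ⟨0, 91756003, 0, 0, 0, 0, 0, 0, 0, ⟨0, 0⟩, 0⟩ 0 0)) (.cut .d 1992771 (.pos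 82 .pm ⟨0, 0, 84738259, 0, 0, 0, 0, 0, 0, ⟨0, 0⟩, 0⟩ 0 0) (.cut .d 2324899 (.pos 82 .pm ⟨0, 172037065, 0, 0, 0, 0, 0, 0, 0, ⟨0, 0⟩, 0⟩ 0 0) (.cut .s 14647296 (.pos 82 .pm ⟨0, 203258625, 0, 0, 0, 0, 0, 0, 0, ⟨0, 0⟩, 0⟩ 0 0) (.pos 82 .pm ⟨0, 312832586, 0, 0, 0, 0, 0, 0, 0, ⟨0, 0⟩, 0⟩ 0 0))))) (.cut .d 1992771 (.pos 62 .pm ⟨0, 0, 0, 0, 0, 0, 0, 0, 0, ⟨0, 0⟩, 0⟩ 0 0) (.cut .l 11925068 (.cut .l 9494579 (.cut .l 8279334 (.cut .d 2324899 (.cut .s 14647296 (.pos 62 .pm ⟨0, 0, 0, 0, 0, 0, 0, 0, 0, ⟨0, 0⟩, 0⟩ 0 0) (.cut .d 2158835 (.pos 62 .pm ⟨0, 0, 0, 0, 0, 0, 0, 0, 0, ⟨0, 0⟩, 0⟩ 0 0) (.cut .s 14729216 (.pos 62 .pm ⟨0, 280610688, 0, 0, 0, 0, 0, 0, 0, ⟨0, 0⟩,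 0⟩ 0 0) (.cut .d 2241867 (.pos 62 .pm ⟨0, 359850875, 0, 0, 0, 0, 0, 0, 0, ⟨0, 0⟩, 0⟩ 0 0) (.pos 62 .pm ⟨0, 428565263, 0, 0, 0, 0, 0, 0, 0, ⟨0, 0⟩, 0⟩ 0 0))))) (.cut .l 7671712 (.cut .s 14647296 (.cut .s 14565376 (.pos 62 .pm ⟨0, 258843624, 0, 0, 0, 0, 0, 0, 0, ⟨0, 0⟩, 0⟩ 0 0) (.cut .d 2490963 (.pos 62 .pm ⟨0, 285244346, 0, 0, 0, 0, 0, 0, 0, ⟨0, 0⟩, 0⟩ 0 0) (.pos 62 .pm ⟨0, 407764764, 0, 0, 0, 0, 0, 0, 0, ⟨0, 0⟩, 0⟩ 0 0))) (.cut .v 1572864 (.pos 103 .pm ⟨0, 442918834, 0, 0, 0, 0, 0, 0, 0, ⟨0, 0⟩, 0⟩ 0 0) (.pos 104 .pm ⟨0, 559878429, 0, 0, 0, 0, 0, 0, 0, ⟨0, 0⟩, 0⟩ 0 0))) (.pos 62 .pm ⟨0, 372809754, 0, 0, 0, 0, 0, 0, 0, ⟨0, 0⟩, 0⟩ 0 0))) (.pos 62 .pm ⟨0,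 257768088, 0, 0, 0, 0, 0, 0, 0, ⟨0, 0⟩, 0⟩ 0 0)) (.pos 62 .pm ⟨0, 228532447, 0, 0, 0, 0, 0, 0, 0, ⟨0, 0⟩, 0⟩ 0 0)) (.pos 62 .pm ⟨0, 222798958, 0, 0, 0, 0, 0, 0, 0, ⟨0, 0⟩, 0⟩ 0 0))))) (.cut .d 1328514 (.pos 7 .pm ⟨0, 0, 899590263, 0, 0, 0, 0, 0, 0, ⟨0, 0⟩, 0⟩ 0 0) (.cut .d 1992771 (.pos 7 .pm ⟨0, 0, 0, 0, 0, 0, 0, 0, 0, ⟨0, 0⟩, 0⟩ 0 0) (.cut .l 11925068 (.cut .l 9494579 (.cut .l 8279334 (.cut .l 7671712 (.cut .d 2324899 (.cut .s 14647296 (.pos 7 .pm ⟨0, 0, 0, 0, 0, 0, 0, 0, 0, ⟨0, 0⟩, 0⟩ 0 0) (.pos 7 .pm ⟨0, 469442097, 0, 0, 0, 0, 0, 0, 0, ⟨0, 0⟩, 0⟩ 0 0)) (.cut .s 14647296 (.cut .s 14565376 (.pos 7 .pm ⟨0, 371778784, 0, 0, 0, 0, 0, 0, 0, ⟨0, 0⟩, 0⟩ 0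 0) (.pos 7 .pm ⟨0, 488628066, 0, 0, 0, 0, 0, 0, 0, ⟨0, 0⟩, 0⟩ 0 0)) (.cut .s 14729216 (.pos 7 .pm ⟨0, 639371129, 0, 0, 0, 0, 0, 0, 0, ⟨0, 0⟩, 0⟩ 0 0) (.void 7 ⟨0, 0, 0, 100000, 0, 0, 0, 0, 0, ⟨0, 0⟩, 0⟩ 0 0)))) (.pos 7 .pm ⟨0, 471596898, 0, 0, 0, 0, 0, 0, 0, ⟨0, 0⟩, 0⟩ 0 0)) (.pos 7 .pm ⟨0, 436607178, 0, 0, 0, 0, 0, 0, 0, ⟨0, 0⟩, 0⟩ 0 0)) (.pos 7 .pm ⟨0, 427075490, 0, 0, 0, 0, 0, 0, 0, ⟨0, 0⟩, 0⟩ 0 0)) (.pos 7 .pm ⟨0, 415580709, 0, 0, 0, 0, 0, 0, 0, ⟨0, 0⟩, 0⟩ 0 0))))) (.cut .d 1328514 (.pos 5 .pm ⟨0, 0, 0, 0, 0, 0, 0, 0, 0, ⟨0, 0⟩, 0⟩ 0 0) (.cut .d 1992771 (.pos 5 .pm ⟨0, 0, 0, 0, 0, 0, 0, 0, 0, ⟨0, 0⟩, 0⟩ 0 0) (.cut .s 14647296 (.pos 5 .pm ⟨0, 666067611,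 0, 0, 0, 0, 0, 0, 0, ⟨0, 0⟩, 0⟩ 0 0) (.pos 5 .pm ⟨0, 1045757877, 0, 0, 0, 0, 0, 0, 0, ⟨0, 0⟩, 0⟩ 0 0))))) (.pos 3 .pm ⟨0, 658700492, 0, 0, 0, 0, 0, 0, 0, ⟨0, 0⟩, 0⟩ 0 0)) (.cut .v 268435456 (.pos 36 .pp ⟨0, 984790056, 0, 0, 0, 0, 0, 0, 0, ⟨0, 0⟩, 0⟩ 0 0) (.void 50 ⟨0, 0, 0, 100000, 0, 0, 0, 0, 0, ⟨0, 0⟩, 0⟩ 0 0)))),
    by decide +kernel⟩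

def covers24 : cell.Covers table row24.1 :=
  ⟨(.cut .d 0 (.cut .v 16777216 (.cut .v 8388608 (.pos 2 .mm ⟨0, 0, 11547966683, 0, 0, 0, 0, 0, 0, ⟨0, 0⟩, 0⟩ 0 0) (.cut .d (-8388608) (.pos 3 .mm ⟨167772160000, 0, 0, 0, 0, 0, 0, 0, 0, ⟨0, 0⟩, 0⟩ 0 0) (.pos 3 .mm ⟨0, 0, 1348873345, 0, 0, 10043090968, 0, 0, 0, ⟨0, 0⟩, 0⟩ 0 0))) (.cut .v 268435456 (.cut .v 67108864 (.cut .v 33554432 (.cut .v 25165824 (.pos 13 .mp ⟨0, 0, 0, 0, 0, 35464194956, 0, 0, 0, ⟨0, 0⟩, 0⟩ 0 0) (.pos 14 .mp ⟨53089190794, 0, 0, 0, 0, 0, 0, 0, 0, ⟨0, 0⟩, 0⟩ 0 0)) (.pos 12 .mp ⟨110320816682, 0, 0, 0, 0, 0, 0, 0, 0, ⟨0, 0⟩, 0⟩ 0 0)) (.void 37 ⟨100000, 0, 0, 0, 0, 0, 0, 0, 0, ⟨0, 0⟩, 0⟩ 0 0))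 (.void 50 ⟨95716, 0, 0, 4284, 0, 0, 0, 0, 0, ⟨0, 0⟩, 0⟩ 0 0))) (.cut .v 16777216 (.cut .v 8388608 (.cut .v 4194304 (.cut .d 1113533 (.pos 4 .pm ⟨0, 0, 6362783630, 0, 0, 0, 0, 0, 0, ⟨0, 0⟩, 0⟩ 0 0) (.cut .v 2097152 (.cut .v 1048576 (.cut .d 1670300 (.pos 61 .pm ⟨0, 0, 4812220528, 0, 0, 0, 0, 0, 0, ⟨0, 0⟩, 0⟩ 0 0) (.cut .v 524288 (.cut .v 262144 (.cut .v 131072 (.pos 107 .pm ⟨0, 35455932, 0, 0, 0, 0, 0, 0, 0, ⟨0, 0⟩, 0⟩ 0 0) (.pos 108 .pm ⟨0, 95689036, 0, 0, 0, 0, 0, 0, 0, ⟨0, 0⟩, 0⟩ 0 0)) (.pos 106 .pm ⟨0, 161606643, 0, 0, 0, 0, 0, 0, 0, ⟨0, 0⟩, 0⟩ 0 0)) (.cut .l 11925068 (.cut .l 9494579 (.cut .l 8279334 (.cut .l 7671712 (.cut .d 1948683 (.cut .s 14942208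 (.pos 82 .pm ⟨0, 0, 0, 0, 0, 0, 0, 0, 0, ⟨0, 0⟩, 0⟩ 0 0) (.cut .d 1809491 (.pos 82 .pm ⟨0, 0, 0, 0, 0, 0, 0, 0, 0, ⟨0, 0⟩, 0⟩ 0 0) (.pos 82 .pm ⟨0, 298089589, 0, 0, 0, 0, 0, 0, 0, ⟨0, 0⟩, 0⟩ 0 0))) (.cut .s 14942208 (.pos 82 .pm ⟨0, 265324677, 0, 0, 0, 0, 0, 0, 0, ⟨0, 0⟩, 0⟩ 0 0) (.pos 82 .pm ⟨0, 401039313, 0, 0, 0, 0, 0, 0, 0, ⟨0, 0⟩, 0⟩ 0 0))) (.pos 82 .pm ⟨0, 241746870, 0, 0, 0, 0, 0, 0, 0, ⟨0, 0⟩, 0⟩ 0 0)) (.pos 82 .pm ⟨0, 211157668, 0, 0, 0, 0, 0, 0, 0, ⟨0, 0⟩, 0⟩ 0 0)) (.pos 82 .pm ⟨0, 167702847, 0, 0, 0, 0, 0, 0, 0, ⟨0, 0⟩, 0⟩ 0 0)) (.pos 82 .pm ⟨0, 163033037, 0, 0, 0, 0, 0, 0, 0, ⟨0, 0⟩, 0⟩ 0 0)))) (.cut .d 1670300 (.pos 62 .pm ⟨0, 0, 0, 0, 0,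 0, 0, 0, 0, ⟨0, 0⟩, 0⟩ 0 0) (.cut .l 11925068 (.cut .l 9494579 (.cut .l 8279334 (.cut .d 1948683 (.cut .s 14942208 (.pos 62 .pm ⟨0, 0, 0, 0, 0, 0, 0, 0, 0, ⟨0, 0⟩, 0⟩ 0 0) (.cut .v 1572864 (.cut .d 1809491 (.pos 103 .pm ⟨0, 0, 0, 0, 0, 0, 0, 0, 0, ⟨0, 0⟩, 0⟩ 0 0) (.cut .s 15007744 (.pos 103 .pm ⟨0, 0, 0, 0, 0, 0, 0, 0, 0, ⟨0, 0⟩, 0⟩ 0 0) (.cut .d 1879087 (.pos 103 .pm ⟨0, 0, 0, 0, 0, 0, 0, 0, 0, ⟨0, 0⟩, 0⟩ 0 0) (.pos 103 .pm ⟨0, 465093305, 0, 0, 0, 0, 0, 0, 0, ⟨0, 0⟩, 0⟩ 0 0)))) (.pos 104 .pm ⟨0, 477436001, 0, 0, 0, 0, 0, 0, 0, ⟨0, 0⟩, 0⟩ 0 0))) (.cut .l 7671712 (.cut .s 14942208 (.cut .d 2087875 (.pos 62 .pm ⟨0, 308978653, 0, 0, 0, 0, 0, 0, 0, ⟨0, 0⟩,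 0⟩ 0 0) (.cut .s 14876672 (.pos 62 .pm ⟨0, 372297094, 0, 0, 0, 0, 0, 0, 0, ⟨0, 0⟩, 0⟩ 0 0) (.pos 62 .pm ⟨0, 511012962, 0, 0, 0, 0, 0, 0, 0, ⟨0, 0⟩, 0⟩ 0 0))) (.cut .s 15007744 (.cut .d 2087875 (.cut .s 14974976 (.pos 62 .pm ⟨0, 428551386, 0, 0, 0, 0, 0, 0, 0, ⟨0, 0⟩, 0⟩ 0 0) (.pos 62 .pm ⟨0, 501806616, 0, 0, 0, 0, 0, 0, 0, ⟨0, 0⟩, 0⟩ 0 0)) (.void 62 ⟨0, 0, 0, 100000, 0, 0, 0, 0, 0, ⟨0, 0⟩, 0⟩ 0 0)) (.pos 62 .pm ⟨0, 732339014, 0, 0, 0, 0, 0, 0, 0, ⟨0, 0⟩, 0⟩ 0 0))) (.pos 62 .pm ⟨0, 467161542, 0, 0, 0, 0, 0, 0, 0, ⟨0, 0⟩, 0⟩ 0 0))) (.pos 62 .pm ⟨0, 335696928, 0, 0, 0, 0, 0, 0, 0, ⟨0, 0⟩, 0⟩ 0 0)) (.pos 62 .pm ⟨0, 308800654, 0, 0, 0, 0, 0, 0, 0, ⟨0, 0⟩,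 0⟩ 0 0)) (.pos 62 .pm ⟨0, 301643425, 0, 0, 0, 0, 0, 0, 0, ⟨0, 0⟩, 0⟩ 0 0)))) (.cut .d 1670300 (.pos 7 .pm ⟨0, 0, 0, 0, 0, 0, 0, 0, 0, ⟨0, 0⟩, 0⟩ 0 0) (.cut .d 1948683 (.pos 7 .pm ⟨0, 497182157, 0, 0, 0, 0, 0, 0, 0, ⟨0, 0⟩, 0⟩ 0 0) (.cut .s 14942208 (.pos 7 .pm ⟨0, 582888204, 0, 0, 0, 0, 0, 0, 0, ⟨0, 0⟩, 0⟩ 0 0) (.pos 7 .pm ⟨0, 985013858, 0, 0, 0, 0, 0, 0, 0, ⟨0, 0⟩, 0⟩ 0 0)))))) (.cut .d 1113533 (.pos 5 .pm ⟨0, 0, 0, 0, 0, 0, 0, 0, 0, ⟨0, 0⟩, 0⟩ 0 0) (.cut .d 1670300 (.pos 5 .pm ⟨0, 0, 0, 0, 0, 0, 0, 0, 0, ⟨0, 0⟩, 0⟩ 0 0) (.pos 5 .pm ⟨0, 1165517240, 0, 0, 0, 0, 0, 0, 0, ⟨0, 0⟩, 0⟩ 0 0)))) (.pos 3 .pm ⟨0, 1135066283, 0, 0, 0, 0, 0, 0, 0, ⟨0, 0⟩, 0⟩ 0 0))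 (.pos 49 .pp ⟨0, 1897014591, 0, 0, 0, 0, 0, 0, 0, ⟨0, 0⟩, 0⟩ 0 0))),
    by decide +kernel⟩

def covers25 : cell.Covers table row25.1 :=
  ⟨(.cut .d 0 (.cut .v 16777216 (.cut .v 8388608 (.pos 2 .mm ⟨0, 0, 167772160000, 0, 0, 0, 0, 0, 0, ⟨0, 0⟩, 0⟩ 0 0) (.pos 3 .mm ⟨0, 0, 2212997394, 0, 0, 26013295685, 0, 0, 0, ⟨0, 0⟩, 0⟩ 0 0)) (.cut .v 268435456 (.cut .v 67108864 (.cut .v 33554432 (.pos 11 .mp ⟨0, 0, 0, 0, 0, 57386547738, 0, 0, 0, ⟨0, 0⟩, 0⟩ 0 0) (.pos 12 .mp ⟨130250705960, 0, 0, 0, 0, 0, 0, 0, 0, ⟨0, 0⟩, 0⟩ 0 0)) (.void 37 ⟨100000, 0, 0, 0, 0, 0, 0, 0, 0, ⟨0, 0⟩, 0⟩ 0 0)) (.void 50 ⟨95657, 0, 0, 4343, 0, 0, 0, 0, 0, ⟨0, 0⟩, 0⟩ 0 0))) (.cut .v 16777216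 (.cut .v 8388608 (.cut .v 4194304 (.cut .d 948278 (.pos 4 .pm ⟨0, 0, 7917944143, 0, 0, 0, 0, 0, 0, ⟨0, 0⟩, 0⟩ 0 0) (.cut .v 2097152 (.cut .v 1048576 (.cut .d 1422417 (.pos 61 .pm ⟨0, 0, 167772160000, 0, 0, 0, 0, 0, 0, ⟨0, 0⟩, 0⟩ 0 0) (.cut .v 524288 (.cut .v 262144 (.cut .v 131072 (.pos 107 .pm ⟨0, 44626725, 0, 0, 0, 0, 0, 0, 0, ⟨0, 0⟩, 0⟩ 0 0) (.pos 108 .pm ⟨0, 114811481, 0, 0, 0, 0, 0, 0, 0, ⟨0, 0⟩, 0⟩ 0 0)) (.pos 106 .pm ⟨0, 193758884, 0, 0, 0, 0, 0, 0, 0, ⟨0, 0⟩, 0⟩ 0 0)) (.cut .l 11925068 (.cut .l 9494579 (.cut .l 8279334 (.cut .d 1659487 (.cut .v 786432 (.pos 109 .pm ⟨0, 220948084, 0, 0, 0, 0, 0, 0, 0, ⟨0, 0⟩, 0⟩ 0 0) (.cut .s 15171584 (.pos 110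 .pm ⟨0, 0, 0, 0, 0, 0, 0, 0, 0, ⟨0, 0⟩, 0⟩ 0 0) (.cut .v 917504 (.pos 113 .pm ⟨0, 327722098, 0, 0, 0, 0, 0, 0, 0, ⟨0, 0⟩, 0⟩ 0 0) (.pos 114 .pm ⟨0, 372017543, 0, 0, 0, 0, 0, 0, 0, ⟨0, 0⟩, 0⟩ 0 0)))) (.cut .l 7671712 (.cut .s 15171584 (.cut .d 1778022 (.pos 82 .pm ⟨0, 278837645, 0, 0, 0, 0, 0, 0, 0, ⟨0, 0⟩, 0⟩ 0 0) (.cut .s 15122432 (.pos 82 .pm ⟨0, 347736395, 0, 0, 0, 0, 0, 0, 0, ⟨0, 0⟩, 0⟩ 0 0) (.pos 82 .pm ⟨0, 427551929, 0, 0, 0, 0, 0, 0, 0, ⟨0, 0⟩, 0⟩ 0 0))) (.cut .d 1778022 (.cut .s 15220736 (.cut .d 1718754 (.pos 82 .pm ⟨0, 360443823, 0, 0, 0, 0, 0, 0, 0, ⟨0, 0⟩, 0⟩ 0 0) (.pos 82 .pm ⟨0, 451306934, 0, 0, 0, 0, 0, 0, 0, ⟨0, 0⟩, 0⟩ 0 0)) (.pos 82 .pm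 ⟨0, 490940567, 0, 0, 0, 0, 0, 0, 0, ⟨0, 0⟩, 0⟩ 0 0)) (.void 82 ⟨0, 0, 0, 100000, 0, 0, 0, 0, 0, ⟨0, 0⟩, 0⟩ 0 0))) (.pos 82 .pm ⟨0, 352683225, 0, 0, 0, 0, 0, 0, 0, ⟨0, 0⟩, 0⟩ 0 0))) (.pos 82 .pm ⟨0, 251735970, 0, 0, 0, 0, 0, 0, 0, ⟨0, 0⟩, 0⟩ 0 0)) (.pos 82 .pm ⟨0, 212018397, 0, 0, 0, 0, 0, 0, 0, ⟨0, 0⟩, 0⟩ 0 0)) (.pos 82 .pm ⟨0, 207921575, 0, 0, 0, 0, 0, 0, 0, ⟨0, 0⟩, 0⟩ 0 0)))) (.cut .d 1422417 (.pos 62 .pm ⟨0, 0, 417170113, 0, 0, 0, 0, 0, 0, ⟨0, 0⟩, 0⟩ 0 0) (.cut .l 11925068 (.cut .l 9494579 (.cut .l 8279334 (.cut .d 1659487 (.cut .v 1572864 (.cut .v 1310720 (.cut .s 15171584 (.pos 111 .pm ⟨0, 0, 0, 0, 0, 0, 0, 0, 0, ⟨0, 0⟩, 0⟩ 0 0) (.cut .s 15220736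 (.pos 111 .pm ⟨0, 0, 0, 0, 0, 0, 0, 0, 0, ⟨0, 0⟩, 0⟩ 0 0) (.pos 111 .pm ⟨0, 445454667, 0, 0, 0, 0, 0, 0, 0, ⟨0, 0⟩, 0⟩ 0 0))) (.pos 112 .pm ⟨0, 430973152, 0, 0, 0, 0, 0, 0, 0, ⟨0, 0⟩, 0⟩ 0 0)) (.pos 104 .pm ⟨0, 508355376, 0, 0, 0, 0, 0, 0, 0, ⟨0, 0⟩, 0⟩ 0 0)) (.cut .l 7671712 (.cut .s 15171584 (.cut .l 7367901 (.cut .d 1778022 (.cut .v 1572864 (.pos 103 .pm ⟨0, 372582733, 0, 0, 0, 0, 0, 0, 0, ⟨0, 0⟩, 0⟩ 0 0) (.pos 104 .pm ⟨0, 521124474, 0, 0, 0, 0, 0, 0, 0, ⟨0, 0⟩, 0⟩ 0 0)) (.cut .v 1572864 (.cut .s 15122432 (.cut .d 1837289 (.pos 103 .pm ⟨0, 388851582, 0, 0, 0, 0, 0, 0, 0, ⟨0, 0⟩, 0⟩ 0 0) (.pos 103 .pm ⟨0, 473554729, 0, 0, 0, 0, 0, 0, 0, ⟨0, 0⟩, 0⟩ 0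 0)) (.pos 103 .pm ⟨0, 561662115, 0, 0, 0, 0, 0, 0, 0, ⟨0, 0⟩, 0⟩ 0 0)) (.pos 104 .pm ⟨0, 621176512, 0, 0, 0, 0, 0, 0, 0, ⟨0, 0⟩, 0⟩ 0 0))) (.pos 62 .pm ⟨0, 429962424, 0, 0, 0, 0, 0, 0, 0, ⟨0, 0⟩, 0⟩ 0 0)) (.cut .d 1778022 (.cut .v 1572864 (.cut .l 7367901 (.cut .l 7215995 (.cut .s 15220736 (.cut .d 1718754 (.pos 103 .pm ⟨0, 462197986, 0, 0, 0, 0, 0, 0, 0, ⟨0, 0⟩, 0⟩ 0 0) (.pos 103 .pm ⟨0, 550820466, 0, 0, 0, 0, 0, 0, 0, ⟨0, 0⟩, 0⟩ 0 0)) (.cut .v 1310720 (.cut .v 1179648 (.pos 115 .pm ⟨0, 553060258, 0, 0, 0, 0, 0, 0, 0, ⟨0, 0⟩, 0⟩ 0 0) (.pos 116 .pm ⟨0, 605843783, 0, 0, 0, 0, 0, 0, 0, ⟨0, 0⟩, 0⟩ 0 0)) (.pos 112 .pm ⟨0, 684381167, 0, 0, 0, 0, 0, 0, 0, ⟨0,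 0⟩, 0⟩ 0 0))) (.pos 103 .pm ⟨0, 566165833, 0, 0, 0, 0, 0, 0, 0, ⟨0, 0⟩, 0⟩ 0 0)) (.pos 103 .pm ⟨0, 537876602, 0, 0, 0, 0, 0, 0, 0, ⟨0, 0⟩, 0⟩ 0 0)) (.pos 104 .pm ⟨0, 748326581, 0, 0, 0, 0, 0, 0, 0, ⟨0, 0⟩, 0⟩ 0 0)) (.void 62 ⟨0, 0, 0, 100000, 0, 0, 0, 0, 0, ⟨0, 0⟩, 0⟩ 0 0))) (.pos 62 .pm ⟨0, 541961634, 0, 0, 0, 0, 0, 0, 0, ⟨0, 0⟩, 0⟩ 0 0))) (.pos 62 .pm ⟨0, 419810192, 0, 0, 0, 0, 0, 0, 0, ⟨0, 0⟩, 0⟩ 0 0)) (.pos 62 .pm ⟨0, 399824761, 0, 0, 0, 0, 0, 0, 0, ⟨0, 0⟩, 0⟩ 0 0)) (.pos 62 .pm ⟨0, 391622599, 0, 0, 0, 0, 0, 0, 0, ⟨0, 0⟩, 0⟩ 0 0)))) (.cut .d 1422417 (.pos 7 .pm ⟨0, 0, 0, 0, 0, 0, 0, 0, 0, ⟨0, 0⟩, 0⟩ 0 0) (.cut .s 15171584 (.pos 7 .pm ⟨0, 706434521,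 0, 0, 0, 0, 0, 0, 0, ⟨0, 0⟩, 0⟩ 0 0) (.cut .d 1659487 (.pos 7 .pm ⟨0, 795015685, 0, 0, 0, 0, 0, 0, 0, ⟨0, 0⟩, 0⟩ 0 0) (.pos 7 .pm ⟨0, 1112288170, 0, 0, 0, 0, 0, 0, 0, ⟨0, 0⟩, 0⟩ 0 0)))))) (.cut .d 948278 (.pos 5 .pm ⟨0, 0, 897156304, 0, 0, 0, 0, 0, 0, ⟨0, 0⟩, 0⟩ 0 0) (.pos 5 .pm ⟨0, 1297346329, 0, 0, 0, 0, 0, 0, 0, ⟨0, 0⟩, 0⟩ 0 0))) (.pos 3 .pm ⟨0, 1755479813, 0, 0, 0, 0, 0, 0, 0, ⟨0, 0⟩, 0⟩ 0 0)) (.pos 49 .pp ⟨0, 3108784095, 0, 0, 0, 0, 0, 0, 0, ⟨0, 0⟩, 0⟩ 0 0))),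
    by decide +kernel⟩

def covers26 : cell.Covers table row26.1 :=
  ⟨(.cut .d 0 (.cut .v 16777216 (.cut .v 8388608 (.pos 2 .mm ⟨0, 0, 167772160000, 0, 0, 0, 0, 0, 0, ⟨0, 0⟩, 0⟩ 0 0) (.pos 3 .mm ⟨0, 0, 3385193451, 0, 0, 33524739524, 0, 0, 0, ⟨0, 0⟩, 0⟩ 0 0)) (.cut .v 268435456 (.cut .v 67108864 (.cut .v 33554432 (.pos 11 .mp ⟨0, 0, 0, 0, 0, 74675439274, 0, 0, 0, ⟨0, 0⟩, 0⟩ 0 0) (.pos 12 .mp ⟨165918004265, 0, 0, 0, 0, 0, 0, 0, 0, ⟨0, 0⟩, 0⟩ 0 0)) (.void 37 ⟨100000, 0, 0, 0, 0, 0, 0, 0, 0, ⟨0, 0⟩, 0⟩ 0 0)) (.void 50 ⟨95588, 0, 0, 4412, 0, 0, 0, 0, 0, ⟨0, 0⟩, 0⟩ 0 0))) (.cut .v 16777216 (.cut .v 8388608 (.cut .v 4194304 (.cut .d 828061 (.pos 4 .pm ⟨0, 0,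 10854843153, 0, 0, 0, 0, 0, 0, ⟨0, 0⟩, 0⟩ 0 0) (.cut .v 2097152 (.cut .v 1048576 (.cut .v 524288 (.cut .d 1242092 (.void 81 ⟨0, 0, 100000, 0, 0, 0, 0, 0, 0, ⟨0, 0⟩, 0⟩ 0 0) (.cut .v 262144 (.cut .v 131072 (.pos 107 .pm ⟨0, 66307931, 0, 0, 0, 0, 0, 0, 0, ⟨0, 0⟩, 0⟩ 0 0) (.pos 108 .pm ⟨0, 158736673, 0, 0, 0, 0, 0, 0, 0, ⟨0, 0⟩, 0⟩ 0 0)) (.cut .s 15400960 (.pos 106 .pm ⟨0, 209967537, 0, 0, 0, 0, 0, 0, 0, ⟨0, 0⟩, 0⟩ 0 0) (.cut .d 1449107 (.cut .d 1345599 (.pos 106 .pm ⟨0, 243069108, 0, 0, 0, 0, 0, 0, 0, ⟨0, 0⟩, 0⟩ 0 0) (.pos 106 .pm ⟨0, 327735483, 0, 0, 0, 0, 0, 0, 0, ⟨0, 0⟩, 0⟩ 0 0)) (.pos 106 .pm ⟨0, 390429946, 0, 0, 0, 0, 0, 0, 0, ⟨0, 0⟩, 0⟩ 0 0))))) (.cut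 .d 1242092 (.pos 82 .pm ⟨0, 0, 88251244, 0, 0, 0, 0, 0, 0, ⟨0, 0⟩, 0⟩ 0 0) (.cut .l 11925068 (.cut .l 9494579 (.cut .l 8279334 (.cut .d 1449107 (.cut .s 15400960 (.pos 82 .pm ⟨0, 0, 0, 0, 0, 0, 0, 0, 0, ⟨0, 0⟩, 0⟩ 0 0) (.cut .l 7671712 (.cut .d 1345599 (.cut .v 786432 (.pos 109 .pm ⟨0, 337064229, 0, 0, 0, 0, 0, 0, 0, ⟨0, 0⟩, 0⟩ 0 0) (.pos 110 .pm ⟨0, 446378455, 0, 0, 0, 0, 0, 0, 0, ⟨0, 0⟩, 0⟩ 0 0)) (.cut .l 7367901 (.cut .s 15466496 (.cut .v 786432 (.pos 109 .pm ⟨0, 379012339, 0, 0, 0, 0, 0, 0, 0, ⟨0, 0⟩, 0⟩ 0 0) (.pos 110 .pm ⟨0, 478878603, 0, 0, 0, 0, 0, 0, 0, ⟨0, 0⟩, 0⟩ 0 0)) (.cut .l 7215995 (.cut .d 1397353 (.cut .s 15499264 (.pos 82 .pm ⟨0, 472238700,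 0, 0, 0, 0, 0, 0, 0, ⟨0, 0⟩, 0⟩ 0 0) (.cut .v 786432 (.pos 109 .pm ⟨0, 533017423, 0, 0, 0, 0, 0, 0, 0, ⟨0, 0⟩, 0⟩ 0 0) (.pos 110 .pm ⟨0, 642795420, 0, 0, 0, 0, 0, 0, 0, ⟨0, 0⟩, 0⟩ 0 0))) (.cut .v 786432 (.pos 109 .pm ⟨0, 565032967, 0, 0, 0, 0, 0, 0, 0, ⟨0, 0⟩, 0⟩ 0 0) (.pos 110 .pm ⟨0, 702684542, 0, 0, 0, 0, 0, 0, 0, ⟨0, 0⟩, 0⟩ 0 0))) (.pos 82 .pm ⟨0, 574192837, 0, 0, 0, 0, 0, 0, 0, ⟨0, 0⟩, 0⟩ 0 0))) (.pos 82 .pm ⟨0, 465453956, 0, 0, 0, 0, 0, 0, 0, ⟨0, 0⟩, 0⟩ 0 0))) (.pos 82 .pm ⟨0, 371920010, 0, 0, 0, 0, 0, 0, 0, ⟨0, 0⟩, 0⟩ 0 0))) (.cut .s 15400960 (.cut .l 7671712 (.cut .d 1552615 (.cut .s 15335424 (.pos 82 .pm ⟨0, 0, 0, 0, 0, 0, 0, 0, 0, ⟨0, 0⟩, 0⟩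 0 0) (.cut .v 786432 (.pos 109 .pm ⟨0, 374940759, 0, 0, 0, 0, 0, 0, 0, ⟨0, 0⟩, 0⟩ 0 0) (.cut .v 917504 (.pos 113 .pm ⟨0, 441593738, 0, 0, 0, 0, 0, 0, 0, ⟨0, 0⟩, 0⟩ 0 0) (.pos 114 .pm ⟨0, 496028897, 0, 0, 0, 0, 0, 0, 0, ⟨0, 0⟩, 0⟩ 0 0)))) (.cut .s 15335424 (.cut .d 1604369 (.pos 82 .pm ⟨0, 369429040, 0, 0, 0, 0, 0, 0, 0, ⟨0, 0⟩, 0⟩ 0 0) (.cut .d 1630246 (.pos 82 .pm ⟨0, 436417735, 0, 0, 0, 0, 0, 0, 0, ⟨0, 0⟩, 0⟩ 0 0) (.pos 82 .pm ⟨0, 478825549, 0, 0, 0, 0, 0, 0, 0, ⟨0, 0⟩, 0⟩ 0 0))) (.pos 82 .pm ⟨0, 579348843, 0, 0, 0, 0, 0, 0, 0, ⟨0, 0⟩, 0⟩ 0 0))) (.pos 82 .pm ⟨0, 353727296, 0, 0, 0, 0, 0, 0, 0, ⟨0, 0⟩, 0⟩ 0 0)) (.cut .s 15466496 (.cut .v 786432 (.pos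 109 .pm ⟨0, 504957237, 0, 0, 0, 0, 0, 0, 0, ⟨0, 0⟩, 0⟩ 0 0) (.cut .v 917504 (.pos 113 .pm ⟨0, 581288397, 0, 0, 0, 0, 0, 0, 0, ⟨0, 0⟩, 0⟩ 0 0) (.pos 114 .pm ⟨0, 656378781, 0, 0, 0, 0, 0, 0, 0, ⟨0, 0⟩, 0⟩ 0 0))) (.void 82 ⟨0, 0, 0, 100000, 0, 0, 0, 0, 0, ⟨0, 0⟩, 0⟩ 0 0)))) (.cut .d 1449107 (.pos 82 .pm ⟨0, 272658355, 0, 0, 0, 0, 0, 0, 0, ⟨0, 0⟩, 0⟩ 0 0) (.pos 82 .pm ⟨0, 471694835, 0, 0, 0, 0, 0, 0, 0, ⟨0, 0⟩, 0⟩ 0 0))) (.pos 82 .pm ⟨0, 319924251, 0, 0, 0, 0, 0, 0, 0, ⟨0, 0⟩, 0⟩ 0 0)) (.pos 82 .pm ⟨0, 291885365, 0, 0, 0, 0, 0, 0, 0, ⟨0, 0⟩, 0⟩ 0 0)))) (.cut .d 1242092 (.pos 62 .pm ⟨0, 0, 0, 0, 0, 0, 0, 0, 0, ⟨0, 0⟩, 0⟩ 0 0) (.cut .l 11925068 (.cut .l 9494579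 (.cut .l 8279334 (.cut .d 1449107 (.cut .s 15400960 (.pos 62 .pm ⟨0, 0, 0, 0, 0, 0, 0, 0, 0, ⟨0, 0⟩, 0⟩ 0 0) (.cut .s 15466496 (.pos 62 .pm ⟨0, 587628061, 0, 0, 0, 0, 0, 0, 0, ⟨0, 0⟩, 0⟩ 0 0) (.cut .d 1345599 (.pos 62 .pm ⟨0, 638319240, 0, 0, 0, 0, 0, 0, 0, ⟨0, 0⟩, 0⟩ 0 0) (.cut .d 1397353 (.cut .s 15499264 (.pos 62 .pm ⟨0, 671558241, 0, 0, 0, 0, 0, 0, 0, ⟨0, 0⟩, 0⟩ 0 0) (.pos 62 .pm ⟨0, 822528708, 0, 0, 0, 0, 0, 0, 0, ⟨0, 0⟩, 0⟩ 0 0)) (.pos 62 .pm ⟨0, 922714388, 0, 0, 0, 0, 0, 0, 0, ⟨0, 0⟩, 0⟩ 0 0))))) (.cut .s 15400960 (.cut .l 7671712 (.cut .l 7367901 (.cut .d 1552615 (.cut .s 15335424 (.pos 62 .pm ⟨0, 0, 0, 0, 0, 0, 0, 0, 0, ⟨0, 0⟩, 0⟩ 0 0) (.cut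 .v 1572864 (.pos 103 .pm ⟨0, 562772641, 0, 0, 0, 0, 0, 0, 0, ⟨0, 0⟩, 0⟩ 0 0) (.pos 104 .pm ⟨0, 787548538, 0, 0, 0, 0, 0, 0, 0, ⟨0, 0⟩, 0⟩ 0 0))) (.cut .s 15335424 (.cut .v 1572864 (.cut .d 1604369 (.pos 103 .pm ⟨0, 466995860, 0, 0, 0, 0, 0, 0, 0, ⟨0, 0⟩, 0⟩ 0 0) (.cut .s 15302656 (.cut .v 1310720 (.cut .d 1630246 (.pos 111 .pm ⟨0, 434085262, 0, 0, 0, 0, 0, 0, 0, ⟨0, 0⟩, 0⟩ 0 0) (.cut .v 1179648 (.pos 115 .pm ⟨0, 515403647, 0, 0, 0, 0, 0, 0, 0, ⟨0, 0⟩, 0⟩ 0 0) (.pos 116 .pm ⟨0, 549900938, 0, 0, 0, 0, 0, 0, 0, ⟨0, 0⟩, 0⟩ 0 0))) (.pos 112 .pm ⟨0, 605807719, 0, 0, 0, 0, 0, 0, 0, ⟨0, 0⟩, 0⟩ 0 0)) (.pos 103 .pm ⟨0, 636624599, 0, 0, 0, 0, 0, 0, 0, ⟨0, 0⟩, 0⟩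 0 0))) (.pos 104 .pm ⟨0, 716601305, 0, 0, 0, 0, 0, 0, 0, ⟨0, 0⟩, 0⟩ 0 0)) (.pos 62 .pm ⟨0, 860033715, 0, 0, 0, 0, 0, 0, 0, ⟨0, 0⟩, 0⟩ 0 0))) (.pos 62 .pm ⟨0, 581828604, 0, 0, 0, 0, 0, 0, 0, ⟨0, 0⟩, 0⟩ 0 0)) (.pos 62 .pm ⟨0, 545472563, 0, 0, 0, 0, 0, 0, 0, ⟨0, 0⟩, 0⟩ 0 0)) (.cut .v 1572864 (.cut .s 15466496 (.cut .v 1310720 (.cut .v 1179648 (.pos 115 .pm ⟨0, 731817848, 0, 0, 0, 0, 0, 0, 0, ⟨0, 0⟩, 0⟩ 0 0) (.pos 116 .pm ⟨0, 807498524, 0, 0, 0, 0, 0, 0, 0, ⟨0, 0⟩, 0⟩ 0 0)) (.pos 112 .pm ⟨0, 931267699, 0, 0, 0, 0, 0, 0, 0, ⟨0, 0⟩, 0⟩ 0 0)) (.void 103 ⟨0, 0, 0, 100000, 0, 0, 0, 0, 0, ⟨0, 0⟩, 0⟩ 0 0)) (.pos 104 .pm ⟨0, 1323631545, 0, 0, 0, 0, 0, 0, 0, ⟨0, 0⟩,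 0⟩ 0 0)))) (.pos 62 .pm ⟨0, 672631611, 0, 0, 0, 0, 0, 0, 0, ⟨0, 0⟩, 0⟩ 0 0)) (.pos 62 .pm ⟨0, 569784445, 0, 0, 0, 0, 0, 0, 0, ⟨0, 0⟩, 0⟩ 0 0)) (.pos 62 .pm ⟨0, 552023179, 0, 0, 0, 0, 0, 0, 0, ⟨0, 0⟩, 0⟩ 0 0)))) (.cut .d 1242092 (.pos 7 .pm ⟨0, 0, 0, 0, 0, 0, 0, 0, 0, ⟨0, 0⟩, 0⟩ 0 0) (.cut .s 15400960 (.pos 7 .pm ⟨0, 957498880, 0, 0, 0, 0, 0, 0, 0, ⟨0, 0⟩, 0⟩ 0 0) (.cut .d 1449107 (.pos 7 .pm ⟨0, 1193538449, 0, 0, 0, 0, 0, 0, 0, ⟨0, 0⟩, 0⟩ 0 0) (.pos 7 .pm ⟨0, 1956324512, 0, 0, 0, 0, 0, 0, 0, ⟨0, 0⟩, 0⟩ 0 0)))))) (.cut .d 828061 (.pos 5 .pm ⟨0, 0, 816576374, 0, 0, 0, 0, 0, 0, ⟨0, 0⟩, 0⟩ 0 0) (.cut .s 15400960 (.pos 5 .pm ⟨0, 1620449279, 0, 0, 0, 0, 0,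 0, 0, ⟨0, 0⟩, 0⟩ 0 0) (.pos 5 .pm ⟨0, 2338580916, 0, 0, 0, 0, 0, 0, 0, ⟨0, 0⟩, 0⟩ 0 0)))) (.pos 3 .pm ⟨0, 2728118075, 0, 0, 0, 0, 0, 0, 0, ⟨0, 0⟩, 0⟩ 0 0)) (.pos 49 .pp ⟨0, 4996147947, 0, 0, 0, 0, 0, 0, 0, ⟨0, 0⟩, 0⟩ 0 0))),
    by decide +kernel⟩

def covers27 : cell.Covers table row27.1 :=
  ⟨(.cut .d 0 (.cut .v 16777216 (.cut .v 8388608 (.pos 2 .mm ⟨0, 0, 167772160000, 0, 0, 0, 0, 0, 0, ⟨0, 0⟩, 0⟩ 0 0) (.pos 3 .mm ⟨0, 0, 5830238663, 0, 0, 43417130282, 0, 0, 0, ⟨0, 0⟩, 0⟩ 0 0)) (.cut .v 268435456 (.cut .v 67108864 (.cut .d (-8388608) (.void 10 ⟨100000, 0, 0, 0, 0, 0, 0, 0, 0, ⟨0, 0⟩, 0⟩ 0 0) (.pos 10 .mp ⟨0, 0, 0, 0, 0, 82799364604, 0, 0, 0, ⟨0, 0⟩,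 0⟩ 0 0)) (.void 37 ⟨100000, 0, 0, 0, 0, 0, 0, 0, 0, ⟨0, 0⟩, 0⟩ 0 0)) (.void 50 ⟨95518, 0, 0, 4482, 0, 0, 0, 0, 0, ⟨0, 0⟩, 0⟩ 0 0))) (.cut .v 16777216 (.cut .v 8388608 (.cut .v 4194304 (.cut .v 2097152 (.cut .d 672505 (.pos 6 .pm ⟨0, 0, 167772160000, 0, 0, 0, 0, 0, 0, ⟨0, 0⟩, 0⟩ 0 0) (.cut .v 1048576 (.cut .v 524288 (.cut .v 262144 (.cut .d 1008758 (.pos 105 .pm ⟨0, 0, 167772160000, 0, 0, 0, 0, 0, 0, ⟨0, 0⟩, 0⟩ 0 0) (.cut .v 131072 (.cut .v 65536 (.pos 119 .pm ⟨0, 51011221, 0, 0, 0, 0, 0, 0, 0, ⟨0, 0⟩, 0⟩ 0 0) (.pos 120 .pm ⟨0, 128617066, 0, 0, 0, 0, 0, 0, 0, ⟨0, 0⟩, 0⟩ 0 0)) (.cut .s 15654912 (.pos 108 .pm ⟨0, 169174269, 0, 0, 0, 0, 0, 0, 0, ⟨0, 0⟩, 0⟩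 0 0) (.pos 108 .pm ⟨0, 253924533, 0, 0, 0, 0, 0, 0, 0, ⟨0, 0⟩, 0⟩ 0 0)))) (.cut .d 1008758 (.pos 106 .pm ⟨0, 0, 264184511, 0, 0, 0, 0, 0, 0, ⟨0, 0⟩, 0⟩ 0 0) (.cut .l 11925068 (.cut .l 9494579 (.cut .s 15654912 (.cut .d 1176884 (.pos 106 .pm ⟨0, 0, 0, 0, 0, 0, 0, 0, 0, ⟨0, 0⟩, 0⟩ 0 0) (.cut .s 15593472 (.pos 106 .pm ⟨0, 311374308, 0, 0, 0, 0, 0, 0, 0, ⟨0, 0⟩, 0⟩ 0 0) (.pos 106 .pm ⟨0, 404693796, 0, 0, 0, 0, 0, 0, 0, ⟨0, 0⟩, 0⟩ 0 0))) (.cut .d 1176884 (.cut .l 8279334 (.cut .l 7671712 (.cut .d 1092821 (.cut .s 15716352 (.pos 106 .pm ⟨0, 0, 0, 0, 0, 0, 0, 0, 0, ⟨0, 0⟩, 0⟩ 0 0) (.pos 106 .pm ⟨0, 390002285, 0, 0, 0, 0, 0, 0, 0, ⟨0, 0⟩, 0⟩ 0 0)) (.cut .s 15716352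 (.pos 106 .pm ⟨0, 394148281, 0, 0, 0, 0, 0, 0, 0, ⟨0, 0⟩, 0⟩ 0 0) (.pos 106 .pm ⟨0, 531774018, 0, 0, 0, 0, 0, 0, 0, ⟨0, 0⟩, 0⟩ 0 0))) (.pos 106 .pm ⟨0, 345000482, 0, 0, 0, 0, 0, 0, 0, ⟨0, 0⟩, 0⟩ 0 0)) (.pos 106 .pm ⟨0, 297302390, 0, 0, 0, 0, 0, 0, 0, ⟨0, 0⟩, 0⟩ 0 0)) (.pos 106 .pm ⟨0, 565479503, 0, 0, 0, 0, 0, 0, 0, ⟨0, 0⟩, 0⟩ 0 0))) (.pos 106 .pm ⟨0, 287098002, 0, 0, 0, 0, 0, 0, 0, ⟨0, 0⟩, 0⟩ 0 0)) (.pos 106 .pm ⟨0, 228087735, 0, 0, 0, 0, 0, 0, 0, ⟨0, 0⟩, 0⟩ 0 0)))) (.cut .d 1008758 (.pos 82 .pm ⟨0, 0, 0, 0, 0, 0, 0, 0, 0, ⟨0, 0⟩, 0⟩ 0 0) (.cut .l 11925068 (.cut .l 9494579 (.cut .s 15654912 (.cut .d 1176884 (.pos 82 .pm ⟨0, 0, 0, 0, 0, 0, 0, 0, 0, ⟨0,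 0⟩, 0⟩ 0 0) (.cut .l 8279334 (.cut .l 7671712 (.cut .d 1260947 (.cut .s 15593472 (.pos 82 .pm ⟨0, 0, 0, 0, 0, 0, 0, 0, 0, ⟨0, 0⟩, 0⟩ 0 0) (.cut .v 786432 (.cut .d 1218915 (.pos 109 .pm ⟨0, 454986935, 0, 0, 0, 0, 0, 0, 0, ⟨0, 0⟩, 0⟩ 0 0) (.pos 109 .pm ⟨0, 556779020, 0, 0, 0, 0, 0, 0, 0, ⟨0, 0⟩, 0⟩ 0 0)) (.pos 110 .pm ⟨0, 648419331, 0, 0, 0, 0, 0, 0, 0, ⟨0, 0⟩, 0⟩ 0 0))) (.cut .s 15593472 (.cut .l 7367901 (.cut .l 7215995 (.cut .d 1302979 (.cut .v 786432 (.pos 109 .pm ⟨0, 438668226, 0, 0, 0, 0, 0, 0, 0, ⟨0, 0⟩, 0⟩ 0 0) (.pos 110 .pm ⟨0, 526772739, 0, 0, 0, 0, 0, 0, 0, ⟨0, 0⟩, 0⟩ 0 0)) (.cut .v 786432 (.pos 109 .pm ⟨0, 516191977, 0, 0, 0, 0, 0, 0, 0, ⟨0,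 0⟩, 0⟩ 0 0) (.cut .s 15562752 (.pos 110 .pm ⟨0, 569381001, 0, 0, 0, 0, 0, 0, 0, ⟨0, 0⟩, 0⟩ 0 0) (.void 110 ⟨0, 100000, 0, 0, 0, 0, 0, 0, 0, ⟨0, 0⟩, 0⟩ 0 0)))) (.pos 82 .pm ⟨0, 505906726, 0, 0, 0, 0, 0, 0, 0, ⟨0, 0⟩, 0⟩ 0 0)) (.pos 82 .pm ⟨0, 461932598, 0, 0, 0, 0, 0, 0, 0, ⟨0, 0⟩, 0⟩ 0 0)) (.pos 82 .pm ⟨0, 797377648, 0, 0, 0, 0, 0, 0, 0, ⟨0, 0⟩, 0⟩ 0 0))) (.pos 82 .pm ⟨0, 492778366, 0, 0, 0, 0, 0, 0, 0, ⟨0, 0⟩, 0⟩ 0 0)) (.pos 82 .pm ⟨0, 414213357, 0, 0, 0, 0, 0, 0, 0, ⟨0, 0⟩, 0⟩ 0 0))) (.cut .l 8279334 (.cut .d 1176884 (.cut .l 7671712 (.cut .d 1092821 (.cut .s 15716352 (.pos 82 .pm ⟨0, 0, 0, 0, 0, 0, 0, 0, 0, ⟨0, 0⟩, 0⟩ 0 0) (.cut .v 786432 (.cut .v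 655360 (.cut .v 589824 (.pos 125 .pm ⟨0, 514011535, 0, 0, 0, 0, 0, 0, 0, ⟨0, 0⟩, 0⟩ 0 0) (.pos 126 .pm ⟨0, 567359143, 0, 0, 0, 0, 0, 0, 0, ⟨0, 0⟩, 0⟩ 0 0)) (.pos 124 .pm ⟨0, 627643727, 0, 0, 0, 0, 0, 0, 0, ⟨0, 0⟩, 0⟩ 0 0)) (.pos 110 .pm ⟨0, 732613354, 0, 0, 0, 0, 0, 0, 0, ⟨0, 0⟩, 0⟩ 0 0))) (.cut .s 15716352 (.cut .d 1134852 (.pos 82 .pm ⟨0, 496274932, 0, 0, 0, 0, 0, 0, 0, ⟨0, 0⟩, 0⟩ 0 0) (.cut .s 15685632 (.pos 82 .pm ⟨0, 535420408, 0, 0, 0, 0, 0, 0, 0, ⟨0, 0⟩, 0⟩ 0 0) (.pos 82 .pm ⟨0, 676832306, 0, 0, 0, 0, 0, 0, 0, ⟨0, 0⟩, 0⟩ 0 0))) (.cut .s 15747072 (.cut .d 1134852 (.pos 82 .pm ⟨0, 668183230, 0, 0, 0, 0, 0, 0, 0, ⟨0, 0⟩, 0⟩ 0 0) (.void 82 ⟨0, 0, 0,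 100000, 0, 0, 0, 0, 0, ⟨0, 0⟩, 0⟩ 0 0)) (.pos 82 .pm ⟨0, 952876638, 0, 0, 0, 0, 0, 0, 0, ⟨0, 0⟩, 0⟩ 0 0)))) (.pos 82 .pm ⟨0, 554871992, 0, 0, 0, 0, 0, 0, 0, ⟨0, 0⟩, 0⟩ 0 0)) (.cut .v 786432 (.pos 109 .pm ⟨0, 816281383, 0, 0, 0, 0, 0, 0, 0, ⟨0, 0⟩, 0⟩ 0 0) (.cut .s 15716352 (.pos 110 .pm ⟨0, 932459984, 0, 0, 0, 0, 0, 0, 0, ⟨0, 0⟩, 0⟩ 0 0) (.void 110 ⟨0, 0, 0, 100000, 0, 0, 0, 0, 0, ⟨0, 0⟩, 0⟩ 0 0)))) (.pos 82 .pm ⟨0, 699841786, 0, 0, 0, 0, 0, 0, 0, ⟨0, 0⟩, 0⟩ 0 0))) (.pos 82 .pm ⟨0, 490991771, 0, 0, 0, 0, 0, 0, 0, ⟨0, 0⟩, 0⟩ 0 0)) (.pos 82 .pm ⟨0, 424965241, 0, 0, 0, 0, 0, 0, 0, ⟨0, 0⟩, 0⟩ 0 0)))) (.cut .d 1008758 (.pos 62 .pm ⟨0, 0, 0, 0, 0, 0, 0, 0,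 0, ⟨0, 0⟩, 0⟩ 0 0) (.cut .l 11925068 (.cut .l 9494579 (.cut .s 15654912 (.cut .d 1176884 (.pos 62 .pm ⟨0, 0, 0, 0, 0, 0, 0, 0, 0, ⟨0, 0⟩, 0⟩ 0 0) (.cut .v 1572864 (.cut .s 15593472 (.pos 103 .pm ⟨0, 712009312, 0, 0, 0, 0, 0, 0, 0, ⟨0, 0⟩, 0⟩ 0 0) (.cut .d 1260947 (.pos 103 .pm ⟨0, 809369011, 0, 0, 0, 0, 0, 0, 0, ⟨0, 0⟩, 0⟩ 0 0) (.pos 103 .pm ⟨0, 1076124452, 0, 0, 0, 0, 0, 0, 0, ⟨0, 0⟩, 0⟩ 0 0))) (.pos 104 .pm ⟨0, 1146137077, 0, 0, 0, 0, 0, 0, 0, ⟨0, 0⟩, 0⟩ 0 0))) (.cut .l 8279334 (.cut .d 1176884 (.cut .s 15716352 (.pos 62 .pm ⟨0, 864237730, 0, 0, 0, 0, 0, 0, 0, ⟨0, 0⟩, 0⟩ 0 0) (.cut .d 1092821 (.pos 62 .pm ⟨0, 953241785, 0, 0, 0, 0, 0, 0, 0, ⟨0, 0⟩,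 0⟩ 0 0) (.pos 62 .pm ⟨0, 1248703486, 0, 0, 0, 0, 0, 0, 0, ⟨0, 0⟩, 0⟩ 0 0))) (.cut .v 1572864 (.pos 103 .pm ⟨0, 1479960006, 0, 0, 0, 0, 0, 0, 0, ⟨0, 0⟩, 0⟩ 0 0) (.pos 104 .pm ⟨0, 1936401787, 0, 0, 0, 0, 0, 0, 0, ⟨0, 0⟩, 0⟩ 0 0))) (.pos 62 .pm ⟨0, 1214682252, 0, 0, 0, 0, 0, 0, 0, ⟨0, 0⟩, 0⟩ 0 0))) (.pos 62 .pm ⟨0, 857835970, 0, 0, 0, 0, 0, 0, 0, ⟨0, 0⟩, 0⟩ 0 0)) (.pos 62 .pm ⟨0, 813073633, 0, 0, 0, 0, 0, 0, 0, ⟨0, 0⟩, 0⟩ 0 0))))) (.cut .d 672505 (.pos 7 .pm ⟨0, 0, 4284070080, 0, 0, 0, 0, 0, 0, ⟨0, 0⟩, 0⟩ 0 0) (.cut .d 1008758 (.pos 7 .pm ⟨0, 0, 0, 0, 0, 0, 0, 0, 0, ⟨0, 0⟩, 0⟩ 0 0) (.cut .s 15654912 (.pos 7 .pm ⟨0, 1410061469, 0, 0, 0, 0, 0, 0, 0, ⟨0, 0⟩,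 0⟩ 0 0) (.cut .d 1176884 (.pos 7 .pm ⟨0, 1788400572, 0, 0, 0, 0, 0, 0, 0, ⟨0, 0⟩, 0⟩ 0 0) (.pos 7 .pm ⟨0, 2920034066, 0, 0, 0, 0, 0, 0, 0, ⟨0, 0⟩, 0⟩ 0 0)))))) (.cut .d 672505 (.pos 5 .pm ⟨0, 0, 411425508, 0, 0, 0, 0, 0, 0, ⟨0, 0⟩, 0⟩ 0 0) (.cut .s 15654912 (.pos 5 .pm ⟨0, 2486597575, 0, 0, 0, 0, 0, 0, 0, ⟨0, 0⟩, 0⟩ 0 0) (.pos 5 .pm ⟨0, 3576661022, 0, 0, 0, 0, 0, 0, 0, ⟨0, 0⟩, 0⟩ 0 0)))) (.pos 3 .pm ⟨0, 4502076367, 0, 0, 0, 0, 0, 0, 0, ⟨0, 0⟩, 0⟩ 0 0)) (.pos 49 .pp ⟨0, 8496351119, 0, 0, 0, 0, 0, 0, 0, ⟨0, 0⟩, 0⟩ 0 0))),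
    by decide +kernel⟩

def covers28 : cell.Covers table row28.1 :=
  ⟨(.cut .d 0 (.cut .v 16777216 (.cut .v 8388608 (.pos 2 .mm ⟨0, 0, 167772160000, 0, 0, 0, 0, 0, 0, ⟨0, 0⟩, 0⟩ 0 0) (.pos 3 .mm ⟨0, 0, 8901639686, 0, 0, 55707512155, 0, 0, 0, ⟨0, 0⟩, 0⟩ 0 0)) (.cut .v 268435456 (.cut .v 67108864 (.cut .d (-8388608) (.void 10 ⟨100000, 0, 0, 0, 0, 0, 0, 0, 0, ⟨0, 0⟩, 0⟩ 0 0) (.pos 10 .mp ⟨0, 0, 0, 0, 0, 99587610240, 0, 0, 0, ⟨0, 0⟩, 0⟩ 0 0)) (.void 37 ⟨100000, 0, 0, 0, 0, 0, 0, 0, 0, ⟨0, 0⟩, 0⟩ 0 0)) (.void 50 ⟨95462, 0, 0, 4538, 0, 0, 0, 0, 0, ⟨0, 0⟩, 0⟩ 0 0))) (.cut .v 16777216 (.cut .v 8388608 (.cut .v 4194304 (.cut .d 531367 (.pos 4 .pm ⟨0, 0, 22275228588,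 0, 0, 0, 0, 0, 0, ⟨0, 0⟩, 0⟩ 0 0) (.cut .v 2097152 (.cut .v 1048576 (.cut .v 524288 (.cut .v 262144 (.cut .d 797050 (.pos 105 .pm ⟨0, 0, 167772160000, 0, 0, 0, 0, 0, 0, ⟨0, 0⟩, 0⟩ 0 0) (.cut .v 131072 (.cut .v 65536 (.pos 119 .pm ⟨0, 70309306, 0, 0, 0, 0, 0, 0, 0, ⟨0, 0⟩, 0⟩ 0 0) (.pos 120 .pm ⟨0, 167597911, 0, 0, 0, 0, 0, 0, 0, ⟨0, 0⟩, 0⟩ 0 0)) (.cut .s 15876096 (.pos 108 .pm ⟨0, 228732876, 0, 0, 0, 0, 0, 0, 0, ⟨0, 0⟩, 0⟩ 0 0) (.cut .d 929892 (.pos 108 .pm ⟨0, 301494544, 0, 0, 0, 0, 0, 0, 0, ⟨0, 0⟩, 0⟩ 0 0) (.pos 108 .pm ⟨0, 407942616, 0, 0, 0, 0, 0, 0, 0, ⟨0, 0⟩, 0⟩ 0 0))))) (.cut .d 797050 (.pos 106 .pm ⟨0, 0, 763684602, 0, 0, 0, 0, 0, 0, ⟨0, 0⟩, 0⟩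 0 0) (.cut .l 11925068 (.cut .l 9494579 (.cut .s 15876096 (.cut .d 929892 (.pos 106 .pm ⟨0, 0, 0, 0, 0, 0, 0, 0, 0, ⟨0, 0⟩, 0⟩ 0 0) (.cut .l 8279334 (.cut .l 7671712 (.cut .d 996313 (.cut .s 15826944 (.pos 106 .pm ⟨0, 0, 0, 0, 0, 0, 0, 0, 0, ⟨0, 0⟩, 0⟩ 0 0) (.cut .d 963102 (.pos 106 .pm ⟨0, 432063800, 0, 0, 0, 0, 0, 0, 0, ⟨0, 0⟩, 0⟩ 0 0) (.pos 106 .pm ⟨0, 539126162, 0, 0, 0, 0, 0, 0, 0, ⟨0, 0⟩, 0⟩ 0 0))) (.cut .s 15826944 (.pos 106 .pm ⟨0, 478480637, 0, 0, 0, 0, 0, 0, 0, ⟨0, 0⟩, 0⟩ 0 0) (.pos 106 .pm ⟨0, 636167732, 0, 0, 0, 0, 0, 0, 0, ⟨0, 0⟩, 0⟩ 0 0))) (.pos 106 .pm ⟨0, 414731691, 0, 0, 0, 0, 0, 0, 0, ⟨0, 0⟩, 0⟩ 0 0)) (.pos 106 .pm ⟨0, 353249312, 0,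 0, 0, 0, 0, 0, 0, ⟨0, 0⟩, 0⟩ 0 0))) (.cut .d 929892 (.cut .l 8279334 (.cut .l 7671712 (.cut .d 863471 (.cut .v 393216 (.pos 117 .pm ⟨0, 384475697, 0, 0, 0, 0, 0, 0, 0, ⟨0, 0⟩, 0⟩ 0 0) (.pos 118 .pm ⟨0, 509063132, 0, 0, 0, 0, 0, 0, 0, ⟨0, 0⟩, 0⟩ 0 0)) (.cut .l 7367901 (.cut .s 15925248 (.cut .v 393216 (.pos 117 .pm ⟨0, 426172441, 0, 0, 0, 0, 0, 0, 0, ⟨0, 0⟩, 0⟩ 0 0) (.pos 118 .pm ⟨0, 547004354, 0, 0, 0, 0, 0, 0, 0, ⟨0, 0⟩, 0⟩ 0 0)) (.cut .v 393216 (.pos 117 .pm ⟨0, 555039583, 0, 0, 0, 0, 0, 0, 0, ⟨0, 0⟩, 0⟩ 0 0) (.pos 118 .pm ⟨0, 704639095, 0, 0, 0, 0, 0, 0, 0, ⟨0, 0⟩, 0⟩ 0 0))) (.pos 106 .pm ⟨0, 539268562, 0, 0, 0, 0, 0, 0, 0, ⟨0, 0⟩, 0⟩ 0 0))) (.pos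 106 .pm ⟨0, 442955172, 0, 0, 0, 0, 0, 0, 0, ⟨0, 0⟩, 0⟩ 0 0)) (.pos 106 .pm ⟨0, 379139365, 0, 0, 0, 0, 0, 0, 0, ⟨0, 0⟩, 0⟩ 0 0)) (.pos 106 .pm ⟨0, 761658040, 0, 0, 0, 0, 0, 0, 0, ⟨0, 0⟩, 0⟩ 0 0))) (.pos 106 .pm ⟨0, 387795501, 0, 0, 0, 0, 0, 0, 0, ⟨0, 0⟩, 0⟩ 0 0)) (.pos 106 .pm ⟨0, 317954078, 0, 0, 0, 0, 0, 0, 0, ⟨0, 0⟩, 0⟩ 0 0)))) (.cut .d 797050 (.pos 82 .pm ⟨0, 0, 0, 0, 0, 0, 0, 0, 0, ⟨0, 0⟩, 0⟩ 0 0) (.cut .l 11925068 (.cut .l 9494579 (.cut .s 15876096 (.cut .d 929892 (.pos 82 .pm ⟨0, 0, 0, 0, 0, 0, 0, 0, 0, ⟨0, 0⟩, 0⟩ 0 0) (.cut .l 8279334 (.cut .l 7671712 (.cut .d 996313 (.cut .s 15826944 (.pos 82 .pm ⟨0, 0, 0, 0, 0, 0, 0, 0, 0, ⟨0, 0⟩, 0⟩ 0 0) (.cut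 .s 15851520 (.pos 82 .pm ⟨0, 630731485, 0, 0, 0, 0, 0, 0, 0, ⟨0, 0⟩, 0⟩ 0 0) (.pos 82 .pm ⟨0, 736614039, 0, 0, 0, 0, 0, 0, 0, ⟨0, 0⟩, 0⟩ 0 0))) (.cut .s 15826944 (.cut .d 1029523 (.pos 82 .pm ⟨0, 597733666, 0, 0, 0, 0, 0, 0, 0, ⟨0, 0⟩, 0⟩ 0 0) (.cut .s 15802368 (.pos 82 .pm ⟨0, 660777064, 0, 0, 0, 0, 0, 0, 0, ⟨0, 0⟩, 0⟩ 0 0) (.pos 82 .pm ⟨0, 816003936, 0, 0, 0, 0, 0, 0, 0, ⟨0, 0⟩, 0⟩ 0 0))) (.pos 82 .pm ⟨0, 1057446551, 0, 0, 0, 0, 0, 0, 0, ⟨0, 0⟩, 0⟩ 0 0))) (.pos 82 .pm ⟨0, 659797167, 0, 0, 0, 0, 0, 0, 0, ⟨0, 0⟩, 0⟩ 0 0)) (.pos 82 .pm ⟨0, 585428950, 0, 0, 0, 0, 0, 0, 0, ⟨0, 0⟩, 0⟩ 0 0))) (.cut .l 8279334 (.cut .d 929892 (.cut .l 7671712 (.cut .d 863471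 (.cut .v 786432 (.pos 109 .pm ⟨0, 643133245, 0, 0, 0, 0, 0, 0, 0, ⟨0, 0⟩, 0⟩ 0 0) (.pos 110 .pm ⟨0, 923524875, 0, 0, 0, 0, 0, 0, 0, ⟨0, 0⟩, 0⟩ 0 0)) (.cut .l 7367901 (.cut .s 15925248 (.cut .v 786432 (.pos 109 .pm ⟨0, 682809785, 0, 0, 0, 0, 0, 0, 0, ⟨0, 0⟩, 0⟩ 0 0) (.pos 110 .pm ⟨0, 948751875, 0, 0, 0, 0, 0, 0, 0, ⟨0, 0⟩, 0⟩ 0 0)) (.cut .d 896681 (.cut .s 15949824 (.pos 82 .pm ⟨0, 807125680, 0, 0, 0, 0, 0, 0, 0, ⟨0, 0⟩, 0⟩ 0 0) (.pos 82 .pm ⟨0, 994359544, 0, 0, 0, 0, 0, 0, 0, ⟨0, 0⟩, 0⟩ 0 0)) (.void 82 ⟨0, 0, 0, 100000, 0, 0, 0, 0, 0, ⟨0, 0⟩, 0⟩ 0 0))) (.pos 82 .pm ⟨0, 834840655, 0, 0, 0, 0, 0, 0, 0, ⟨0, 0⟩, 0⟩ 0 0))) (.pos 82 .pm ⟨0, 716439563, 0, 0,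 0, 0, 0, 0, 0, ⟨0, 0⟩, 0⟩ 0 0)) (.cut .v 786432 (.cut .v 655360 (.pos 123 .pm ⟨0, 940384893, 0, 0, 0, 0, 0, 0, 0, ⟨0, 0⟩, 0⟩ 0 0) (.pos 124 .pm ⟨0, 1113948619, 0, 0, 0, 0, 0, 0, 0, ⟨0, 0⟩, 0⟩ 0 0)) (.pos 110 .pm ⟨0, 1423056866, 0, 0, 0, 0, 0, 0, 0, ⟨0, 0⟩, 0⟩ 0 0))) (.pos 82 .pm ⟨0, 937901407, 0, 0, 0, 0, 0, 0, 0, ⟨0, 0⟩, 0⟩ 0 0))) (.pos 82 .pm ⟨0, 669456120, 0, 0, 0, 0, 0, 0, 0, ⟨0, 0⟩, 0⟩ 0 0)) (.pos 82 .pm ⟨0, 602286375, 0, 0, 0, 0, 0, 0, 0, ⟨0, 0⟩, 0⟩ 0 0)))) (.cut .d 797050 (.pos 62 .pm ⟨0, 0, 0, 0, 0, 0, 0, 0, 0, ⟨0, 0⟩, 0⟩ 0 0) (.cut .l 11925068 (.cut .l 9494579 (.cut .l 8279334 (.cut .s 15876096 (.cut .s 15826944 (.pos 62 .pm ⟨0, 1016017145, 0,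 0, 0, 0, 0, 0, 0, ⟨0, 0⟩, 0⟩ 0 0) (.cut .d 929892 (.pos 62 .pm ⟨0, 0, 0, 0, 0, 0, 0, 0, 0, ⟨0, 0⟩, 0⟩ 0 0) (.pos 62 .pm ⟨0, 1355556323, 0, 0, 0, 0, 0, 0, 0, ⟨0, 0⟩, 0⟩ 0 0))) (.cut .d 929892 (.pos 62 .pm ⟨0, 1373104158, 0, 0, 0, 0, 0, 0, 0, ⟨0, 0⟩, 0⟩ 0 0) (.pos 62 .pm ⟨0, 2351950329, 0, 0, 0, 0, 0, 0, 0, ⟨0, 0⟩, 0⟩ 0 0))) (.pos 62 .pm ⟨0, 1390837370, 0, 0, 0, 0, 0, 0, 0, ⟨0, 0⟩, 0⟩ 0 0)) (.pos 62 .pm ⟨0, 1209783088, 0, 0, 0, 0, 0, 0, 0, ⟨0, 0⟩, 0⟩ 0 0)) (.pos 62 .pm ⟨0, 1163674330, 0, 0, 0, 0, 0, 0, 0, ⟨0, 0⟩, 0⟩ 0 0)))) (.cut .s 15876096 (.pos 7 .pm ⟨0, 1937618321, 0, 0, 0, 0, 0, 0, 0, ⟨0, 0⟩, 0⟩ 0 0) (.cut .d 797050 (.pos 7 .pm ⟨0, 0, 0, 0, 0, 0, 0,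 0, 0, ⟨0, 0⟩, 0⟩ 0 0) (.pos 7 .pm ⟨0, 3309304691, 0, 0, 0, 0, 0, 0, 0, ⟨0, 0⟩, 0⟩ 0 0))))) (.pos 5 .pm ⟨0, 3704302182, 0, 0, 0, 0, 0, 0, 0, ⟨0, 0⟩, 0⟩ 0 0)) (.pos 3 .pm ⟨0, 7121911712, 0, 0, 0, 0, 0, 0, 0, ⟨0, 0⟩, 0⟩ 0 0)) (.pos 49 .pp ⟨0, 13710292347, 0, 0, 0, 0, 0, 0, 0, ⟨0, 0⟩, 0⟩ 0 0))),
    by decide +kernel⟩

def covers29 : cell.Covers table row29.1 :=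
  ⟨(.cut .d 0 (.cut .v 16777216 (.cut .d (-8388608) (.pos 1 .mm ⟨0, 0, 0, 0, 0, 167772160000, 0, 0, 0, ⟨0, 0⟩, 0⟩ 0 0) (.pos 1 .mm ⟨0, 0, 14768909430, 0, 0, 14149384551, 0, 0, 0, ⟨0, 0⟩, 0⟩ 0 0)) (.cut .v 4294967296 (.cut .v 268435456 (.cut .v 67108864 (.cut .d (-8388608) (.void 10 ⟨100000, 0, 0, 0, 0, 0, 0, 0, 0, ⟨0, 0⟩, 0⟩ 0 0) (.pos 10 .mp ⟨0, 0, 0, 0, 0, 121506508886, 0, 0, 0, ⟨0, 0⟩, 0⟩ 0 0)) (.void 37 ⟨100000, 0, 0, 0, 0, 0, 0, 0, 0, ⟨0, 0⟩, 0⟩ 0 0)) (.void 50 ⟨95416, 0, 0, 4584, 0, 0, 0, 0, 0, ⟨0, 0⟩, 0⟩ 0 0)) (.void 129 ⟨95411, 0, 0, 4589, 0, 0, 0, 0, 0, ⟨0, 0⟩, 0⟩ 0 0))) (.cut .v 16777216 (.cut .v 8388608 (.cut .v 4194304 (.cut .d 421582 (.pos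 4 .pm ⟨0, 0, 31840847675, 0, 0, 0, 0, 0, 0, ⟨0, 0⟩, 0⟩ 0 0) (.cut .v 2097152 (.cut .v 1048576 (.cut .v 524288 (.cut .v 262144 (.cut .d 632373 (.pos 105 .pm ⟨0, 0, 167772160000, 0, 0, 0, 0, 0, 0, ⟨0, 0⟩, 0⟩ 0 0) (.cut .v 131072 (.cut .v 65536 (.cut .v 32768 (.pos 130 .pm ⟨0, 50943261, 0, 0, 0, 0, 0, 0, 0, ⟨0, 0⟩, 0⟩ 0 0) (.pos 131 .pm ⟨0, 129225454, 0, 0, 0, 0, 0, 0, 0, ⟨0, 0⟩, 0⟩ 0 0)) (.pos 120 .pm ⟨0, 219105327, 0, 0, 0, 0, 0, 0, 0, ⟨0, 0⟩, 0⟩ 0 0)) (.cut .l 11925068 (.cut .l 9494579 (.cut .l 8279334 (.cut .s 16056320 (.cut .d 737769 (.pos 108 .pm ⟨0, 0, 0, 0, 0, 0, 0, 0, 0, ⟨0, 0⟩, 0⟩ 0 0) (.cut .s 16015360 (.pos 108 .pm ⟨0, 326982359, 0, 0, 0, 0,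 0, 0, 0, ⟨0, 0⟩, 0⟩ 0 0) (.pos 108 .pm ⟨0, 417206994, 0, 0, 0, 0, 0, 0, 0, ⟨0, 0⟩, 0⟩ 0 0))) (.cut .d 737769 (.cut .d 685071 (.pos 108 .pm ⟨0, 338122981, 0, 0, 0, 0, 0, 0, 0, ⟨0, 0⟩, 0⟩ 0 0) (.cut .s 16097280 (.pos 108 .pm ⟨0, 399683319, 0, 0, 0, 0, 0, 0, 0, ⟨0, 0⟩, 0⟩ 0 0) (.pos 108 .pm ⟨0, 523065126, 0, 0, 0, 0, 0, 0, 0, ⟨0, 0⟩, 0⟩ 0 0))) (.pos 108 .pm ⟨0, 547751966, 0, 0, 0, 0, 0, 0, 0, ⟨0, 0⟩, 0⟩ 0 0))) (.pos 108 .pm ⟨0, 343259447, 0, 0, 0, 0, 0, 0, 0, ⟨0, 0⟩, 0⟩ 0 0)) (.pos 108 .pm ⟨0, 299730499, 0, 0, 0, 0, 0, 0, 0, ⟨0, 0⟩, 0⟩ 0 0)) (.pos 108 .pm ⟨0, 234709518, 0, 0, 0, 0, 0, 0, 0, ⟨0, 0⟩, 0⟩ 0 0)))) (.cut .d 632373 (.pos 106 .pm ⟨0, 0, 1212569445,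 0, 0, 0, 0, 0, 0, ⟨0, 0⟩, 0⟩ 0 0) (.cut .l 11925068 (.cut .l 9494579 (.cut .s 16056320 (.cut .d 737769 (.pos 106 .pm ⟨0, 0, 0, 0, 0, 0, 0, 0, 0, ⟨0, 0⟩, 0⟩ 0 0) (.cut .l 8279334 (.cut .l 7671712 (.cut .d 790467 (.cut .s 16015360 (.pos 106 .pm ⟨0, 0, 0, 0, 0, 0, 0, 0, 0, ⟨0, 0⟩, 0⟩ 0 0) (.cut .v 393216 (.pos 117 .pm ⟨0, 541299032, 0, 0, 0, 0, 0, 0, 0, ⟨0, 0⟩, 0⟩ 0 0) (.pos 118 .pm ⟨0, 697705512, 0, 0, 0, 0, 0, 0, 0, ⟨0, 0⟩, 0⟩ 0 0))) (.cut .s 16015360 (.cut .s 15994880 (.pos 106 .pm ⟨0, 540377741, 0, 0, 0, 0, 0, 0, 0, ⟨0, 0⟩, 0⟩ 0 0) (.pos 106 .pm ⟨0, 668741975, 0, 0, 0, 0, 0, 0, 0, ⟨0, 0⟩, 0⟩ 0 0)) (.pos 106 .pm ⟨0, 839618290, 0, 0, 0, 0, 0, 0, 0, ⟨0,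 0⟩, 0⟩ 0 0))) (.pos 106 .pm ⟨0, 544585007, 0, 0, 0, 0, 0, 0, 0, ⟨0, 0⟩, 0⟩ 0 0)) (.pos 106 .pm ⟨0, 463674676, 0, 0, 0, 0, 0, 0, 0, ⟨0, 0⟩, 0⟩ 0 0))) (.cut .l 8279334 (.cut .d 737769 (.cut .l 7671712 (.cut .d 685071 (.cut .v 393216 (.cut .v 327680 (.pos 132 .pm ⟨0, 487198990, 0, 0, 0, 0, 0, 0, 0, ⟨0, 0⟩, 0⟩ 0 0) (.pos 133 .pm ⟨0, 582056825, 0, 0, 0, 0, 0, 0, 0, ⟨0, 0⟩, 0⟩ 0 0)) (.pos 118 .pm ⟨0, 679973505, 0, 0, 0, 0, 0, 0, 0, ⟨0, 0⟩, 0⟩ 0 0)) (.cut .s 16097280 (.cut .v 393216 (.cut .v 327680 (.pos 132 .pm ⟨0, 516154989, 0, 0, 0, 0, 0, 0, 0, ⟨0, 0⟩, 0⟩ 0 0) (.pos 133 .pm ⟨0, 611110718, 0, 0, 0, 0, 0, 0, 0, ⟨0, 0⟩, 0⟩ 0 0)) (.pos 118 .pm ⟨0, 722901943,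 0, 0, 0, 0, 0, 0, 0, ⟨0, 0⟩, 0⟩ 0 0)) (.cut .v 393216 (.pos 117 .pm ⟨0, 729409077, 0, 0, 0, 0, 0, 0, 0, ⟨0, 0⟩, 0⟩ 0 0) (.pos 118 .pm ⟨0, 929618371, 0, 0, 0, 0, 0, 0, 0, ⟨0, 0⟩, 0⟩ 0 0)))) (.pos 106 .pm ⟨0, 577122210, 0, 0, 0, 0, 0, 0, 0, ⟨0, 0⟩, 0⟩ 0 0)) (.cut .v 393216 (.pos 117 .pm ⟨0, 793259379, 0, 0, 0, 0, 0, 0, 0, ⟨0, 0⟩, 0⟩ 0 0) (.pos 118 .pm ⟨0, 1028405143, 0, 0, 0, 0, 0, 0, 0, ⟨0, 0⟩, 0⟩ 0 0))) (.pos 106 .pm ⟨0, 706106793, 0, 0, 0, 0, 0, 0, 0, ⟨0, 0⟩, 0⟩ 0 0))) (.pos 106 .pm ⟨0, 521905038, 0, 0, 0, 0, 0, 0, 0, ⟨0, 0⟩, 0⟩ 0 0)) (.pos 106 .pm ⟨0, 436768730, 0, 0, 0, 0, 0, 0, 0, ⟨0, 0⟩, 0⟩ 0 0)))) (.cut .d 632373 (.pos 82 .pm ⟨0, 0, 0, 0, 0, 0,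 0, 0, 0, ⟨0, 0⟩, 0⟩ 0 0) (.cut .l 11925068 (.cut .l 9494579 (.cut .s 16056320 (.cut .d 737769 (.pos 82 .pm ⟨0, 0, 0, 0, 0, 0, 0, 0, 0, ⟨0, 0⟩, 0⟩ 0 0) (.cut .l 8279334 (.cut .l 7671712 (.cut .s 16015360 (.cut .d 790467 (.pos 82 .pm ⟨0, 0, 0, 0, 0, 0, 0, 0, 0, ⟨0, 0⟩, 0⟩ 0 0) (.cut .s 15994880 (.pos 82 .pm ⟨0, 799908606, 0, 0, 0, 0, 0, 0, 0, ⟨0, 0⟩, 0⟩ 0 0) (.pos 82 .pm ⟨0, 926413542, 0, 0, 0, 0, 0, 0, 0, ⟨0, 0⟩, 0⟩ 0 0))) (.cut .d 790467 (.pos 82 .pm ⟨0, 907890245, 0, 0, 0, 0, 0, 0, 0, ⟨0, 0⟩, 0⟩ 0 0) (.pos 82 .pm ⟨0, 1330253611, 0, 0, 0, 0, 0, 0, 0, ⟨0, 0⟩, 0⟩ 0 0))) (.pos 82 .pm ⟨0, 872079132, 0, 0, 0, 0, 0, 0, 0, ⟨0, 0⟩, 0⟩ 0 0)) (.pos 82 .pm ⟨0, 805901401,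 0, 0, 0, 0, 0, 0, 0, ⟨0, 0⟩, 0⟩ 0 0))) (.cut .l 8279334 (.cut .d 737769 (.cut .s 16097280 (.pos 82 .pm ⟨0, 910233461, 0, 0, 0, 0, 0, 0, 0, ⟨0, 0⟩, 0⟩ 0 0) (.cut .d 685071 (.pos 82 .pm ⟨0, 958188255, 0, 0, 0, 0, 0, 0, 0, ⟨0, 0⟩, 0⟩ 0 0) (.pos 82 .pm ⟨0, 1330956527, 0, 0, 0, 0, 0, 0, 0, ⟨0, 0⟩, 0⟩ 0 0))) (.cut .v 786432 (.pos 109 .pm ⟨0, 1456322602, 0, 0, 0, 0, 0, 0, 0, ⟨0, 0⟩, 0⟩ 0 0) (.pos 110 .pm ⟨0, 1910223437, 0, 0, 0, 0, 0, 0, 0, ⟨0, 0⟩, 0⟩ 0 0))) (.pos 82 .pm ⟨0, 1255676815, 0, 0, 0, 0, 0, 0, 0, ⟨0, 0⟩, 0⟩ 0 0))) (.pos 82 .pm ⟨0, 907368862, 0, 0, 0, 0, 0, 0, 0, ⟨0, 0⟩, 0⟩ 0 0)) (.pos 82 .pm ⟨0, 836362804, 0, 0, 0, 0, 0, 0, 0, ⟨0, 0⟩, 0⟩ 0 0)))) (.cut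 .d 632373 (.pos 62 .pm ⟨0, 0, 0, 0, 0, 0, 0, 0, 0, ⟨0, 0⟩, 0⟩ 0 0) (.cut .s 16056320 (.pos 62 .pm ⟨0, 1573649872, 0, 0, 0, 0, 0, 0, 0, ⟨0, 0⟩, 0⟩ 0 0) (.cut .d 737769 (.pos 62 .pm ⟨0, 1864947981, 0, 0, 0, 0, 0, 0, 0, ⟨0, 0⟩, 0⟩ 0 0) (.pos 62 .pm ⟨0, 3084072094, 0, 0, 0, 0, 0, 0, 0, ⟨0, 0⟩, 0⟩ 0 0))))) (.cut .s 16056320 (.pos 7 .pm ⟨0, 2820850819, 0, 0, 0, 0, 0, 0, 0, ⟨0, 0⟩, 0⟩ 0 0) (.pos 7 .pm ⟨0, 3922595746, 0, 0, 0, 0, 0, 0, 0, ⟨0, 0⟩, 0⟩ 0 0)))) (.pos 5 .pm ⟨0, 5464813478, 0, 0, 0, 0, 0, 0, 0, ⟨0, 0⟩, 0⟩ 0 0)) (.pos 3 .pm ⟨0, 10654337769, 0, 0, 0, 0, 0, 0, 0, ⟨0, 0⟩, 0⟩ 0 0)) (.cut .v 4294967296 (.pos 49 .pp ⟨0, 20766407702, 0, 0, 0, 0, 0, 0, 0, ⟨0,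 0⟩, 0⟩ 0 0) (.void 129 ⟨0, 0, 0, 100000, 0, 0, 0, 0, 0, ⟨0, 0⟩, 0⟩ 0 0)))),
    by decide +kernel⟩

def covers30 : cell.Covers table row30.1 :=
  ⟨(.cut .d 0 (.cut .v 16777216 (.cut .v 8388608 (.pos 2 .mm ⟨0, 0, 167772160000, 0, 0, 0, 0, 0, 0, ⟨0, 0⟩, 0⟩ 0 0) (.pos 3 .mm ⟨0, 0, 20485523346, 0, 0, 88754055261, 0, 0, 0, ⟨0, 0⟩, 0⟩ 0 0)) (.cut .v 4294967296 (.cut .d (-8388608) (.void 49 ⟨100000, 0, 0, 0, 0, 0, 0, 0, 0, ⟨0, 0⟩, 0⟩ 0 0) (.cut .v 268435456 (.cut .d (-4194304) (.void 36 ⟨100000, 0, 0, 0, 0, 0, 0, 0, 0, ⟨0, 0⟩, 0⟩ 0 0) (.pos 36 .mp ⟨42121795086, 0, 0, 0, 0, 0, 0, 0, 0, ⟨0, 0⟩, 0⟩ 0 0)) (.void 50 ⟨251065463, 0, 0, 0, 0, 0, 0, 0, 0, ⟨0, 0⟩, 0⟩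 0 0))) (.void 129 ⟨95376, 0, 0, 4624, 0, 0, 0, 0, 0, ⟨0, 0⟩, 0⟩ 0 0))) (.cut .v 16777216 (.cut .v 8388608 (.cut .v 4194304 (.cut .v 2097152 (.cut .v 1048576 (.cut .v 524288 (.cut .v 262144 (.cut .v 131072 (.cut .v 65536 (.cut .v 32768 (.pos 130 .pm ⟨0, 30692937, 0, 0, 0, 0, 0, 0, 0, ⟨0, 0⟩, 0⟩ 0 0) (.pos 131 .pm ⟨0, 72414367, 0, 0, 0, 0, 0, 0, 0, ⟨0, 0⟩, 0⟩ 0 0)) (.pos 120 .pm ⟨0, 131876681, 0, 0, 0, 0, 0, 0, 0, ⟨0, 0⟩, 0⟩ 0 0)) (.pos 108 .pm ⟨0, 244371929, 0, 0, 0, 0, 0, 0, 0, ⟨0, 0⟩, 0⟩ 0 0)) (.pos 106 .pm ⟨0, 465476259, 0, 0, 0, 0, 0, 0, 0, ⟨0, 0⟩, 0⟩ 0 0)) (.pos 82 .pm ⟨0, 915234688, 0, 0, 0, 0, 0, 0, 0, ⟨0, 0⟩, 0⟩ 0 0)) (.pos 62 .pm ⟨0, 1821309715,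 0, 0, 0, 0, 0, 0, 0, ⟨0, 0⟩, 0⟩ 0 0)) (.pos 7 .pm ⟨0, 3627583780, 0, 0, 0, 0, 0, 0, 0, ⟨0, 0⟩, 0⟩ 0 0)) (.pos 5 .pm ⟨0, 7216627958, 0, 0, 0, 0, 0, 0, 0, ⟨0, 0⟩, 0⟩ 0 0)) (.pos 3 .pm ⟨0, 14300700507, 0, 0, 0, 0, 0, 0, 0, ⟨0, 0⟩, 0⟩ 0 0)) (.cut .s 16203776 (.cut .v 4294967296 (.pos 49 .pp ⟨0, 28092782378, 0, 0, 0, 0, 0, 0, 0, ⟨0, 0⟩, 0⟩ 0 0) (.void 129 ⟨0, 0, 0, 100000, 0, 0, 0, 0, 0, ⟨0, 0⟩, 0⟩ 0 0)) (.cut .v 4294967296 (.pos 49 .pp ⟨0, 33682492407, 0, 0, 0, 0, 0, 0, 0, ⟨0, 0⟩, 0⟩ 0 0) (.void 129 ⟨0, 0, 0, 100000, 0, 0, 0, 0, 0, ⟨0, 0⟩, 0⟩ 0 0))))),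
    by decide +kernel⟩

def covers31 : cell.Covers table row31.1 :=
  ⟨(.cut .d 0 (.cut .v 16777216 (.pos 1 .mm ⟨0, 0, 72917884950, 0, 0, 69187421255, 0, 0, 0, ⟨0, 0⟩, 0⟩ 0 0) (.cut .v 4294967296 (.cut .d (-8388608) (.void 49 ⟨100000, 0, 0, 0, 0, 0, 0, 0, 0, ⟨0, 0⟩, 0⟩ 0 0) (.cut .v 268435456 (.cut .d (-4194304) (.void 36 ⟨100000, 0, 0, 0, 0, 0, 0, 0, 0, ⟨0, 0⟩, 0⟩ 0 0) (.pos 36 .mp ⟨0, 0, 0, 0, 0, 1558215724, 0, 0, 0, ⟨0, 0⟩, 0⟩ 0 0)) (.void 50 ⟨93122, 0, 0, 6878, 0, 0, 0, 0, 0, ⟨0, 0⟩, 0⟩ 0 0))) (.void 129 ⟨95349, 0, 0, 4651, 0, 0, 0, 0, 0, ⟨0, 0⟩, 0⟩ 0 0))) (.cut .v 16777216 (.cut .v 8388608 (.cut .v 4194304 (.cut .v 2097152 (.cut .v 1048576 (.cut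 .v 524288 (.cut .v 262144 (.cut .v 131072 (.cut .v 65536 (.pos 119 .pm ⟨0, 36622725, 0, 0, 0, 0, 0, 0, 0, ⟨0, 0⟩, 0⟩ 0 0) (.pos 120 .pm ⟨0, 207270704, 0, 0, 0, 0, 0, 0, 0, ⟨0, 0⟩, 0⟩ 0 0)) (.pos 108 .pm ⟨0, 397540014, 0, 0, 0, 0, 0, 0, 0, ⟨0, 0⟩, 0⟩ 0 0)) (.pos 106 .pm ⟨0, 776509153, 0, 0, 0, 0, 0, 0, 0, ⟨0, 0⟩, 0⟩ 0 0)) (.pos 82 .pm ⟨0, 1531121541, 0, 0, 0, 0, 0, 0, 0, ⟨0, 0⟩, 0⟩ 0 0)) (.pos 62 .pm ⟨0, 3033175667, 0, 0, 0, 0, 0, 0, 0, ⟨0, 0⟩, 0⟩ 0 0)) (.pos 7 .pm ⟨0, 6021334975, 0, 0, 0, 0, 0, 0, 0, ⟨0, 0⟩, 0⟩ 0 0)) (.pos 5 .pm ⟨0, 11960256563, 0, 0, 0, 0, 0, 0, 0, ⟨0, 0⟩, 0⟩ 0 0)) (.pos 3 .pm ⟨0, 23743003796, 0, 0, 0, 0, 0, 0, 0, ⟨0, 0⟩, 0⟩ 0 0)) (.pos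 128 .pp ⟨0, 51852846154, 0, 0, 0, 0, 0, 0, 0, ⟨0, 0⟩, 0⟩ 0 0))),
    by decide +kernel⟩

def covers32 : cell.Covers table row32.1 :=
  ⟨(.cut .d 0 (.cut .v 16777216 (.cut .v 8388608 (.void 2 ⟨0, 0, 100000, 0, 0, 0, 0, 0, 0, ⟨0, 0⟩, 0⟩ 0 0) (.cut .d (-8388608) (.cut .s 16408576 (.void 3 ⟨99703, 0, 0, 0, 0, 0, 0, 0, 0, ⟨0, 0⟩, 0⟩ 0 0) (.void 3 ⟨99703, 0, 0, 0, 0, 0, 0, 0, 0, ⟨0, 0⟩, 0⟩ 0 0)) (.pos 3 .mm ⟨0, 0, 63901905580, 0, 0, 0, 0, 0, 0, ⟨0, 0⟩, 0⟩ 0 0))) (.cut .d (-8388608) (.void 128 ⟨100001, 0, 0, 0, 0, 0, 0, 0, 0, ⟨0, 0⟩, 0⟩ 0 0) (.cut .v 4294967296 (.cut .v 268435456 (.cut .d (-4194304) (.void 36 ⟨100000, 0, 0, 0, 0, 0, 0, 0, 0, ⟨0, 0⟩, 0⟩ 0 0)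 (.pos 36 .mp ⟨0, 0, 0, 0, 0, 0, 0, 0, 0, ⟨0, 0⟩, 0⟩ 0 0)) (.cut .s 16408576 (.void 50 ⟨93166, 0, 0, 6834, 0, 0, 0, 0, 0, ⟨0, 0⟩, 0⟩ 0 0) (.void 50 ⟨93166, 0, 0, 6834, 0, 0, 0, 0, 0, ⟨0, 0⟩, 0⟩ 0 0))) (.void 129 ⟨93150, 0, 0, 6850, 0, 0, 0, 0, 0, ⟨0, 0⟩, 0⟩ 0 0)))) (.cut .v 16777216 (.cut .v 8388608 (.cut .v 4194304 (.cut .v 2097152 (.cut .v 1048576 (.cut .v 524288 (.cut .v 262144 (.cut .v 131072 (.cut .v 65536 (.cut .v 32768 (.cut .v 16384 (.pos 136 .pm ⟨0, 34341227, 0, 0, 0, 0, 0, 0, 0, ⟨0, 0⟩, 0⟩ 0 0) (.pos 137 .pm ⟨0, 82299705, 0, 0, 0, 0, 0, 0, 0, ⟨0, 0⟩, 0⟩ 0 0)) (.pos 131 .pm ⟨0, 151060192, 0, 0, 0, 0, 0, 0, 0, ⟨0, 0⟩, 0⟩ 0 0)) (.pos 120 .pm ⟨0,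 283887563, 0, 0, 0, 0, 0, 0, 0, ⟨0, 0⟩, 0⟩ 0 0)) (.pos 108 .pm ⟨0, 553149694, 0, 0, 0, 0, 0, 0, 0, ⟨0, 0⟩, 0⟩ 0 0)) (.pos 106 .pm ⟨0, 1098518736, 0, 0, 0, 0, 0, 0, 0, ⟨0, 0⟩, 0⟩ 0 0)) (.pos 82 .pm ⟨0, 2188846689, 0, 0, 0, 0, 0, 0, 0, ⟨0, 0⟩, 0⟩ 0 0)) (.pos 62 .pm ⟨0, 4367862073, 0, 0, 0, 0, 0, 0, 0, ⟨0, 0⟩, 0⟩ 0 0)) (.pos 7 .pm ⟨0, 8719330752, 0, 0, 0, 0, 0, 0, 0, ⟨0, 0⟩, 0⟩ 0 0)) (.pos 5 .pm ⟨0, 17396019752, 0, 0, 0, 0, 0, 0, 0, ⟨0, 0⟩, 0⟩ 0 0)) (.pos 3 .pm ⟨0, 34644404318, 0, 0, 0, 0, 0, 0, 0, ⟨0, 0⟩, 0⟩ 0 0)) (.cut .v 4294967296 (.pos 49 .pp ⟨0, 68721199722, 0, 0, 0, 0, 0, 0, 0, ⟨0, 0⟩, 0⟩ 0 0) (.void 129 ⟨0, 0, 0, 100000, 0, 0, 0, 0, 0, ⟨0, 0⟩, 0⟩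 0 0)))),
    by decide +kernel⟩

def covers33 : cell.Covers table row33.1 :=
  ⟨(.cut .d 0 (.cut .v 16777216 (.cut .d (-8388608) (.void 1 ⟨0, 0, 0, 0, 0, 100000, 0, 0, 0, ⟨0, 0⟩, 0⟩ 0 0) (.cut .s 16482304 (.cut .v 8388608 (.pos 2 .mm ⟨0, 0, 167772160000, 0, 0, 0, 0, 0, 0, ⟨0, 0⟩, 0⟩ 0 0) (.pos 3 .mm ⟨0, 0, 63900937438, 0, 0, 3233774152, 0, 0, 0, ⟨0, 0⟩, 0⟩ 0 0)) (.cut .d (-4194304) (.cut .s 16498688 (.void 1 ⟨0, 0, 0, 0, 0, 97504, 0, 0, 0, ⟨0, 0⟩, 0⟩ 0 0) (.cut .s 16506880 (.cut .v 8388608 (.cut .l 11925068 (.void 2 ⟨0, 0, 100000, 0, 0, 0, 0, 0, 0, ⟨0, 0⟩, 0⟩ 0 0) (.void 2 ⟨0, 0, 100000, 0, 0, 0, 0, 0, 0, ⟨0, 0⟩, 0⟩ 0 0)) (.cut .s 16502784 (.void 3 ⟨1000000000,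 0, 0, 0, 0, 0, 0, 0, 0, ⟨0, 0⟩, 0⟩ 0 0) (.void 3 ⟨1000000000, 0, 0, 0, 0, 0, 0, 0, 0, ⟨0, 0⟩, 0⟩ 0 0))) (.cut .s 16510976 (.void 1 ⟨0, 0, 0, 0, 0, 100000, 0, 0, 0, ⟨0, 0⟩, 0⟩ 0 0) (.void 1 ⟨0, 0, 0, 0, 0, 100000, 0, 0, 0, ⟨0, 0⟩, 0⟩ 0 0)))) (.pos 1 .mm ⟨0, 0, 0, 0, 0, 0, 0, 0, 0, ⟨0, 0⟩, 0⟩ 0 0)))) (.cut .d (-8388608) (.void 128 ⟨100000, 0, 0, 0, 0, 0, 0, 0, 0, ⟨0, 0⟩, 0⟩ 0 0) (.cut .v 4294967296 (.cut .d (-4194304) (.void 49 ⟨100000, 0, 0, 0, 0, 0, 0, 0, 0, ⟨0, 0⟩, 0⟩ 0 0) (.cut .d (-2097152) (.void 49 ⟨100000, 0, 0, 0, 0, 0, 0, 0, 0, ⟨0, 0⟩, 0⟩ 0 0) (.pos 49 .mp ⟨0, 0, 0, 0, 0, 0, 0, 0, 0, ⟨0, 0⟩, 0⟩ 0 0))) (.cut .v 68719476736 (.void 138 ⟨93125, 0,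 0, 6875, 0, 0, 0, 0, 0, ⟨0, 0⟩, 0⟩ 0 0) (.void 139 ⟨0, 0, 0, 100000, 0, 0, 0, 0, 0, ⟨0, 0⟩, 0⟩ 0 0))))) (.cut .v 16777216 (.cut .v 8388608 (.cut .v 4194304 (.cut .v 2097152 (.cut .v 1048576 (.cut .v 524288 (.cut .v 262144 (.cut .v 131072 (.cut .v 65536 (.cut .v 32768 (.cut .v 16384 (.pos 136 .pm ⟨0, 29699161, 0, 0, 0, 0, 0, 0, 0, ⟨0, 0⟩, 0⟩ 0 0) (.pos 137 .pm ⟨0, 74714178, 0, 0, 0, 0, 0, 0, 0, ⟨0, 0⟩, 0⟩ 0 0)) (.pos 131 .pm ⟨0, 141675747, 0, 0, 0, 0, 0, 0, 0, ⟨0, 0⟩, 0⟩ 0 0)) (.pos 120 .pm ⟨0, 275592476, 0, 0, 0, 0, 0, 0, 0, ⟨0, 0⟩, 0⟩ 0 0)) (.pos 108 .pm ⟨0, 543400301, 0, 0, 0, 0, 0, 0, 0, ⟨0, 0⟩, 0⟩ 0 0)) (.pos 106 .pm ⟨0, 1078913420, 0, 0, 0, 0, 0,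 0, 0, ⟨0, 0⟩, 0⟩ 0 0)) (.pos 82 .pm ⟨0, 2149529525, 0, 0, 0, 0, 0, 0, 0, ⟨0, 0⟩, 0⟩ 0 0)) (.pos 62 .pm ⟨0, 4289121215, 0, 0, 0, 0, 0, 0, 0, ⟨0, 0⟩, 0⟩ 0 0)) (.pos 7 .pm ⟨0, 8561742505, 0, 0, 0, 0, 0, 0, 0, ⟨0, 0⟩, 0⟩ 0 0)) (.pos 5 .pm ⟨0, 17080736730, 0, 0, 0, 0, 0, 0, 0, ⟨0, 0⟩, 0⟩ 0 0)) (.pos 3 .pm ⟨0, 34013731762, 0, 0, 0, 0, 0, 0, 0, ⟨0, 0⟩, 0⟩ 0 0)) (.cut .s 16482304 (.cut .v 4294967296 (.pos 49 .pp ⟨0, 67459748149, 0, 0, 0, 0, 0, 0, 0, ⟨0, 0⟩, 0⟩ 0 0) (.void 129 ⟨0, 0, 0, 100000, 0, 0, 0, 0, 0, ⟨0, 0⟩, 0⟩ 0 0)) (.cut .v 4294967296 (.pos 49 .pp ⟨0, 75895801015, 0, 0, 0, 0, 0, 0, 0, ⟨0, 0⟩, 0⟩ 0 0) (.void 129 ⟨0, 0, 0, 100000, 0, 0, 0, 0, 0, ⟨0, 0⟩,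 0⟩ 0 0))))),
    by decide +kernel⟩

def covers34 : cell.Covers table row34.1 :=
  ⟨(.cut .d 0 (.cut .v 16777216 (.cut .v 8388608 (.pos 2 .mm ⟨0, 0, 167772160000, 0, 0, 0, 0, 0, 0, ⟨0, 0⟩, 0⟩ 0 0) (.cut .d (-8388608) (.cut .d (-12582912) (.void 3 ⟨0, 0, 0, 0, 0, 60416, 0, 0, 0, ⟨0, 0⟩, 0⟩ 0 0) (.void 3 ⟨0, 0, 0, 0, 0, 60416, 0, 0, 0, ⟨0, 0⟩, 0⟩ 0 0)) (.pos 3 .mm ⟨0, 0, 161141380418, 0, 0, 0, 0, 0, 0, ⟨0, 0⟩, 0⟩ 0 0))) (.cut .v 4294967296 (.cut .d (-8388608) (.void 49 ⟨0, 0, 0, 0, 0, 1000000000, 0, 0, 0, ⟨0, 0⟩, 0⟩ 0 0) (.cut .v 268435456 (.cut .d (-4194304) (.void 36 ⟨1000000000, 0, 0, 0, 0, 0, 0, 0, 0, ⟨0, 0⟩, 0⟩ 0 0) (.pos 36 .mp ⟨0, 0, 0, 0, 0, 4387401790,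 0, 0, 0, ⟨0, 0⟩, 0⟩ 0 0)) (.cut .s 16539648 (.void 50 ⟨93015, 0, 0, 6985, 0, 0, 0, 0, 0, ⟨0, 0⟩, 0⟩ 0 0) (.void 50 ⟨93015, 0, 0, 6985, 0, 0, 0, 0, 0, ⟨0, 0⟩, 0⟩ 0 0)))) (.void 129 ⟨95121, 0, 0, 4862, 0, 0, 0, 0, 0, ⟨0, 0⟩, 0⟩ 0 0))) (.cut .v 16777216 (.cut .v 8388608 (.cut .v 4194304 (.cut .v 2097152 (.cut .v 1048576 (.cut .v 524288 (.cut .v 262144 (.cut .v 131072 (.cut .v 65536 (.cut .v 32768 (.pos 130 .pm ⟨0, 45305627, 0, 0, 0, 0, 0, 0, 0, ⟨0, 0⟩, 0⟩ 0 0) (.pos 131 .pm ⟨0, 210683337, 0, 0, 0, 0, 0, 0, 0, ⟨0, 0⟩, 0⟩ 0 0)) (.pos 120 .pm ⟨0, 413468216, 0, 0, 0, 0, 0, 0, 0, ⟨0, 0⟩, 0⟩ 0 0)) (.pos 108 .pm ⟨0, 819011289, 0, 0, 0, 0, 0, 0, 0, ⟨0, 0⟩, 0⟩ 0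 0)) (.pos 106 .pm ⟨0, 1629990690, 0, 0, 0, 0, 0, 0, 0, ⟨0, 0⟩, 0⟩ 0 0)) (.pos 82 .pm ⟨0, 3251522518, 0, 0, 0, 0, 0, 0, 0, ⟨0, 0⟩, 0⟩ 0 0)) (.pos 62 .pm ⟨0, 6492878273, 0, 0, 0, 0, 0, 0, 0, ⟨0, 0⟩, 0⟩ 0 0)) (.pos 7 .pm ⟨0, 12968758182, 0, 0, 0, 0, 0, 0, 0, ⟨0, 0⟩, 0⟩ 0 0)) (.pos 5 .pm ⟨0, 25893191596, 0, 0, 0, 0, 0, 0, 0, ⟨0, 0⟩, 0⟩ 0 0)) (.pos 3 .pm ⟨0, 51632752808, 0, 0, 0, 0, 0, 0, 0, ⟨0, 0⟩, 0⟩ 0 0)) (.pos 128 .pp ⟨0, 102674652766, 0, 0, 0, 0, 0, 0, 0, ⟨0, 0⟩, 0⟩ 0 0))),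
    by decide +kernel⟩

def covers35 : cell.Covers table row35.1 :=
  ⟨(.cut .d 0 (.cut .v 16777216 (.cut .d (-8388608) (.void 1 ⟨0, 0, 0, 0, 0, 1000000000, 0, 0, 0, ⟨0, 0⟩, 0⟩ 0 0) (.pos 1 .mm ⟨0, 0, 167772160000, 0, 0, 0, 0, 0, 0, ⟨0, 0⟩, 0⟩ 0 0)) (.cut .v 4294967296 (.cut .d (-8388608) (.void 49 ⟨0, 0, 0, 0, 0, 1000000000, 0, 0, 0, ⟨0, 0⟩, 0⟩ 0 0) (.cut .v 268435456 (.cut .d (-4194304) (.void 36 ⟨1000000000, 0, 0, 0, 0, 0, 0, 0, 0, ⟨0, 0⟩, 0⟩ 0 0) (.pos 36 .mp ⟨0, 0, 0, 0, 0, 4501476015, 0, 0, 0, ⟨0, 0⟩, 0⟩ 0 0)) (.void 50 ⟨94102, 0, 0, 5898, 0, 0, 0, 0, 0, ⟨0, 0⟩, 0⟩ 0 0))) (.void 129 ⟨95957, 0, 0, 4737, 0, 0, 0, 0, 0, ⟨0, 0⟩, 0⟩ 0 0))) (.cut .v 16777216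 (.cut .v 8388608 (.cut .v 4194304 (.cut .v 2097152 (.cut .v 1048576 (.cut .v 524288 (.cut .v 262144 (.cut .v 131072 (.cut .v 65536 (.cut .v 32768 (.pos 130 .pm ⟨0, 31268604, 0, 0, 0, 0, 0, 0, 0, ⟨0, 0⟩, 0⟩ 0 0) (.pos 131 .pm ⟨0, 208450818, 0, 0, 0, 0, 0, 0, 0, ⟨0, 0⟩, 0⟩ 0 0)) (.pos 120 .pm ⟨0, 408939829, 0, 0, 0, 0, 0, 0, 0, ⟨0, 0⟩, 0⟩ 0 0)) (.pos 108 .pm ⟨0, 809891165, 0, 0, 0, 0, 0, 0, 0, ⟨0, 0⟩, 0⟩ 0 0)) (.pos 106 .pm ⟨0, 1611687093, 0, 0, 0, 0, 0, 0, 0, ⟨0, 0⟩, 0⟩ 0 0)) (.pos 82 .pm ⟨0, 3214851976, 0, 0, 0, 0, 0, 0, 0, ⟨0, 0⟩, 0⟩ 0 0)) (.pos 62 .pm ⟨0, 6419473840, 0, 0, 0, 0, 0, 0, 0, ⟨0, 0⟩, 0⟩ 0 0)) (.pos 7 .pm ⟨0, 12821885966, 0, 0, 0, 0, 0, 0,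 0, ⟨0, 0⟩, 0⟩ 0 0)) (.pos 5 .pm ⟨0, 25599383816, 0, 0, 0, 0, 0, 0, 0, ⟨0, 0⟩, 0⟩ 0 0)) (.pos 3 .pm ⟨0, 51045073898, 0, 0, 0, 0, 0, 0, 0, ⟨0, 0⟩, 0⟩ 0 0)) (.pos 128 .pp ⟨0, 101499231596, 0, 0, 0, 0, 0, 0, 0, ⟨0, 0⟩, 0⟩ 0 0))),
    by decide +kernel⟩

def covers36 : cell.Covers table row36.1 :=
  ⟨(.cut .d 0 (.cut .v 16777216 (.cut .d (-8388608) (.void 1 ⟨0, 0, 0, 0, 0, 1000000000, 0, 0, 0, ⟨0, 0⟩, 0⟩ 0 0) (.cut .v 8388608 (.pos 2 .mm ⟨0, 0, 167772160000, 0, 0, 0, 0, 0, 0, ⟨0, 0⟩, 0⟩ 0 0) (.pos 3 .mm ⟨55406824988, 0, 112365335012, 0, 0, 0, 0, 0, 0, ⟨0, 0⟩, 0⟩ 0 0))) (.cut .v 4294967296 (.cut .d (-8388608) (.void 49 ⟨0, 0, 0, 0, 0, 1000000000, 0, 0, 0, ⟨0,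 0⟩, 0⟩ 0 0) (.cut .v 268435456 (.cut .d (-4194304) (.void 36 ⟨1000000000, 0, 0, 0, 0, 0, 0, 0, 0, ⟨0, 0⟩, 0⟩ 0 0) (.pos 36 .mp ⟨0, 0, 0, 0, 0, 35155525239, 0, 0, 0, ⟨0, 0⟩, 0⟩ 0 0)) (.cut .s 16629760 (.void 50 ⟨1000000000, 0, 0, 0, 0, 0, 0, 0, 0, ⟨0, 0⟩, 0⟩ 0 0) (.void 50 ⟨1000000000, 0, 0, 0, 0, 0, 0, 0, 0, ⟨0, 0⟩, 0⟩ 0 0)))) (.void 129 ⟨1000000000, 0, 0, 0, 0, 0, 0, 0, 0, ⟨0, 0⟩, 0⟩ 0 0))) (.cut .v 16777216 (.pos 1 .pm ⟨0, 0, 0, 392363, 0, 0, 0, 0, 0, ⟨0, 0⟩, 0⟩ 0 0) (.pos 128 .pp ⟨0, 122715122159, 0, 0, 0, 0, 0, 0, 0, ⟨0, 0⟩, 0⟩ 0 0))),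
    by decide +kernel⟩

def covers37 : cell.Covers table row37.1 :=
  ⟨(.cut .d 0 (.cut .v 16777216 (.cut .d (-8388608) (.void 1 ⟨0, 0, 100000, 0, 0, 0, 0, 0, 0, ⟨0, 0⟩, 0⟩ 0 0) (.cut .d (-4194304) (.void 1 ⟨0, 0, 100000, 0, 0, 0, 0, 0, 0, ⟨0, 0⟩, 0⟩ 0 0) (.pos 1 .mm ⟨0, 0, 167772160000, 0, 0, 0, 0, 0, 0, ⟨0, 0⟩, 0⟩ 0 0))) (.cut .v 4294967296 (.cut .d (-8388608) (.void 49 ⟨98908, 0, 101, 0, 0, 0, 0, 1092, 0, ⟨(-1), 9352170⟩, 0⟩ 0 128) (.cut .v 268435456 (.cut .d (-4194304) (.void 36 ⟨1000000000, 0, 0, 0, 0, 0, 0, 0, 0, ⟨0, 0⟩, 0⟩ 0 0) (.cut .d (-2097152) (.void 36 ⟨1000000000, 0, 0, 0, 0, 0, 0, 0, 0, ⟨0, 0⟩, 0⟩ 0 0) (.pos 36 .mp ⟨0, 0, 0, 0, 0, 0, 0,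 0, 0, ⟨0, 0⟩, 0⟩ 0 0))) (.cut .s 16654336 (.void 50 ⟨1000000000, 0, 0, 0, 0, 0, 0, 0, 0, ⟨0, 0⟩, 0⟩ 0 0) (.void 50 ⟨1000000000, 0, 0, 0, 0, 0, 0, 0, 0, ⟨0, 0⟩, 0⟩ 0 0)))) (.void 129 ⟨1000000000, 0, 0, 0, 0, 0, 0, 0, 0, ⟨0, 0⟩, 0⟩ 0 0))) (.cut .v 16777216 (.cut .v 8388608 (.cut .v 4194304 (.cut .v 2097152 (.cut .v 1048576 (.cut .v 524288 (.cut .v 262144 (.cut .v 131072 (.cut .v 65536 (.cut .v 32768 (.pos 130 .pm ⟨0, 35224968, 0, 0, 0, 0, 0, 0, 0, ⟨0, 0⟩, 0⟩ 0 0) (.pos 131 .pm ⟨0, 295084807, 0, 0, 0, 0, 0, 0, 0, ⟨0, 0⟩, 0⟩ 0 0)) (.pos 120 .pm ⟨0, 582054928, 0, 0, 0, 0, 0, 0, 0, ⟨0, 0⟩, 0⟩ 0 0)) (.pos 108 .pm ⟨0, 1155967555, 0, 0, 0, 0, 0, 0, 0, ⟨0, 0⟩,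 0⟩ 0 0)) (.pos 106 .pm ⟨0, 2303682336, 0, 0, 0, 0, 0, 0, 0, ⟨0, 0⟩, 0⟩ 0 0)) (.pos 82 .pm ⟨0, 4598670016, 0, 0, 0, 0, 0, 0, 0, ⟨0, 0⟩, 0⟩ 0 0)) (.pos 62 .pm ⟨0, 9186877845, 0, 0, 0, 0, 0, 0, 0, ⟨0, 0⟩, 0⟩ 0 0)) (.pos 7 .pm ⟨0, 18356223376, 0, 0, 0, 0, 0, 0, 0, ⟨0, 0⟩, 0⟩ 0 0)) (.pos 5 .pm ⟨0, 36666633936, 0, 0, 0, 0, 0, 0, 0, ⟨0, 0⟩, 0⟩ 0 0)) (.pos 3 .pm ⟨0, 73174333042, 0, 0, 0, 0, 0, 0, 0, ⟨0, 0⟩, 0⟩ 0 0)) (.pos 128 .pp ⟨0, 145737243205, 0, 0, 0, 0, 0, 0, 0, ⟨0, 0⟩, 0⟩ 0 0))),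
    by decide +kernel⟩

def covers38 : cell.Covers table row38.1 :=
  ⟨(.cut .d 0 (.cut .v 16777216 (.cut .d (-8388608) (.void 1 ⟨0, 0, 3644, 0, 0, 96356, 0, 0, 0, ⟨0, 0⟩, 0⟩ 0 0) (.cut .v 8388608 (.void 2 ⟨0, 0, 100000, 0, 0, 0, 0, 0, 0, ⟨0, 0⟩, 0⟩ 0 0) (.cut .d (-4194304) (.void 3 ⟨100000, 0, 0, 0, 0, 0, 0, 0, 0, ⟨0, 0⟩, 0⟩ 0 0) (.pos 3 .mm ⟨0, 0, 167772160000, 0, 0, 0, 0, 0, 0, ⟨0, 0⟩, 0⟩ 0 0)))) (.cut .v 4294967296 (.cut .d (-8388608) (.void 49 ⟨82959, 0, 1055, 2358, 0, 0, 0, 17041, 0, ⟨(-1), 9352170⟩, 0⟩ 0 128) (.cut .v 268435456 (.cut .d (-4194304) (.void 36 ⟨100000, 0, 0, 0, 0, 0, 0, 0, 0, ⟨0, 0⟩, 0⟩ 0 0) (.cut .d (-2097152) (.void 36 ⟨100000,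 0, 0, 0, 0, 0, 0, 0, 0, ⟨0, 0⟩, 0⟩ 0 0) (.pos 36 .mp ⟨587715429, 0, 0, 0, 0, 0, 0, 0, 0, ⟨0, 0⟩, 0⟩ 0 0))) (.void 50 ⟨93061, 0, 0, 6939, 0, 0, 0, 0, 0, ⟨0, 0⟩, 0⟩ 0 0))) (.void 129 ⟨10, 0, 0, 4428, 0, 96464, 0, 0, 0, ⟨0, 0⟩, 0⟩ 0 0))) (.cut .v 16777216 (.cut .v 8388608 (.cut .v 4194304 (.cut .v 2097152 (.cut .v 1048576 (.cut .v 524288 (.cut .v 262144 (.cut .v 131072 (.cut .v 65536 (.cut .v 32768 (.cut .v 16384 (.cut .v 8192 (.cut .v 4096 (.cut .v 2048 (.pos 144 .pm ⟨0, 16263585, 0, 0, 0, 0, 0, 0, 0, ⟨0, 0⟩, 0⟩ 0 0) (.pos 145 .pm ⟨0, 28196459, 0, 0, 0, 0, 0, 0, 0, ⟨0, 0⟩, 0⟩ 0 0)) (.pos 143 .pm ⟨0, 45236233, 0, 0, 0, 0, 0, 0, 0, ⟨0, 0⟩, 0⟩ 0 0)) (.pos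 141 .pm ⟨0, 80670703, 0, 0, 0, 0, 0, 0, 0, ⟨0, 0⟩, 0⟩ 0 0)) (.pos 137 .pm ⟨0, 153198413, 0, 0, 0, 0, 0, 0, 0, ⟨0, 0⟩, 0⟩ 0 0)) (.pos 131 .pm ⟨0, 298252089, 0, 0, 0, 0, 0, 0, 0, ⟨0, 0⟩, 0⟩ 0 0)) (.pos 120 .pm ⟨0, 588352456, 0, 0, 0, 0, 0, 0, 0, ⟨0, 0⟩, 0⟩ 0 0)) (.pos 108 .pm ⟨0, 1168525256, 0, 0, 0, 0, 0, 0, 0, ⟨0, 0⟩, 0⟩ 0 0)) (.pos 106 .pm ⟨0, 2328759118, 0, 0, 0, 0, 0, 0, 0, ⟨0, 0⟩, 0⟩ 0 0)) (.pos 82 .pm ⟨0, 4648779891, 0, 0, 0, 0, 0, 0, 0, ⟨0, 0⟩, 0⟩ 0 0)) (.pos 62 .pm ⟨0, 9287033636, 0, 0, 0, 0, 0, 0, 0, ⟨0, 0⟩, 0⟩ 0 0)) (.pos 7 .pm ⟨0, 18556389916, 0, 0, 0, 0, 0, 0, 0, ⟨0, 0⟩, 0⟩ 0 0)) (.pos 5 .pm ⟨0, 37066497638, 0, 0, 0, 0, 0, 0, 0, ⟨0, 0⟩, 0⟩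 0 0)) (.pos 3 .pm ⟨0, 73972293727, 0, 0, 0, 0, 0, 0, 0, ⟨0, 0⟩, 0⟩ 0 0)) (.cut .v 4294967296 (.pos 49 .pp ⟨0, 147326208490, 0, 0, 0, 0, 0, 0, 0, ⟨0, 0⟩, 0⟩ 0 0) (.pos 129 .pp ⟨0, 0, 0, 167772160000, 0, 0, 0, 0, 0, ⟨0, 0⟩, 0⟩ 0 0)))),
    by decide +kernel⟩

def covers39 : cell.Covers table row39.1 :=
  ⟨(.cut .d 0 (.cut .v 16777216 (.cut .d (-8388608) (.void 1 ⟨0, 0, 100000, 0, 0, 0, 0, 0, 0, ⟨0, 0⟩, 0⟩ 0 0) (.cut .d (-4194304) (.void 1 ⟨0, 0, 100000, 0, 0, 0, 0, 0, 0, ⟨0, 0⟩, 0⟩ 0 0) (.cut .v 8388608 (.void 2 ⟨0, 0, 100000, 0, 0, 0, 0, 0, 0, ⟨0, 0⟩, 0⟩ 0 0) (.pos 3 .mm ⟨84877606010, 0, 82894553990, 0, 0, 0, 0, 0, 0, ⟨0, 0⟩, 0⟩ 0 0)))) (.cut .v 4294967296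 (.cut .d (-8388608) (.void 49 ⟨0, 0, 0, 0, 0, 1000000000, 0, 0, 0, ⟨0, 0⟩, 0⟩ 0 0) (.cut .v 268435456 (.cut .d (-4194304) (.void 36 ⟨1000000000, 0, 0, 0, 0, 0, 0, 0, 0, ⟨0, 0⟩, 0⟩ 0 0) (.cut .d (-2097152) (.void 36 ⟨1000000000, 0, 0, 0, 0, 0, 0, 0, 0, ⟨0, 0⟩, 0⟩ 0 0) (.cut .d (-1048576) (.void 36 ⟨1000000000, 0, 0, 0, 0, 0, 0, 0, 0, ⟨0, 0⟩, 0⟩ 0 0) (.pos 36 .mp ⟨0, 0, 0, 0, 0, 0, 0, 0, 0, ⟨0, 0⟩, 0⟩ 0 0)))) (.cut .s 16703488 (.void 50 ⟨1000000000, 0, 0, 0, 0, 0, 0, 0, 0, ⟨0, 0⟩, 0⟩ 0 0) (.void 50 ⟨1000000000, 0, 0, 0, 0, 0, 0, 0, 0, ⟨0, 0⟩, 0⟩ 0 0)))) (.void 129 ⟨1000000000, 0, 0, 0, 0, 0, 0, 0, 0, ⟨0, 0⟩, 0⟩ 0 0))) (.cut .v 16777216 (.cut .v 8388608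 (.cut .v 4194304 (.cut .v 2097152 (.cut .v 1048576 (.cut .v 524288 (.cut .v 262144 (.cut .v 131072 (.cut .v 65536 (.cut .v 32768 (.cut .v 16384 (.cut .v 8192 (.cut .v 4096 (.cut .v 2048 (.pos 144 .pm ⟨0, 13165774, 0, 0, 0, 0, 0, 0, 0, ⟨0, 0⟩, 0⟩ 0 0) (.pos 145 .pm ⟨0, 24155955, 0, 0, 0, 0, 0, 0, 0, ⟨0, 0⟩, 0⟩ 0 0)) (.pos 143 .pm ⟨0, 43821093, 0, 0, 0, 0, 0, 0, 0, ⟨0, 0⟩, 0⟩ 0 0)) (.pos 141 .pm ⟨0, 79457772, 0, 0, 0, 0, 0, 0, 0, ⟨0, 0⟩, 0⟩ 0 0)) (.pos 137 .pm ⟨0, 150730693, 0, 0, 0, 0, 0, 0, 0, ⟨0, 0⟩, 0⟩ 0 0)) (.pos 131 .pm ⟨0, 293274788, 0, 0, 0, 0, 0, 0, 0, ⟨0, 0⟩, 0⟩ 0 0)) (.pos 120 .pm ⟨0, 578355996, 0, 0, 0, 0, 0, 0, 0, ⟨0, 0⟩, 0⟩ 0 0)) (.pos 108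 .pm ⟨0, 1148490477, 0, 0, 0, 0, 0, 0, 0, ⟨0, 0⟩, 0⟩ 0 0)) (.pos 106 .pm ⟨0, 2288647701, 0, 0, 0, 0, 0, 0, 0, ⟨0, 0⟩, 0⟩ 0 0)) (.pos 82 .pm ⟨0, 4568515200, 0, 0, 0, 0, 0, 0, 0, ⟨0, 0⟩, 0⟩ 0 0)) (.pos 62 .pm ⟨0, 9126462394, 0, 0, 0, 0, 0, 0, 0, ⟨0, 0⟩, 0⟩ 0 0)) (.pos 7 .pm ⟨0, 18235205573, 0, 0, 0, 0, 0, 0, 0, ⟨0, 0⟩, 0⟩ 0 0)) (.pos 5 .pm ⟨0, 36424087093, 0, 0, 0, 0, 0, 0, 0, ⟨0, 0⟩, 0⟩ 0 0)) (.pos 3 .pm ⟨0, 72687430781, 0, 0, 0, 0, 0, 0, 0, ⟨0, 0⟩, 0⟩ 0 0)) (.cut .v 4294967296 (.pos 49 .pp ⟨0, 144756440748, 0, 0, 0, 0, 0, 0, 0, ⟨0, 0⟩, 0⟩ 0 0) (.void 129 ⟨0, 0, 0, 100000, 0, 0, 0, 0, 0, ⟨0, 0⟩, 0⟩ 0 0)))),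
    by decide +kernel⟩

def covers40 : cell.Covers table row40.1 :=
  ⟨(.cut .d 0 (.cut .v 16777216 (.cut .d (-8388608) (.void 1 ⟨0, 0, 100000, 0, 0, 0, 0, 0, 0, ⟨0, 0⟩, 0⟩ 0 0) (.cut .d (-4194304) (.void 1 ⟨0, 0, 100000, 0, 0, 0, 0, 0, 0, ⟨0, 0⟩, 0⟩ 0 0) (.cut .d (-2097152) (.void 1 ⟨0, 0, 100000, 0, 0, 0, 0, 0, 0, ⟨0, 0⟩, 0⟩ 0 0) (.cut .v 8388608 (.cut .s 16719872 (.void 2 ⟨0, 0, 100000, 0, 0, 0, 0, 0, 0, ⟨0, 0⟩, 0⟩ 0 0) (.void 2 ⟨0, 0, 100000, 0, 0, 0, 0, 0, 0, ⟨0, 0⟩, 0⟩ 0 0)) (.pos 3 .mm ⟨31095025279, 0, 136677134721, 0, 0, 0, 0, 0, 0, ⟨0, 0⟩, 0⟩ 0 0))))) (.cut .v 4294967296 (.cut .v 268435456 (.cut .d (-8388608) (.void 36 ⟨0, 0, 0, 0, 0, 1000000000,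 0, 0, 0, ⟨0, 0⟩, 0⟩ 0 0) (.cut .v 67108864 (.cut .d (-4194304) (.void 10 ⟨1000000000, 0, 0, 0, 0, 0, 0, 0, 0, ⟨0, 0⟩, 0⟩ 0 0) (.cut .d (-2097152) (.void 10 ⟨1000000000, 0, 0, 0, 0, 0, 0, 0, 0, ⟨0, 0⟩, 0⟩ 0 0) (.cut .d (-1048576) (.void 10 ⟨1000000000, 0, 0, 0, 0, 0, 0, 0, 0, ⟨0, 0⟩, 0⟩ 0 0) (.pos 10 .mp ⟨84061984078, 0, 0, 0, 0, 0, 0, 0, 0, ⟨0, 0⟩, 0⟩ 0 0)))) (.void 37 ⟨501048470, 0, 0, 0, 0, 0, 0, 0, 0, ⟨0, 0⟩, 0⟩ 0 0))) (.cut .d (-8388608) (.void 50 ⟨0, 0, 0, 0, 0, 1000000000, 0, 0, 0, ⟨0, 0⟩, 0⟩ 0 0) (.cut .s 16719872 (.void 50 ⟨1000000000, 0, 0, 0, 0, 0, 0, 0, 0, ⟨0, 0⟩, 0⟩ 0 0) (.void 50 ⟨1000000000, 0, 0, 0, 0, 0, 0, 0, 0, ⟨0, 0⟩, 0⟩ 0 0)))) (.cut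 .v 68719476736 (.cut .v 17179869184 (.cut .d (-8388608) (.void 146 ⟨1000000000, 0, 0, 0, 0, 0, 0, 0, 0, ⟨0, 0⟩, 0⟩ 0 0) (.void 146 ⟨1000000000, 0, 0, 0, 0, 0, 0, 0, 0, ⟨0, 0⟩, 0⟩ 0 0)) (.void 147 ⟨1000000000, 0, 0, 0, 0, 0, 0, 0, 0, ⟨0, 0⟩, 0⟩ 0 0)) (.void 139 ⟨0, 0, 0, 100000, 0, 0, 0, 0, 0, ⟨0, 0⟩, 0⟩ 0 0)))) (.cut .v 16777216 (.cut .v 8388608 (.cut .v 4194304 (.cut .v 2097152 (.cut .v 1048576 (.cut .v 524288 (.cut .v 262144 (.cut .v 131072 (.cut .v 65536 (.cut .v 32768 (.cut .v 16384 (.cut .v 8192 (.cut .v 4096 (.cut .v 2048 (.pos 144 .pm ⟨0, 0, 0, 486633, 0, 0, 0, 0, 0, ⟨0, 0⟩, 0⟩ 0 0) (.pos 145 .pm ⟨0, 23081475, 0, 0, 0, 0, 0, 0, 0, ⟨0, 0⟩, 0⟩ 0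 0)) (.pos 143 .pm ⟨0, 37949726, 0, 0, 0, 0, 0, 0, 0, ⟨0, 0⟩, 0⟩ 0 0)) (.pos 141 .pm ⟨0, 67686117, 0, 0, 0, 0, 0, 0, 0, ⟨0, 0⟩, 0⟩ 0 0)) (.pos 137 .pm ⟨0, 127158462, 0, 0, 0, 0, 0, 0, 0, ⟨0, 0⟩, 0⟩ 0 0)) (.pos 131 .pm ⟨0, 246101395, 0, 0, 0, 0, 0, 0, 0, ⟨0, 0⟩, 0⟩ 0 0)) (.pos 120 .pm ⟨0, 483980238, 0, 0, 0, 0, 0, 0, 0, ⟨0, 0⟩, 0⟩ 0 0)) (.pos 108 .pm ⟨0, 959709829, 0, 0, 0, 0, 0, 0, 0, ⟨0, 0⟩, 0⟩ 0 0)) (.pos 106 .pm ⟨0, 1911056636, 0, 0, 0, 0, 0, 0, 0, ⟨0, 0⟩, 0⟩ 0 0)) (.pos 82 .pm ⟨0, 3813300747, 0, 0, 0, 0, 0, 0, 0, ⟨0, 0⟩, 0⟩ 0 0)) (.pos 62 .pm ⟨0, 7615990957, 0, 0, 0, 0, 0, 0, 0, ⟨0, 0⟩, 0⟩ 0 0)) (.pos 7 .pm ⟨0, 15214179325, 0, 0, 0, 0, 0, 0, 0, ⟨0,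 0⟩, 0⟩ 0 0)) (.pos 5 .pm ⟨0, 30381787859, 0, 0, 0, 0, 0, 0, 0, ⟨0, 0⟩, 0⟩ 0 0)) (.pos 3 .pm ⟨0, 60601932117, 0, 0, 0, 0, 0, 0, 0, ⟨0, 0⟩, 0⟩ 0 0)) (.cut .v 4294967296 (.pos 49 .pp ⟨0, 120581929393, 0, 0, 0, 0, 0, 0, 0, ⟨0, 0⟩, 0⟩ 0 0) (.void 129 ⟨0, 0, 0, 100000, 0, 0, 0, 0, 0, ⟨0, 0⟩, 0⟩ 0 0)))),
    by decide +kernel⟩

def covers41 : cell.Covers table row41.1 :=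
  ⟨(.cut .d 0 (.cut .v 16777216 (.cut .d (-8388608) (.void 1 ⟨0, 0, 0, 0, 0, 1000000000, 0, 0, 0, ⟨0, 0⟩, 0⟩ 0 0) (.cut .d (-4194304) (.void 1 ⟨0, 0, 0, 0, 0, 1000000000, 0, 0, 0, ⟨0, 0⟩, 0⟩ 0 0) (.cut .d (-2097152) (.void 1 ⟨0, 0, 0, 0, 0, 1000000000, 0, 0, 0, ⟨0, 0⟩, 0⟩ 0 0) (.cut .d (-1048576) (.void 1 ⟨0, 0, 0, 0, 0, 1000000000, 0, 0, 0, ⟨0, 0⟩, 0⟩ 0 0) (.cut .d (-524288) (.void 1 ⟨0, 0, 0, 0, 0, 1000000000, 0, 0, 0, ⟨0, 0⟩, 0⟩ 0 0) (.cut .v 8388608 (.void 2 ⟨0, 0, 100000, 0, 0, 0, 0, 0, 0, ⟨0, 0⟩, 0⟩ 0 0) (.pos 3 .mm ⟨129743221599, 0, 38028938401, 0, 0, 0, 0, 0, 0, ⟨0, 0⟩, 0⟩ 0 0))))))) (.cut .d (-8388608) (.void 128 ⟨51585, 0, 1, 0, 0, 0, 0, 48415,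 0, ⟨(-1), 9352170⟩, 0⟩ 0 128) (.cut .v 4294967296 (.cut .v 268435456 (.cut .v 67108864 (.cut .d (-4194304) (.void 10 ⟨1000000000, 0, 0, 0, 0, 0, 0, 0, 0, ⟨0, 0⟩, 0⟩ 0 0) (.cut .d (-2097152) (.void 10 ⟨1000000000, 0, 0, 0, 0, 0, 0, 0, 0, ⟨0, 0⟩, 0⟩ 0 0) (.cut .d (-1048576) (.void 10 ⟨1000000000, 0, 0, 0, 0, 0, 0, 0, 0, ⟨0, 0⟩, 0⟩ 0 0) (.cut .d (-524288) (.void 10 ⟨1000000000, 0, 0, 0, 0, 0, 0, 0, 0, ⟨0, 0⟩, 0⟩ 0 0) (.cut .d (-262144) (.void 10 ⟨1000000000, 0, 0, 0, 0, 0, 0, 0, 0, ⟨0, 0⟩, 0⟩ 0 0) (.pos 10 .mp ⟨164352982832, 0, 0, 0, 0, 0, 0, 0, 0, ⟨0, 0⟩, 0⟩ 0 0)))))) (.void 37 ⟨979620116, 0, 0, 0, 0, 0, 0, 0, 0, ⟨0, 0⟩, 0⟩ 0 0)) (.void 50 ⟨979620116, 0,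 0, 0, 0, 0, 0, 0, 0, ⟨0, 0⟩, 0⟩ 0 0)) (.void 129 ⟨979620116, 0, 0, 0, 0, 0, 0, 0, 0, ⟨0, 0⟩, 0⟩ 0 0)))) (.cut .v 16777216 (.cut .v 8388608 (.cut .v 4194304 (.cut .v 2097152 (.cut .v 1048576 (.cut .v 524288 (.cut .v 262144 (.cut .v 131072 (.cut .v 65536 (.cut .v 32768 (.cut .v 16384 (.cut .v 8192 (.cut .v 4096 (.cut .v 2048 (.cut .v 1024 (.pos 150 .pm ⟨0, 0, 0, 136142, 0, 0, 0, 0, 0, ⟨0, 0⟩, 0⟩ 0 0) (.pos 151 .pm ⟨0, 0, 0, 75110, 0, 0, 0, 0, 0, ⟨0, 0⟩, 0⟩ 0 0)) (.pos 145 .pm ⟨0, 0, 0, 664616, 0, 0, 0, 0, 0, ⟨0, 0⟩, 0⟩ 0 0)) (.pos 143 .pm ⟨0, 0, 0, 917125, 0, 0, 0, 0, 0, ⟨0, 0⟩, 0⟩ 0 0)) (.pos 141 .pm ⟨0, 0, 0, 1422138, 0, 0, 0, 0, 0, ⟨0, 0⟩, 0⟩ 0 0)) (.pos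 137 .pm ⟨0, 0, 0, 2432140, 0, 0, 0, 0, 0, ⟨0, 0⟩, 0⟩ 0 0)) (.pos 131 .pm ⟨0, 0, 0, 4452058, 0, 0, 0, 0, 0, ⟨0, 0⟩, 0⟩ 0 0)) (.pos 120 .pm ⟨0, 0, 0, 8491539, 0, 0, 0, 0, 0, ⟨0, 0⟩, 0⟩ 0 0)) (.pos 108 .pm ⟨0, 0, 0, 16569090, 0, 0, 0, 0, 0, ⟨0, 0⟩, 0⟩ 0 0)) (.pos 106 .pm ⟨0, 654370785, 0, 0, 0, 0, 0, 0, 0, ⟨0, 0⟩, 0⟩ 0 0)) (.pos 82 .pm ⟨0, 1299896704, 0, 0, 0, 0, 0, 0, 0, ⟨0, 0⟩, 0⟩ 0 0)) (.pos 62 .pm ⟨0, 2589140270, 0, 0, 0, 0, 0, 0, 0, ⟨0, 0⟩, 0⟩ 0 0)) (.pos 7 .pm ⟨0, 5160394309, 0, 0, 0, 0, 0, 0, 0, ⟨0, 0⟩, 0⟩ 0 0)) (.pos 5 .pm ⟨0, 10273970017, 0, 0, 0, 0, 0, 0, 0, ⟨0, 0⟩, 0⟩ 0 0)) (.pos 3 .pm ⟨0, 20385391956, 0, 0, 0, 0, 0, 0, 0, ⟨0, 0⟩, 0⟩ 0 0)) (.cut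 .v 4294967296 (.cut .v 268435456 (.pos 36 .pp ⟨0, 40145317918, 0, 0, 0, 0, 0, 0, 0, ⟨0, 0⟩, 0⟩ 0 0) (.void 50 ⟨0, 0, 0, 100000, 0, 0, 0, 0, 0, ⟨0, 0⟩, 0⟩ 0 0)) (.void 129 ⟨0, 0, 0, 100000, 0, 0, 0, 0, 0, ⟨0, 0⟩, 0⟩ 0 0)))),
    by decide +kernel⟩

def covers42 : cell.Covers table row42.1 :=
  ⟨(.cut .d 0 (.cut .v 16777216 (.cut .d (-8388608) (.void 1 ⟨0, 0, 0, 0, 0, 1000000000, 0, 0, 0, ⟨0, 0⟩, 0⟩ 0 0) (.cut .d (-4194304) (.void 1 ⟨0, 0, 0, 0, 0, 1000000000, 0, 0, 0, ⟨0, 0⟩, 0⟩ 0 0) (.cut .d (-2097152) (.void 1 ⟨0, 0, 0, 0, 0, 1000000000, 0, 0, 0, ⟨0, 0⟩, 0⟩ 0 0) (.cut .d (-1048576) (.void 1 ⟨0, 0, 0, 0, 0, 1000000000, 0, 0, 0, ⟨0, 0⟩, 0⟩ 0 0) (.cut .d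 (-524288) (.void 1 ⟨0, 0, 0, 0, 0, 1000000000, 0, 0, 0, ⟨0, 0⟩, 0⟩ 0 0) (.cut .d (-262144) (.void 1 ⟨0, 0, 0, 0, 0, 1000000000, 0, 0, 0, ⟨0, 0⟩, 0⟩ 0 0) (.cut .d (-131072) (.void 1 ⟨0, 0, 0, 0, 0, 1000000000, 0, 0, 0, ⟨0, 0⟩, 0⟩ 0 0) (.cut .v 8388608 (.void 2 ⟨0, 0, 1000000000, 0, 0, 0, 0, 0, 0, ⟨0, 0⟩, 0⟩ 0 0) (.pos 3 .mm ⟨0, 0, 167772160000, 0, 0, 0, 0, 0, 0, ⟨0, 0⟩, 0⟩ 0 0))))))))) (.cut .d (-8388608) (.void 128 ⟨52565, 0, 0, 0, 0, 0, 0, 46891, 0, ⟨(-1), 9352170⟩, 0⟩ 0 128) (.cut .v 4294967296 (.cut .v 268435456 (.cut .v 67108864 (.cut .d (-4194304) (.void 10 ⟨1000000000, 0, 0, 0, 0, 0, 0, 0, 0, ⟨0, 0⟩, 0⟩ 0 0) (.cut .d (-2097152) (.void 10 ⟨1000000000,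 0, 0, 0, 0, 0, 0, 0, 0, ⟨0, 0⟩, 0⟩ 0 0) (.cut .d (-1048576) (.void 10 ⟨1000000000, 0, 0, 0, 0, 0, 0, 0, 0, ⟨0, 0⟩, 0⟩ 0 0) (.cut .d (-524288) (.void 10 ⟨1000000000, 0, 0, 0, 0, 0, 0, 0, 0, ⟨0, 0⟩, 0⟩ 0 0) (.cut .d (-262144) (.void 10 ⟨1000000000, 0, 0, 0, 0, 0, 0, 0, 0, ⟨0, 0⟩, 0⟩ 0 0) (.cut .d (-131072) (.void 10 ⟨1000000000, 0, 0, 0, 0, 0, 0, 0, 0, ⟨0, 0⟩, 0⟩ 0 0) (.pos 10 .mp ⟨167772160000, 0, 0, 0, 0, 0, 0, 0, 0, ⟨0, 0⟩, 0⟩ 0 0))))))) (.void 37 ⟨1000000000, 0, 0, 0, 0, 0, 0, 0, 0, ⟨0, 0⟩, 0⟩ 0 0)) (.void 50 ⟨1000000000, 0, 0, 0, 0, 0, 0, 0, 0, ⟨0, 0⟩, 0⟩ 0 0)) (.void 129 ⟨1000000000, 0, 0, 0, 0, 0, 0, 0, 0, ⟨0, 0⟩, 0⟩ 0 0)))) (.cut .v 16777216 (.cut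 .v 8388608 (.cut .v 4194304 (.cut .v 2097152 (.cut .v 1048576 (.cut .v 524288 (.cut .v 262144 (.cut .v 131072 (.cut .v 65536 (.cut .v 32768 (.cut .v 16384 (.cut .v 8192 (.cut .v 4096 (.cut .v 2048 (.cut .v 1024 (.pos 150 .pm ⟨0, 0, 0, 152762, 0, 0, 0, 0, 0, ⟨0, 0⟩, 0⟩ 0 0) (.pos 151 .pm ⟨0, 0, 7376349, 0, 0, 0, 0, 0, 0, ⟨0, 0⟩, 0⟩ 0 0)) (.pos 145 .pm ⟨0, 0, 23023734, 0, 0, 0, 0, 0, 0, ⟨0, 0⟩, 0⟩ 0 0)) (.pos 143 .pm ⟨0, 0, 54318532, 0, 0, 0, 0, 0, 0, ⟨0, 0⟩, 0⟩ 0 0)) (.pos 141 .pm ⟨0, 0, 116908238, 0, 0, 0, 0, 0, 0, ⟨0, 0⟩, 0⟩ 0 0)) (.pos 137 .pm ⟨0, 0, 242088095, 0, 0, 0, 0, 0, 0, ⟨0, 0⟩, 0⟩ 0 0)) (.pos 131 .pm ⟨0, 0, 492449585, 0, 0, 0, 0, 0, 0, ⟨0,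 0⟩, 0⟩ 0 0)) (.pos 120 .pm ⟨0, 0, 993179669, 0, 0, 0, 0, 0, 0, ⟨0, 0⟩, 0⟩ 0 0)) (.pos 108 .pm ⟨0, 0, 1994668253, 0, 0, 0, 0, 0, 0, ⟨0, 0⟩, 0⟩ 0 0)) (.pos 106 .pm ⟨0, 0, 3997759082, 0, 0, 0, 0, 0, 0, ⟨0, 0⟩, 0⟩ 0 0)) (.pos 82 .pm ⟨0, 0, 8004395385, 0, 0, 0, 0, 0, 0, ⟨0, 0⟩, 0⟩ 0 0)) (.pos 62 .pm ⟨0, 0, 16019486575, 0, 0, 0, 0, 0, 0, ⟨0, 0⟩, 0⟩ 0 0)) (.pos 7 .pm ⟨0, 0, 32056943292, 0, 0, 0, 0, 0, 0, ⟨0, 0⟩, 0⟩ 0 0)) (.pos 5 .pm ⟨0, 0, 64160954067, 0, 0, 0, 0, 0, 0, ⟨0, 0⟩, 0⟩ 0 0)) (.pos 3 .pm ⟨0, 0, 128485364990, 0, 0, 0, 0, 0, 0, ⟨0, 0⟩, 0⟩ 0 0)) (.cut .v 4294967296 (.cut .v 268435456 (.pos 36 .pp ⟨0, 0, 0, 0, 0, 0, 0, 0, 0, ⟨0, 0⟩, 0⟩ 0 0) (.cut .s 16750592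 (.void 50 ⟨0, 0, 0, 100000, 0, 0, 0, 0, 0, ⟨0, 0⟩, 0⟩ 0 0) (.void 50 ⟨0, 0, 0, 100000, 0, 0, 0, 0, 0, ⟨0, 0⟩, 0⟩ 0 0))) (.void 129 ⟨0, 0, 0, 100000, 0, 0, 0, 0, 0, ⟨0, 0⟩, 0⟩ 0 0)))),
    by decide +kernel⟩

def covers43 : cell.Covers table row43.1 :=
  ⟨(.cut .d 0 (.cut .v 16777216 (.cut .d (-8388608) (.void 1 ⟨0, 0, 0, 0, 0, 1000000000, 0, 0, 0, ⟨0, 0⟩, 0⟩ 0 0) (.cut .d (-4194304) (.void 1 ⟨0, 0, 100000, 0, 0, 0, 0, 0, 0, ⟨0, 0⟩, 0⟩ 0 0) (.cut .d (-2097152) (.void 1 ⟨0, 0, 0, 0, 0, 1000000000, 0, 0, 0, ⟨0, 0⟩, 0⟩ 0 0) (.cut .d (-1048576) (.void 1 ⟨0, 0, 0, 0, 0, 1000000000, 0, 0, 0, ⟨0, 0⟩, 0⟩ 0 0) (.cut .d (-524288) (.void 1 ⟨0, 0, 0, 0, 0, 1000000000,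 0, 0, 0, ⟨0, 0⟩, 0⟩ 0 0) (.cut .d (-262144) (.void 1 ⟨0, 0, 0, 0, 0, 1000000000, 0, 0, 0, ⟨0, 0⟩, 0⟩ 0 0) (.cut .d (-131072) (.void 1 ⟨0, 0, 0, 0, 0, 1000000000, 0, 0, 0, ⟨0, 0⟩, 0⟩ 0 0) (.cut .d (-65536) (.void 1 ⟨0, 0, 0, 0, 0, 1000000000, 0, 0, 0, ⟨0, 0⟩, 0⟩ 0 0) (.cut .d (-32768) (.void 1 ⟨0, 0, 1000000000, 0, 0, 0, 0, 0, 0, ⟨0, 0⟩, 0⟩ 0 0) (.cut .v 8388608 (.void 2 ⟨0, 0, 1000000000, 0, 0, 0, 0, 0, 0, ⟨0, 0⟩, 0⟩ 0 0) (.pos 3 .mm ⟨167772160000, 0, 0, 0, 0, 0, 0, 0, 0, ⟨0, 0⟩, 0⟩ 0 0))))))))))) (.cut .v 4294967296 (.cut .d (-8388608) (.void 49 ⟨0, 0, 0, 0, 0, 1000000000, 0, 0, 0, ⟨0, 0⟩, 0⟩ 0 0) (.cut .v 268435456 (.cut .v 67108864 (.cut .d (-4194304)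 (.void 10 ⟨1000000000, 0, 0, 0, 0, 0, 0, 0, 0, ⟨0, 0⟩, 0⟩ 0 0) (.cut .d (-2097152) (.void 10 ⟨1000000000, 0, 0, 0, 0, 0, 0, 0, 0, ⟨0, 0⟩, 0⟩ 0 0) (.cut .d (-1048576) (.void 10 ⟨1000000000, 0, 0, 0, 0, 0, 0, 0, 0, ⟨0, 0⟩, 0⟩ 0 0) (.cut .d (-524288) (.void 10 ⟨1000000000, 0, 0, 0, 0, 0, 0, 0, 0, ⟨0, 0⟩, 0⟩ 0 0) (.cut .d (-262144) (.void 10 ⟨1000000000, 0, 0, 0, 0, 0, 0, 0, 0, ⟨0, 0⟩, 0⟩ 0 0) (.cut .d (-131072) (.void 10 ⟨1000000000, 0, 0, 0, 0, 0, 0, 0, 0, ⟨0, 0⟩, 0⟩ 0 0) (.cut .d (-65536) (.void 10 ⟨1000000000, 0, 0, 0, 0, 0, 0, 0, 0, ⟨0, 0⟩, 0⟩ 0 0) (.pos 10 .mp ⟨167772160000, 0, 0, 0, 0, 0, 0, 0, 0, ⟨0, 0⟩, 0⟩ 0 0)))))))) (.void 37 ⟨1000000000, 0, 0,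 0, 0, 0, 0, 0, 0, ⟨0, 0⟩, 0⟩ 0 0)) (.void 50 ⟨1000000000, 0, 0, 0, 0, 0, 0, 0, 0, ⟨0, 0⟩, 0⟩ 0 0))) (.void 129 ⟨1000000000, 0, 0, 0, 0, 0, 0, 0, 0, ⟨0, 0⟩, 0⟩ 0 0))) (.cut .v 16777216 (.pos 1 .pm ⟨0, 0, 0, 413539, 0, 0, 0, 0, 0, ⟨0, 0⟩, 0⟩ 0 0) (.cut .v 4294967296 (.cut .v 268435456 (.pos 36 .pp ⟨0, 0, 0, 0, 0, 0, 0, 0, 0, ⟨0, 0⟩, 0⟩ 0 0) (.cut .s 16760832 (.void 50 ⟨0, 0, 0, 100000, 0, 0, 0, 0, 0, ⟨0, 0⟩, 0⟩ 0 0) (.void 50 ⟨0, 0, 0, 100000, 0, 0, 0, 0, 0, ⟨0, 0⟩, 0⟩ 0 0))) (.void 129 ⟨0, 0, 0, 100000, 0, 0, 0, 0, 0, ⟨0, 0⟩, 0⟩ 0 0)))),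
    by decide +kernel⟩

def covers44 : cell.Covers table row44.1 :=
  ⟨(.cut .d 0 (.cut .v 16777216 (.cut .d (-8388608) (.void 1 ⟨0, 0, 0, 0, 0, 1000000000, 0, 0, 0, ⟨0, 0⟩, 0⟩ 0 0) (.cut .d (-4194304) (.void 1 ⟨0, 0, 0, 0, 0, 1000000000, 0, 0, 0, ⟨0, 0⟩, 0⟩ 0 0) (.cut .d (-2097152) (.void 1 ⟨0, 0, 0, 0, 0, 1000000000, 0, 0, 0, ⟨0, 0⟩, 0⟩ 0 0) (.cut .d (-1048576) (.void 1 ⟨0, 0, 0, 0, 0, 1000000000, 0, 0, 0, ⟨0, 0⟩, 0⟩ 0 0) (.cut .d (-524288) (.void 1 ⟨0, 0, 0, 0, 0, 1000000000, 0, 0, 0, ⟨0, 0⟩, 0⟩ 0 0) (.cut .d (-262144) (.void 1 ⟨0, 0, 0, 0, 0, 1000000000, 0, 0, 0, ⟨0, 0⟩, 0⟩ 0 0) (.cut .d (-131072) (.void 1 ⟨0, 0, 0, 0, 0, 1000000000, 0, 0, 0, ⟨0,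 0⟩, 0⟩ 0 0) (.cut .v 8388608 (.void 2 ⟨0, 0, 100000, 0, 0, 0, 0, 0, 0, ⟨0, 0⟩, 0⟩ 0 0) (.cut .d (-65536) (.void 3 ⟨1000000000, 0, 0, 0, 0, 0, 0, 0, 0, ⟨0, 0⟩, 0⟩ 0 0) (.cut .d (-32768) (.void 3 ⟨1000000000, 0, 0, 0, 0, 0, 0, 0, 0, ⟨0, 0⟩, 0⟩ 0 0) (.pos 3 .mm ⟨167772160000, 0, 0, 0, 0, 0, 0, 0, 0, ⟨0, 0⟩, 0⟩ 0 0))))))))))) (.cut .v 4294967296 (.cut .v 268435456 (.cut .v 67108864 (.cut .d (-8388608) (.cut .d (-12582912) (.void 10 ⟨98763, 0, 0, 1237, 0, 0, 0, 0, 0, ⟨0, 0⟩, 0⟩ 0 0) (.void 10 ⟨98763, 0, 0, 1237, 0, 0, 0, 0, 0, ⟨0, 0⟩, 0⟩ 0 0)) (.cut .d (-4194304) (.void 10 ⟨1000000000, 0, 0, 0, 0, 0, 0, 0, 0, ⟨0, 0⟩, 0⟩ 0 0) (.cut .d (-2097152) (.void 10 ⟨1000000000,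 0, 0, 0, 0, 0, 0, 0, 0, ⟨0, 0⟩, 0⟩ 0 0) (.cut .d (-1048576) (.void 10 ⟨1000000000, 0, 0, 0, 0, 0, 0, 0, 0, ⟨0, 0⟩, 0⟩ 0 0) (.cut .d (-524288) (.void 10 ⟨1000000000, 0, 0, 0, 0, 0, 0, 0, 0, ⟨0, 0⟩, 0⟩ 0 0) (.cut .d (-262144) (.void 10 ⟨1000000000, 0, 0, 0, 0, 0, 0, 0, 0, ⟨0, 0⟩, 0⟩ 0 0) (.cut .d (-131072) (.void 10 ⟨1000000000, 0, 0, 0, 0, 0, 0, 0, 0, ⟨0, 0⟩, 0⟩ 0 0) (.cut .d (-65536) (.void 10 ⟨1000000000, 0, 0, 0, 0, 0, 0, 0, 0, ⟨0, 0⟩, 0⟩ 0 0) (.cut .d (-32768) (.void 10 ⟨1000000000, 0, 0, 0, 0, 0, 0, 0, 0, ⟨0, 0⟩, 0⟩ 0 0) (.pos 10 .mp ⟨167772160000, 0, 0, 0, 0, 0, 0, 0, 0, ⟨0, 0⟩, 0⟩ 0 0)))))))))) (.cut .l 11925068 (.void 37 ⟨100000, 0, 0, 0, 0, 0,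 0, 0, 0, ⟨0, 0⟩, 0⟩ 0 0) (.void 37 ⟨100000, 0, 0, 0, 0, 0, 0, 0, 0, ⟨0, 0⟩, 0⟩ 0 0))) (.cut .v 1073741824 (.cut .d (-8388608) (.void 134 ⟨94040, 0, 3398, 2562, 0, 0, 0, 0, 0, ⟨0, 0⟩, 0⟩ 0 0) (.cut .s 16766976 (.void 134 ⟨1000000000, 0, 0, 0, 0, 0, 0, 0, 0, ⟨0, 0⟩, 0⟩ 0 0) (.void 134 ⟨1000000000, 0, 0, 0, 0, 0, 0, 0, 0, ⟨0, 0⟩, 0⟩ 0 0))) (.cut .d (-8388608) (.void 135 ⟨90215, 0, 6855, 2930, 0, 0, 0, 0, 0, ⟨0, 0⟩, 0⟩ 0 0) (.cut .s 16766976 (.void 135 ⟨1000000000, 0, 0, 0, 0, 0, 0, 0, 0, ⟨0, 0⟩, 0⟩ 0 0) (.void 135 ⟨1000000000, 0, 0, 0, 0, 0, 0, 0, 0, ⟨0, 0⟩, 0⟩ 0 0))))) (.cut .v 68719476736 (.cut .d (-8388608) (.void 138 ⟨1000000000, 0, 0, 0, 0, 0, 0, 0,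 0, ⟨0, 0⟩, 0⟩ 0 0) (.void 138 ⟨1000000000, 0, 0, 0, 0, 0, 0, 0, 0, ⟨0, 0⟩, 0⟩ 0 0)) (.void 139 ⟨1000000000, 0, 0, 0, 0, 0, 0, 0, 0, ⟨0, 0⟩, 0⟩ 0 0)))) (.cut .v 16777216 (.pos 1 .pm ⟨0, 0, 0, 414680, 0, 0, 0, 0, 0, ⟨0, 0⟩, 0⟩ 0 0) (.cut .v 4294967296 (.cut .v 268435456 (.pos 36 .pp ⟨0, 0, 0, 0, 0, 0, 0, 0, 0, ⟨0, 0⟩, 0⟩ 0 0) (.void 50 ⟨0, 0, 0, 100000, 0, 0, 0, 0, 0, ⟨0, 0⟩, 0⟩ 0 0)) (.void 129 ⟨0, 0, 0, 100000, 0, 0, 0, 0, 0, ⟨0, 0⟩, 0⟩ 0 0)))),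
    by decide +kernel⟩

def covers45 : cell.Covers table row45.1 :=
  ⟨(.cut .d 0 (.cut .v 16777216 (.cut .d (-8388608) (.void 1 ⟨0, 0, 0, 0, 0, 1000000000, 0, 0, 0, ⟨0, 0⟩, 0⟩ 0 0) (.cut .d (-4194304) (.void 1 ⟨0, 0, 0, 0, 0, 1000000000, 0, 0, 0, ⟨0, 0⟩, 0⟩ 0 0) (.cut .d (-2097152) (.void 1 ⟨0, 0, 0, 0, 0, 1000000000, 0, 0, 0, ⟨0, 0⟩, 0⟩ 0 0) (.cut .d (-1048576) (.void 1 ⟨0, 0, 0, 0, 0, 1000000000, 0, 0, 0, ⟨0, 0⟩, 0⟩ 0 0) (.cut .d (-524288) (.void 1 ⟨0, 0, 0, 0, 0, 1000000000, 0, 0, 0, ⟨0, 0⟩, 0⟩ 0 0) (.cut .d (-262144) (.void 1 ⟨0, 0, 0, 0, 0, 1000000000, 0, 0, 0, ⟨0, 0⟩, 0⟩ 0 0) (.cut .d (-131072) (.void 1 ⟨0, 0, 0, 0, 0, 1000000000, 0, 0, 0, ⟨0,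 0⟩, 0⟩ 0 0) (.cut .d (-65536) (.void 1 ⟨0, 0, 0, 0, 0, 1000000000, 0, 0, 0, ⟨0, 0⟩, 0⟩ 0 0) (.cut .d (-32768) (.void 1 ⟨0, 0, 0, 0, 0, 1000000000, 0, 0, 0, ⟨0, 0⟩, 0⟩ 0 0) (.cut .d (-16384) (.void 1 ⟨0, 0, 0, 0, 0, 1000000000, 0, 0, 0, ⟨0, 0⟩, 0⟩ 0 0) (.cut .d (-8192) (.void 1 ⟨0, 0, 0, 0, 0, 1000000000, 0, 0, 0, ⟨0, 0⟩, 0⟩ 0 0) (.cut .v 8388608 (.cut .s 16771072 (.void 2 ⟨0, 0, 1000000000, 0, 0, 0, 0, 0, 0, ⟨0, 0⟩, 0⟩ 0 0) (.void 2 ⟨0, 0, 1000000000, 0, 0, 0, 0, 0, 0, ⟨0, 0⟩, 0⟩ 0 0)) (.pos 3 .mm ⟨167772160000, 0, 0, 0, 0, 0, 0, 0, 0, ⟨0, 0⟩, 0⟩ 0 0))))))))))))) (.cut .v 4294967296 (.cut .d (-8388608) (.void 49 ⟨0, 0, 0, 0, 0, 1000000000, 0, 0, 0, ⟨0,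 0⟩, 0⟩ 0 0) (.cut .v 268435456 (.cut .v 67108864 (.cut .d (-4194304) (.void 10 ⟨1000000000, 0, 0, 0, 0, 0, 0, 0, 0, ⟨0, 0⟩, 0⟩ 0 0) (.cut .d (-2097152) (.void 10 ⟨1000000000, 0, 0, 0, 0, 0, 0, 0, 0, ⟨0, 0⟩, 0⟩ 0 0) (.cut .d (-1048576) (.void 10 ⟨1000000000, 0, 0, 0, 0, 0, 0, 0, 0, ⟨0, 0⟩, 0⟩ 0 0) (.cut .d (-524288) (.void 10 ⟨1000000000, 0, 0, 0, 0, 0, 0, 0, 0, ⟨0, 0⟩, 0⟩ 0 0) (.cut .d (-262144) (.void 10 ⟨1000000000, 0, 0, 0, 0, 0, 0, 0, 0, ⟨0, 0⟩, 0⟩ 0 0) (.cut .d (-131072) (.void 10 ⟨1000000000, 0, 0, 0, 0, 0, 0, 0, 0, ⟨0, 0⟩, 0⟩ 0 0) (.cut .d (-65536) (.void 10 ⟨1000000000, 0, 0, 0, 0, 0, 0, 0, 0, ⟨0, 0⟩, 0⟩ 0 0) (.cut .d (-32768) (.void 10 ⟨1000000000,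 0, 0, 0, 0, 0, 0, 0, 0, ⟨0, 0⟩, 0⟩ 0 0) (.cut .d (-16384) (.void 10 ⟨1000000000, 0, 0, 0, 0, 0, 0, 0, 0, ⟨0, 0⟩, 0⟩ 0 0) (.cut .d (-8192) (.void 10 ⟨1000000000, 0, 0, 0, 0, 0, 0, 0, 0, ⟨0, 0⟩, 0⟩ 0 0) (.pos 10 .mp ⟨167772160000, 0, 0, 0, 0, 0, 0, 0, 0, ⟨0, 0⟩, 0⟩ 0 0))))))))))) (.void 37 ⟨1000000000, 0, 0, 0, 0, 0, 0, 0, 0, ⟨0, 0⟩, 0⟩ 0 0)) (.void 50 ⟨1000000000, 0, 0, 0, 0, 0, 0, 0, 0, ⟨0, 0⟩, 0⟩ 0 0))) (.void 129 ⟨1000000000, 0, 0, 0, 0, 0, 0, 0, 0, ⟨0, 0⟩, 0⟩ 0 0))) (.cut .v 16777216 (.pos 1 .pm ⟨0, 0, 0, 416342, 0, 0, 0, 0, 0, ⟨0, 0⟩, 0⟩ 0 0) (.cut .v 4294967296 (.cut .v 268435456 (.pos 36 .pp ⟨0, 0, 0, 0, 0, 0, 0, 0, 0, ⟨0, 0⟩, 0⟩ 0 0) (.cut .s 16771072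 (.void 50 ⟨0, 0, 0, 100000, 0, 0, 0, 0, 0, ⟨0, 0⟩, 0⟩ 0 0) (.void 50 ⟨0, 0, 0, 100000, 0, 0, 0, 0, 0, ⟨0, 0⟩, 0⟩ 0 0))) (.void 129 ⟨0, 0, 0, 100000, 0, 0, 0, 0, 0, ⟨0, 0⟩, 0⟩ 0 0)))),
    by decide +kernel⟩

end Vale.Agent.P237.Petty.Cor.Grid.N19.High
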