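import Vale.Agent.P237.Petty.Cor.Grid.N19.LowCert

/-!
# P237: a cell in dimension 19, subdivisions
-/

namespace Vale.Agent.P237.Petty.Cor.Grid.N19.Low

def covers0 : cell.Covers table row0.1 :=
  ⟨(.cut .d 0 (.cut .v 16777216 (.cut .v 8388608 (.cut .v 4194304 (.cut .v 2097152 (.void 6 ⟨0, 0, 100000, 0, 0, 0, 0, 0, 0, ⟨0, 0⟩, 0⟩ 0 0) (.pos 7 .mm ⟨0, 0, 0, 0, 5572596, 0, 0, 0, 0, ⟨0, 0⟩, 0⟩ 0 0)) (.pos 5 .mm ⟨0, 0, 0, 0, 0, 434334, 0, 0, 0, ⟨0, 0⟩, 0⟩ 0 0)) (.cut .d (-8388608) (.cut .v 12582912 (.pos 8 .mm ⟨0, 0, 0, 0, 0, 131690, 0, 0, 0, ⟨0, 0⟩, 0⟩ 0 0) (.pos 9 .mm ⟨0, 0, 0, 0, 0, 125351, 0, 0, 0, ⟨0, 0⟩, 0⟩ 0 0)) (.cut .v 12582912 (.cut .d (-4194304) (.pos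 8 .mm ⟨0, 0, 0, 0, 0, 154906, 0, 0, 0, ⟨0, 0⟩, 0⟩ 0 0) (.pos 8 .mm ⟨0, 0, 0, 0, 2780226, 0, 0, 0, 0, ⟨0, 0⟩, 0⟩ 0 0)) (.cut .d (-4194304) (.cut .v 14680064 (.pos 12 .mm ⟨0, 0, 0, 0, 0, 177355, 0, 0, 0, ⟨0, 0⟩, 0⟩ 0 0) (.pos 13 .mm ⟨0, 0, 0, 0, 0, 158295, 0, 0, 0, ⟨0, 0⟩, 0⟩ 0 0)) (.cut .d (-2097152) (.cut .v 14680064 (.cut .d (-3145728) (.pos 12 .mm ⟨0, 0, 0, 0, 0, 188902, 0, 0, 0, ⟨0, 0⟩, 0⟩ 0 0) (.pos 12 .mm ⟨0, 0, 0, 0, 540704, 79341, 0, 0, 0, ⟨0, 0⟩, 0⟩ 0 0)) (.cut .v 15728640 (.pos 16 .mm ⟨0, 0, 0, 0, 0, 186901, 0, 0, 0, ⟨0, 0⟩, 0⟩ 0 0) (.pos 17 .mm ⟨0, 0, 0, 0, 0, 162289, 0, 0, 0, ⟨0, 0⟩, 0⟩ 0 0))) (.cut .v 14680064 (.pos 12 .mm ⟨0, 0, 0, 0, 0, 795170,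 0, 0, 0, ⟨0, 0⟩, 0⟩ 0 0) (.cut .d (-1048576) (.cut .v 15728640 (.cut .d (-1572864) (.pos 16 .mm ⟨0, 0, 0, 0, 0, 185732, 0, 0, 0, ⟨0, 0⟩, 0⟩ 0 0) (.pos 16 .mm ⟨0, 0, 0, 0, 0, 364644, 0, 0, 0, ⟨0, 0⟩, 0⟩ 0 0)) (.pos 17 .mm ⟨0, 0, 0, 0, 0, 152854, 0, 0, 0, ⟨0, 0⟩, 0⟩ 0 0)) (.cut .v 15728640 (.pos 16 .mm ⟨0, 0, 0, 0, 0, 851968, 0, 0, 0, ⟨0, 0⟩, 0⟩ 0 0) (.cut .d (-524288) (.cut .v 16252928 (.cut .d (-786432) (.pos 20 .mm ⟨0, 0, 0, 0, 0, 446424, 0, 0, 0, ⟨0, 0⟩, 0⟩ 0 0) (.pos 20 .mm ⟨0, 0, 0, 0, 0, 609859, 0, 0, 0, ⟨0, 0⟩, 0⟩ 0 0)) (.pos 21 .mm ⟨0, 0, 0, 0, 0, 417261, 0, 0, 0, ⟨0, 0⟩, 0⟩ 0 0)) (.cut .v 16252928 (.cut .d (-262144) (.pos 20 .mm ⟨0, 0, 0, 0, 0, 876724,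 0, 0, 0, ⟨0, 0⟩, 0⟩ 0 0) (.pos 20 .mm ⟨0, 0, 0, 0, 0, 0, 0, 0, 0, ⟨0, 0⟩, 0⟩ 0 0)) (.cut .l 671088 (.cut .d (-262144) (.cut .s 851968 (.pos 21 .mm ⟨0, 0, 0, 0, 0, 0, 0, 0, 0, ⟨0, 0⟩, 0⟩ 0 0) (.cut .v 16515072 (.cut .d (-393216) (.pos 24 .mm ⟨0, 0, 0, 0, 0, 885100, 0, 0, 0, ⟨0, 0⟩, 0⟩ 0 0) (.pos 24 .mm ⟨0, 0, 0, 0, 0, 0, 0, 0, 0, ⟨0, 0⟩, 0⟩ 0 0)) (.pos 25 .mm ⟨0, 0, 0, 0, 0, 0, 0, 0, 0, ⟨0, 0⟩, 0⟩ 0 0))) (.cut .v 16515072 (.pos 24 .mm ⟨0, 0, 0, 0, 0, 0, 0, 0, 0, ⟨0, 0⟩, 0⟩ 0 0) (.cut .d (-131072) (.pos 25 .mm ⟨0, 0, 0, 0, 0, 0, 0, 0, 0, ⟨0, 0⟩, 0⟩ 0 0) (.pos 25 .mm ⟨0, 0, 0, 0, 0, 0, 0, 0, 0, ⟨0, 0⟩, 0⟩ 0 0)))) (.pos 21 .mm ⟨0, 0, 0, 0, 0, 0, 0, 0, 0, ⟨0, 0⟩,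 0⟩ 0 0)))))))))))) (.cut .v 25165824 (.cut .v 20971520 (.cut .v 18874368 (.cut .d (-8388608) (.pos 35 .mp ⟨0, 0, 0, 0, 0, 85592, 0, 0, 0, ⟨0, 0⟩, 0⟩ 0 0) (.cut .v 17825792 (.cut .s 851968 (.cut .s 425984 (.cut .v 17301504 (.pos 39 .mp ⟨0, 0, 0, 0, 0, 86055, 0, 0, 0, ⟨0, 0⟩, 0⟩ 0 0) (.pos 40 .mp ⟨2441698, 0, 0, 0, 0, 0, 0, 0, 0, ⟨0, 0⟩, 0⟩ 0 0)) (.pos 37 .mp ⟨863809, 0, 0, 0, 0, 45317, 0, 0, 0, ⟨0, 0⟩, 0⟩ 0 0)) (.pos 37 .mp ⟨377158, 0, 0, 0, 0, 0, 0, 0, 0, ⟨0, 0⟩, 0⟩ 0 0)) (.pos 38 .mp ⟨2524047, 0, 0, 0, 0, 0, 0, 0, 0, ⟨0, 0⟩, 0⟩ 0 0))) (.void 36 ⟨100000, 0, 0, 0, 0, 0, 0, 0, 0, ⟨0, 0⟩, 0⟩ 0 0)) (.void 34 ⟨0, 0, 0, 0, 0, 0, 100000, 0, 0, ⟨0, 0⟩, 0⟩ 0 0)) (.void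 32 ⟨0, 0, 0, 0, 0, 0, 100000, 0, 0, ⟨0, 0⟩, 0⟩ 0 0))) (.cut .v 16777216 (.cut .v 8388608 (.cut .v 4194304 (.cut .v 2097152 (.void 6 ⟨0, 0, 100000, 0, 0, 0, 0, 0, 0, ⟨0, 0⟩, 0⟩ 0 0) (.pos 7 .pm ⟨0, 0, 0, 0, 2003533, 0, 0, 0, 0, ⟨0, 0⟩, 0⟩ 0 0)) (.pos 5 .pm ⟨0, 0, 0, 0, 1918614, 0, 0, 0, 0, ⟨0, 0⟩, 0⟩ 0 0)) (.cut .s 851968 (.pos 3 .pm ⟨0, 0, 0, 0, 0, 0, 0, 250821, 0, ⟨(-1), 16605696⟩, 0⟩ 0 15) (.cut .s 1277952 (.pos 3 .pm ⟨0, 0, 0, 0, 0, 0, 0, 436863, 0, ⟨29318, 16070712⟩, 0⟩ 13 22) (.cut .d 942521 (.cut .d 471260 (.cut .d 235630 (.cut .d 117815 (.cut .d 58907 (.cut .v 12582912 (.void 8 ⟨0, 0, 0, 0, 100000, 0, 0, 0, 0, ⟨0, 0⟩, 0⟩ 0 0) (.cut .d 29453 (.cut .v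 14680064 (.void 12 ⟨0, 0, 0, 0, 100000, 0, 0, 0, 0, ⟨0, 0⟩, 0⟩ 0 0) (.cut .v 15728640 (.pos 16 .pm ⟨0, 0, 0, 0, 0, 0, 0, 0, 1852704, ⟨0, 0⟩, 15966684⟩ 0 0) (.cut .v 16252928 (.pos 20 .pm ⟨0, 0, 0, 0, 0, 0, 0, 0, 0, ⟨0, 0⟩, 0⟩ 0 0) (.pos 21 .pm ⟨0, 0, 0, 0, 0, 0, 0, 0, 0, ⟨0, 0⟩, 0⟩ 0 0)))) (.pos 9 .pm ⟨0, 0, 0, 0, 0, 0, 0, 0, 87917, ⟨0, 0⟩, 15612959⟩ 0 0))) (.pos 3 .pm ⟨0, 0, 0, 0, 0, 0, 0, 0, 0, ⟨0, 0⟩, 0⟩ 0 0)) (.pos 3 .pm ⟨0, 0, 0, 0, 0, 0, 0, 0, 0, ⟨0, 0⟩, 0⟩ 0 0)) (.pos 3 .pm ⟨0, 0, 0, 0, 0, 0, 0, 0, 0, ⟨0, 0⟩, 0⟩ 0 0)) (.pos 3 .pm ⟨0, 0, 0, 0, 0, 0, 0, 1875640, 0, ⟨77222, 15485888⟩, 0⟩ 20 28)) (.pos 3 .pm ⟨0, 0, 0, 0, 0, 0, 0, 1875640, 0, ⟨81477, 15431424⟩,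 0⟩ 20 29))))) (.cut .v 25165824 (.cut .v 20971520 (.cut .v 18874368 (.cut .d 942521 (.cut .v 17825792 (.cut .d 471260 (.cut .v 17301504 (.cut .l 671088 (.cut .d 235630 (.cut .v 17039360 (.cut .d 117815 (.pos 41 .pp ⟨0, 0, 0, 0, 0, 0, 0, 0, 0, ⟨0, 0⟩, 0⟩ 0 0) (.cut .d 176722 (.pos 41 .pp ⟨99073, 0, 0, 0, 0, 0, 0, 0, 0, ⟨0, 0⟩, 0⟩ 0 0) (.cut .v 16908288 (.pos 43 .pp ⟨0, 0, 0, 0, 0, 0, 0, 0, 0, ⟨0, 0⟩, 0⟩ 0 0) (.cut .s 851968 (.pos 44 .pp ⟨693756, 0, 0, 0, 0, 0, 184001, 0, 0, ⟨0, 0⟩, 0⟩ 0 0) (.pos 44 .pp ⟨197744, 0, 0, 0, 0, 0, 0, 0, 0, ⟨0, 0⟩, 0⟩ 0 0))))) (.pos 42 .pp ⟨1783487, 0, 0, 0, 0, 0, 0, 0, 0, ⟨0, 0⟩, 0⟩ 0 0)) (.cut .l 432675 (.cut .v 17039360 (.cut .s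 851968 (.pos 41 .pp ⟨1032026, 0, 0, 0, 0, 0, 106872, 0, 0, ⟨0, 0⟩, 0⟩ 0 0) (.cut .s 1277952 (.pos 41 .pp ⟨366452, 0, 0, 0, 0, 0, 0, 858685, 0, ⟨27228, 16111872⟩, 0⟩ 13 21) (.cut .s 1490944 (.pos 41 .pp ⟨29148, 0, 0, 0, 0, 0, 0, 2346822, 0, ⟨56841, 15737600⟩, 0⟩ 19 24) (.pos 41 .pp ⟨0, 0, 0, 0, 0, 0, 0, 521461, 0, ⟨88959, 15388416⟩, 0⟩ 23 27)))) (.cut .d 353445 (.pos 42 .pp ⟨1560994, 0, 0, 0, 0, 0, 0, 229269, 0, ⟨(-1), 16231888⟩, 0⟩ 0 27) (.pos 42 .pp ⟨1648408, 0, 0, 0, 0, 0, 0, 135434, 0, ⟨(-1), 16231888⟩, 0⟩ 0 27))) (.pos 39 .pp ⟨27949, 0, 0, 0, 0, 0, 0, 0, 0, ⟨0, 0⟩, 0⟩ 0 0))) (.pos 39 .pp ⟨0, 0, 0, 0, 0, 0, 0, 0, 0, ⟨0, 0⟩, 0⟩ 0 0)) (.pos 40 .pp ⟨1969807,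 0, 0, 0, 0, 0, 0, 0, 0, ⟨0, 0⟩, 0⟩ 0 0)) (.cut .v 17301504 (.pos 39 .pp ⟨1762904, 0, 0, 0, 0, 0, 0, 23346, 0, ⟨(-1), 16191926⟩, 0⟩ 0 28) (.cut .d 706890 (.pos 40 .pp ⟨2003905, 0, 0, 0, 0, 0, 0, 0, 0, ⟨0, 0⟩, 0⟩ 0 0) (.cut .s 851968 (.pos 40 .pp ⟨2496539, 0, 0, 0, 0, 0, 0, 0, 0, ⟨0, 0⟩, 0⟩ 0 0) (.pos 40 .pp ⟨2008858, 0, 0, 0, 0, 0, 0, 0, 0, ⟨0, 0⟩, 0⟩ 0 0))))) (.pos 38 .pp ⟨2428955, 0, 0, 0, 0, 0, 0, 0, 0, ⟨0, 0⟩, 0⟩ 0 0)) (.cut .v 17825792 (.cut .d 1413781 (.cut .s 851968 (.pos 37 .pp ⟨2524047, 0, 0, 0, 0, 0, 0, 0, 0, ⟨0, 0⟩, 0⟩ 0 0) (.cut .s 1277952 (.pos 37 .pp ⟨1158522, 0, 0, 0, 0, 0, 0, 2491974, 0, ⟨29318, 16070712⟩, 0⟩ 13 22) (.pos 37 .pp ⟨580362, 0, 0,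 0, 0, 0, 0, 1974180, 0, ⟨81477, 15431424⟩, 0⟩ 20 29))) (.pos 37 .pp ⟨2384573, 0, 0, 0, 0, 0, 0, 1385473, 0, ⟨(-1), 16150678⟩, 0⟩ 0 29)) (.cut .v 18350080 (.cut .l 671088 (.void 51 ⟨81381, 0, 0, 0, 0, 0, 0, 18619, 0, ⟨(-1), 16150678⟩, 0⟩ 0 29) (.cut .d 1413781 (.cut .d 1178151 (.pos 51 .pp ⟨2734009, 0, 0, 0, 0, 0, 0, 0, 0, ⟨0, 0⟩, 0⟩ 0 0) (.cut .s 851968 (.pos 51 .pp ⟨5141867, 0, 0, 0, 0, 0, 0, 0, 0, ⟨0, 0⟩, 0⟩ 0 0) (.cut .v 18087936 (.pos 53 .pp ⟨2132012, 0, 0, 0, 0, 0, 0, 649402, 0, ⟨45779, 15746544⟩, 0⟩ 13 29) (.cut .s 1277952 (.pos 54 .pp ⟨4338967, 0, 0, 0, 0, 0, 0, 3062184, 0, ⟨29318, 16070712⟩, 0⟩ 13 22) (.cut .d 1295966 (.pos 54 .pp ⟨2404093, 0, 0, 0,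 0, 0, 0, 0, 0, ⟨0, 0⟩, 0⟩ 0 0) (.pos 54 .pp ⟨2595598, 0, 0, 0, 0, 0, 0, 1838941, 0, ⟨87164, 15381216⟩, 0⟩ 21 29)))))) (.cut .s 851968 (.pos 51 .pp ⟨7883875, 0, 0, 0, 0, 0, 0, 2524750, 0, ⟨(-1), 16605696⟩, 0⟩ 0 15) (.cut .s 1277952 (.void 51 ⟨0, 0, 0, 0, 0, 0, 0, 100000, 0, ⟨32444, 16034336⟩, 0⟩ 14 22) (.void 51 ⟨0, 0, 0, 0, 0, 0, 0, 100000, 0, ⟨87164, 15381216⟩, 0⟩ 21 29))))) (.void 52 ⟨81381, 0, 0, 0, 0, 0, 0, 18619, 0, ⟨(-1), 16150678⟩, 0⟩ 0 29)))) (.void 36 ⟨0, 0, 0, 0, 0, 0, 100000, 0, 0, ⟨0, 0⟩, 0⟩ 0 0)) (.void 34 ⟨0, 0, 0, 0, 0, 0, 100000, 0, 0, ⟨0, 0⟩, 0⟩ 0 0)) (.void 32 ⟨0, 0, 0, 0, 0, 0, 100000, 0, 0, ⟨0, 0⟩, 0⟩ 0 0)))),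
    by decide +kernel⟩

def covers1 : cell.Covers table row1.1 :=
  ⟨(.cut .d 0 (.cut .v 16777216 (.cut .v 8388608 (.void 2 ⟨0, 0, 0, 0, 50000, 50000, 0, 0, 0, ⟨0, 0⟩, 0⟩ 0 0) (.cut .v 12582912 (.void 8 ⟨0, 0, 0, 0, 50000, 50000, 0, 0, 0, ⟨0, 0⟩, 0⟩ 0 0) (.cut .d (-8388608) (.void 9 ⟨0, 0, 0, 0, 0, 100000, 0, 0, 0, ⟨0, 0⟩, 0⟩ 0 0) (.cut .d (-4194304) (.void 9 ⟨0, 0, 0, 0, 0, 100000, 0, 0, 0, ⟨0, 0⟩, 0⟩ 0 0) (.cut .d (-2097152) (.cut .v 14680064 (.pos 12 .mm ⟨0, 0, 0, 0, 0, 3273770, 0, 0, 0, ⟨0, 0⟩, 0⟩ 0 0) (.pos 13 .mm ⟨0, 0, 0, 0, 0, 832094, 0, 0, 0, ⟨0, 0⟩, 0⟩ 0 0)) (.cut .v 14680064 (.pos 12 .mm ⟨0, 0, 0, 0, 0, 258920, 0, 0, 0, ⟨0, 0⟩, 0⟩ 0 0) (.cut .d (-1048576)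 (.cut .v 15728640 (.pos 16 .mm ⟨0, 0, 0, 0, 0, 832094, 0, 0, 0, ⟨0, 0⟩, 0⟩ 0 0) (.pos 17 .mm ⟨0, 0, 0, 0, 0, 869916, 0, 0, 0, ⟨0, 0⟩, 0⟩ 0 0)) (.cut .v 15728640 (.cut .d (-524288) (.pos 16 .mm ⟨0, 0, 0, 0, 0, 581922, 0, 0, 0, ⟨0, 0⟩, 0⟩ 0 0) (.pos 16 .mm ⟨0, 0, 0, 0, 0, 296642, 0, 0, 0, ⟨0, 0⟩, 0⟩ 0 0)) (.cut .d (-524288) (.cut .v 16252928 (.cut .d (-786432) (.pos 20 .mm ⟨0, 0, 0, 0, 0, 675453, 0, 0, 0, ⟨0, 0⟩, 0⟩ 0 0) (.pos 20 .mm ⟨0, 0, 0, 0, 0, 608930, 0, 0, 0, ⟨0, 0⟩, 0⟩ 0 0)) (.pos 21 .mm ⟨0, 0, 0, 0, 0, 692329, 0, 0, 0, ⟨0, 0⟩, 0⟩ 0 0)) (.cut .v 16252928 (.cut .d (-262144) (.pos 20 .mm ⟨0, 0, 0, 0, 0, 380129, 0, 0, 0, ⟨0, 0⟩, 0⟩ 0 0) (.pos 20 .mm ⟨0,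 0, 0, 0, 0, 0, 0, 0, 0, ⟨0, 0⟩, 0⟩ 0 0)) (.cut .d (-262144) (.cut .v 16515072 (.cut .s 2359296 (.cut .d (-393216) (.pos 24 .mm ⟨0, 0, 0, 0, 0, 718865, 0, 0, 0, ⟨0, 0⟩, 0⟩ 0 0) (.pos 24 .mm ⟨0, 0, 0, 0, 0, 313629, 0, 0, 0, ⟨0, 0⟩, 0⟩ 0 0)) (.pos 24 .mm ⟨0, 0, 0, 0, 0, 340283, 0, 0, 0, ⟨0, 0⟩, 0⟩ 0 0)) (.pos 25 .mm ⟨0, 0, 0, 0, 0, 0, 0, 0, 0, ⟨0, 0⟩, 0⟩ 0 0)) (.cut .v 16515072 (.cut .d (-131072) (.cut .s 2359296 (.pos 24 .mm ⟨0, 0, 0, 0, 0, 0, 0, 0, 0, ⟨0, 0⟩, 0⟩ 0 0) (.pos 24 .mm ⟨0, 0, 0, 0, 0, 0, 0, 0, 0, ⟨0, 0⟩, 0⟩ 0 0)) (.pos 24 .mm ⟨0, 0, 0, 0, 0, 0, 0, 0, 0, ⟨0, 0⟩, 0⟩ 0 0)) (.cut .d (-131072) (.pos 25 .mm ⟨0, 0, 0, 0, 0, 0, 0, 0, 0, ⟨0, 0⟩, 0⟩ 0 0) (.pos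 25 .mm ⟨0, 0, 0, 0, 0, 0, 0, 0, 0, ⟨0, 0⟩, 0⟩ 0 0)))))))))))))) (.cut .v 25165824 (.cut .v 20971520 (.cut .v 18874368 (.pos 35 .mp ⟨334684, 0, 0, 0, 0, 0, 0, 0, 0, ⟨0, 0⟩, 0⟩ 0 0) (.void 36 ⟨100000, 0, 0, 0, 0, 0, 0, 0, 0, ⟨0, 0⟩, 0⟩ 0 0)) (.void 34 ⟨100000, 0, 0, 0, 0, 0, 0, 0, 0, ⟨0, 0⟩, 0⟩ 0 0)) (.void 32 ⟨0, 0, 0, 0, 0, 0, 100000, 0, 0, ⟨0, 0⟩, 0⟩ 0 0))) (.cut .v 16777216 (.cut .v 8388608 (.void 2 ⟨0, 0, 0, 0, 100000, 0, 0, 0, 0, ⟨0, 0⟩, 0⟩ 0 0) (.cut .v 12582912 (.void 8 ⟨0, 0, 0, 0, 100000, 0, 0, 0, 0, ⟨0, 0⟩, 0⟩ 0 0) (.cut .d 1686692 (.cut .v 14680064 (.pos 12 .pm ⟨0, 0, 0, 0, 0, 0, 0, 0, 266959, ⟨0, 0⟩, 15100357⟩ 0 0) (.cut .d 843346 (.cut .v 15728640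 (.pos 16 .pm ⟨0, 0, 0, 0, 0, 0, 0, 0, 0, ⟨0, 0⟩, 0⟩ 0 0) (.cut .d 421673 (.cut .v 16252928 (.pos 20 .pm ⟨0, 0, 0, 0, 0, 0, 0, 0, 0, ⟨0, 0⟩, 0⟩ 0 0) (.cut .d 210836 (.cut .v 16515072 (.pos 24 .pm ⟨0, 0, 0, 0, 0, 0, 0, 0, 0, ⟨0, 0⟩, 0⟩ 0 0) (.cut .s 2359296 (.pos 25 .pm ⟨0, 0, 0, 0, 0, 0, 0, 0, 0, ⟨0, 0⟩, 0⟩ 0 0) (.cut .l 671088 (.cut .l 432675 (.cut .d 105418 (.cut .v 16646144 (.pos 28 .pm ⟨0, 0, 0, 0, 0, 0, 0, 0, 0, ⟨0, 0⟩, 0⟩ 0 0) (.pos 29 .pm ⟨0, 0, 0, 0, 0, 0, 0, 0, 0, ⟨0, 0⟩, 0⟩ 0 0)) (.cut .v 16646144 (.pos 28 .pm ⟨0, 0, 0, 0, 0, 0, 0, 0, 0, ⟨0, 0⟩, 0⟩ 0 0) (.pos 29 .pm ⟨0, 0, 0, 0, 0, 0, 0, 0, 0, ⟨0, 0⟩, 0⟩ 0 0))) (.pos 25 .pm ⟨0, 0, 0, 0, 0, 0, 0, 0,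 0, ⟨0, 0⟩, 0⟩ 0 0)) (.pos 25 .pm ⟨0, 0, 0, 0, 0, 0, 0, 0, 0, ⟨0, 0⟩, 0⟩ 0 0)))) (.pos 21 .pm ⟨0, 0, 0, 0, 0, 0, 0, 0, 0, ⟨0, 0⟩, 0⟩ 0 0))) (.pos 17 .pm ⟨0, 0, 0, 0, 0, 0, 0, 292256, 0, ⟨256353, 13746443⟩, 0⟩ 26 49))) (.pos 13 .pm ⟨0, 0, 0, 0, 0, 0, 0, 292256, 0, ⟨285555, 13524394⟩, 0⟩ 27 51))) (.void 9 ⟨0, 0, 0, 0, 0, 0, 0, 0, 100000, ⟨0, 0⟩, 15612959⟩ 0 0)))) (.cut .v 25165824 (.cut .v 20971520 (.cut .d 1686692 (.cut .v 18874368 (.cut .d 843346 (.cut .v 17825792 (.cut .d 421673 (.cut .v 17301504 (.cut .d 210836 (.cut .v 17039360 (.cut .d 105418 (.pos 41 .pp ⟨0, 0, 0, 0, 0, 0, 0, 0, 0, ⟨0, 0⟩, 0⟩ 0 0) (.pos 41 .pp ⟨0, 0, 0, 0, 0, 0, 0, 0, 0, ⟨0, 0⟩, 0⟩ 0 0))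 (.pos 42 .pp ⟨713772, 0, 0, 0, 0, 0, 0, 0, 0, ⟨0, 0⟩, 0⟩ 0 0)) (.cut .l 671088 (.cut .v 17039360 (.cut .d 316254 (.cut .d 263545 (.pos 41 .pp ⟨0, 0, 0, 0, 0, 0, 0, 8064, 0, ⟨240977, 13897837⟩, 0⟩ 26 47) (.pos 41 .pp ⟨0, 0, 0, 0, 0, 0, 0, 245809, 0, ⟨240977, 13897837⟩, 0⟩ 26 47)) (.pos 41 .pp ⟨0, 0, 0, 0, 0, 0, 0, 278216, 0, ⟨248631, 13822475⟩, 0⟩ 26 48)) (.cut .s 2359296 (.cut .s 2031616 (.pos 42 .pp ⟨588234, 0, 0, 0, 0, 0, 0, 870586, 0, ⟨136040, 14931072⟩, 0⟩ 26 32) (.pos 42 .pp ⟨0, 0, 0, 0, 0, 0, 0, 976020, 0, ⟨214892, 14289792⟩, 0⟩ 31 37)) (.pos 42 .pp ⟨0, 0, 0, 0, 0, 0, 0, 214576, 0, ⟨381918, 13111616⟩, 0⟩ 36 48))) (.pos 39 .pp ⟨0, 0, 0, 0, 0, 0, 0, 0,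 0, ⟨0, 0⟩, 0⟩ 0 0))) (.pos 40 .pp ⟨818162, 0, 0, 0, 0, 0, 0, 0, 0, ⟨0, 0⟩, 0⟩ 0 0)) (.cut .v 17301504 (.cut .d 632509 (.cut .v 17039360 (.pos 41 .pp ⟨0, 0, 0, 0, 0, 0, 0, 295301, 0, ⟨248631, 13822475⟩, 0⟩ 26 48) (.cut .s 2359296 (.pos 42 .pp ⟨0, 0, 0, 0, 0, 0, 0, 1041676, 0, ⟨175570, 14541845⟩, 0⟩ 26 38) (.pos 42 .pp ⟨0, 0, 0, 0, 0, 0, 0, 298345, 0, ⟨381918, 13111616⟩, 0⟩ 36 48))) (.pos 39 .pp ⟨0, 0, 0, 0, 0, 0, 0, 407510, 0, ⟨256353, 13746443⟩, 0⟩ 26 49)) (.cut .l 671088 (.cut .v 17563648 (.cut .d 632509 (.pos 49 .pp ⟨463043, 0, 0, 0, 0, 0, 0, 348052, 0, ⟨248631, 13822475⟩, 0⟩ 26 48) (.cut .s 2359296 (.pos 49 .pp ⟨505793, 0, 0, 0, 0, 0, 0, 1055974, 0, ⟨175570,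 14541845⟩, 0⟩ 26 38) (.pos 49 .pp ⟨0, 0, 0, 0, 0, 0, 0, 404896, 0, ⟨407721, 12955626⟩, 0⟩ 37 49))) (.pos 50 .pp ⟨719530, 0, 0, 0, 0, 0, 0, 618080, 0, ⟨256353, 13746443⟩, 0⟩ 26 49)) (.pos 40 .pp ⟨0, 0, 0, 0, 0, 0, 0, 0, 0, ⟨0, 0⟩, 0⟩ 0 0)))) (.pos 38 .pp ⟨1156823, 0, 0, 0, 0, 0, 0, 0, 0, ⟨0, 0⟩, 0⟩ 0 0)) (.cut .v 17825792 (.cut .d 1265019 (.cut .v 17301504 (.pos 39 .pp ⟨0, 0, 0, 0, 0, 0, 0, 301389, 0, ⟨277361, 13602081⟩, 0⟩ 27 50) (.cut .s 2359296 (.pos 40 .pp ⟨0, 0, 0, 0, 0, 0, 0, 1573785, 0, ⟨192058, 14410880⟩, 0⟩ 27 39) (.cut .s 2686976 (.pos 40 .pp ⟨0, 0, 0, 0, 0, 0, 0, 738229, 0, ⟨361888, 13272736⟩, 0⟩ 37 45) (.pos 40 .pp ⟨0, 0, 0, 0, 0, 0, 0, 360097, 0,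 ⟨511889, 12401298⟩, 0⟩ 43 50)))) (.pos 37 .pp ⟨0, 0, 0, 0, 0, 0, 0, 1000183, 0, ⟨285555, 13524394⟩, 0⟩ 27 51)) (.cut .d 1265019 (.cut .v 18350080 (.cut .s 2359296 (.cut .s 2031616 (.cut .s 1867776 (.pos 51 .pp ⟨1864604, 0, 0, 0, 0, 0, 0, 20248, 0, ⟨136904, 14933824⟩, 0⟩ 27 31) (.pos 51 .pp ⟨1254728, 0, 0, 0, 0, 0, 0, 395815, 0, ⟨173233, 14621440⟩, 0⟩ 29 34)) (.pos 51 .pp ⟨0, 0, 0, 0, 0, 0, 0, 1304476, 0, ⟨242232, 14081536⟩, 0⟩ 32 39)) (.cut .s 2686976 (.pos 51 .pp ⟨0, 0, 0, 0, 0, 0, 0, 820280, 0, ⟨361888, 13272736⟩, 0⟩ 37 45) (.pos 51 .pp ⟨0, 0, 0, 0, 0, 0, 0, 436958, 0, ⟨511889, 12401298⟩, 0⟩ 43 50))) (.pos 52 .pp ⟨1015505, 0, 0, 0, 0, 0, 0, 807888, 0, ⟨277361,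 13602081⟩, 0⟩ 27 50)) (.cut .l 671088 (.cut .s 2359296 (.void 38 ⟨0, 0, 0, 0, 0, 0, 0, 100000, 0, ⟨199399, 14341277⟩, 0⟩ 27 40) (.void 38 ⟨0, 0, 0, 0, 0, 0, 0, 100000, 0, ⟨446572, 12716150⟩, 0⟩ 38 51)) (.cut .s 2359296 (.cut .l 909501 (.void 38 ⟨0, 0, 0, 0, 0, 0, 0, 100000, 0, ⟨199399, 14341277⟩, 0⟩ 27 40) (.cut .v 18350080 (.cut .v 18087936 (.pos 53 .pp ⟨0, 0, 0, 0, 0, 0, 0, 1474070, 0, ⟨199399, 14341277⟩, 0⟩ 27 40) (.cut .s 2031616 (.cut .s 1867776 (.pos 54 .pp ⟨1131946, 0, 0, 0, 0, 0, 0, 4050055, 0, ⟨143428, 14871961⟩, 0⟩ 27 32) (.pos 54 .pp ⟨0, 0, 0, 0, 0, 0, 0, 3917796, 0, ⟨189446, 14491545⟩, 0⟩ 30 35)) (.cut .s 2195456 (.pos 54 .pp ⟨0, 0, 0, 0, 0, 0,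 0, 3572974, 0, ⟨234382, 14154944⟩, 0⟩ 33 37) (.pos 54 .pp ⟨0, 0, 0, 0, 0, 0, 0, 3286752, 0, ⟨295374, 13727040⟩, 0⟩ 36 40)))) (.cut .v 18612224 (.cut .l 1028708 (.void 59 ⟨42806, 0, 0, 0, 0, 0, 0, 57194, 0, ⟨199399, 14341277⟩, 0⟩ 27 40) (.cut .s 2031616 (.cut .s 1867776 (.pos 59 .pp ⟨131763358692, 0, 0, 0, 0, 0, 0, 36008801308, 0, ⟨143428, 14871961⟩, 0⟩ 27 32) (.pos 59 .pp ⟨2591857, 0, 0, 0, 0, 0, 0, 4582351, 0, ⟨189446, 14491545⟩, 0⟩ 30 35)) (.cut .s 2195456 (.cut .s 2113536 (.pos 59 .pp ⟨1380128, 0, 0, 0, 0, 0, 0, 4580567, 0, ⟨225387, 14224725⟩, 0⟩ 33 36) (.pos 59 .pp ⟨222281, 0, 0, 0, 0, 0, 0, 5004302, 0, ⟨244338, 14086058⟩, 0⟩ 34 37)) (.pos 59 .pp ⟨0, 0,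 0, 0, 0, 0, 0, 4720989, 0, ⟨295374, 13727040⟩, 0⟩ 36 40)))) (.void 60 ⟨73640, 0, 0, 0, 0, 0, 0, 26360, 0, ⟨199399, 14341277⟩, 0⟩ 27 40)))) (.cut .v 18350080 (.cut .d 1475855 (.pos 51 .pp ⟨0, 0, 0, 0, 0, 0, 0, 759320, 0, ⟨446572, 12716150⟩, 0⟩ 38 51) (.pos 51 .pp ⟨0, 0, 0, 0, 0, 0, 0, 860739, 0, ⟨462159, 12637909⟩, 0⟩ 39 51)) (.cut .l 909501 (.pos 52 .pp ⟨0, 0, 0, 0, 0, 0, 0, 4273287, 0, ⟨446572, 12716150⟩, 0⟩ 38 51) (.cut .d 1475855 (.cut .s 2686976 (.cut .s 2523136 (.pos 52 .pp ⟨0, 0, 0, 0, 0, 0, 0, 2913133, 0, ⟨340703, 13429376⟩, 0⟩ 38 42) (.pos 52 .pp ⟨0, 0, 0, 0, 0, 0, 0, 2748438, 0, ⟨415793, 12966080⟩, 0⟩ 41 45)) (.pos 52 .pp ⟨0, 0, 0, 0, 0, 0, 0, 1006402,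 0, ⟨542046, 12236909⟩, 0⟩ 44 51)) (.cut .s 2686976 (.void 52 ⟨0, 0, 0, 0, 0, 0, 0, 100000, 0, ⟨400622, 13041846⟩, 0⟩ 39 46) (.cut .v 18612224 (.pos 59 .pp ⟨0, 0, 0, 0, 0, 0, 0, 2546809, 0, ⟨542046, 12236909⟩, 0⟩ 44 51) (.pos 60 .pp ⟨0, 0, 0, 0, 0, 0, 0, 3781761, 0, ⟨542046, 12236909⟩, 0⟩ 44 51))))))))))) (.cut .s 2359296 (.void 36 ⟨74402, 0, 0, 0, 0, 0, 0, 25598, 0, ⟨189518, 14404516⟩, 0⟩ 26 40) (.cut .s 2686976 (.void 36 ⟨70159, 0, 0, 0, 0, 0, 0, 29841, 0, ⟨359715, 13269504⟩, 0⟩ 36 46) (.pos 36 .pp ⟨502971, 0, 0, 0, 0, 0, 0, 4108039, 0, ⟨493740, 12479385⟩, 0⟩ 41 51)))) (.cut .s 2359296 (.void 33 ⟨0, 0, 0, 0, 0, 0, 0, 100000, 0, ⟨241011, 13988384⟩, 0⟩ 28 44)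 (.void 33 ⟨0, 0, 0, 0, 0, 0, 0, 100000, 0, ⟨525530, 12221936⟩, 0⟩ 39 56))) (.void 34 ⟨0, 0, 0, 0, 0, 0, 100000, 0, 0, ⟨0, 0⟩, 0⟩ 0 0)) (.void 32 ⟨0, 0, 0, 0, 0, 0, 100000, 0, 0, ⟨0, 0⟩, 0⟩ 0 0)))),
    by decide +kernel⟩

def covers2 : cell.Covers table row2.1 :=
  ⟨(.cut .d 0 (.cut .v 16777216 (.cut .v 8388608 (.void 2 ⟨0, 0, 0, 0, 50000, 50000, 0, 0, 0, ⟨0, 0⟩, 0⟩ 0 0) (.cut .v 12582912 (.pos 8 .mm ⟨0, 0, 0, 0, 0, 19377313, 0, 0, 0, ⟨0, 0⟩, 0⟩ 0 0) (.cut .d (-8388608) (.void 9 ⟨0, 0, 0, 0, 0, 100000, 0, 0, 0, ⟨0, 0⟩, 0⟩ 0 0) (.cut .d (-4194304) (.void 9 ⟨0, 0, 0, 0, 0, 100000, 0, 0, 0, ⟨0, 0⟩, 0⟩ 0 0) (.cut .v 14680064 (.pos 12 .mm ⟨0, 0, 0, 0, 0, 10654128,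 0, 0, 0, ⟨0, 0⟩, 0⟩ 0 0) (.cut .d (-2097152) (.void 13 ⟨0, 0, 0, 0, 0, 100000, 0, 0, 0, ⟨0, 0⟩, 0⟩ 0 0) (.cut .d (-1048576) (.cut .v 15728640 (.pos 16 .mm ⟨0, 0, 0, 0, 0, 278458, 0, 0, 0, ⟨0, 0⟩, 0⟩ 0 0) (.pos 17 .mm ⟨0, 0, 0, 0, 0, 284787, 0, 0, 0, ⟨0, 0⟩, 0⟩ 0 0)) (.cut .v 15728640 (.cut .d (-524288) (.pos 16 .mm ⟨0, 0, 0, 0, 0, 284787, 0, 0, 0, ⟨0, 0⟩, 0⟩ 0 0) (.pos 16 .mm ⟨0, 0, 0, 0, 0, 284787, 0, 0, 0, ⟨0, 0⟩, 0⟩ 0 0)) (.cut .d (-524288) (.cut .v 16252928 (.pos 20 .mm ⟨0, 0, 0, 0, 0, 291115, 0, 0, 0, ⟨0, 0⟩, 0⟩ 0 0) (.pos 21 .mm ⟨0, 0, 0, 0, 0, 294280, 0, 0, 0, ⟨0, 0⟩, 0⟩ 0 0)) (.cut .v 16252928 (.cut .d (-262144) (.pos 20 .mm ⟨0, 0, 0, 0, 0, 291115,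 0, 0, 0, ⟨0, 0⟩, 0⟩ 0 0) (.pos 20 .mm ⟨0, 0, 0, 0, 0, 0, 0, 0, 0, ⟨0, 0⟩, 0⟩ 0 0)) (.cut .d (-262144) (.pos 21 .mm ⟨0, 0, 0, 0, 0, 297444, 0, 0, 0, ⟨0, 0⟩, 0⟩ 0 0) (.cut .l 671088 (.cut .v 16515072 (.cut .d (-131072) (.pos 24 .mm ⟨0, 0, 0, 0, 0, 0, 0, 0, 0, ⟨0, 0⟩, 0⟩ 0 0) (.pos 24 .mm ⟨0, 0, 0, 0, 0, 0, 0, 0, 0, ⟨0, 0⟩, 0⟩ 0 0)) (.cut .d (-131072) (.pos 25 .mm ⟨0, 0, 0, 0, 0, 0, 0, 0, 0, ⟨0, 0⟩, 0⟩ 0 0) (.pos 25 .mm ⟨0, 0, 0, 0, 0, 0, 0, 0, 0, ⟨0, 0⟩, 0⟩ 0 0))) (.pos 21 .mm ⟨0, 0, 0, 0, 0, 0, 0, 0, 0, ⟨0, 0⟩, 0⟩ 0 0))))))))))))) (.cut .v 25165824 (.cut .v 20971520 (.pos 33 .mp ⟨272674, 0, 0, 0, 0, 0, 0, 0, 0, ⟨0, 0⟩, 0⟩ 0 0) (.void 34 ⟨100000, 0, 0, 0, 0,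 0, 0, 0, 0, ⟨0, 0⟩, 0⟩ 0 0)) (.void 32 ⟨0, 0, 0, 0, 0, 0, 100000, 0, 0, ⟨0, 0⟩, 0⟩ 0 0))) (.cut .v 16777216 (.cut .v 8388608 (.void 2 ⟨0, 0, 0, 0, 100000, 0, 0, 0, 0, ⟨0, 0⟩, 0⟩ 0 0) (.cut .v 12582912 (.void 8 ⟨0, 0, 0, 0, 0, 0, 0, 0, 100000, ⟨0, 0⟩, 13128881⟩ 0 0) (.cut .d 2388090 (.cut .d 1194045 (.cut .v 14680064 (.pos 12 .pm ⟨0, 0, 0, 0, 0, 0, 0, 0, 0, ⟨0, 0⟩, 0⟩ 0 0) (.cut .d 597022 (.cut .v 15728640 (.pos 16 .pm ⟨0, 0, 0, 0, 0, 0, 0, 0, 0, ⟨0, 0⟩, 0⟩ 0 0) (.cut .v 16252928 (.pos 20 .pm ⟨0, 0, 0, 0, 0, 0, 0, 0, 0, ⟨0, 0⟩, 0⟩ 0 0) (.cut .d 298511 (.cut .v 16515072 (.cut .d 149255 (.pos 24 .pm ⟨0, 0, 0, 0, 0, 0, 0, 0, 0, ⟨0, 0⟩, 0⟩ 0 0) (.pos 24 .pm ⟨0,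 0, 0, 0, 0, 0, 0, 0, 0, ⟨0, 0⟩, 0⟩ 0 0)) (.cut .d 149255 (.cut .l 671088 (.cut .l 432675 (.cut .v 16646144 (.cut .s 3407872 (.cut .d 74627 (.pos 28 .pm ⟨0, 0, 0, 0, 0, 0, 0, 0, 0, ⟨0, 0⟩, 0⟩ 0 0) (.pos 28 .pm ⟨0, 0, 0, 0, 0, 0, 0, 0, 0, ⟨0, 0⟩, 0⟩ 0 0)) (.pos 28 .pm ⟨0, 0, 0, 0, 0, 0, 0, 0, 0, ⟨0, 0⟩, 0⟩ 0 0)) (.cut .s 3407872 (.cut .d 74627 (.pos 29 .pm ⟨0, 0, 0, 0, 0, 0, 0, 0, 0, ⟨0, 0⟩, 0⟩ 0 0) (.pos 29 .pm ⟨0, 0, 0, 0, 0, 0, 0, 0, 0, ⟨0, 0⟩, 0⟩ 0 0)) (.pos 29 .pm ⟨0, 0, 0, 0, 0, 0, 0, 0, 0, ⟨0, 0⟩, 0⟩ 0 0))) (.pos 25 .pm ⟨0, 0, 0, 0, 0, 0, 0, 0, 0, ⟨0, 0⟩, 0⟩ 0 0)) (.pos 25 .pm ⟨0, 0, 0, 0, 0, 0, 0, 0, 0, ⟨0, 0⟩, 0⟩ 0 0)) (.cut .l 671088 (.cut .l 432675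 (.cut .s 3407872 (.cut .d 223883 (.cut .v 16646144 (.pos 28 .pm ⟨0, 0, 0, 0, 0, 0, 0, 0, 0, ⟨0, 0⟩, 0⟩ 0 0) (.cut .s 3211264 (.pos 29 .pm ⟨0, 0, 0, 0, 0, 0, 0, 0, 0, ⟨0, 0⟩, 0⟩ 0 0) (.pos 29 .pm ⟨0, 0, 0, 0, 0, 0, 0, 0, 0, ⟨0, 0⟩, 0⟩ 0 0))) (.pos 25 .pm ⟨0, 0, 0, 0, 0, 0, 0, 0, 0, ⟨0, 0⟩, 0⟩ 0 0)) (.cut .d 223883 (.cut .v 16646144 (.pos 28 .pm ⟨0, 0, 0, 0, 0, 0, 0, 0, 0, ⟨0, 0⟩, 0⟩ 0 0) (.pos 29 .pm ⟨0, 0, 0, 0, 0, 0, 0, 0, 0, ⟨0, 0⟩, 0⟩ 0 0)) (.pos 25 .pm ⟨0, 0, 0, 0, 0, 0, 0, 0, 0, ⟨0, 0⟩, 0⟩ 0 0))) (.pos 25 .pm ⟨0, 0, 0, 0, 0, 0, 0, 0, 0, ⟨0, 0⟩, 0⟩ 0 0)) (.pos 25 .pm ⟨0, 0, 0, 0, 0, 0, 0, 0, 0, ⟨0, 0⟩, 0⟩ 0 0)))) (.cut .s 3407872 (.pos 21 .pm ⟨0, 0, 0,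 0, 0, 0, 0, 62520, 0, ⟨620385, 11818816⟩, 0⟩ 46 54) (.pos 21 .pm ⟨0, 0, 0, 0, 0, 0, 0, 0, 0, ⟨0, 0⟩, 0⟩ 0 0))))) (.pos 13 .pm ⟨0, 0, 0, 0, 0, 0, 0, 198382, 0, ⟨780845, 10957280⟩, 0⟩ 47 63))) (.pos 9 .pm ⟨0, 0, 0, 0, 0, 0, 0, 298154, 0, ⟨890056, 10435669⟩, 0⟩ 49 67)) (.void 9 ⟨0, 0, 0, 0, 0, 0, 0, 0, 100000, ⟨0, 0⟩, 15612959⟩ 0 0)))) (.cut .v 25165824 (.cut .v 20971520 (.cut .d 2388090 (.cut .v 18874368 (.cut .d 1194045 (.cut .v 17825792 (.cut .d 597022 (.cut .v 17301504 (.cut .d 298511 (.cut .d 149255 (.pos 39 .pp ⟨0, 0, 0, 0, 0, 0, 0, 0, 0, ⟨0, 0⟩, 0⟩ 0 0) (.cut .v 17039360 (.cut .s 3407872 (.cut .d 223883 (.pos 41 .pp ⟨0, 0, 0, 0, 0, 0, 0, 0, 0, ⟨0, 0⟩, 0⟩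 0 0) (.cut .v 16908288 (.pos 43 .pp ⟨0, 0, 0, 0, 0, 0, 0, 0, 0, ⟨0, 0⟩, 0⟩ 0 0) (.pos 44 .pp ⟨0, 0, 0, 0, 0, 0, 0, 0, 0, ⟨0, 0⟩, 0⟩ 0 0))) (.pos 41 .pp ⟨0, 0, 0, 0, 0, 0, 0, 0, 0, ⟨0, 0⟩, 0⟩ 0 0)) (.pos 42 .pp ⟨0, 0, 0, 0, 0, 0, 0, 201742, 0, ⟨713050, 11303113⟩, 0⟩ 46 60))) (.cut .v 17039360 (.cut .l 671088 (.cut .d 447766 (.cut .l 432675 (.cut .s 3407872 (.cut .s 3211264 (.pos 41 .pp ⟨0, 0, 0, 0, 0, 0, 0, 262945, 0, ⟨574820, 12072396⟩, 0⟩ 46 51) (.pos 41 .pp ⟨0, 0, 0, 0, 0, 0, 0, 248868, 0, ⟨673610, 11566489⟩, 0⟩ 49 54)) (.cut .s 3604480 (.pos 41 .pp ⟨0, 0, 0, 0, 0, 0, 0, 250664, 0, ⟨780359, 11050803⟩, 0⟩ 52 57) (.pos 41 .pp ⟨0, 0, 0, 0, 0, 0, 0, 263623, 0,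 ⟨894646, 10528307⟩, 0⟩ 55 60))) (.pos 41 .pp ⟨0, 0, 0, 0, 0, 0, 0, 0, 0, ⟨0, 0⟩, 0⟩ 0 0)) (.cut .s 3407872 (.pos 41 .pp ⟨0, 0, 0, 0, 0, 0, 0, 249192, 0, ⟨638033, 11735149⟩, 0⟩ 47 54) (.pos 41 .pp ⟨0, 0, 0, 0, 0, 0, 0, 252808, 0, ⟨871945, 10614944⟩, 0⟩ 53 61))) (.pos 41 .pp ⟨0, 0, 0, 0, 0, 0, 0, 0, 0, ⟨0, 0⟩, 0⟩ 0 0)) (.cut .d 447766 (.pos 42 .pp ⟨0, 0, 0, 0, 0, 0, 0, 0, 0, ⟨0, 0⟩, 0⟩ 0 0) (.cut .s 3407872 (.pos 42 .pp ⟨0, 0, 0, 0, 0, 0, 0, 251761, 0, ⟨638033, 11735149⟩, 0⟩ 47 54) (.pos 42 .pp ⟨0, 0, 0, 0, 0, 0, 0, 253669, 0, ⟨871945, 10614944⟩, 0⟩ 53 61))))) (.pos 40 .pp ⟨0, 0, 0, 0, 0, 0, 0, 204582, 0, ⟨728638, 11216366⟩, 0⟩ 46 61)) (.cut .v 17301504 (.cut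 .s 3407872 (.pos 39 .pp ⟨0, 0, 0, 0, 0, 0, 0, 254330, 0, ⟨669465, 11563946⟩, 0⟩ 47 56) (.pos 39 .pp ⟨0, 0, 0, 0, 0, 0, 0, 258021, 0, ⟨908268, 10439500⟩, 0⟩ 53 63)) (.cut .d 895533 (.cut .s 3407872 (.pos 40 .pp ⟨0, 0, 0, 0, 0, 0, 0, 256923, 0, ⟨653722, 11649696⟩, 0⟩ 47 55) (.pos 40 .pp ⟨0, 0, 0, 0, 0, 0, 0, 258846, 0, ⟨890099, 10527260⟩, 0⟩ 53 62)) (.pos 40 .pp ⟨0, 0, 0, 0, 0, 0, 0, 208715, 0, ⟨801888, 10871773⟩, 0⟩ 48 63)))) (.cut .d 597022 (.pos 38 .pp ⟨505923, 0, 0, 0, 0, 0, 0, 0, 0, ⟨0, 0⟩, 0⟩ 0 0) (.cut .s 3407872 (.pos 38 .pp ⟨0, 0, 0, 0, 0, 0, 0, 325015, 0, ⟨669465, 11563946⟩, 0⟩ 47 56) (.pos 38 .pp ⟨0, 0, 0, 0, 0, 0, 0, 264023, 0, ⟨908268, 10439500⟩,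 0⟩ 53 63)))) (.cut .v 17825792 (.pos 37 .pp ⟨0, 0, 0, 0, 0, 0, 0, 210781, 0, ⟨890056, 10435669⟩, 0⟩ 49 67) (.cut .l 671088 (.pos 38 .pp ⟨0, 0, 0, 0, 0, 0, 0, 4231335, 0, ⟨890056, 10435669⟩, 0⟩ 49 67) (.cut .d 1791067 (.cut .d 1492556 (.cut .v 18350080 (.pos 51 .pp ⟨0, 0, 0, 0, 0, 0, 0, 319571, 0, ⟨839763, 10698427⟩, 0⟩ 49 64) (.pos 52 .pp ⟨0, 0, 0, 0, 0, 0, 0, 331265, 0, ⟨839763, 10698427⟩, 0⟩ 49 64)) (.cut .v 18350080 (.pos 51 .pp ⟨0, 0, 0, 0, 0, 0, 0, 465138, 0, ⟨878451, 10524501⟩, 0⟩ 50 65) (.cut .s 3407872 (.cut .s 3211264 (.pos 52 .pp ⟨0, 0, 0, 0, 0, 0, 0, 2840691, 0, ⟨708328, 11395532⟩, 0⟩ 50 55) (.pos 52 .pp ⟨0, 0, 0, 0, 0, 0, 0, 2649718, 0, ⟨817632,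 10877286⟩, 0⟩ 53 58)) (.pos 52 .pp ⟨0, 0, 0, 0, 0, 0, 0, 2339598, 0, ⟨1011289, 10001322⟩, 0⟩ 56 65)))) (.cut .s 3407872 (.void 38 ⟨0, 0, 0, 0, 0, 0, 0, 100000, 0, ⟨793018, 10961920⟩, 0⟩ 50 60) (.pos 38 .pp ⟨0, 0, 0, 0, 0, 0, 0, 13473542, 0, ⟨1072741, 9737651⟩, 0⟩ 57 67)))))) (.cut .d 1194045 (.pos 36 .pp ⟨3064307, 0, 0, 0, 0, 0, 0, 0, 0, ⟨0, 0⟩, 0⟩ 0 0) (.cut .v 19922944 (.cut .l 671088 (.void 63 ⟨55363, 0, 0, 0, 0, 0, 0, 44637, 0, ⟨890056, 10435669⟩, 0⟩ 49 67) (.cut .d 1791067 (.cut .s 3407872 (.pos 63 .pp ⟨0, 0, 0, 0, 0, 0, 0, 3160422, 0, ⟨739626, 11221589⟩, 0⟩ 49 58) (.pos 63 .pp ⟨0, 0, 0, 0, 0, 0, 0, 2594769, 0, ⟨989031, 10088985⟩, 0⟩ 55 65)) (.cut .s 3407872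 (.void 63 ⟨0, 0, 0, 0, 0, 0, 0, 100000, 0, ⟨793018, 10961920⟩, 0⟩ 50 60) (.pos 63 .pp ⟨0, 0, 0, 0, 0, 0, 0, 16194282, 0, ⟨1072741, 9737651⟩, 0⟩ 57 67)))) (.pos 64 .pp ⟨7956129, 0, 0, 0, 0, 0, 0, 12253013, 0, ⟨890056, 10435669⟩, 0⟩ 49 67)))) (.void 33 ⟨0, 0, 0, 0, 0, 0, 0, 100000, 0, ⟨1100183, 9476285⟩, 0⟩ 52 75)) (.void 34 ⟨0, 0, 0, 0, 0, 0, 100000, 0, 0, ⟨0, 0⟩, 0⟩ 0 0)) (.void 32 ⟨0, 0, 0, 0, 0, 0, 100000, 0, 0, ⟨0, 0⟩, 0⟩ 0 0)))),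
    by decide +kernel⟩

def covers3 : cell.Covers table row3.1 :=
  ⟨(.cut .d 0 (.cut .v 16777216 (.cut .v 8388608 (.void 2 ⟨0, 0, 0, 0, 50000, 50000, 0, 0, 0, ⟨0, 0⟩, 0⟩ 0 0) (.cut .v 12582912 (.pos 8 .mm ⟨0, 0, 0, 0, 0, 13861223, 0, 0, 0, ⟨0, 0⟩, 0⟩ 0 0) (.cut .v 14680064 (.pos 12 .mm ⟨0, 0, 0, 0, 0, 10183479, 0, 0, 0, ⟨0, 0⟩, 0⟩ 0 0) (.cut .d (-8388608) (.void 13 ⟨0, 0, 0, 0, 0, 100000, 0, 0, 0, ⟨0, 0⟩, 0⟩ 0 0) (.cut .d (-4194304) (.void 13 ⟨0, 0, 0, 0, 0, 100000, 0, 0, 0, ⟨0, 0⟩, 0⟩ 0 0) (.cut .d (-2097152) (.void 13 ⟨0, 0, 0, 0, 0, 100000, 0, 0, 0, ⟨0, 0⟩, 0⟩ 0 0) (.cut .d (-1048576) (.void 13 ⟨0, 0, 0, 0, 0, 100000, 0, 0, 0, ⟨0, 0⟩, 0⟩ 0 0) (.cut .v 15728640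 (.cut .d (-524288) (.pos 16 .mm ⟨0, 0, 0, 0, 0, 133412, 0, 0, 0, ⟨0, 0⟩, 0⟩ 0 0) (.pos 16 .mm ⟨0, 0, 0, 0, 0, 133412, 0, 0, 0, ⟨0, 0⟩, 0⟩ 0 0)) (.cut .d (-524288) (.pos 17 .mm ⟨0, 0, 0, 0, 0, 136377, 0, 0, 0, ⟨0, 0⟩, 0⟩ 0 0) (.cut .v 16252928 (.cut .d (-262144) (.pos 20 .mm ⟨0, 0, 0, 0, 0, 136377, 0, 0, 0, ⟨0, 0⟩, 0⟩ 0 0) (.pos 20 .mm ⟨0, 0, 0, 0, 0, 94093, 0, 0, 0, ⟨0, 0⟩, 0⟩ 0 0)) (.cut .d (-262144) (.pos 21 .mm ⟨0, 0, 0, 0, 0, 137859, 0, 0, 0, ⟨0, 0⟩, 0⟩ 0 0) (.cut .d (-131072) (.pos 21 .mm ⟨0, 0, 0, 0, 0, 109548, 0, 0, 0, ⟨0, 0⟩, 0⟩ 0 0) (.cut .v 16515072 (.cut .s 4161536 (.pos 24 .mm ⟨0, 0, 0, 0, 0, 0, 0, 0, 0, ⟨0, 0⟩, 0⟩ 0 0) (.pos 24 .mm ⟨0, 0, 0, 0,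 0, 0, 0, 0, 0, ⟨0, 0⟩, 0⟩ 0 0)) (.pos 25 .mm ⟨0, 0, 0, 0, 0, 0, 0, 0, 0, ⟨0, 0⟩, 0⟩ 0 0)))))))))))))) (.cut .v 25165824 (.cut .v 20971520 (.pos 33 .mp ⟨0, 0, 0, 0, 0, 0, 0, 0, 0, ⟨0, 0⟩, 0⟩ 0 0) (.void 34 ⟨100000, 0, 0, 0, 0, 0, 0, 0, 0, ⟨0, 0⟩, 0⟩ 0 0)) (.void 32 ⟨100000, 0, 0, 0, 0, 0, 0, 0, 0, ⟨0, 0⟩, 0⟩ 0 0))) (.cut .v 16777216 (.cut .v 8388608 (.void 2 ⟨0, 0, 0, 0, 100000, 0, 0, 0, 0, ⟨0, 0⟩, 0⟩ 0 0) (.cut .d 3203346 (.cut .v 12582912 (.pos 8 .pm ⟨0, 0, 0, 0, 0, 0, 0, 0, 0, ⟨0, 0⟩, 0⟩ 0 0) (.cut .d 1601673 (.cut .v 14680064 (.pos 12 .pm ⟨0, 0, 0, 0, 0, 0, 0, 0, 0, ⟨0, 0⟩, 0⟩ 0 0) (.cut .d 800836 (.cut .v 15728640 (.pos 16 .pm ⟨0, 0, 0, 0, 0, 0, 0, 0, 0,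 ⟨0, 0⟩, 0⟩ 0 0) (.cut .v 16252928 (.pos 20 .pm ⟨0, 0, 0, 0, 0, 0, 0, 0, 0, ⟨0, 0⟩, 0⟩ 0 0) (.cut .d 400418 (.cut .d 200209 (.cut .v 16515072 (.cut .v 16384000 (.pos 26 .pm ⟨0, 0, 0, 0, 0, 0, 0, 0, 0, ⟨0, 0⟩, 0⟩ 0 0) (.cut .s 4161536 (.cut .d 100104 (.pos 27 .pm ⟨0, 0, 0, 0, 0, 0, 0, 0, 0, ⟨0, 0⟩, 0⟩ 0 0) (.pos 27 .pm ⟨0, 0, 0, 0, 0, 0, 0, 0, 0, ⟨0, 0⟩, 0⟩ 0 0)) (.cut .d 100104 (.pos 27 .pm ⟨0, 0, 0, 0, 0, 0, 0, 0, 0, ⟨0, 0⟩, 0⟩ 0 0) (.pos 27 .pm ⟨0, 0, 0, 0, 0, 0, 0, 0, 0, ⟨0, 0⟩, 0⟩ 0 0)))) (.cut .s 4161536 (.cut .d 100104 (.pos 25 .pm ⟨0, 0, 0, 0, 0, 0, 0, 0, 0, ⟨0, 0⟩, 0⟩ 0 0) (.cut .l 671088 (.cut .l 432675 (.cut .v 16646144 (.cut .s 3981312 (.pos 28 .pm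 ⟨0, 0, 0, 0, 0, 0, 0, 0, 0, ⟨0, 0⟩, 0⟩ 0 0) (.cut .s 4071424 (.pos 28 .pm ⟨0, 0, 0, 0, 0, 0, 0, 0, 0, ⟨0, 0⟩, 0⟩ 0 0) (.pos 28 .pm ⟨0, 0, 0, 0, 0, 0, 0, 0, 0, ⟨0, 0⟩, 0⟩ 0 0))) (.cut .s 3981312 (.pos 29 .pm ⟨0, 0, 0, 0, 0, 0, 0, 0, 0, ⟨0, 0⟩, 0⟩ 0 0) (.pos 29 .pm ⟨0, 0, 0, 0, 0, 0, 0, 0, 0, ⟨0, 0⟩, 0⟩ 0 0))) (.pos 25 .pm ⟨0, 0, 0, 0, 0, 0, 0, 0, 0, ⟨0, 0⟩, 0⟩ 0 0)) (.pos 25 .pm ⟨0, 0, 0, 0, 0, 0, 0, 0, 0, ⟨0, 0⟩, 0⟩ 0 0))) (.cut .d 100104 (.pos 25 .pm ⟨0, 0, 0, 0, 0, 0, 0, 0, 0, ⟨0, 0⟩, 0⟩ 0 0) (.cut .v 16646144 (.pos 28 .pm ⟨0, 0, 0, 0, 0, 0, 0, 0, 0, ⟨0, 0⟩, 0⟩ 0 0) (.pos 29 .pm ⟨0, 0, 0, 0, 0, 0, 0, 0, 0, ⟨0, 0⟩, 0⟩ 0 0))))) (.cut .v 16515072 (.cut .s 4161536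 (.pos 24 .pm ⟨0, 0, 0, 0, 0, 0, 0, 0, 0, ⟨0, 0⟩, 0⟩ 0 0) (.pos 24 .pm ⟨0, 0, 0, 0, 0, 0, 0, 0, 0, ⟨0, 0⟩, 0⟩ 0 0)) (.cut .s 4161536 (.cut .l 671088 (.cut .d 300313 (.cut .l 432675 (.cut .v 16646144 (.cut .s 3981312 (.pos 28 .pm ⟨0, 0, 0, 0, 0, 0, 0, 0, 0, ⟨0, 0⟩, 0⟩ 0 0) (.pos 28 .pm ⟨0, 0, 0, 0, 0, 0, 0, 0, 0, ⟨0, 0⟩, 0⟩ 0 0)) (.cut .s 3981312 (.pos 29 .pm ⟨0, 0, 0, 0, 0, 0, 0, 0, 0, ⟨0, 0⟩, 0⟩ 0 0) (.cut .d 250261 (.pos 29 .pm ⟨0, 0, 0, 0, 0, 0, 0, 0, 0, ⟨0, 0⟩, 0⟩ 0 0) (.pos 29 .pm ⟨0, 0, 0, 0, 0, 0, 0, 0, 0, ⟨0, 0⟩, 0⟩ 0 0)))) (.pos 25 .pm ⟨0, 0, 0, 0, 0, 0, 0, 0, 0, ⟨0, 0⟩, 0⟩ 0 0)) (.cut .s 3981312 (.pos 25 .pm ⟨0, 0, 0, 0, 0, 0, 0, 183894, 0, ⟨1037641,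 9913792⟩, 0⟩ 59 63) (.pos 25 .pm ⟨0, 0, 0, 0, 0, 0, 0, 0, 0, ⟨0, 0⟩, 0⟩ 0 0))) (.pos 25 .pm ⟨0, 0, 0, 0, 0, 0, 0, 0, 0, ⟨0, 0⟩, 0⟩ 0 0)) (.cut .s 4341760 (.cut .s 4251648 (.cut .d 300313 (.cut .v 16646144 (.pos 28 .pm ⟨0, 0, 0, 0, 0, 0, 0, 0, 0, ⟨0, 0⟩, 0⟩ 0 0) (.pos 29 .pm ⟨0, 0, 0, 0, 0, 0, 0, 0, 0, ⟨0, 0⟩, 0⟩ 0 0)) (.pos 25 .pm ⟨0, 0, 0, 0, 0, 0, 0, 106694, 0, ⟨1233900, 9121877⟩, 0⟩ 64 67)) (.pos 25 .pm ⟨0, 0, 0, 0, 0, 0, 0, 0, 0, ⟨0, 0⟩, 0⟩ 0 0)) (.pos 25 .pm ⟨0, 0, 0, 0, 0, 0, 0, 0, 0, ⟨0, 0⟩, 0⟩ 0 0))))) (.cut .s 4161536 (.pos 21 .pm ⟨0, 0, 0, 0, 0, 0, 0, 157703, 0, ⟨1118766, 9561792⟩, 0⟩ 59 67) (.pos 21 .pm ⟨0, 0, 0, 0, 0, 0, 0, 100122, 0, ⟨1389568,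 8511488⟩, 0⟩ 65 73))))) (.pos 13 .pm ⟨0, 0, 0, 0, 0, 0, 0, 43971, 0, ⟨1325536, 8689840⟩, 0⟩ 60 76))) (.pos 9 .pm ⟨0, 0, 0, 0, 0, 0, 0, 43971, 0, ⟨1548915, 7836236⟩, 0⟩ 63 83))) (.void 3 ⟨0, 0, 0, 0, 0, 0, 0, 100000, 0, ⟨1990397, 6302473⟩, 0⟩ 69 96))) (.cut .v 25165824 (.cut .d 3203346 (.cut .v 20971520 (.cut .d 1601673 (.cut .v 18874368 (.cut .d 800836 (.cut .v 17825792 (.cut .d 400418 (.cut .v 17301504 (.cut .v 17039360 (.cut .d 200209 (.cut .s 4161536 (.pos 41 .pp ⟨0, 0, 0, 0, 0, 0, 0, 0, 0, ⟨0, 0⟩, 0⟩ 0 0) (.pos 41 .pp ⟨0, 0, 0, 0, 0, 0, 0, 0, 0, ⟨0, 0⟩, 0⟩ 0 0)) (.cut .s 4161536 (.cut .v 16908288 (.cut .l 671088 (.cut .l 432675 (.cut .d 300313 (.cut .s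 3981312 (.pos 43 .pp ⟨0, 0, 0, 0, 0, 0, 0, 0, 0, ⟨0, 0⟩, 0⟩ 0 0) (.pos 43 .pp ⟨0, 0, 0, 0, 0, 0, 0, 0, 0, ⟨0, 0⟩, 0⟩ 0 0)) (.cut .s 3981312 (.pos 43 .pp ⟨0, 0, 0, 0, 0, 0, 0, 185338, 0, ⟨1037641, 9913792⟩, 0⟩ 59 63) (.pos 43 .pp ⟨0, 0, 0, 0, 0, 0, 0, 140151, 0, ⟨1143897, 9473638⟩, 0⟩ 61 66))) (.pos 43 .pp ⟨0, 0, 0, 0, 0, 0, 0, 0, 0, ⟨0, 0⟩, 0⟩ 0 0)) (.pos 43 .pp ⟨0, 0, 0, 0, 0, 0, 0, 0, 0, ⟨0, 0⟩, 0⟩ 0 0)) (.pos 44 .pp ⟨0, 0, 0, 0, 0, 0, 0, 93726, 0, ⟨1075828, 9737664⟩, 0⟩ 58 66)) (.cut .d 300313 (.pos 41 .pp ⟨0, 0, 0, 0, 0, 0, 0, 0, 0, ⟨0, 0⟩, 0⟩ 0 0) (.pos 41 .pp ⟨0, 0, 0, 0, 0, 0, 0, 98231, 0, ⟨1321291, 8772315⟩, 0⟩ 64 71)))) (.pos 42 .pp ⟨0, 0, 0, 0, 0,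 0, 0, 0, 0, ⟨0, 0⟩, 0⟩ 0 0)) (.pos 40 .pp ⟨0, 0, 0, 0, 0, 0, 0, 0, 0, ⟨0, 0⟩, 0⟩ 0 0)) (.cut .v 17301504 (.cut .s 4161536 (.cut .d 600627 (.cut .v 17039360 (.cut .s 3981312 (.pos 41 .pp ⟨0, 0, 0, 0, 0, 0, 0, 185819, 0, ⟨1037641, 9913792⟩, 0⟩ 59 63) (.pos 41 .pp ⟨0, 0, 0, 0, 0, 0, 0, 137934, 0, ⟨1166595, 9385600⟩, 0⟩ 62 66)) (.pos 42 .pp ⟨0, 0, 0, 0, 0, 0, 0, 169447, 0, ⟨1098506, 9649700⟩, 0⟩ 59 66)) (.pos 39 .pp ⟨0, 0, 0, 0, 0, 0, 0, 170316, 0, ⟨1141798, 9473792⟩, 0⟩ 60 67)) (.cut .v 17039360 (.pos 41 .pp ⟨0, 0, 0, 0, 0, 0, 0, 115296, 0, ⟨1389568, 8511488⟩, 0⟩ 65 73) (.pos 42 .pp ⟨0, 0, 0, 0, 0, 0, 0, 115887, 0, ⟨1389568, 8511488⟩, 0⟩ 65 73))) (.cut .s 4161536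 (.pos 40 .pp ⟨0, 0, 0, 0, 0, 0, 0, 172054, 0, ⟨1118766, 9561792⟩, 0⟩ 59 67) (.pos 40 .pp ⟨0, 0, 0, 0, 0, 0, 0, 117070, 0, ⟨1389568, 8511488⟩, 0⟩ 65 73)))) (.pos 38 .pp ⟨0, 0, 0, 0, 0, 0, 0, 68216, 0, ⟨1214689, 9124761⟩, 0⟩ 58 73)) (.cut .v 17825792 (.cut .s 4161536 (.cut .d 1201254 (.cut .v 17301504 (.pos 39 .pp ⟨0, 0, 0, 0, 0, 0, 0, 172054, 0, ⟨1182931, 9298289⟩, 0⟩ 60 69) (.pos 40 .pp ⟨0, 0, 0, 0, 0, 0, 0, 173791, 0, ⟨1182931, 9298289⟩, 0⟩ 60 69)) (.pos 37 .pp ⟨0, 0, 0, 0, 0, 0, 0, 173791, 0, ⟨1251511, 9034976⟩, 0⟩ 62 70)) (.pos 37 .pp ⟨0, 0, 0, 0, 0, 0, 0, 115887, 0, ⟨1480834, 8166732⟩, 0⟩ 66 76)) (.cut .d 1201254 (.pos 38 .pp ⟨0, 0, 0, 0, 0, 0, 0, 67783,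 0, ⟨1285065, 8862518⟩, 0⟩ 60 74) (.pos 38 .pp ⟨0, 0, 0, 0, 0, 0, 0, 158206, 0, ⟨1377448, 8514980⟩, 0⟩ 62 76)))) (.pos 36 .pp ⟨0, 0, 0, 0, 0, 0, 0, 335369, 0, ⟨1273558, 8864924⟩, 0⟩ 58 76)) (.cut .d 2402509 (.cut .l 671088 (.void 33 ⟨0, 0, 0, 0, 0, 0, 0, 100000, 0, ⟨1466297, 8171952⟩, 0⟩ 63 79) (.cut .v 18874368 (.cut .v 17825792 (.pos 37 .pp ⟨0, 0, 0, 0, 0, 0, 0, 46720, 0, ⟨1466297, 8171952⟩, 0⟩ 63 79) (.pos 38 .pp ⟨0, 0, 0, 0, 0, 0, 0, 819637, 0, ⟨1466297, 8171952⟩, 0⟩ 63 79)) (.cut .s 4161536 (.cut .s 3981312 (.pos 36 .pp ⟨0, 0, 0, 0, 0, 0, 0, 7190369, 0, ⟨1275523, 8947163⟩, 0⟩ 63 70) (.pos 36 .pp ⟨0, 0, 0, 0, 0, 0, 0, 6628992, 0, ⟨1414429, 8424301⟩, 0⟩ 66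 73)) (.pos 36 .pp ⟨0, 0, 0, 0, 0, 0, 0, 5937679, 0, ⟨1626011, 7654400⟩, 0⟩ 69 79)))) (.void 33 ⟨0, 0, 0, 0, 0, 0, 0, 100000, 0, ⟨1632526, 7578352⟩, 0⟩ 66 83))) (.cut .d 1601673 (.void 34 ⟨100000, 0, 0, 0, 0, 0, 0, 0, 0, ⟨0, 0⟩, 0⟩ 0 0) (.pos 34 .pp ⟨0, 0, 0, 0, 0, 0, 0, 28524363, 0, ⟨1548915, 7836236⟩, 0⟩ 63 83))) (.void 31 ⟨0, 0, 0, 0, 0, 0, 0, 100000, 0, ⟨1990397, 6302473⟩, 0⟩ 69 96)) (.void 32 ⟨0, 0, 0, 0, 0, 0, 100000, 0, 0, ⟨0, 0⟩, 0⟩ 0 0)))),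
    by decide +kernel⟩

def covers4 : cell.Covers table row4.1 :=
  ⟨(.cut .d 0 (.cut .v 16777216 (.cut .v 8388608 (.void 2 ⟨0, 0, 0, 0, 50000, 50000, 0, 0, 0, ⟨0, 0⟩, 0⟩ 0 0) (.cut .v 12582912 (.pos 8 .mm ⟨0, 0, 0, 0, 0, 10881550, 0, 0, 0, ⟨0, 0⟩, 0⟩ 0 0) (.cut .v 14680064 (.pos 12 .mm ⟨0, 0, 0, 0, 0, 7955583, 0, 0, 0, ⟨0, 0⟩, 0⟩ 0 0) (.cut .d (-8388608) (.void 13 ⟨0, 0, 0, 0, 0, 100000, 0, 0, 0, ⟨0, 0⟩, 0⟩ 0 0) (.cut .d (-4194304) (.void 13 ⟨0, 0, 0, 0, 0, 100000, 0, 0, 0, ⟨0, 0⟩, 0⟩ 0 0) (.cut .d (-2097152) (.void 13 ⟨0, 0, 0, 0, 0, 100000, 0, 0, 0, ⟨0, 0⟩, 0⟩ 0 0) (.cut .d (-1048576) (.void 13 ⟨0, 0, 0, 0, 0, 100000, 0, 0, 0, ⟨0, 0⟩, 0⟩ 0 0) (.cut .v 15728640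 (.cut .d (-524288) (.pos 16 .mm ⟨0, 0, 0, 0, 0, 1787081, 0, 0, 0, ⟨0, 0⟩, 0⟩ 0 0) (.pos 16 .mm ⟨0, 0, 0, 0, 0, 1164739, 0, 0, 0, ⟨0, 0⟩, 0⟩ 0 0)) (.cut .d (-524288) (.cut .v 16252928 (.pos 20 .mm ⟨0, 0, 0, 0, 0, 1915513, 0, 0, 0, ⟨0, 0⟩, 0⟩ 0 0) (.pos 21 .mm ⟨0, 0, 0, 0, 0, 2485370, 0, 0, 0, ⟨0, 0⟩, 0⟩ 0 0)) (.cut .v 16252928 (.cut .s 4882432 (.cut .d (-262144) (.cut .s 4702208 (.pos 20 .mm ⟨0, 0, 0, 0, 0, 294841, 0, 0, 0, ⟨0, 0⟩, 0⟩ 0 0) (.pos 20 .mm ⟨0, 0, 0, 0, 0, 648384, 0, 0, 0, ⟨0, 0⟩, 0⟩ 0 0)) (.cut .s 4702208 (.pos 20 .mm ⟨0, 0, 0, 0, 0, 189248, 0, 0, 0, ⟨0, 0⟩, 0⟩ 0 0) (.cut .d (-131072) (.pos 20 .mm ⟨0, 0, 0, 0, 0, 534840, 0, 0, 0, ⟨0, 0⟩, 0⟩ 0 0)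 (.pos 20 .mm ⟨0, 0, 0, 0, 0, 475493, 0, 0, 0, ⟨0, 0⟩, 0⟩ 0 0)))) (.cut .d (-262144) (.cut .l 671088 (.pos 20 .mm ⟨0, 0, 0, 0, 0, 1880483, 0, 0, 0, ⟨0, 0⟩, 0⟩ 0 0) (.cut .s 5062656 (.pos 20 .mm ⟨0, 0, 0, 0, 0, 1023940, 0, 0, 0, ⟨0, 0⟩, 0⟩ 0 0) (.pos 20 .mm ⟨0, 0, 0, 0, 0, 1572092, 0, 0, 0, ⟨0, 0⟩, 0⟩ 0 0))) (.cut .v 15990784 (.pos 22 .mm ⟨0, 0, 0, 0, 0, 1208966, 0, 0, 0, ⟨0, 0⟩, 0⟩ 0 0) (.cut .l 671088 (.cut .d (-131072) (.cut .s 5062656 (.pos 23 .mm ⟨0, 0, 0, 0, 0, 1072439, 0, 0, 0, ⟨0, 0⟩, 0⟩ 0 0) (.pos 23 .mm ⟨0, 0, 0, 0, 0, 1667119, 0, 0, 0, ⟨0, 0⟩, 0⟩ 0 0)) (.pos 23 .mm ⟨0, 0, 0, 0, 0, 1027771, 0, 0, 0, ⟨0, 0⟩, 0⟩ 0 0)) (.pos 23 .mm ⟨0, 0, 0, 0, 0, 588540,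 0, 0, 0, ⟨0, 0⟩, 0⟩ 0 0))))) (.cut .s 4882432 (.cut .d (-262144) (.pos 21 .mm ⟨0, 0, 0, 0, 0, 470593, 0, 0, 0, ⟨0, 0⟩, 0⟩ 0 0) (.cut .v 16515072 (.cut .l 671088 (.cut .l 432675 (.cut .d (-131072) (.cut .s 4702208 (.pos 24 .mm ⟨0, 0, 0, 0, 0, 367346, 0, 0, 0, ⟨0, 0⟩, 0⟩ 0 0) (.pos 24 .mm ⟨0, 0, 0, 0, 0, 687883, 0, 0, 0, ⟨0, 0⟩, 0⟩ 0 0)) (.cut .s 4702208 (.pos 24 .mm ⟨0, 0, 0, 0, 0, 89173, 0, 0, 0, ⟨0, 0⟩, 0⟩ 0 0) (.cut .v 16384000 (.pos 26 .mm ⟨0, 0, 0, 0, 0, 489573, 0, 0, 0, ⟨0, 0⟩, 0⟩ 0 0) (.pos 27 .mm ⟨0, 0, 0, 0, 0, 430664, 0, 0, 0, ⟨0, 0⟩, 0⟩ 0 0)))) (.pos 24 .mm ⟨0, 0, 0, 0, 0, 20237, 0, 0, 0, ⟨0, 0⟩, 0⟩ 0 0)) (.pos 24 .mm ⟨0, 0, 0, 0, 0, 0, 0, 0, 0, ⟨0,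 0⟩, 0⟩ 0 0)) (.cut .s 4702208 (.pos 25 .mm ⟨0, 0, 0, 0, 0, 148014, 0, 0, 0, ⟨0, 0⟩, 0⟩ 0 0) (.pos 25 .mm ⟨0, 0, 0, 0, 0, 451562, 0, 0, 0, ⟨0, 0⟩, 0⟩ 0 0)))) (.cut .d (-262144) (.cut .l 671088 (.pos 21 .mm ⟨0, 0, 0, 0, 0, 2576229, 0, 0, 0, ⟨0, 0⟩, 0⟩ 0 0) (.cut .s 5062656 (.pos 21 .mm ⟨0, 0, 0, 0, 0, 832566, 0, 0, 0, ⟨0, 0⟩, 0⟩ 0 0) (.pos 21 .mm ⟨0, 0, 0, 0, 0, 1468098, 0, 0, 0, ⟨0, 0⟩, 0⟩ 0 0))) (.cut .l 671088 (.cut .v 16515072 (.cut .s 5062656 (.cut .d (-131072) (.cut .l 432675 (.cut .v 16384000 (.pos 26 .mm ⟨0, 0, 0, 0, 0, 1176800, 0, 0, 0, ⟨0, 0⟩, 0⟩ 0 0) (.pos 27 .mm ⟨0, 0, 0, 0, 0, 1169831, 0, 0, 0, ⟨0, 0⟩, 0⟩ 0 0)) (.cut .s 4972544 (.pos 24 .mm ⟨0, 0,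 0, 0, 0, 815839, 0, 0, 0, ⟨0, 0⟩, 0⟩ 0 0) (.pos 24 .mm ⟨0, 0, 0, 0, 0, 1078582, 0, 0, 0, ⟨0, 0⟩, 0⟩ 0 0))) (.cut .d (-65536) (.cut .l 432675 (.cut .v 16384000 (.cut .s 4972544 (.pos 26 .mm ⟨0, 0, 0, 0, 0, 871388, 0, 0, 0, ⟨0, 0⟩, 0⟩ 0 0) (.pos 26 .mm ⟨0, 0, 0, 0, 0, 1126704, 0, 0, 0, ⟨0, 0⟩, 0⟩ 0 0)) (.cut .s 4972544 (.pos 27 .mm ⟨0, 0, 0, 0, 0, 854254, 0, 0, 0, ⟨0, 0⟩, 0⟩ 0 0) (.cut .s 5017600 (.pos 27 .mm ⟨0, 0, 0, 0, 0, 1071699, 0, 0, 0, ⟨0, 0⟩, 0⟩ 0 0) (.pos 27 .mm ⟨0, 0, 0, 0, 0, 1210677, 0, 0, 0, ⟨0, 0⟩, 0⟩ 0 0)))) (.pos 24 .mm ⟨0, 0, 0, 0, 0, 0, 0, 0, 0, ⟨0, 0⟩, 0⟩ 0 0)) (.pos 24 .mm ⟨0, 0, 0, 0, 0, 0, 0, 0, 0, ⟨0, 0⟩, 0⟩ 0 0))) (.cut .d (-131072) (.cut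 .l 432675 (.cut .d (-196608) (.void 24 ⟨0, 0, 0, 0, 0, 100000, 0, 0, 0, ⟨0, 0⟩, 0⟩ 0 0) (.cut .d (-163840) (.pos 24 .mm ⟨0, 0, 0, 0, 0, 1945708, 0, 0, 0, ⟨0, 0⟩, 0⟩ 0 0) (.cut .l 313468 (.void 24 ⟨0, 0, 0, 0, 0, 100000, 0, 0, 0, ⟨0, 0⟩, 0⟩ 0 0) (.cut .v 16384000 (.pos 26 .mm ⟨0, 0, 0, 0, 0, 1628416, 0, 0, 0, ⟨0, 0⟩, 0⟩ 0 0) (.pos 27 .mm ⟨0, 0, 0, 0, 0, 1643946, 0, 0, 0, ⟨0, 0⟩, 0⟩ 0 0))))) (.cut .l 551881 (.cut .d (-196608) (.pos 24 .mm ⟨0, 0, 0, 0, 0, 1759908, 0, 0, 0, ⟨0, 0⟩, 0⟩ 0 0) (.cut .s 5152768 (.pos 24 .mm ⟨0, 0, 0, 0, 0, 1298129, 0, 0, 0, ⟨0, 0⟩, 0⟩ 0 0) (.pos 24 .mm ⟨0, 0, 0, 0, 0, 1594704, 0, 0, 0, ⟨0, 0⟩, 0⟩ 0 0))) (.pos 24 .mm ⟨0, 0, 0, 0, 0,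 1349447, 0, 0, 0, ⟨0, 0⟩, 0⟩ 0 0))) (.cut .d (-65536) (.cut .l 432675 (.cut .s 5152768 (.cut .v 16384000 (.pos 26 .mm ⟨0, 0, 0, 0, 0, 1425294, 0, 0, 0, ⟨0, 0⟩, 0⟩ 0 0) (.cut .l 313468 (.cut .s 5107712 (.pos 27 .mm ⟨0, 0, 0, 0, 0, 1372173, 0, 0, 0, ⟨0, 0⟩, 0⟩ 0 0) (.cut .s 5130240 (.pos 27 .mm ⟨0, 0, 0, 0, 0, 1496504, 0, 0, 0, ⟨0, 0⟩, 0⟩ 0 0) (.pos 27 .mm ⟨0, 0, 0, 0, 0, 1572602, 0, 0, 0, ⟨0, 0⟩, 0⟩ 0 0))) (.pos 27 .mm ⟨0, 0, 0, 0, 0, 1242831, 0, 0, 0, ⟨0, 0⟩, 0⟩ 0 0))) (.cut .v 16384000 (.pos 26 .mm ⟨0, 0, 0, 0, 0, 1752793, 0, 0, 0, ⟨0, 0⟩, 0⟩ 0 0) (.cut .l 313468 (.cut .d (-98304) (.pos 27 .mm ⟨0, 0, 0, 0, 0, 1839879, 0, 0, 0, ⟨0, 0⟩, 0⟩ 0 0) (.cut .s 5197824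 (.pos 27 .mm ⟨0, 0, 0, 0, 0, 1651483, 0, 0, 0, ⟨0, 0⟩, 0⟩ 0 0) (.pos 27 .mm ⟨0, 0, 0, 0, 0, 1822018, 0, 0, 0, ⟨0, 0⟩, 0⟩ 0 0))) (.pos 27 .mm ⟨0, 0, 0, 0, 0, 1590696, 0, 0, 0, ⟨0, 0⟩, 0⟩ 0 0)))) (.pos 24 .mm ⟨0, 0, 0, 0, 0, 0, 0, 0, 0, ⟨0, 0⟩, 0⟩ 0 0)) (.pos 24 .mm ⟨0, 0, 0, 0, 0, 0, 0, 0, 0, ⟨0, 0⟩, 0⟩ 0 0)))) (.cut .s 5062656 (.cut .d (-131072) (.pos 25 .mm ⟨0, 0, 0, 0, 0, 1058527, 0, 0, 0, ⟨0, 0⟩, 0⟩ 0 0) (.pos 25 .mm ⟨0, 0, 0, 0, 0, 784273, 0, 0, 0, ⟨0, 0⟩, 0⟩ 0 0)) (.cut .d (-131072) (.pos 25 .mm ⟨0, 0, 0, 0, 0, 1617960, 0, 0, 0, ⟨0, 0⟩, 0⟩ 0 0) (.cut .s 5152768 (.pos 25 .mm ⟨0, 0, 0, 0, 0, 1166428, 0, 0, 0, ⟨0, 0⟩, 0⟩ 0 0) (.pos 25 .mm ⟨0, 0, 0, 0, 0,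 1579380, 0, 0, 0, ⟨0, 0⟩, 0⟩ 0 0))))) (.cut .s 5062656 (.pos 21 .mm ⟨0, 0, 0, 0, 0, 0, 0, 0, 0, ⟨0, 0⟩, 0⟩ 0 0) (.pos 21 .mm ⟨0, 0, 0, 0, 0, 781719, 0, 0, 0, ⟨0, 0⟩, 0⟩ 0 0))))))))))))))) (.cut .v 25165824 (.cut .v 20971520 (.cut .s 4882432 (.pos 33 .mp ⟨0, 0, 0, 0, 0, 0, 0, 0, 0, ⟨0, 0⟩, 0⟩ 0 0) (.cut .s 5062656 (.pos 33 .mp ⟨113610, 0, 0, 0, 0, 509094, 0, 0, 0, ⟨0, 0⟩, 0⟩ 0 0) (.pos 33 .mp ⟨400275, 0, 0, 0, 0, 1151363, 0, 0, 0, ⟨0, 0⟩, 0⟩ 0 0))) (.void 34 ⟨100000, 0, 0, 0, 0, 0, 0, 0, 0, ⟨0, 0⟩, 0⟩ 0 0)) (.void 32 ⟨100000, 0, 0, 0, 0, 0, 0, 0, 0, ⟨0, 0⟩, 0⟩ 0 0))) (.cut .v 16777216 (.cut .v 8388608 (.void 2 ⟨0, 0, 0, 0, 100000, 0, 0, 0, 0, ⟨0, 0⟩, 0⟩ 0 0)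 (.cut .d 4339885 (.cut .v 12582912 (.pos 8 .pm ⟨0, 0, 0, 0, 0, 0, 0, 0, 0, ⟨0, 0⟩, 0⟩ 0 0) (.cut .d 2169942 (.cut .v 14680064 (.pos 12 .pm ⟨0, 0, 0, 0, 0, 0, 0, 0, 0, ⟨0, 0⟩, 0⟩ 0 0) (.cut .d 1084971 (.cut .v 15728640 (.pos 16 .pm ⟨0, 0, 0, 0, 0, 0, 0, 0, 0, ⟨0, 0⟩, 0⟩ 0 0) (.cut .d 542485 (.cut .d 271242 (.cut .v 16252928 (.pos 20 .pm ⟨0, 0, 0, 0, 0, 0, 0, 0, 0, ⟨0, 0⟩, 0⟩ 0 0) (.cut .v 16515072 (.pos 24 .pm ⟨0, 0, 0, 0, 0, 0, 0, 0, 0, ⟨0, 0⟩, 0⟩ 0 0) (.pos 25 .pm ⟨0, 0, 0, 0, 0, 0, 0, 0, 0, ⟨0, 0⟩, 0⟩ 0 0))) (.pos 17 .pm ⟨0, 0, 0, 0, 0, 0, 0, 0, 0, ⟨0, 0⟩, 0⟩ 0 0)) (.pos 17 .pm ⟨0, 0, 0, 0, 0, 0, 0, 80589, 0, ⟨1837455, 6911214⟩, 0⟩ 71 86))) (.pos 13 .pm ⟨0,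 0, 0, 0, 0, 0, 0, 80589, 0, ⟨2004727, 6354218⟩, 0⟩ 73 91))) (.pos 9 .pm ⟨0, 0, 0, 0, 0, 0, 0, 3986357, 0, ⟨2336535, 5309632⟩, 0⟩ 77 101))) (.void 3 ⟨0, 0, 0, 0, 0, 0, 0, 100000, 0, ⟨3005523, 3434176⟩, 0⟩ 86 122))) (.cut .v 25165824 (.cut .d 4339885 (.cut .v 20971520 (.cut .d 2169942 (.cut .v 18874368 (.cut .d 1084971 (.cut .v 17825792 (.cut .d 542485 (.cut .d 271242 (.pos 37 .pp ⟨0, 0, 0, 0, 0, 0, 0, 0, 0, ⟨0, 0⟩, 0⟩ 0 0) (.pos 37 .pp ⟨0, 0, 0, 0, 0, 0, 0, 82268, 0, ⟨1742860, 7238045⟩, 0⟩ 70 83)) (.pos 37 .pp ⟨0, 0, 0, 0, 0, 0, 0, 82268, 0, ⟨1837455, 6911214⟩, 0⟩ 71 86)) (.pos 38 .pp ⟨0, 0, 0, 0, 0, 0, 0, 85625, 0, ⟨1781135, 7078866⟩, 0⟩ 69 86)) (.cut .v 17825792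 (.pos 37 .pp ⟨0, 0, 0, 0, 0, 0, 0, 83947, 0, ⟨2004727, 6354218⟩, 0⟩ 73 91) (.pos 38 .pp ⟨0, 0, 0, 0, 0, 0, 0, 87304, 0, ⟨2004727, 6354218⟩, 0⟩ 73 91))) (.pos 36 .pp ⟨0, 0, 0, 0, 0, 0, 0, 90662, 0, ⟨1887765, 6683252⟩, 0⟩ 69 91)) (.cut .v 18874368 (.pos 35 .pp ⟨0, 0, 0, 0, 0, 0, 0, 7162356, 0, ⟨2336535, 5309632⟩, 0⟩ 77 101) (.pos 36 .pp ⟨0, 0, 0, 0, 0, 0, 0, 9860713, 0, ⟨2336535, 5309632⟩, 0⟩ 77 101))) (.cut .d 2169942 (.pos 34 .pp ⟨0, 0, 0, 0, 0, 0, 0, 100736, 0, ⟨1887765, 6683252⟩, 0⟩ 69 91) (.pos 34 .pp ⟨0, 0, 0, 0, 0, 0, 0, 23645879, 0, ⟨2336535, 5309632⟩, 0⟩ 77 101))) (.void 31 ⟨0, 0, 0, 0, 0, 0, 0, 100000, 0, ⟨3005523, 3434176⟩, 0⟩ 86 122)) (.void 32 ⟨0,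 0, 0, 0, 0, 0, 100000, 0, 0, ⟨0, 0⟩, 0⟩ 0 0)))),
    by decide +kernel⟩

def covers5 : cell.Covers table row5.1 :=
  ⟨(.cut .d 0 (.cut .v 16777216 (.cut .d (-8388608) (.void 1 ⟨0, 0, 0, 0, 0, 100000, 0, 0, 0, ⟨0, 0⟩, 0⟩ 0 0) (.cut .d (-4194304) (.void 1 ⟨0, 0, 0, 0, 0, 100000, 0, 0, 0, ⟨0, 0⟩, 0⟩ 0 0) (.cut .d (-2097152) (.void 1 ⟨0, 0, 0, 0, 0, 100000, 0, 0, 0, ⟨0, 0⟩, 0⟩ 0 0) (.cut .d (-1048576) (.void 1 ⟨0, 0, 0, 0, 0, 100000, 0, 0, 0, ⟨0, 0⟩, 0⟩ 0 0) (.cut .d (-524288) (.void 1 ⟨0, 0, 0, 0, 0, 100000, 0, 0, 0, ⟨0, 0⟩, 0⟩ 0 0) (.cut .v 8388608 (.cut .v 4194304 (.void 4 ⟨0, 0, 59906, 0, 40094, 0, 0, 0, 0, ⟨0, 0⟩, 0⟩ 0 0) (.pos 5 .mm ⟨0, 0, 0, 0, 0, 11640755,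 0, 0, 0, ⟨0, 0⟩, 0⟩ 0 0)) (.cut .v 12582912 (.pos 8 .mm ⟨0, 0, 0, 0, 0, 8145068, 0, 0, 0, ⟨0, 0⟩, 0⟩ 0 0) (.cut .v 14680064 (.pos 12 .mm ⟨0, 0, 0, 0, 0, 4999896, 0, 0, 0, ⟨0, 0⟩, 0⟩ 0 0) (.cut .v 15728640 (.cut .s 5636096 (.pos 16 .mm ⟨0, 0, 0, 0, 0, 3239325, 0, 0, 0, ⟨0, 0⟩, 0⟩ 0 0) (.pos 16 .mm ⟨0, 0, 0, 0, 0, 6188811, 0, 0, 0, ⟨0, 0⟩, 0⟩ 0 0)) (.cut .s 5636096 (.cut .s 5439488 (.cut .v 16252928 (.cut .v 15990784 (.pos 22 .mm ⟨0, 0, 0, 0, 0, 2325878, 0, 0, 0, ⟨0, 0⟩, 0⟩ 0 0) (.cut .d (-262144) (.cut .s 5341184 (.pos 23 .mm ⟨0, 0, 0, 0, 0, 2169966, 0, 0, 0, ⟨0, 0⟩, 0⟩ 0 0) (.pos 23 .mm ⟨0, 0, 0, 0, 0, 2683639, 0, 0, 0, ⟨0, 0⟩, 0⟩ 0 0)) (.cut .s 5341184 (.cut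 .s 5292032 (.pos 23 .mm ⟨0, 0, 0, 0, 0, 1968447, 0, 0, 0, ⟨0, 0⟩, 0⟩ 0 0) (.pos 23 .mm ⟨0, 0, 0, 0, 0, 2194949, 0, 0, 0, ⟨0, 0⟩, 0⟩ 0 0)) (.pos 23 .mm ⟨0, 0, 0, 0, 0, 2529750, 0, 0, 0, ⟨0, 0⟩, 0⟩ 0 0)))) (.cut .d (-262144) (.cut .v 16515072 (.cut .s 5341184 (.cut .s 5292032 (.pos 24 .mm ⟨0, 0, 0, 0, 0, 2061540, 0, 0, 0, ⟨0, 0⟩, 0⟩ 0 0) (.pos 24 .mm ⟨0, 0, 0, 0, 0, 2291110, 0, 0, 0, ⟨0, 0⟩, 0⟩ 0 0)) (.pos 24 .mm ⟨0, 0, 0, 0, 0, 2671667, 0, 0, 0, ⟨0, 0⟩, 0⟩ 0 0)) (.pos 25 .mm ⟨0, 0, 0, 0, 0, 2534595, 0, 0, 0, ⟨0, 0⟩, 0⟩ 0 0)) (.cut .l 671088 (.cut .v 16515072 (.cut .s 5341184 (.cut .d (-131072) (.cut .l 432675 (.cut .s 5292032 (.cut .v 16384000 (.pos 26 .mm ⟨0,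 0, 0, 0, 0, 2090424, 0, 0, 0, ⟨0, 0⟩, 0⟩ 0 0) (.pos 27 .mm ⟨0, 0, 0, 0, 0, 2059743, 0, 0, 0, ⟨0, 0⟩, 0⟩ 0 0)) (.pos 24 .mm ⟨0, 0, 0, 0, 0, 2300042, 0, 0, 0, ⟨0, 0⟩, 0⟩ 0 0)) (.cut .d (-196608) (.pos 24 .mm ⟨0, 0, 0, 0, 0, 2070797, 0, 0, 0, ⟨0, 0⟩, 0⟩ 0 0) (.pos 24 .mm ⟨0, 0, 0, 0, 0, 1862024, 0, 0, 0, ⟨0, 0⟩, 0⟩ 0 0))) (.cut .d (-65536) (.cut .v 16384000 (.pos 26 .mm ⟨0, 0, 0, 0, 0, 2030885, 0, 0, 0, ⟨0, 0⟩, 0⟩ 0 0) (.cut .s 5292032 (.cut .s 5267456 (.pos 27 .mm ⟨0, 0, 0, 0, 0, 1981965, 0, 0, 0, ⟨0, 0⟩, 0⟩ 0 0) (.pos 27 .mm ⟨0, 0, 0, 0, 0, 2090520, 0, 0, 0, ⟨0, 0⟩, 0⟩ 0 0)) (.pos 27 .mm ⟨0, 0, 0, 0, 0, 2209342, 0, 0, 0, ⟨0, 0⟩, 0⟩ 0 0))) (.pos 24 .mm ⟨0, 0,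 0, 0, 0, 0, 0, 0, 0, ⟨0, 0⟩, 0⟩ 0 0))) (.cut .d (-131072) (.cut .l 432675 (.pos 24 .mm ⟨0, 0, 0, 0, 0, 2762689, 0, 0, 0, ⟨0, 0⟩, 0⟩ 0 0) (.pos 24 .mm ⟨0, 0, 0, 0, 0, 2485588, 0, 0, 0, ⟨0, 0⟩, 0⟩ 0 0)) (.cut .s 5390336 (.cut .s 5365760 (.pos 24 .mm ⟨0, 0, 0, 0, 0, 2384745, 0, 0, 0, ⟨0, 0⟩, 0⟩ 0 0) (.pos 24 .mm ⟨0, 0, 0, 0, 0, 2523722, 0, 0, 0, ⟨0, 0⟩, 0⟩ 0 0)) (.pos 24 .mm ⟨0, 0, 0, 0, 0, 2696885, 0, 0, 0, ⟨0, 0⟩, 0⟩ 0 0)))) (.cut .d (-131072) (.cut .s 5341184 (.pos 25 .mm ⟨0, 0, 0, 0, 0, 2117040, 0, 0, 0, ⟨0, 0⟩, 0⟩ 0 0) (.pos 25 .mm ⟨0, 0, 0, 0, 0, 2628761, 0, 0, 0, ⟨0, 0⟩, 0⟩ 0 0)) (.cut .d (-65536) (.cut .s 5341184 (.cut .s 5292032 (.pos 25 .mm ⟨0, 0, 0,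 0, 0, 1951909, 0, 0, 0, ⟨0, 0⟩, 0⟩ 0 0) (.pos 25 .mm ⟨0, 0, 0, 0, 0, 2205275, 0, 0, 0, ⟨0, 0⟩, 0⟩ 0 0)) (.pos 25 .mm ⟨0, 0, 0, 0, 0, 2503206, 0, 0, 0, ⟨0, 0⟩, 0⟩ 0 0)) (.pos 25 .mm ⟨0, 0, 0, 0, 0, 0, 0, 0, 0, ⟨0, 0⟩, 0⟩ 0 0)))) (.cut .v 16515072 (.pos 24 .mm ⟨0, 0, 0, 0, 0, 1563911, 0, 0, 0, ⟨0, 0⟩, 0⟩ 0 0) (.pos 25 .mm ⟨0, 0, 0, 0, 0, 1446676, 0, 0, 0, ⟨0, 0⟩, 0⟩ 0 0))))) (.cut .v 16252928 (.cut .v 15990784 (.pos 22 .mm ⟨0, 0, 0, 0, 0, 3552772, 0, 0, 0, ⟨0, 0⟩, 0⟩ 0 0) (.cut .d (-262144) (.cut .s 5537792 (.pos 23 .mm ⟨0, 0, 0, 0, 0, 3266710, 0, 0, 0, ⟨0, 0⟩, 0⟩ 0 0) (.pos 23 .mm ⟨0, 0, 0, 0, 0, 3918673, 0, 0, 0, ⟨0, 0⟩, 0⟩ 0 0)) (.cut .s 5537792 (.pos 23 .mm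 ⟨0, 0, 0, 0, 0, 3085686, 0, 0, 0, ⟨0, 0⟩, 0⟩ 0 0) (.pos 23 .mm ⟨0, 0, 0, 0, 0, 3710561, 0, 0, 0, ⟨0, 0⟩, 0⟩ 0 0)))) (.cut .d (-262144) (.cut .d (-393216) (.pos 21 .mm ⟨0, 0, 0, 0, 0, 4913130, 0, 0, 0, ⟨0, 0⟩, 0⟩ 0 0) (.cut .l 671088 (.void 21 ⟨0, 0, 0, 0, 0, 100000, 0, 0, 0, ⟨0, 0⟩, 0⟩ 0 0) (.cut .s 5537792 (.pos 21 .mm ⟨0, 0, 0, 0, 0, 3065857, 0, 0, 0, ⟨0, 0⟩, 0⟩ 0 0) (.cut .s 5586944 (.pos 21 .mm ⟨0, 0, 0, 0, 0, 3586714, 0, 0, 0, ⟨0, 0⟩, 0⟩ 0 0) (.pos 21 .mm ⟨0, 0, 0, 0, 0, 3911164, 0, 0, 0, ⟨0, 0⟩, 0⟩ 0 0))))) (.cut .s 5537792 (.cut .v 16515072 (.cut .l 671088 (.cut .d (-131072) (.cut .s 5488640 (.pos 24 .mm ⟨0, 0, 0, 0, 0, 3063079, 0, 0, 0, ⟨0, 0⟩, 0⟩ 0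 0) (.pos 24 .mm ⟨0, 0, 0, 0, 0, 3364786, 0, 0, 0, ⟨0, 0⟩, 0⟩ 0 0)) (.cut .s 5488640 (.pos 24 .mm ⟨0, 0, 0, 0, 0, 2966980, 0, 0, 0, ⟨0, 0⟩, 0⟩ 0 0) (.pos 24 .mm ⟨0, 0, 0, 0, 0, 3247174, 0, 0, 0, ⟨0, 0⟩, 0⟩ 0 0))) (.pos 24 .mm ⟨0, 0, 0, 0, 0, 2604262, 0, 0, 0, ⟨0, 0⟩, 0⟩ 0 0)) (.cut .l 671088 (.cut .d (-131072) (.pos 25 .mm ⟨0, 0, 0, 0, 0, 3213817, 0, 0, 0, ⟨0, 0⟩, 0⟩ 0 0) (.cut .s 5488640 (.pos 25 .mm ⟨0, 0, 0, 0, 0, 2944271, 0, 0, 0, ⟨0, 0⟩, 0⟩ 0 0) (.pos 25 .mm ⟨0, 0, 0, 0, 0, 3248028, 0, 0, 0, ⟨0, 0⟩, 0⟩ 0 0))) (.pos 25 .mm ⟨0, 0, 0, 0, 0, 2483491, 0, 0, 0, ⟨0, 0⟩, 0⟩ 0 0))) (.cut .v 16515072 (.cut .l 671088 (.cut .d (-131072) (.cut .s 5586944 (.pos 24 .mm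 ⟨0, 0, 0, 0, 0, 3683954, 0, 0, 0, ⟨0, 0⟩, 0⟩ 0 0) (.pos 24 .mm ⟨0, 0, 0, 0, 0, 4017613, 0, 0, 0, ⟨0, 0⟩, 0⟩ 0 0)) (.pos 24 .mm ⟨0, 0, 0, 0, 0, 3655740, 0, 0, 0, ⟨0, 0⟩, 0⟩ 0 0)) (.pos 24 .mm ⟨0, 0, 0, 0, 0, 3328927, 0, 0, 0, ⟨0, 0⟩, 0⟩ 0 0)) (.cut .l 671088 (.cut .d (-131072) (.pos 25 .mm ⟨0, 0, 0, 0, 0, 3868396, 0, 0, 0, ⟨0, 0⟩, 0⟩ 0 0) (.cut .s 5586944 (.pos 25 .mm ⟨0, 0, 0, 0, 0, 3546060, 0, 0, 0, ⟨0, 0⟩, 0⟩ 0 0) (.pos 25 .mm ⟨0, 0, 0, 0, 0, 3877733, 0, 0, 0, ⟨0, 0⟩, 0⟩ 0 0))) (.pos 25 .mm ⟨0, 0, 0, 0, 0, 3226082, 0, 0, 0, ⟨0, 0⟩, 0⟩ 0 0))))))) (.cut .s 5832704 (.cut .v 16252928 (.cut .v 15990784 (.pos 22 .mm ⟨0, 0, 0, 0, 0, 5061398, 0, 0, 0, ⟨0, 0⟩, 0⟩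 0 0) (.cut .d (-262144) (.cut .s 5734400 (.pos 23 .mm ⟨0, 0, 0, 0, 0, 4640443, 0, 0, 0, ⟨0, 0⟩, 0⟩ 0 0) (.pos 23 .mm ⟨0, 0, 0, 0, 0, 5432889, 0, 0, 0, ⟨0, 0⟩, 0⟩ 0 0)) (.cut .s 5734400 (.pos 23 .mm ⟨0, 0, 0, 0, 0, 4405310, 0, 0, 0, ⟨0, 0⟩, 0⟩ 0 0) (.pos 23 .mm ⟨0, 0, 0, 0, 0, 5170820, 0, 0, 0, ⟨0, 0⟩, 0⟩ 0 0)))) (.cut .d (-262144) (.cut .d (-393216) (.void 21 ⟨0, 0, 0, 0, 0, 100000, 0, 0, 0, ⟨0, 0⟩, 0⟩ 0 0) (.cut .l 671088 (.void 21 ⟨0, 0, 0, 0, 0, 100000, 0, 0, 0, ⟨0, 0⟩, 0⟩ 0 0) (.cut .s 5734400 (.cut .s 5685248 (.pos 21 .mm ⟨0, 0, 0, 0, 0, 4252323, 0, 0, 0, ⟨0, 0⟩, 0⟩ 0 0) (.pos 21 .mm ⟨0, 0, 0, 0, 0, 4628758, 0, 0, 0, ⟨0, 0⟩, 0⟩ 0 0)) (.cut .s 5783552 (.pos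 21 .mm ⟨0, 0, 0, 0, 0, 5023809, 0, 0, 0, ⟨0, 0⟩, 0⟩ 0 0) (.pos 21 .mm ⟨0, 0, 0, 0, 0, 5436887, 0, 0, 0, ⟨0, 0⟩, 0⟩ 0 0))))) (.cut .s 5734400 (.cut .l 671088 (.cut .v 16515072 (.cut .d (-131072) (.pos 24 .mm ⟨0, 0, 0, 0, 0, 4593432, 0, 0, 0, ⟨0, 0⟩, 0⟩ 0 0) (.pos 24 .mm ⟨0, 0, 0, 0, 0, 4353619, 0, 0, 0, ⟨0, 0⟩, 0⟩ 0 0)) (.cut .d (-131072) (.cut .s 5685248 (.pos 25 .mm ⟨0, 0, 0, 0, 0, 4363719, 0, 0, 0, ⟨0, 0⟩, 0⟩ 0 0) (.pos 25 .mm ⟨0, 0, 0, 0, 0, 4731579, 0, 0, 0, ⟨0, 0⟩, 0⟩ 0 0)) (.cut .s 5685248 (.pos 25 .mm ⟨0, 0, 0, 0, 0, 4232497, 0, 0, 0, ⟨0, 0⟩, 0⟩ 0 0) (.pos 25 .mm ⟨0, 0, 0, 0, 0, 4605328, 0, 0, 0, ⟨0, 0⟩, 0⟩ 0 0)))) (.cut .v 16515072 (.pos 24 .mm ⟨0,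 0, 0, 0, 0, 4091187, 0, 0, 0, ⟨0, 0⟩, 0⟩ 0 0) (.pos 25 .mm ⟨0, 0, 0, 0, 0, 4003596, 0, 0, 0, ⟨0, 0⟩, 0⟩ 0 0))) (.cut .l 671088 (.cut .v 16515072 (.cut .s 5783552 (.pos 24 .mm ⟨0, 0, 0, 0, 0, 5041249, 0, 0, 0, ⟨0, 0⟩, 0⟩ 0 0) (.pos 24 .mm ⟨0, 0, 0, 0, 0, 5434259, 0, 0, 0, ⟨0, 0⟩, 0⟩ 0 0)) (.cut .s 5783552 (.cut .d (-131072) (.pos 25 .mm ⟨0, 0, 0, 0, 0, 5129477, 0, 0, 0, ⟨0, 0⟩, 0⟩ 0 0) (.pos 25 .mm ⟨0, 0, 0, 0, 0, 4996335, 0, 0, 0, ⟨0, 0⟩, 0⟩ 0 0)) (.cut .d (-131072) (.pos 25 .mm ⟨0, 0, 0, 0, 0, 5545644, 0, 0, 0, ⟨0, 0⟩, 0⟩ 0 0) (.pos 25 .mm ⟨0, 0, 0, 0, 0, 5405625, 0, 0, 0, ⟨0, 0⟩, 0⟩ 0 0)))) (.cut .v 16515072 (.pos 24 .mm ⟨0, 0, 0, 0, 0, 4904559, 0, 0, 0,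 ⟨0, 0⟩, 0⟩ 0 0) (.pos 25 .mm ⟨0, 0, 0, 0, 0, 4861574, 0, 0, 0, ⟨0, 0⟩, 0⟩ 0 0)))))) (.cut .v 16252928 (.cut .s 5931008 (.pos 20 .mm ⟨0, 0, 0, 0, 0, 6085565, 0, 0, 0, ⟨0, 0⟩, 0⟩ 0 0) (.pos 20 .mm ⟨0, 0, 0, 0, 0, 7058437, 0, 0, 0, ⟨0, 0⟩, 0⟩ 0 0)) (.cut .s 5931008 (.cut .d (-262144) (.cut .d (-393216) (.void 21 ⟨0, 0, 0, 0, 0, 100000, 0, 0, 0, ⟨0, 0⟩, 0⟩ 0 0) (.cut .d (-327680) (.pos 21 .mm ⟨0, 0, 0, 0, 0, 6500485, 0, 0, 0, ⟨0, 0⟩, 0⟩ 0 0) (.cut .v 16515072 (.pos 24 .mm ⟨0, 0, 0, 0, 0, 6300452, 0, 0, 0, ⟨0, 0⟩, 0⟩ 0 0) (.cut .s 5881856 (.pos 25 .mm ⟨0, 0, 0, 0, 0, 6022394, 0, 0, 0, ⟨0, 0⟩, 0⟩ 0 0) (.pos 25 .mm ⟨0, 0, 0, 0, 0, 6461861, 0, 0, 0, ⟨0, 0⟩, 0⟩ 0 0)))))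 (.cut .s 5881856 (.cut .v 16515072 (.cut .s 5857280 (.pos 24 .mm ⟨0, 0, 0, 0, 0, 5711484, 0, 0, 0, ⟨0, 0⟩, 0⟩ 0 0) (.pos 24 .mm ⟨0, 0, 0, 0, 0, 5920428, 0, 0, 0, ⟨0, 0⟩, 0⟩ 0 0)) (.cut .l 671088 (.cut .d (-131072) (.pos 25 .mm ⟨0, 0, 0, 0, 0, 5980182, 0, 0, 0, ⟨0, 0⟩, 0⟩ 0 0) (.cut .s 5857280 (.pos 25 .mm ⟨0, 0, 0, 0, 0, 5746531, 0, 0, 0, ⟨0, 0⟩, 0⟩ 0 0) (.pos 25 .mm ⟨0, 0, 0, 0, 0, 5967361, 0, 0, 0, ⟨0, 0⟩, 0⟩ 0 0))) (.pos 25 .mm ⟨0, 0, 0, 0, 0, 5553747, 0, 0, 0, ⟨0, 0⟩, 0⟩ 0 0))) (.cut .v 16515072 (.cut .s 5906432 (.pos 24 .mm ⟨0, 0, 0, 0, 0, 6140721, 0, 0, 0, ⟨0, 0⟩, 0⟩ 0 0) (.pos 24 .mm ⟨0, 0, 0, 0, 0, 6369512, 0, 0, 0, ⟨0, 0⟩, 0⟩ 0 0)) (.cut .l 671088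 (.cut .d (-131072) (.pos 25 .mm ⟨0, 0, 0, 0, 0, 6436734, 0, 0, 0, ⟨0, 0⟩, 0⟩ 0 0) (.cut .s 5906432 (.pos 25 .mm ⟨0, 0, 0, 0, 0, 6192867, 0, 0, 0, ⟨0, 0⟩, 0⟩ 0 0) (.pos 25 .mm ⟨0, 0, 0, 0, 0, 6423061, 0, 0, 0, ⟨0, 0⟩, 0⟩ 0 0))) (.pos 25 .mm ⟨0, 0, 0, 0, 0, 6053398, 0, 0, 0, ⟨0, 0⟩, 0⟩ 0 0))))) (.cut .d (-262144) (.cut .d (-393216) (.void 21 ⟨0, 0, 0, 0, 0, 100000, 0, 0, 0, ⟨0, 0⟩, 0⟩ 0 0) (.cut .d (-327680) (.pos 21 .mm ⟨0, 0, 0, 0, 0, 8272536, 0, 0, 0, ⟨0, 0⟩, 0⟩ 0 0) (.cut .l 671088 (.void 21 ⟨0, 0, 0, 0, 0, 100000, 0, 0, 0, ⟨0, 0⟩, 0⟩ 0 0) (.cut .v 16515072 (.pos 24 .mm ⟨0, 0, 0, 0, 0, 7100388, 0, 0, 0, ⟨0, 0⟩, 0⟩ 0 0) (.cut .s 5980160 (.pos 25 .mm ⟨0, 0,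 0, 0, 0, 6822241, 0, 0, 0, ⟨0, 0⟩, 0⟩ 0 0) (.pos 25 .mm ⟨0, 0, 0, 0, 0, 7306037, 0, 0, 0, ⟨0, 0⟩, 0⟩ 0 0)))))) (.cut .s 5980160 (.cut .v 16515072 (.cut .s 5955584 (.pos 24 .mm ⟨0, 0, 0, 0, 0, 6602982, 0, 0, 0, ⟨0, 0⟩, 0⟩ 0 0) (.pos 24 .mm ⟨0, 0, 0, 0, 0, 6841142, 0, 0, 0, ⟨0, 0⟩, 0⟩ 0 0)) (.cut .l 671088 (.cut .d (-131072) (.cut .s 5955584 (.pos 25 .mm ⟨0, 0, 0, 0, 0, 6738824, 0, 0, 0, ⟨0, 0⟩, 0⟩ 0 0) (.pos 25 .mm ⟨0, 0, 0, 0, 0, 6980157, 0, 0, 0, ⟨0, 0⟩, 0⟩ 0 0)) (.cut .s 5955584 (.pos 25 .mm ⟨0, 0, 0, 0, 0, 6657955, 0, 0, 0, ⟨0, 0⟩, 0⟩ 0 0) (.cut .s 5967872 (.pos 25 .mm ⟨0, 0, 0, 0, 0, 6848486, 0, 0, 0, ⟨0, 0⟩, 0⟩ 0 0) (.pos 25 .mm ⟨0, 0, 0, 0, 0, 6969560,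 0, 0, 0, ⟨0, 0⟩, 0⟩ 0 0)))) (.cut .s 5955584 (.pos 25 .mm ⟨0, 0, 0, 0, 0, 6391887, 0, 0, 0, ⟨0, 0⟩, 0⟩ 0 0) (.pos 25 .mm ⟨0, 0, 0, 0, 0, 6632946, 0, 0, 0, ⟨0, 0⟩, 0⟩ 0 0)))) (.cut .v 16515072 (.cut .s 6004736 (.pos 24 .mm ⟨0, 0, 0, 0, 0, 7084004, 0, 0, 0, ⟨0, 0⟩, 0⟩ 0 0) (.pos 24 .mm ⟨0, 0, 0, 0, 0, 7331578, 0, 0, 0, ⟨0, 0⟩, 0⟩ 0 0)) (.cut .l 671088 (.cut .d (-131072) (.cut .s 6004736 (.pos 25 .mm ⟨0, 0, 0, 0, 0, 7226210, 0, 0, 0, ⟨0, 0⟩, 0⟩ 0 0) (.cut .s 6017024 (.pos 25 .mm ⟨0, 0, 0, 0, 0, 7382807, 0, 0, 0, ⟨0, 0⟩, 0⟩ 0 0) (.pos 25 .mm ⟨0, 0, 0, 0, 0, 7509053, 0, 0, 0, ⟨0, 0⟩, 0⟩ 0 0))) (.cut .d (-65536) (.cut .v 16646144 (.pos 28 .mm ⟨0, 0, 0, 0, 0, 7261459,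 0, 0, 0, ⟨0, 0⟩, 0⟩ 0 0) (.cut .s 6004736 (.pos 29 .mm ⟨0, 0, 0, 0, 0, 7168434, 0, 0, 0, ⟨0, 0⟩, 0⟩ 0 0) (.pos 29 .mm ⟨0, 0, 0, 0, 0, 7418114, 0, 0, 0, ⟨0, 0⟩, 0⟩ 0 0))) (.pos 25 .mm ⟨0, 0, 0, 0, 0, 7122488, 0, 0, 0, ⟨0, 0⟩, 0⟩ 0 0))) (.cut .s 6004736 (.pos 25 .mm ⟨0, 0, 0, 0, 0, 6877761, 0, 0, 0, ⟨0, 0⟩, 0⟩ 0 0) (.cut .s 6017024 (.pos 25 .mm ⟨0, 0, 0, 0, 0, 7050365, 0, 0, 0, ⟨0, 0⟩, 0⟩ 0 0) (.pos 25 .mm ⟨0, 0, 0, 0, 0, 7178996, 0, 0, 0, ⟨0, 0⟩, 0⟩ 0 0)))))))))))))))))))) (.cut .v 25165824 (.cut .v 20971520 (.cut .d (-8388608) (.void 33 ⟨0, 0, 0, 0, 0, 100000, 0, 0, 0, ⟨0, 0⟩, 0⟩ 0 0) (.cut .d (-4194304) (.void 33 ⟨0, 0, 0, 0, 0, 100000, 0, 0, 0, ⟨0, 0⟩, 0⟩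 0 0) (.cut .d (-2097152) (.void 33 ⟨0, 0, 0, 0, 0, 100000, 0, 0, 0, ⟨0, 0⟩, 0⟩ 0 0) (.cut .d (-1048576) (.void 33 ⟨0, 0, 0, 0, 0, 100000, 0, 0, 0, ⟨0, 0⟩, 0⟩ 0 0) (.cut .d (-524288) (.void 33 ⟨0, 0, 0, 0, 0, 100000, 0, 0, 0, ⟨0, 0⟩, 0⟩ 0 0) (.cut .v 18874368 (.cut .v 17825792 (.cut .v 17301504 (.cut .s 5636096 (.cut .s 5439488 (.pos 39 .mp ⟨0, 0, 0, 0, 0, 2169593, 0, 0, 0, ⟨0, 0⟩, 0⟩ 0 0) (.cut .s 5537792 (.pos 39 .mp ⟨0, 0, 0, 0, 0, 3051773, 0, 0, 0, ⟨0, 0⟩, 0⟩ 0 0) (.pos 39 .mp ⟨0, 0, 0, 0, 0, 3711977, 0, 0, 0, ⟨0, 0⟩, 0⟩ 0 0))) (.cut .s 5832704 (.cut .d (-262144) (.pos 39 .mp ⟨0, 0, 0, 0, 0, 5494520, 0, 0, 0, ⟨0, 0⟩, 0⟩ 0 0) (.cut .s 5734400 (.pos 39 .mp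 ⟨0, 0, 0, 0, 0, 4332592, 0, 0, 0, ⟨0, 0⟩, 0⟩ 0 0) (.cut .s 5783552 (.pos 39 .mp ⟨0, 0, 0, 0, 0, 5010197, 0, 0, 0, ⟨0, 0⟩, 0⟩ 0 0) (.pos 39 .mp ⟨0, 0, 0, 0, 0, 5420198, 0, 0, 0, ⟨0, 0⟩, 0⟩ 0 0)))) (.cut .v 17039360 (.cut .d (-262144) (.cut .s 5931008 (.pos 41 .mp ⟨0, 0, 0, 0, 0, 6507717, 0, 0, 0, ⟨0, 0⟩, 0⟩ 0 0) (.pos 41 .mp ⟨0, 0, 0, 0, 0, 7456283, 0, 0, 0, ⟨0, 0⟩, 0⟩ 0 0)) (.cut .s 5931008 (.cut .v 16908288 (.cut .l 671088 (.cut .s 5881856 (.pos 43 .mp ⟨0, 0, 0, 0, 0, 5896577, 0, 0, 0, ⟨0, 0⟩, 0⟩ 0 0) (.cut .s 5906432 (.pos 43 .mp ⟨0, 0, 0, 0, 0, 6273167, 0, 0, 0, ⟨0, 0⟩, 0⟩ 0 0) (.pos 43 .mp ⟨0, 0, 0, 0, 0, 6507094, 0, 0, 0, ⟨0, 0⟩, 0⟩ 0 0))) (.pos 43 .mp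 ⟨0, 0, 0, 0, 0, 5735522, 0, 0, 0, ⟨0, 0⟩, 0⟩ 0 0)) (.pos 44 .mp ⟨849017, 0, 0, 0, 0, 5236944, 0, 0, 0, ⟨0, 0⟩, 0⟩ 0 0)) (.cut .s 5980160 (.cut .v 16908288 (.cut .l 671088 (.cut .s 5955584 (.pos 43 .mp ⟨0, 0, 0, 0, 0, 6745581, 0, 0, 0, ⟨0, 0⟩, 0⟩ 0 0) (.cut .s 5967872 (.pos 43 .mp ⟨0, 0, 0, 0, 0, 6941421, 0, 0, 0, ⟨0, 0⟩, 0⟩ 0 0) (.pos 43 .mp ⟨0, 0, 0, 0, 0, 7059455, 0, 0, 0, ⟨0, 0⟩, 0⟩ 0 0))) (.pos 43 .mp ⟨0, 0, 0, 0, 0, 6415948, 0, 0, 0, ⟨0, 0⟩, 0⟩ 0 0)) (.pos 44 .mp ⟨2155133, 0, 0, 0, 0, 4864553, 0, 0, 0, ⟨0, 0⟩, 0⟩ 0 0)) (.cut .v 16908288 (.cut .l 671088 (.cut .d (-131072) (.pos 43 .mp ⟨0, 0, 0, 0, 0, 7435405, 0, 0, 0, ⟨0, 0⟩, 0⟩ 0 0) (.cut .s 6004736 (.pos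 43 .mp ⟨0, 0, 0, 0, 0, 7143307, 0, 0, 0, ⟨0, 0⟩, 0⟩ 0 0) (.pos 43 .mp ⟨0, 0, 0, 0, 0, 7394441, 0, 0, 0, ⟨0, 0⟩, 0⟩ 0 0))) (.pos 43 .mp ⟨0, 0, 0, 0, 0, 6964640, 0, 0, 0, ⟨0, 0⟩, 0⟩ 0 0)) (.pos 44 .mp ⟨1784718, 0, 0, 0, 0, 5679287, 0, 0, 0, ⟨0, 0⟩, 0⟩ 0 0))))) (.pos 42 .mp ⟨7943657, 0, 0, 0, 0, 219930, 0, 0, 0, ⟨0, 0⟩, 0⟩ 0 0)))) (.pos 40 .mp ⟨6649554, 0, 0, 0, 0, 0, 0, 0, 0, ⟨0, 0⟩, 0⟩ 0 0)) (.pos 38 .mp ⟨6957580, 0, 0, 0, 0, 0, 0, 0, 0, ⟨0, 0⟩, 0⟩ 0 0)) (.void 36 ⟨100000, 0, 0, 0, 0, 0, 0, 0, 0, ⟨0, 0⟩, 0⟩ 0 0))))))) (.void 34 ⟨100000, 0, 0, 0, 0, 0, 0, 0, 0, ⟨0, 0⟩, 0⟩ 0 0)) (.void 32 ⟨100000, 0, 0, 0, 0, 0, 0, 0, 0, ⟨0, 0⟩, 0⟩ 0 0))) (.cut .v 16777216 (.cut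 .d 6361815 (.cut .v 8388608 (.cut .v 4194304 (.void 4 ⟨0, 0, 50000, 0, 50000, 0, 0, 0, 0, ⟨0, 0⟩, 0⟩ 0 0) (.void 5 ⟨0, 0, 0, 0, 0, 0, 0, 0, 100000, ⟨0, 0⟩, 9975792⟩ 0 0)) (.cut .v 12582912 (.pos 8 .pm ⟨0, 0, 0, 0, 0, 0, 0, 0, 0, ⟨0, 0⟩, 0⟩ 0 0) (.cut .v 14680064 (.pos 12 .pm ⟨0, 0, 0, 0, 0, 0, 0, 0, 0, ⟨0, 0⟩, 0⟩ 0 0) (.cut .v 15728640 (.pos 16 .pm ⟨0, 0, 0, 0, 0, 0, 0, 0, 0, ⟨0, 0⟩, 0⟩ 0 0) (.cut .v 16252928 (.pos 20 .pm ⟨0, 0, 0, 0, 0, 0, 0, 0, 0, ⟨0, 0⟩, 0⟩ 0 0) (.pos 21 .pm ⟨0, 0, 0, 0, 0, 0, 0, 0, 0, ⟨0, 0⟩, 0⟩ 0 0)))))) (.void 1 ⟨0, 0, 0, 0, 0, 0, 0, 100000, 0, ⟨4095183, 1040064⟩, 0⟩ 110 162)) (.cut .d 6361815 (.cut .v 25165824 (.cut .d 3180907 (.cut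 .v 20971520 (.cut .v 18874368 (.cut .d 1590453 (.pos 35 .pp ⟨0, 0, 0, 0, 0, 0, 0, 186205, 0, ⟨2426106, 5082599⟩, 0⟩ 80 101) (.pos 35 .pp ⟨0, 0, 0, 0, 0, 0, 0, 1025115, 0, ⟨2816119, 4016795⟩, 0⟩ 87 110)) (.pos 36 .pp ⟨0, 0, 0, 0, 0, 0, 0, 1064543, 0, ⟨2607307, 4502758⟩, 0⟩ 80 110)) (.pos 34 .pp ⟨0, 0, 0, 0, 0, 0, 395144, 0, 0, ⟨0, 0⟩, 0⟩ 0 0)) (.pos 31 .pp ⟨0, 0, 0, 0, 0, 0, 0, 25900234, 0, ⟨3344555, 2673872⟩, 0⟩ 95 127)) (.pos 32 .pp ⟨0, 0, 0, 0, 0, 0, 26562790, 0, 0, ⟨0, 0⟩, 0⟩ 0 0)) (.void 30 ⟨0, 0, 0, 0, 0, 0, 0, 100000, 0, ⟨4095183, 1040064⟩, 0⟩ 110 162)))),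
    by decide +kernel⟩

def covers6 : cell.Covers table row6.1 :=
  ⟨(.cut .d 0 (.cut .v 16777216 (.cut .d (-8388608) (.void 1 ⟨0, 0, 0, 0, 0, 100000, 0, 0, 0, ⟨0, 0⟩, 0⟩ 0 0) (.cut .d (-4194304) (.void 1 ⟨0, 0, 0, 0, 0, 100000, 0, 0, 0, ⟨0, 0⟩, 0⟩ 0 0) (.cut .d (-2097152) (.void 1 ⟨0, 0, 0, 0, 0, 100000, 0, 0, 0, ⟨0, 0⟩, 0⟩ 0 0) (.cut .d (-1048576) (.void 1 ⟨0, 0, 0, 0, 0, 100000, 0, 0, 0, ⟨0, 0⟩, 0⟩ 0 0) (.cut .d (-524288) (.void 1 ⟨0, 0, 0, 0, 0, 100000, 0, 0, 0, ⟨0, 0⟩, 0⟩ 0 0) (.cut .v 8388608 (.cut .v 4194304 (.void 4 ⟨0, 0, 100000, 0, 0, 0, 0, 0, 0, ⟨0, 0⟩, 0⟩ 0 0) (.pos 5 .mm ⟨0, 0, 0, 0, 0, 15222978, 0, 0, 0, ⟨0, 0⟩, 0⟩ 0 0)) (.cut .v 12582912 (.pos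 8 .mm ⟨0, 0, 0, 0, 0, 11716760, 0, 0, 0, ⟨0, 0⟩, 0⟩ 0 0) (.cut .v 14680064 (.pos 12 .mm ⟨0, 0, 0, 0, 0, 12493258, 0, 0, 0, ⟨0, 0⟩, 0⟩ 0 0) (.cut .s 6422528 (.cut .v 15728640 (.pos 16 .mm ⟨0, 0, 0, 0, 0, 10215589, 0, 0, 0, ⟨0, 0⟩, 0⟩ 0 0) (.cut .s 6225920 (.cut .s 6127616 (.cut .v 16252928 (.pos 20 .mm ⟨0, 0, 0, 0, 0, 8097766, 0, 0, 0, ⟨0, 0⟩, 0⟩ 0 0) (.cut .d (-262144) (.cut .d (-393216) (.void 21 ⟨0, 0, 0, 0, 0, 100000, 0, 0, 0, ⟨0, 0⟩, 0⟩ 0 0) (.cut .l 671088 (.void 21 ⟨0, 0, 0, 0, 0, 100000, 0, 0, 0, ⟨0, 0⟩, 0⟩ 0 0) (.cut .s 6078464 (.cut .v 16515072 (.pos 24 .mm ⟨0, 0, 0, 0, 0, 7704975, 0, 0, 0, ⟨0, 0⟩, 0⟩ 0 0) (.pos 25 .mm ⟨0, 0, 0, 0, 0, 7723482, 0, 0,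 0, ⟨0, 0⟩, 0⟩ 0 0)) (.pos 21 .mm ⟨0, 0, 0, 0, 0, 8342836, 0, 0, 0, ⟨0, 0⟩, 0⟩ 0 0)))) (.cut .s 6078464 (.cut .v 16515072 (.pos 24 .mm ⟨0, 0, 0, 0, 0, 7691587, 0, 0, 0, ⟨0, 0⟩, 0⟩ 0 0) (.cut .l 671088 (.cut .d (-131072) (.cut .s 6053888 (.cut .s 6041600 (.cut .s 6035456 (.pos 25 .mm ⟨0, 0, 0, 0, 0, 7585848, 0, 0, 0, ⟨0, 0⟩, 0⟩ 0 0) (.pos 25 .mm ⟨0, 0, 0, 0, 0, 7657549, 0, 0, 0, ⟨0, 0⟩, 0⟩ 0 0)) (.pos 25 .mm ⟨0, 0, 0, 0, 0, 7771932, 0, 0, 0, ⟨0, 0⟩, 0⟩ 0 0)) (.pos 25 .mm ⟨0, 0, 0, 0, 0, 8006437, 0, 0, 0, ⟨0, 0⟩, 0⟩ 0 0)) (.cut .d (-65536) (.cut .s 6053888 (.cut .l 432675 (.pos 25 .mm ⟨0, 0, 0, 0, 0, 7701735, 0, 0, 0, ⟨0, 0⟩, 0⟩ 0 0) (.pos 25 .mm ⟨0, 0, 0, 0,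 0, 7537998, 0, 0, 0, ⟨0, 0⟩, 0⟩ 0 0)) (.pos 25 .mm ⟨0, 0, 0, 0, 0, 7940404, 0, 0, 0, ⟨0, 0⟩, 0⟩ 0 0)) (.pos 25 .mm ⟨0, 0, 0, 0, 0, 7576394, 0, 0, 0, ⟨0, 0⟩, 0⟩ 0 0))) (.cut .s 6053888 (.cut .d (-131072) (.pos 25 .mm ⟨0, 0, 0, 0, 0, 7537998, 0, 0, 0, ⟨0, 0⟩, 0⟩ 0 0) (.pos 25 .mm ⟨0, 0, 0, 0, 0, 0, 0, 0, 0, ⟨0, 0⟩, 0⟩ 0 0)) (.pos 25 .mm ⟨0, 0, 0, 0, 0, 7628583, 0, 0, 0, ⟨0, 0⟩, 0⟩ 0 0)))) (.cut .v 16515072 (.pos 24 .mm ⟨0, 0, 0, 0, 0, 8290764, 0, 0, 0, ⟨0, 0⟩, 0⟩ 0 0) (.cut .l 671088 (.cut .v 16646144 (.pos 28 .mm ⟨0, 0, 0, 0, 0, 8406088, 0, 0, 0, ⟨0, 0⟩, 0⟩ 0 0) (.cut .d (-131072) (.cut .s 6103040 (.pos 29 .mm ⟨0, 0, 0, 0, 0, 8317861, 0, 0, 0, ⟨0, 0⟩, 0⟩ 0 0)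 (.pos 29 .mm ⟨0, 0, 0, 0, 0, 8648863, 0, 0, 0, ⟨0, 0⟩, 0⟩ 0 0)) (.cut .s 6103040 (.pos 29 .mm ⟨0, 0, 0, 0, 0, 8225954, 0, 0, 0, ⟨0, 0⟩, 0⟩ 0 0) (.pos 29 .mm ⟨0, 0, 0, 0, 0, 8535710, 0, 0, 0, ⟨0, 0⟩, 0⟩ 0 0)))) (.pos 25 .mm ⟨0, 0, 0, 0, 0, 8046415, 0, 0, 0, ⟨0, 0⟩, 0⟩ 0 0)))))) (.cut .v 16252928 (.pos 20 .mm ⟨0, 0, 0, 0, 0, 9394306, 0, 0, 0, ⟨0, 0⟩, 0⟩ 0 0) (.cut .d (-262144) (.cut .s 6176768 (.pos 21 .mm ⟨0, 0, 0, 0, 0, 9167323, 0, 0, 0, ⟨0, 0⟩, 0⟩ 0 0) (.pos 21 .mm ⟨0, 0, 0, 0, 0, 9916202, 0, 0, 0, ⟨0, 0⟩, 0⟩ 0 0)) (.cut .s 6176768 (.cut .v 16515072 (.pos 24 .mm ⟨0, 0, 0, 0, 0, 8920054, 0, 0, 0, ⟨0, 0⟩, 0⟩ 0 0) (.cut .l 671088 (.cut .d (-131072) (.pos 25 .mm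 ⟨0, 0, 0, 0, 0, 9177020, 0, 0, 0, ⟨0, 0⟩, 0⟩ 0 0) (.cut .s 6152192 (.pos 25 .mm ⟨0, 0, 0, 0, 0, 8853094, 0, 0, 0, ⟨0, 0⟩, 0⟩ 0 0) (.pos 25 .mm ⟨0, 0, 0, 0, 0, 9177117, 0, 0, 0, ⟨0, 0⟩, 0⟩ 0 0))) (.pos 25 .mm ⟨0, 0, 0, 0, 0, 8669707, 0, 0, 0, ⟨0, 0⟩, 0⟩ 0 0))) (.cut .s 6201344 (.cut .s 6189056 (.pos 21 .mm ⟨0, 0, 0, 0, 0, 9506214, 0, 0, 0, ⟨0, 0⟩, 0⟩ 0 0) (.pos 21 .mm ⟨0, 0, 0, 0, 0, 9672567, 0, 0, 0, ⟨0, 0⟩, 0⟩ 0 0)) (.pos 21 .mm ⟨0, 0, 0, 0, 0, 9872531, 0, 0, 0, ⟨0, 0⟩, 0⟩ 0 0)))))) (.cut .s 6324224 (.cut .d (-262144) (.pos 17 .mm ⟨0, 0, 0, 0, 0, 11260897, 0, 0, 0, ⟨0, 0⟩, 0⟩ 0 0) (.cut .v 16252928 (.pos 20 .mm ⟨0, 0, 0, 0, 0, 10462698, 0, 0, 0, ⟨0, 0⟩, 0⟩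 0 0) (.cut .v 16515072 (.pos 24 .mm ⟨0, 0, 0, 0, 0, 10541539, 0, 0, 0, ⟨0, 0⟩, 0⟩ 0 0) (.cut .s 6275072 (.cut .s 6250496 (.pos 25 .mm ⟨0, 0, 0, 0, 0, 10215968, 0, 0, 0, ⟨0, 0⟩, 0⟩ 0 0) (.pos 25 .mm ⟨0, 0, 0, 0, 0, 10567067, 0, 0, 0, ⟨0, 0⟩, 0⟩ 0 0)) (.cut .s 6299648 (.pos 25 .mm ⟨0, 0, 0, 0, 0, 10925849, 0, 0, 0, ⟨0, 0⟩, 0⟩ 0 0) (.pos 25 .mm ⟨0, 0, 0, 0, 0, 11292331, 0, 0, 0, ⟨0, 0⟩, 0⟩ 0 0)))))) (.cut .d (-262144) (.pos 17 .mm ⟨0, 0, 0, 0, 0, 12931881, 0, 0, 0, ⟨0, 0⟩, 0⟩ 0 0) (.cut .v 16252928 (.pos 20 .mm ⟨0, 0, 0, 0, 0, 11919998, 0, 0, 0, ⟨0, 0⟩, 0⟩ 0 0) (.cut .v 16515072 (.pos 24 .mm ⟨0, 0, 0, 0, 0, 12006415, 0, 0, 0, ⟨0, 0⟩, 0⟩ 0 0) (.cut .s 6373376 (.cut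 .s 6348800 (.pos 25 .mm ⟨0, 0, 0, 0, 0, 11666533, 0, 0, 0, ⟨0, 0⟩, 0⟩ 0 0) (.pos 25 .mm ⟨0, 0, 0, 0, 0, 12048473, 0, 0, 0, ⟨0, 0⟩, 0⟩ 0 0)) (.cut .s 6397952 (.pos 25 .mm ⟨0, 0, 0, 0, 0, 12438169, 0, 0, 0, ⟨0, 0⟩, 0⟩ 0 0) (.pos 25 .mm ⟨0, 0, 0, 0, 0, 12835639, 0, 0, 0, ⟨0, 0⟩, 0⟩ 0 0))))))))) (.cut .v 15728640 (.pos 16 .mm ⟨0, 0, 0, 0, 0, 16294060, 0, 0, 0, ⟨0, 0⟩, 0⟩ 0 0) (.cut .d (-262144) (.cut .s 6619136 (.pos 17 .mm ⟨0, 0, 0, 0, 0, 16232909, 0, 0, 0, ⟨0, 0⟩, 0⟩ 0 0) (.pos 17 .mm ⟨0, 0, 0, 0, 0, 20447086, 0, 0, 0, ⟨0, 0⟩, 0⟩ 0 0)) (.cut .s 6619136 (.cut .v 16252928 (.pos 20 .mm ⟨0, 0, 0, 0, 0, 14024739, 0, 0, 0, ⟨0, 0⟩, 0⟩ 0 0) (.cut .s 6520832 (.cut .v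 16515072 (.pos 24 .mm ⟨0, 0, 0, 0, 0, 13592089, 0, 0, 0, ⟨0, 0⟩, 0⟩ 0 0) (.cut .s 6471680 (.cut .s 6447104 (.pos 25 .mm ⟨0, 0, 0, 0, 0, 13240177, 0, 0, 0, ⟨0, 0⟩, 0⟩ 0 0) (.pos 25 .mm ⟨0, 0, 0, 0, 0, 13638747, 0, 0, 0, ⟨0, 0⟩, 0⟩ 0 0)) (.cut .s 6496256 (.pos 25 .mm ⟨0, 0, 0, 0, 0, 14044402, 0, 0, 0, ⟨0, 0⟩, 0⟩ 0 0) (.pos 25 .mm ⟨0, 0, 0, 0, 0, 14457062, 0, 0, 0, ⟨0, 0⟩, 0⟩ 0 0)))) (.cut .v 16515072 (.pos 24 .mm ⟨0, 0, 0, 0, 0, 15297919, 0, 0, 0, ⟨0, 0⟩, 0⟩ 0 0) (.cut .s 6569984 (.cut .s 6545408 (.pos 25 .mm ⟨0, 0, 0, 0, 0, 14876648, 0, 0, 0, ⟨0, 0⟩, 0⟩ 0 0) (.pos 25 .mm ⟨0, 0, 0, 0, 0, 15303082, 0, 0, 0, ⟨0, 0⟩, 0⟩ 0 0)) (.cut .s 6594560 (.pos 25 .mm ⟨0, 0,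 0, 0, 0, 15736289, 0, 0, 0, ⟨0, 0⟩, 0⟩ 0 0) (.pos 25 .mm ⟨0, 0, 0, 0, 0, 16176192, 0, 0, 0, ⟨0, 0⟩, 0⟩ 0 0)))))) (.cut .v 16252928 (.pos 20 .mm ⟨0, 0, 0, 0, 0, 17565295, 0, 0, 0, ⟨0, 0⟩, 0⟩ 0 0) (.cut .s 6717440 (.cut .s 6668288 (.pos 21 .mm ⟨0, 0, 0, 0, 0, 16927117, 0, 0, 0, ⟨0, 0⟩, 0⟩ 0 0) (.pos 21 .mm ⟨0, 0, 0, 0, 0, 17893811, 0, 0, 0, ⟨0, 0⟩, 0⟩ 0 0)) (.cut .s 6766592 (.pos 21 .mm ⟨0, 0, 0, 0, 0, 18890801, 0, 0, 0, ⟨0, 0⟩, 0⟩ 0 0) (.pos 21 .mm ⟨0, 0, 0, 0, 0, 19910701, 0, 0, 0, ⟨0, 0⟩, 0⟩ 0 0)))))))))))))))) (.cut .v 33554432 (.cut .v 25165824 (.cut .v 20971520 (.cut .v 18874368 (.cut .v 17825792 (.cut .d (-8388608) (.void 37 ⟨0, 0, 0, 0, 0, 100000, 0,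 0, 0, ⟨0, 0⟩, 0⟩ 0 0) (.cut .d (-4194304) (.void 37 ⟨0, 0, 0, 0, 0, 100000, 0, 0, 0, ⟨0, 0⟩, 0⟩ 0 0) (.cut .d (-2097152) (.void 37 ⟨0, 0, 0, 0, 0, 100000, 0, 0, 0, ⟨0, 0⟩, 0⟩ 0 0) (.cut .d (-1048576) (.void 37 ⟨0, 0, 0, 0, 0, 100000, 0, 0, 0, ⟨0, 0⟩, 0⟩ 0 0) (.cut .d (-524288) (.void 37 ⟨0, 0, 0, 0, 0, 100000, 0, 0, 0, ⟨0, 0⟩, 0⟩ 0 0) (.cut .s 6422528 (.cut .v 17301504 (.cut .s 6225920 (.cut .s 6127616 (.cut .v 17039360 (.cut .d (-262144) (.cut .s 6078464 (.pos 41 .mp ⟨0, 0, 0, 0, 0, 7988570, 0, 0, 0, ⟨0, 0⟩, 0⟩ 0 0) (.pos 41 .mp ⟨0, 0, 0, 0, 0, 8627605, 0, 0, 0, ⟨0, 0⟩, 0⟩ 0 0)) (.cut .s 6078464 (.cut .l 671088 (.cut .v 16908288 (.cut .d (-131072) (.cut .s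 6053888 (.pos 43 .mp ⟨0, 0, 0, 0, 0, 7717571, 0, 0, 0, ⟨0, 0⟩, 0⟩ 0 0) (.pos 43 .mp ⟨0, 0, 0, 0, 0, 8027081, 0, 0, 0, ⟨0, 0⟩, 0⟩ 0 0)) (.cut .d (-65536) (.cut .s 6053888 (.cut .s 6041600 (.pos 43 .mp ⟨0, 0, 0, 0, 0, 7612160, 0, 0, 0, ⟨0, 0⟩, 0⟩ 0 0) (.pos 43 .mp ⟨0, 0, 0, 0, 0, 7762953, 0, 0, 0, ⟨0, 0⟩, 0⟩ 0 0)) (.pos 43 .mp ⟨0, 0, 0, 0, 0, 7952385, 0, 0, 0, ⟨0, 0⟩, 0⟩ 0 0)) (.pos 43 .mp ⟨0, 0, 0, 0, 0, 7621291, 0, 0, 0, ⟨0, 0⟩, 0⟩ 0 0))) (.pos 44 .mp ⟨1902911, 0, 0, 0, 0, 6189848, 0, 0, 0, ⟨0, 0⟩, 0⟩ 0 0)) (.pos 41 .mp ⟨0, 0, 0, 0, 0, 7384339, 0, 0, 0, ⟨0, 0⟩, 0⟩ 0 0)) (.cut .l 671088 (.cut .v 16908288 (.cut .d (-131072) (.pos 43 .mp ⟨0, 0, 0, 0, 0, 8531036,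 0, 0, 0, ⟨0, 0⟩, 0⟩ 0 0) (.cut .s 6103040 (.pos 43 .mp ⟨0, 0, 0, 0, 0, 8231113, 0, 0, 0, ⟨0, 0⟩, 0⟩ 0 0) (.pos 43 .mp ⟨26412, 0, 0, 0, 0, 8517149, 0, 0, 0, ⟨0, 0⟩, 0⟩ 0 0))) (.pos 44 .mp ⟨2338810, 0, 0, 0, 0, 6444198, 0, 0, 0, ⟨0, 0⟩, 0⟩ 0 0)) (.pos 41 .mp ⟨0, 0, 0, 0, 0, 7995994, 0, 0, 0, ⟨0, 0⟩, 0⟩ 0 0)))) (.pos 42 .mp ⟨7079210, 0, 0, 0, 0, 2210563, 0, 0, 0, ⟨0, 0⟩, 0⟩ 0 0)) (.cut .d (-262144) (.pos 39 .mp ⟨0, 0, 0, 0, 0, 9899183, 0, 0, 0, ⟨0, 0⟩, 0⟩ 0 0) (.cut .v 17039360 (.cut .s 6176768 (.cut .l 671088 (.cut .d (-131072) (.pos 41 .mp ⟨0, 0, 0, 0, 0, 9252478, 0, 0, 0, ⟨0, 0⟩, 0⟩ 0 0) (.cut .v 16908288 (.cut .s 6152192 (.pos 43 .mp ⟨117957, 0, 0, 0, 0, 8752579,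 0, 0, 0, ⟨0, 0⟩, 0⟩ 0 0) (.pos 43 .mp ⟨209046, 0, 0, 0, 0, 8995769, 0, 0, 0, ⟨0, 0⟩, 0⟩ 0 0)) (.pos 44 .mp ⟨9748609, 0, 0, 0, 0, 0, 0, 0, 0, ⟨0, 0⟩, 0⟩ 0 0))) (.pos 41 .mp ⟨0, 0, 0, 0, 0, 8625482, 0, 0, 0, ⟨0, 0⟩, 0⟩ 0 0)) (.cut .l 671088 (.cut .d (-131072) (.pos 41 .mp ⟨0, 0, 0, 0, 0, 9949387, 0, 0, 0, ⟨0, 0⟩, 0⟩ 0 0) (.cut .v 16908288 (.cut .l 432675 (.cut .d (-65536) (.cut .s 6201344 (.pos 43 .mp ⟨209689, 0, 0, 0, 0, 9420586, 0, 0, 0, ⟨0, 0⟩, 0⟩ 0 0) (.pos 43 .mp ⟨347935, 0, 0, 0, 0, 9641254, 0, 0, 0, ⟨0, 0⟩, 0⟩ 0 0)) (.pos 43 .mp ⟨640471, 0, 0, 0, 0, 8964504, 0, 0, 0, ⟨0, 0⟩, 0⟩ 0 0)) (.pos 43 .mp ⟨0, 0, 0, 0, 0, 9308806, 0, 0, 0, ⟨0, 0⟩, 0⟩ 0 0)) (.pos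 44 .mp ⟨10425163, 0, 0, 0, 0, 0, 0, 0, 0, ⟨0, 0⟩, 0⟩ 0 0))) (.pos 41 .mp ⟨0, 0, 0, 0, 0, 9288675, 0, 0, 0, ⟨0, 0⟩, 0⟩ 0 0))) (.pos 42 .mp ⟨10583612, 0, 0, 0, 0, 0, 0, 0, 0, ⟨0, 0⟩, 0⟩ 0 0)))) (.cut .d (-262144) (.cut .s 6324224 (.pos 39 .mp ⟨0, 0, 0, 0, 0, 11525632, 0, 0, 0, ⟨0, 0⟩, 0⟩ 0 0) (.pos 39 .mp ⟨0, 0, 0, 0, 0, 13186924, 0, 0, 0, ⟨0, 0⟩, 0⟩ 0 0)) (.cut .v 17039360 (.cut .s 6324224 (.cut .s 6275072 (.cut .l 671088 (.cut .d (-131072) (.cut .s 6250496 (.pos 41 .mp ⟨0, 0, 0, 0, 0, 10446890, 0, 0, 0, ⟨0, 0⟩, 0⟩ 0 0) (.pos 41 .mp ⟨0, 0, 0, 0, 0, 10842831, 0, 0, 0, ⟨0, 0⟩, 0⟩ 0 0)) (.cut .v 16908288 (.cut .l 432675 (.cut .s 6250496 (.cut .s 6238208 (.pos 43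 .mp ⟨714520, 0, 0, 0, 0, 9540082, 0, 0, 0, ⟨0, 0⟩, 0⟩ 0 0) (.pos 43 .mp ⟨789054, 0, 0, 0, 0, 9646496, 0, 0, 0, ⟨0, 0⟩, 0⟩ 0 0)) (.cut .s 6262784 (.pos 43 .mp ⟨864250, 0, 0, 0, 0, 9754005, 0, 0, 0, ⟨0, 0⟩, 0⟩ 0 0) (.pos 43 .mp ⟨940110, 0, 0, 0, 0, 9862614, 0, 0, 0, ⟨0, 0⟩, 0⟩ 0 0))) (.pos 43 .mp ⟨45711, 0, 0, 0, 0, 9972748, 0, 0, 0, ⟨0, 0⟩, 0⟩ 0 0)) (.pos 44 .mp ⟨11125895, 0, 0, 0, 0, 0, 0, 0, 0, ⟨0, 0⟩, 0⟩ 0 0))) (.pos 41 .mp ⟨0, 0, 0, 0, 0, 10009289, 0, 0, 0, ⟨0, 0⟩, 0⟩ 0 0)) (.cut .l 671088 (.cut .d (-131072) (.cut .s 6299648 (.pos 41 .mp ⟨0, 0, 0, 0, 0, 11247234, 0, 0, 0, ⟨0, 0⟩, 0⟩ 0 0) (.pos 41 .mp ⟨20786, 0, 0, 0, 0, 11636347, 0, 0, 0, ⟨0, 0⟩, 0⟩ 0 0))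 (.cut .v 16908288 (.cut .l 432675 (.cut .s 6299648 (.cut .s 6287360 (.pos 43 .mp ⟨1016635, 0, 0, 0, 0, 9972330, 0, 0, 0, ⟨0, 0⟩, 0⟩ 0 0) (.pos 43 .mp ⟨1093827, 0, 0, 0, 0, 10083157, 0, 0, 0, ⟨0, 0⟩, 0⟩ 0 0)) (.cut .s 6311936 (.pos 43 .mp ⟨1169275, 0, 0, 0, 0, 10197867, 0, 0, 0, ⟨0, 0⟩, 0⟩ 0 0) (.pos 43 .mp ⟨1228574, 0, 0, 0, 0, 10333030, 0, 0, 0, ⟨0, 0⟩, 0⟩ 0 0))) (.pos 43 .mp ⟨374523, 0, 0, 0, 0, 10442098, 0, 0, 0, ⟨0, 0⟩, 0⟩ 0 0)) (.pos 44 .mp ⟨11851018, 0, 0, 0, 0, 0, 0, 0, 0, ⟨0, 0⟩, 0⟩ 0 0))) (.pos 41 .mp ⟨0, 0, 0, 0, 0, 10719337, 0, 0, 0, ⟨0, 0⟩, 0⟩ 0 0))) (.cut .s 6373376 (.cut .l 671088 (.cut .d (-131072) (.cut .s 6348800 (.pos 41 .mp ⟨181839, 0, 0,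 0, 0, 11872690, 0, 0, 0, ⟨0, 0⟩, 0⟩ 0 0) (.pos 41 .mp ⟨345689, 0, 0, 0, 0, 12113538, 0, 0, 0, ⟨0, 0⟩, 0⟩ 0 0)) (.cut .v 16908288 (.cut .l 432675 (.cut .s 6348800 (.cut .s 6336512 (.pos 43 .mp ⟨1288386, 0, 0, 0, 0, 10469559, 0, 0, 0, ⟨0, 0⟩, 0⟩ 0 0) (.pos 43 .mp ⟨1348752, 0, 0, 0, 0, 10607419, 0, 0, 0, ⟨0, 0⟩, 0⟩ 0 0)) (.cut .s 6361088 (.pos 43 .mp ⟨1409708, 0, 0, 0, 0, 10746574, 0, 0, 0, ⟨0, 0⟩, 0⟩ 0 0) (.pos 43 .mp ⟨1471293, 0, 0, 0, 0, 10886986, 0, 0, 0, ⟨0, 0⟩, 0⟩ 0 0))) (.pos 43 .mp ⟨714855, 0, 0, 0, 0, 10925243, 0, 0, 0, ⟨0, 0⟩, 0⟩ 0 0)) (.pos 44 .mp ⟨12600752, 0, 0, 0, 0, 0, 0, 0, 0, ⟨0, 0⟩, 0⟩ 0 0))) (.pos 41 .mp ⟨175447, 0, 0, 0, 0, 11328593, 0, 0,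 0, ⟨0, 0⟩, 0⟩ 0 0)) (.cut .s 6397952 (.cut .l 671088 (.cut .d (-131072) (.pos 41 .mp ⟨512350, 0, 0, 0, 0, 12358932, 0, 0, 0, ⟨0, 0⟩, 0⟩ 0 0) (.cut .v 16908288 (.cut .l 432675 (.cut .s 6385664 (.pos 43 .mp ⟨1533546, 0, 0, 0, 0, 11028621, 0, 0, 0, ⟨0, 0⟩, 0⟩ 0 0) (.pos 43 .mp ⟨1596503, 0, 0, 0, 0, 11171441, 0, 0, 0, ⟨0, 0⟩, 0⟩ 0 0)) (.pos 43 .mp ⟨889375, 0, 0, 0, 0, 11457790, 0, 0, 0, ⟨0, 0⟩, 0⟩ 0 0)) (.pos 44 .mp ⟨13083040, 0, 0, 0, 0, 0, 0, 0, 0, ⟨0, 0⟩, 0⟩ 0 0))) (.pos 41 .mp ⟨370811, 0, 0, 0, 0, 11767532, 0, 0, 0, ⟨0, 0⟩, 0⟩ 0 0)) (.cut .l 671088 (.cut .d (-131072) (.pos 41 .mp ⟨681836, 0, 0, 0, 0, 12608918, 0, 0, 0, ⟨0, 0⟩, 0⟩ 0 0) (.cut .v 16908288 (.cut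 .l 432675 (.cut .d (-65536) (.cut .s 6410240 (.pos 43 .mp ⟨1546129, 0, 0, 0, 0, 11463744, 0, 0, 0, ⟨0, 0⟩, 0⟩ 0 0) (.pos 43 .mp ⟨1626541, 0, 0, 0, 0, 11593404, 0, 0, 0, ⟨0, 0⟩, 0⟩ 0 0)) (.pos 43 .mp ⟨1902886, 0, 0, 0, 0, 11088046, 0, 0, 0, ⟨0, 0⟩, 0⟩ 0 0)) (.pos 43 .mp ⟨1066816, 0, 0, 0, 0, 11719502, 0, 0, 0, ⟨0, 0⟩, 0⟩ 0 0)) (.pos 44 .mp ⟨13472417, 0, 0, 0, 0, 0, 0, 0, 0, ⟨0, 0⟩, 0⟩ 0 0))) (.pos 41 .mp ⟨569536, 0, 0, 0, 0, 12031207, 0, 0, 0, ⟨0, 0⟩, 0⟩ 0 0))))) (.pos 42 .mp ⟨13309980, 0, 0, 0, 0, 0, 0, 0, 0, ⟨0, 0⟩, 0⟩ 0 0)))) (.pos 40 .mp ⟨13440176, 0, 0, 0, 0, 0, 0, 0, 0, ⟨0, 0⟩, 0⟩ 0 0)) (.cut .v 17301504 (.cut .d (-262144) (.cut .s 6619136 (.cut .s 6520832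 (.pos 39 .mp ⟨0, 0, 0, 0, 0, 15102047, 0, 0, 0, ⟨0, 0⟩, 0⟩ 0 0) (.pos 39 .mp ⟨0, 0, 0, 0, 0, 17188310, 0, 0, 0, ⟨0, 0⟩, 0⟩ 0 0)) (.pos 39 .mp ⟨908858, 0, 0, 0, 0, 20755568, 0, 0, 0, ⟨0, 0⟩, 0⟩ 0 0)) (.cut .s 6619136 (.cut .v 17039360 (.cut .s 6520832 (.cut .s 6471680 (.cut .s 6447104 (.cut .l 671088 (.cut .d (-131072) (.cut .s 6434816 (.pos 41 .mp ⟨854159, 0, 0, 0, 0, 12700619, 0, 0, 0, ⟨0, 0⟩, 0⟩ 0 0) (.pos 41 .mp ⟨941389, 0, 0, 0, 0, 12827494, 0, 0, 0, ⟨0, 0⟩, 0⟩ 0 0)) (.cut .v 16908288 (.cut .l 432675 (.cut .s 6434816 (.cut .s 6428672 (.pos 43 .mp ⟨1889407, 0, 0, 0, 0, 11454666, 0, 0, 0, ⟨0, 0⟩, 0⟩ 0 0) (.pos 43 .mp ⟨1922560, 0, 0, 0, 0, 11527514, 0, 0,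 0, ⟨0, 0⟩, 0⟩ 0 0)) (.cut .s 6440960 (.pos 43 .mp ⟨1955930, 0, 0, 0, 0, 11600619, 0, 0, 0, ⟨0, 0⟩, 0⟩ 0 0) (.pos 43 .mp ⟨1989522, 0, 0, 0, 0, 11673976, 0, 0, 0, ⟨0, 0⟩, 0⟩ 0 0))) (.pos 43 .mp ⟨1247194, 0, 0, 0, 0, 11984946, 0, 0, 0, ⟨0, 0⟩, 0⟩ 0 0)) (.pos 44 .mp ⟨13868130, 0, 0, 0, 0, 0, 0, 0, 0, ⟨0, 0⟩, 0⟩ 0 0))) (.pos 41 .mp ⟨771638, 0, 0, 0, 0, 12298690, 0, 0, 0, ⟨0, 0⟩, 0⟩ 0 0)) (.cut .l 671088 (.cut .d (-131072) (.cut .s 6459392 (.pos 41 .mp ⟨1029333, 0, 0, 0, 0, 12955542, 0, 0, 0, ⟨0, 0⟩, 0⟩ 0 0) (.pos 41 .mp ⟨1117995, 0, 0, 0, 0, 13084768, 0, 0, 0, ⟨0, 0⟩, 0⟩ 0 0)) (.cut .v 16908288 (.cut .l 432675 (.cut .s 6459392 (.cut .s 6453248 (.pos 43 .mp ⟨2023340,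 0, 0, 0, 0, 11747580, 0, 0, 0, ⟨0, 0⟩, 0⟩ 0 0) (.pos 43 .mp ⟨2057390, 0, 0, 0, 0, 11821427, 0, 0, 0, ⟨0, 0⟩, 0⟩ 0 0)) (.cut .s 6465536 (.pos 43 .mp ⟨2091677, 0, 0, 0, 0, 11895511, 0, 0, 0, ⟨0, 0⟩, 0⟩ 0 0) (.pos 43 .mp ⟨2123909, 0, 0, 0, 0, 11972510, 0, 0, 0, ⟨0, 0⟩, 0⟩ 0 0))) (.pos 43 .mp ⟨1430521, 0, 0, 0, 0, 12248938, 0, 0, 0, ⟨0, 0⟩, 0⟩ 0 0)) (.pos 44 .mp ⟨14270212, 0, 0, 0, 0, 0, 0, 0, 0, ⟨0, 0⟩, 0⟩ 0 0))) (.pos 41 .mp ⟨977133, 0, 0, 0, 0, 12565622, 0, 0, 0, ⟨0, 0⟩, 0⟩ 0 0))) (.cut .s 6496256 (.cut .l 671088 (.cut .d (-131072) (.cut .s 6483968 (.pos 41 .mp ⟨1207374, 0, 0, 0, 0, 13215179, 0, 0, 0, ⟨0, 0⟩, 0⟩ 0 0) (.pos 41 .mp ⟨1297473, 0, 0, 0, 0, 13346780,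 0, 0, 0, ⟨0, 0⟩, 0⟩ 0 0)) (.cut .v 16908288 (.cut .l 432675 (.cut .s 6483968 (.cut .s 6477824 (.pos 43 .mp ⟨2153728, 0, 0, 0, 0, 12052849, 0, 0, 0, ⟨0, 0⟩, 0⟩ 0 0) (.pos 43 .mp ⟨2183836, 0, 0, 0, 0, 12133374, 0, 0, 0, ⟨0, 0⟩, 0⟩ 0 0)) (.cut .s 6490112 (.pos 43 .mp ⟨2214239, 0, 0, 0, 0, 12214079, 0, 0, 0, ⟨0, 0⟩, 0⟩ 0 0) (.pos 43 .mp ⟨2244944, 0, 0, 0, 0, 12294957, 0, 0, 0, ⟨0, 0⟩, 0⟩ 0 0))) (.pos 43 .mp ⟨1616813, 0, 0, 0, 0, 12516785, 0, 0, 0, ⟨0, 0⟩, 0⟩ 0 0)) (.pos 44 .mp ⟨14678691, 0, 0, 0, 0, 0, 0, 0, 0, ⟨0, 0⟩, 0⟩ 0 0))) (.pos 41 .mp ⟨1186038, 0, 0, 0, 0, 12825842, 0, 0, 0, ⟨0, 0⟩, 0⟩ 0 0)) (.cut .l 671088 (.cut .d (-131072) (.cut .s 6508544 (.pos 41 .mp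 ⟨1388294, 0, 0, 0, 0, 13479576, 0, 0, 0, ⟨0, 0⟩, 0⟩ 0 0) (.pos 41 .mp ⟨1479838, 0, 0, 0, 0, 13613573, 0, 0, 0, ⟨0, 0⟩, 0⟩ 0 0)) (.cut .v 16908288 (.cut .s 6508544 (.cut .d (-65536) (.cut .s 6502400 (.pos 43 .mp ⟨1995508, 0, 0, 0, 0, 12649699, 0, 0, 0, ⟨0, 0⟩, 0⟩ 0 0) (.pos 43 .mp ⟨2036767, 0, 0, 0, 0, 12719690, 0, 0, 0, ⟨0, 0⟩, 0⟩ 0 0)) (.pos 43 .mp ⟨2509932, 0, 0, 0, 0, 12110056, 0, 0, 0, ⟨0, 0⟩, 0⟩ 0 0)) (.cut .d (-65536) (.cut .s 6514688 (.pos 43 .mp ⟨2078188, 0, 0, 0, 0, 12789991, 0, 0, 0, ⟨0, 0⟩, 0⟩ 0 0) (.pos 43 .mp ⟨2119771, 0, 0, 0, 0, 12860602, 0, 0, 0, ⟨0, 0⟩, 0⟩ 0 0)) (.pos 43 .mp ⟨2599426, 0, 0, 0, 0, 12240466, 0, 0, 0, ⟨0, 0⟩, 0⟩ 0 0))) (.pos 44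 .mp ⟨15093599, 0, 0, 0, 0, 0, 0, 0, 0, ⟨0, 0⟩, 0⟩ 0 0))) (.pos 41 .mp ⟨1398369, 0, 0, 0, 0, 13089415, 0, 0, 0, ⟨0, 0⟩, 0⟩ 0 0)))) (.cut .s 6569984 (.cut .s 6545408 (.cut .l 671088 (.cut .d (-131072) (.cut .s 6533120 (.pos 41 .mp ⟨1572108, 0, 0, 0, 0, 13748777, 0, 0, 0, ⟨0, 0⟩, 0⟩ 0 0) (.pos 41 .mp ⟨1665105, 0, 0, 0, 0, 13885194, 0, 0, 0, ⟨0, 0⟩, 0⟩ 0 0)) (.cut .v 16908288 (.cut .s 6533120 (.cut .d (-65536) (.cut .s 6526976 (.pos 43 .mp ⟨2161516, 0, 0, 0, 0, 12931523, 0, 0, 0, ⟨0, 0⟩, 0⟩ 0 0) (.pos 43 .mp ⟨2203424, 0, 0, 0, 0, 13002754, 0, 0, 0, ⟨0, 0⟩, 0⟩ 0 0)) (.pos 43 .mp ⟨2689618, 0, 0, 0, 0, 12372088, 0, 0, 0, ⟨0, 0⟩, 0⟩ 0 0)) (.cut .d (-65536) (.cut .s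 6539264 (.pos 43 .mp ⟨2245494, 0, 0, 0, 0, 13074296, 0, 0, 0, ⟨0, 0⟩, 0⟩ 0 0) (.pos 43 .mp ⟨2287727, 0, 0, 0, 0, 13146148, 0, 0, 0, ⟨0, 0⟩, 0⟩ 0 0)) (.pos 43 .mp ⟨2780511, 0, 0, 0, 0, 12504925, 0, 0, 0, ⟨0, 0⟩, 0⟩ 0 0))) (.pos 44 .mp ⟨15514967, 0, 0, 0, 0, 0, 0, 0, 0, ⟨0, 0⟩, 0⟩ 0 0))) (.cut .s 6533120 (.pos 41 .mp ⟨1505825, 0, 0, 0, 0, 13306409, 0, 0, 0, ⟨0, 0⟩, 0⟩ 0 0) (.pos 41 .mp ⟨1663889, 0, 0, 0, 0, 13417074, 0, 0, 0, ⟨0, 0⟩, 0⟩ 0 0))) (.cut .l 671088 (.cut .d (-131072) (.cut .v 16908288 (.pos 43 .mp ⟨1774343, 0, 0, 0, 0, 14133994, 0, 0, 0, ⟨0, 0⟩, 0⟩ 0 0) (.pos 44 .mp ⟨2657549, 0, 0, 0, 0, 13252938, 0, 0, 0, ⟨0, 0⟩, 0⟩ 0 0)) (.cut .v 16908288 (.cut .s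 6557696 (.cut .d (-65536) (.cut .s 6551552 (.pos 43 .mp ⟨2330124, 0, 0, 0, 0, 13218311, 0, 0, 0, ⟨0, 0⟩, 0⟩ 0 0) (.cut .s 6554624 (.pos 43 .mp ⟨2385308, 0, 0, 0, 0, 13257501, 0, 0, 0, ⟨0, 0⟩, 0⟩ 0 0) (.pos 43 .mp ⟨2402891, 0, 0, 0, 0, 13297624, 0, 0, 0, ⟨0, 0⟩, 0⟩ 0 0))) (.pos 43 .mp ⟨2872106, 0, 0, 0, 0, 12638985, 0, 0, 0, ⟨0, 0⟩, 0⟩ 0 0)) (.cut .d (-65536) (.cut .v 16842752 (.pos 73 .mp ⟨0, 0, 0, 0, 0, 15763077, 0, 0, 0, ⟨0, 0⟩, 0⟩ 0 0) (.cut .s 6563840 (.pos 74 .mp ⟨2565028, 0, 0, 0, 0, 13219680, 0, 0, 0, ⟨0, 0⟩, 0⟩ 0 0) (.pos 74 .mp ⟨2594529, 0, 0, 0, 0, 13306558, 0, 0, 0, ⟨0, 0⟩, 0⟩ 0 0))) (.pos 43 .mp ⟨2964404, 0, 0, 0, 0, 12774272, 0, 0, 0, ⟨0, 0⟩, 0⟩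 0 0))) (.pos 44 .mp ⟨15942827, 0, 0, 0, 0, 0, 0, 0, 0, ⟨0, 0⟩, 0⟩ 0 0))) (.cut .s 6557696 (.pos 41 .mp ⟨1757526, 0, 0, 0, 0, 13568222, 0, 0, 0, ⟨0, 0⟩, 0⟩ 0 0) (.pos 41 .mp ⟨1851892, 0, 0, 0, 0, 13720301, 0, 0, 0, ⟨0, 0⟩, 0⟩ 0 0)))) (.cut .s 6594560 (.cut .s 6582272 (.cut .l 671088 (.cut .v 16908288 (.cut .d (-131072) (.pos 43 .mp ⟨1963262, 0, 0, 0, 0, 14236132, 0, 0, 0, ⟨0, 0⟩, 0⟩ 0 0) (.cut .d (-65536) (.cut .v 16842752 (.pos 73 .mp ⟨0, 0, 0, 0, 0, 15997552, 0, 0, 0, ⟨0, 0⟩, 0⟩ 0 0) (.cut .s 6576128 (.pos 74 .mp ⟨2624464, 0, 0, 0, 0, 13393488, 0, 0, 0, ⟨0, 0⟩, 0⟩ 0 0) (.pos 74 .mp ⟨2654840, 0, 0, 0, 0, 13480463, 0, 0, 0, ⟨0, 0⟩, 0⟩ 0 0))) (.pos 43 .mp ⟨3057408,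 0, 0, 0, 0, 12910794, 0, 0, 0, ⟨0, 0⟩, 0⟩ 0 0))) (.pos 44 .mp ⟨3624289, 0, 0, 0, 0, 12601602, 0, 0, 0, ⟨0, 0⟩, 0⟩ 0 0)) (.pos 41 .mp ⟨1946991, 0, 0, 0, 0, 13873296, 0, 0, 0, ⟨0, 0⟩, 0⟩ 0 0)) (.cut .l 671088 (.cut .v 16908288 (.cut .d (-131072) (.pos 43 .mp ⟨2058818, 0, 0, 0, 0, 14377084, 0, 0, 0, ⟨0, 0⟩, 0⟩ 0 0) (.cut .d (-65536) (.cut .v 16842752 (.pos 73 .mp ⟨0, 0, 0, 0, 0, 16234227, 0, 0, 0, ⟨0, 0⟩, 0⟩ 0 0) (.cut .s 6588416 (.pos 74 .mp ⟨2685666, 0, 0, 0, 0, 13567473, 0, 0, 0, ⟨0, 0⟩, 0⟩ 0 0) (.pos 74 .mp ⟨2716951, 0, 0, 0, 0, 13654511, 0, 0, 0, ⟨0, 0⟩, 0⟩ 0 0))) (.pos 43 .mp ⟨3151120, 0, 0, 0, 0, 13048554, 0, 0, 0, ⟨0, 0⟩, 0⟩ 0 0))) (.cut .s 6588416 (.pos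 44 .mp ⟨3529681, 0, 0, 0, 0, 12813125, 0, 0, 0, ⟨0, 0⟩, 0⟩ 0 0) (.pos 44 .mp ⟨3546778, 0, 0, 0, 0, 12913566, 0, 0, 0, ⟨0, 0⟩, 0⟩ 0 0))) (.pos 41 .mp ⟨2042822, 0, 0, 0, 0, 14029288, 0, 0, 0, ⟨0, 0⟩, 0⟩ 0 0))) (.cut .s 6606848 (.cut .l 671088 (.cut .v 16908288 (.cut .d (-131072) (.pos 43 .mp ⟨2155107, 0, 0, 0, 0, 14519274, 0, 0, 0, ⟨0, 0⟩, 0⟩ 0 0) (.cut .d (-65536) (.cut .v 16842752 (.pos 73 .mp ⟨0, 0, 0, 0, 0, 16473112, 0, 0, 0, ⟨0, 0⟩, 0⟩ 0 0) (.cut .s 6600704 (.pos 74 .mp ⟨2748702, 0, 0, 0, 0, 13741567, 0, 0, 0, ⟨0, 0⟩, 0⟩ 0 0) (.pos 74 .mp ⟨2780928, 0, 0, 0, 0, 13828633, 0, 0, 0, ⟨0, 0⟩, 0⟩ 0 0))) (.pos 43 .mp ⟨3245540, 0, 0, 0, 0, 13187560, 0, 0, 0, ⟨0,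 0⟩, 0⟩ 0 0))) (.cut .s 6600704 (.pos 44 .mp ⟨3564416, 0, 0, 0, 0, 13014002, 0, 0, 0, ⟨0, 0⟩, 0⟩ 0 0) (.pos 44 .mp ⟨3582604, 0, 0, 0, 0, 13114419, 0, 0, 0, ⟨0, 0⟩, 0⟩ 0 0))) (.pos 41 .mp ⟨2139389, 0, 0, 0, 0, 14186603, 0, 0, 0, ⟨0, 0⟩, 0⟩ 0 0)) (.cut .l 671088 (.cut .v 16908288 (.cut .d (-131072) (.pos 43 .mp ⟨2252132, 0, 0, 0, 0, 14662708, 0, 0, 0, ⟨0, 0⟩, 0⟩ 0 0) (.cut .d (-65536) (.cut .v 16842752 (.pos 73 .mp ⟨0, 0, 0, 0, 0, 16714218, 0, 0, 0, ⟨0, 0⟩, 0⟩ 0 0) (.cut .s 6612992 (.pos 74 .mp ⟨2813637, 0, 0, 0, 0, 13915700, 0, 0, 0, ⟨0, 0⟩, 0⟩ 0 0) (.pos 74 .mp ⟨2851466, 0, 0, 0, 0, 13998217, 0, 0, 0, ⟨0, 0⟩, 0⟩ 0 0))) (.pos 43 .mp ⟨3340672, 0, 0, 0, 0, 13327818,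 0, 0, 0, ⟨0, 0⟩, 0⟩ 0 0))) (.cut .s 6612992 (.pos 44 .mp ⟨3601355, 0, 0, 0, 0, 13214807, 0, 0, 0, ⟨0, 0⟩, 0⟩ 0 0) (.pos 44 .mp ⟨3620681, 0, 0, 0, 0, 13315155, 0, 0, 0, ⟨0, 0⟩, 0⟩ 0 0))) (.pos 41 .mp ⟨2257003, 0, 0, 0, 0, 14325824, 0, 0, 0, ⟨0, 0⟩, 0⟩ 0 0)))))) (.pos 42 .mp ⟨16858120, 0, 0, 0, 0, 0, 0, 0, 0, ⟨0, 0⟩, 0⟩ 0 0)) (.cut .v 17039360 (.cut .s 6717440 (.cut .s 6668288 (.cut .s 6643712 (.cut .s 6631424 (.cut .l 671088 (.cut .v 16908288 (.cut .d (-131072) (.pos 43 .mp ⟨2349893, 0, 0, 0, 0, 14807393, 0, 0, 0, ⟨0, 0⟩, 0⟩ 0 0) (.cut .d (-65536) (.cut .v 16842752 (.pos 73 .mp ⟨0, 0, 0, 0, 0, 16957556, 0, 0, 0, ⟨0, 0⟩, 0⟩ 0 0) (.cut .s 6625280 (.pos 74 .mp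 ⟨2895819, 0, 0, 0, 0, 14074796, 0, 0, 0, ⟨0, 0⟩, 0⟩ 0 0) (.pos 74 .mp ⟨2948595, 0, 0, 0, 0, 14143560, 0, 0, 0, ⟨0, 0⟩, 0⟩ 0 0))) (.pos 43 .mp ⟨3436516, 0, 0, 0, 0, 13469332, 0, 0, 0, ⟨0, 0⟩, 0⟩ 0 0))) (.cut .s 6625280 (.pos 44 .mp ⟨3640593, 0, 0, 0, 0, 13415450, 0, 0, 0, ⟨0, 0⟩, 0⟩ 0 0) (.pos 44 .mp ⟨3661103, 0, 0, 0, 0, 13515681, 0, 0, 0, ⟨0, 0⟩, 0⟩ 0 0))) (.pos 41 .mp ⟨2394601, 0, 0, 0, 0, 14447270, 0, 0, 0, ⟨0, 0⟩, 0⟩ 0 0)) (.cut .l 671088 (.cut .v 16908288 (.cut .d (-131072) (.pos 43 .mp ⟨2448394, 0, 0, 0, 0, 14953333, 0, 0, 0, ⟨0, 0⟩, 0⟩ 0 0) (.cut .d (-65536) (.cut .v 16842752 (.pos 73 .mp ⟨0, 0, 0, 0, 0, 17203135, 0, 0, 0, ⟨0, 0⟩, 0⟩ 0 0) (.cut .l 432675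 (.cut .s 6637568 (.pos 74 .mp ⟨3201706, 0, 0, 0, 0, 14051719, 0, 0, 0, ⟨0, 0⟩, 0⟩ 0 0) (.pos 74 .mp ⟨3248332, 0, 0, 0, 0, 14127885, 0, 0, 0, ⟨0, 0⟩, 0⟩ 0 0)) (.pos 74 .mp ⟨2803414, 0, 0, 0, 0, 14384991, 0, 0, 0, ⟨0, 0⟩, 0⟩ 0 0))) (.pos 43 .mp ⟨3533075, 0, 0, 0, 0, 13612109, 0, 0, 0, ⟨0, 0⟩, 0⟩ 0 0))) (.cut .s 6637568 (.pos 44 .mp ⟨3682223, 0, 0, 0, 0, 13615837, 0, 0, 0, ⟨0, 0⟩, 0⟩ 0 0) (.pos 44 .mp ⟨3703964, 0, 0, 0, 0, 13715906, 0, 0, 0, ⟨0, 0⟩, 0⟩ 0 0))) (.pos 41 .mp ⟨2478130, 0, 0, 0, 0, 14612463, 0, 0, 0, ⟨0, 0⟩, 0⟩ 0 0))) (.cut .s 6656000 (.cut .l 671088 (.cut .v 16908288 (.cut .d (-131072) (.pos 43 .mp ⟨2547635, 0, 0, 0, 0, 15100535, 0, 0, 0, ⟨0, 0⟩,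 0⟩ 0 0) (.cut .d (-65536) (.cut .v 16842752 (.pos 73 .mp ⟨0, 0, 0, 0, 0, 17450967, 0, 0, 0, ⟨0, 0⟩, 0⟩ 0 0) (.cut .l 432675 (.cut .s 6649856 (.pos 74 .mp ⟨3295130, 0, 0, 0, 0, 14204319, 0, 0, 0, ⟨0, 0⟩, 0⟩ 0 0) (.pos 74 .mp ⟨3342102, 0, 0, 0, 0, 14281023, 0, 0, 0, ⟨0, 0⟩, 0⟩ 0 0)) (.pos 74 .mp ⟨2906974, 0, 0, 0, 0, 14528504, 0, 0, 0, ⟨0, 0⟩, 0⟩ 0 0))) (.pos 43 .mp ⟨3630351, 0, 0, 0, 0, 13756155, 0, 0, 0, ⟨0, 0⟩, 0⟩ 0 0))) (.cut .s 6649856 (.pos 44 .mp ⟨3726338, 0, 0, 0, 0, 13815876, 0, 0, 0, ⟨0, 0⟩, 0⟩ 0 0) (.pos 44 .mp ⟨3749357, 0, 0, 0, 0, 13915735, 0, 0, 0, ⟨0, 0⟩, 0⟩ 0 0))) (.cut .s 6649856 (.pos 41 .mp ⟨2533049, 0, 0, 0, 0, 14725781, 0, 0, 0, ⟨0, 0⟩, 0⟩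 0 0) (.pos 41 .mp ⟨2583092, 0, 0, 0, 0, 14806049, 0, 0, 0, ⟨0, 0⟩, 0⟩ 0 0))) (.cut .l 671088 (.cut .d (-131072) (.cut .s 6662144 (.pos 41 .mp ⟨2635468, 0, 0, 0, 0, 15215475, 0, 0, 0, ⟨0, 0⟩, 0⟩ 0 0) (.pos 41 .mp ⟨2685933, 0, 0, 0, 0, 15289826, 0, 0, 0, ⟨0, 0⟩, 0⟩ 0 0)) (.cut .v 16908288 (.cut .d (-65536) (.cut .v 16842752 (.pos 73 .mp ⟨0, 0, 0, 0, 0, 17701062, 0, 0, 0, ⟨0, 0⟩, 0⟩ 0 0) (.cut .l 432675 (.cut .s 6662144 (.pos 74 .mp ⟨3389248, 0, 0, 0, 0, 14357995, 0, 0, 0, ⟨0, 0⟩, 0⟩ 0 0) (.pos 74 .mp ⟨3436567, 0, 0, 0, 0, 14435233, 0, 0, 0, ⟨0, 0⟩, 0⟩ 0 0)) (.pos 74 .mp ⟨3011306, 0, 0, 0, 0, 14672991, 0, 0, 0, ⟨0, 0⟩, 0⟩ 0 0))) (.pos 43 .mp ⟨3728344, 0, 0, 0,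 0, 13901475, 0, 0, 0, ⟨0, 0⟩, 0⟩ 0 0)) (.pos 44 .mp ⟨17764295, 0, 0, 0, 0, 0, 0, 0, 0, ⟨0, 0⟩, 0⟩ 0 0))) (.cut .s 6662144 (.pos 41 .mp ⟨2633321, 0, 0, 0, 0, 14886524, 0, 0, 0, ⟨0, 0⟩, 0⟩ 0 0) (.pos 41 .mp ⟨2683737, 0, 0, 0, 0, 14967204, 0, 0, 0, ⟨0, 0⟩, 0⟩ 0 0))))) (.cut .s 6692864 (.cut .s 6680576 (.cut .l 671088 (.cut .d (-131072) (.cut .s 6674432 (.pos 41 .mp ⟨2736585, 0, 0, 0, 0, 15364497, 0, 0, 0, ⟨0, 0⟩, 0⟩ 0 0) (.pos 41 .mp ⟨2787424, 0, 0, 0, 0, 15439488, 0, 0, 0, ⟨0, 0⟩, 0⟩ 0 0)) (.cut .v 16908288 (.cut .d (-65536) (.cut .v 16842752 (.pos 73 .mp ⟨0, 0, 0, 0, 0, 17953430, 0, 0, 0, ⟨0, 0⟩, 0⟩ 0 0) (.cut .s 6674432 (.pos 74 .mp ⟨3323587, 0, 0, 0, 0, 14632096,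 0, 0, 0, ⟨0, 0⟩, 0⟩ 0 0) (.pos 74 .mp ⟨3377955, 0, 0, 0, 0, 14702909, 0, 0, 0, ⟨0, 0⟩, 0⟩ 0 0))) (.pos 43 .mp ⟨3827058, 0, 0, 0, 0, 14048076, 0, 0, 0, ⟨0, 0⟩, 0⟩ 0 0)) (.pos 44 .mp ⟨17993815, 0, 0, 0, 0, 0, 0, 0, 0, ⟨0, 0⟩, 0⟩ 0 0))) (.cut .s 6674432 (.pos 41 .mp ⟨2734340, 0, 0, 0, 0, 15048086, 0, 0, 0, ⟨0, 0⟩, 0⟩ 0 0) (.pos 41 .mp ⟨2785130, 0, 0, 0, 0, 15129170, 0, 0, 0, ⟨0, 0⟩, 0⟩ 0 0))) (.cut .l 671088 (.cut .d (-131072) (.cut .s 6686720 (.pos 41 .mp ⟨2838452, 0, 0, 0, 0, 15514800, 0, 0, 0, ⟨0, 0⟩, 0⟩ 0 0) (.pos 41 .mp ⟨2889667, 0, 0, 0, 0, 15590434, 0, 0, 0, ⟨0, 0⟩, 0⟩ 0 0)) (.cut .v 16908288 (.cut .d (-65536) (.cut .v 16842752 (.pos 73 .mp ⟨0, 0, 0, 0,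 0, 18208083, 0, 0, 0, ⟨0, 0⟩, 0⟩ 0 0) (.cut .s 6686720 (.pos 74 .mp ⟨3432523, 0, 0, 0, 0, 14773976, 0, 0, 0, ⟨0, 0⟩, 0⟩ 0 0) (.pos 74 .mp ⟨3487291, 0, 0, 0, 0, 14845298, 0, 0, 0, ⟨0, 0⟩, 0⟩ 0 0))) (.pos 43 .mp ⟨3926494, 0, 0, 0, 0, 14195964, 0, 0, 0, ⟨0, 0⟩, 0⟩ 0 0)) (.pos 44 .mp ⟨18225013, 0, 0, 0, 0, 0, 0, 0, 0, ⟨0, 0⟩, 0⟩ 0 0))) (.cut .s 6686720 (.pos 41 .mp ⟨2836108, 0, 0, 0, 0, 15210454, 0, 0, 0, ⟨0, 0⟩, 0⟩ 0 0) (.pos 41 .mp ⟨2887273, 0, 0, 0, 0, 15291936, 0, 0, 0, ⟨0, 0⟩, 0⟩ 0 0)))) (.cut .s 6705152 (.cut .l 671088 (.cut .d (-131072) (.cut .s 6699008 (.pos 41 .mp ⟨2941070, 0, 0, 0, 0, 15666391, 0, 0, 0, ⟨0, 0⟩, 0⟩ 0 0) (.pos 41 .mp ⟨2992662, 0, 0, 0,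 0, 15742671, 0, 0, 0, ⟨0, 0⟩, 0⟩ 0 0)) (.cut .v 16908288 (.cut .d (-65536) (.cut .v 16842752 (.pos 73 .mp ⟨0, 0, 0, 0, 0, 18465031, 0, 0, 0, ⟨0, 0⟩, 0⟩ 0 0) (.cut .s 6699008 (.pos 74 .mp ⟨3542260, 0, 0, 0, 0, 14916872, 0, 0, 0, ⟨0, 0⟩, 0⟩ 0 0) (.pos 74 .mp ⟨3597430, 0, 0, 0, 0, 14988700, 0, 0, 0, ⟨0, 0⟩, 0⟩ 0 0))) (.pos 43 .mp ⟨4026654, 0, 0, 0, 0, 14345144, 0, 0, 0, ⟨0, 0⟩, 0⟩ 0 0)) (.pos 44 .mp ⟨18457895, 0, 0, 0, 0, 0, 0, 0, 0, ⟨0, 0⟩, 0⟩ 0 0))) (.cut .s 6699008 (.pos 41 .mp ⟨2920434, 0, 0, 0, 0, 15387917, 0, 0, 0, ⟨0, 0⟩, 0⟩ 0 0) (.pos 41 .mp ⟨2948469, 0, 0, 0, 0, 15486450, 0, 0, 0, ⟨0, 0⟩, 0⟩ 0 0))) (.cut .l 671088 (.cut .d (-131072) (.cut .s 6711296 (.pos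 41 .mp ⟨3044442, 0, 0, 0, 0, 15819275, 0, 0, 0, ⟨0, 0⟩, 0⟩ 0 0) (.pos 41 .mp ⟨3096411, 0, 0, 0, 0, 15896203, 0, 0, 0, ⟨0, 0⟩, 0⟩ 0 0)) (.cut .v 16908288 (.cut .d (-65536) (.cut .s 6711296 (.cut .s 6708224 (.pos 43 .mp ⟨3516573, 0, 0, 0, 0, 15159553, 0, 0, 0, ⟨0, 0⟩, 0⟩ 0 0) (.pos 43 .mp ⟨3538125, 0, 0, 0, 0, 15202038, 0, 0, 0, ⟨0, 0⟩, 0⟩ 0 0)) (.pos 43 .mp ⟨3537252, 0, 0, 0, 0, 15300026, 0, 0, 0, ⟨0, 0⟩, 0⟩ 0 0)) (.pos 43 .mp ⟨4127540, 0, 0, 0, 0, 14495623, 0, 0, 0, ⟨0, 0⟩, 0⟩ 0 0)) (.pos 44 .mp ⟨18692463, 0, 0, 0, 0, 0, 0, 0, 0, ⟨0, 0⟩, 0⟩ 0 0))) (.cut .s 6711296 (.pos 41 .mp ⟨2992149, 0, 0, 0, 0, 15571733, 0, 0, 0, ⟨0, 0⟩, 0⟩ 0 0) (.pos 41 .mp ⟨3035984, 0,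 0, 0, 0, 15657239, 0, 0, 0, ⟨0, 0⟩, 0⟩ 0 0)))))) (.cut .s 6766592 (.cut .s 6742016 (.cut .s 6729728 (.cut .s 6723584 (.cut .l 671088 (.cut .d (-131072) (.pos 41 .mp ⟨3148569, 0, 0, 0, 0, 15973457, 0, 0, 0, ⟨0, 0⟩, 0⟩ 0 0) (.cut .d (-65536) (.cut .v 16908288 (.pos 43 .mp ⟨3584302, 0, 0, 0, 0, 15381613, 0, 0, 0, ⟨0, 0⟩, 0⟩ 0 0) (.pos 44 .mp ⟨18832297, 0, 0, 0, 0, 0, 0, 0, 0, ⟨0, 0⟩, 0⟩ 0 0)) (.pos 41 .mp ⟨4689462, 0, 0, 0, 0, 14118467, 0, 0, 0, ⟨0, 0⟩, 0⟩ 0 0))) (.pos 41 .mp ⟨3079975, 0, 0, 0, 0, 15742965, 0, 0, 0, ⟨0, 0⟩, 0⟩ 0 0)) (.cut .l 671088 (.cut .d (-131072) (.pos 41 .mp ⟨3200917, 0, 0, 0, 0, 16051038, 0, 0, 0, ⟨0, 0⟩, 0⟩ 0 0) (.cut .d (-65536) (.cut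 .v 16908288 (.pos 43 .mp ⟨3631520, 0, 0, 0, 0, 15463496, 0, 0, 0, ⟨0, 0⟩, 0⟩ 0 0) (.pos 44 .mp ⟨18950638, 0, 0, 0, 0, 0, 0, 0, 0, ⟨0, 0⟩, 0⟩ 0 0)) (.pos 41 .mp ⟨4739745, 0, 0, 0, 0, 14195286, 0, 0, 0, ⟨0, 0⟩, 0⟩ 0 0))) (.pos 41 .mp ⟨3124120, 0, 0, 0, 0, 15828909, 0, 0, 0, ⟨0, 0⟩, 0⟩ 0 0))) (.cut .s 6735872 (.cut .l 671088 (.cut .d (-131072) (.pos 41 .mp ⟨3253454, 0, 0, 0, 0, 16128945, 0, 0, 0, ⟨0, 0⟩, 0⟩ 0 0) (.cut .d (-65536) (.cut .v 16908288 (.pos 43 .mp ⟨3678909, 0, 0, 0, 0, 15545673, 0, 0, 0, ⟨0, 0⟩, 0⟩ 0 0) (.pos 44 .mp ⟨19069405, 0, 0, 0, 0, 0, 0, 0, 0, ⟨0, 0⟩, 0⟩ 0 0)) (.pos 41 .mp ⟨4790210, 0, 0, 0, 0, 14272437, 0, 0, 0, ⟨0, 0⟩, 0⟩ 0 0))) (.pos 41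 .mp ⟨3168420, 0, 0, 0, 0, 15915070, 0, 0, 0, ⟨0, 0⟩, 0⟩ 0 0)) (.cut .l 671088 (.cut .d (-131072) (.pos 41 .mp ⟨3306181, 0, 0, 0, 0, 16207180, 0, 0, 0, ⟨0, 0⟩, 0⟩ 0 0) (.cut .d (-65536) (.cut .v 16908288 (.pos 43 .mp ⟨3726466, 0, 0, 0, 0, 15628144, 0, 0, 0, ⟨0, 0⟩, 0⟩ 0 0) (.pos 44 .mp ⟨19188597, 0, 0, 0, 0, 0, 0, 0, 0, ⟨0, 0⟩, 0⟩ 0 0)) (.pos 41 .mp ⟨4840855, 0, 0, 0, 0, 14349920, 0, 0, 0, ⟨0, 0⟩, 0⟩ 0 0))) (.pos 41 .mp ⟨3212876, 0, 0, 0, 0, 16001446, 0, 0, 0, ⟨0, 0⟩, 0⟩ 0 0)))) (.cut .s 6754304 (.cut .s 6748160 (.cut .l 671088 (.cut .d (-131072) (.pos 41 .mp ⟨3359099, 0, 0, 0, 0, 16285744, 0, 0, 0, ⟨0, 0⟩, 0⟩ 0 0) (.cut .d (-65536) (.cut .v 16908288 (.pos 43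 .mp ⟨3774194, 0, 0, 0, 0, 15710909, 0, 0, 0, ⟨0, 0⟩, 0⟩ 0 0) (.pos 44 .mp ⟨19308216, 0, 0, 0, 0, 0, 0, 0, 0, ⟨0, 0⟩, 0⟩ 0 0)) (.pos 41 .mp ⟨4891683, 0, 0, 0, 0, 14427736, 0, 0, 0, ⟨0, 0⟩, 0⟩ 0 0))) (.pos 41 .mp ⟨3257488, 0, 0, 0, 0, 16088037, 0, 0, 0, ⟨0, 0⟩, 0⟩ 0 0)) (.cut .l 671088 (.cut .d (-131072) (.pos 41 .mp ⟨3412206, 0, 0, 0, 0, 16364637, 0, 0, 0, ⟨0, 0⟩, 0⟩ 0 0) (.cut .d (-65536) (.cut .v 16908288 (.pos 43 .mp ⟨3822093, 0, 0, 0, 0, 15793968, 0, 0, 0, ⟨0, 0⟩, 0⟩ 0 0) (.pos 44 .mp ⟨19428262, 0, 0, 0, 0, 0, 0, 0, 0, ⟨0, 0⟩, 0⟩ 0 0)) (.pos 41 .mp ⟨4942692, 0, 0, 0, 0, 14505887, 0, 0, 0, ⟨0, 0⟩, 0⟩ 0 0))) (.pos 41 .mp ⟨3302255, 0, 0, 0, 0, 16174839, 0,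 0, 0, ⟨0, 0⟩, 0⟩ 0 0))) (.cut .s 6760448 (.cut .l 671088 (.cut .d (-131072) (.pos 41 .mp ⟨3465504, 0, 0, 0, 0, 16443860, 0, 0, 0, ⟨0, 0⟩, 0⟩ 0 0) (.cut .d (-65536) (.cut .v 16908288 (.pos 43 .mp ⟨3870161, 0, 0, 0, 0, 15877320, 0, 0, 0, ⟨0, 0⟩, 0⟩ 0 0) (.pos 44 .mp ⟨19548736, 0, 0, 0, 0, 0, 0, 0, 0, ⟨0, 0⟩, 0⟩ 0 0)) (.pos 41 .mp ⟨4993882, 0, 0, 0, 0, 14584372, 0, 0, 0, ⟨0, 0⟩, 0⟩ 0 0))) (.pos 41 .mp ⟨3347179, 0, 0, 0, 0, 16261851, 0, 0, 0, ⟨0, 0⟩, 0⟩ 0 0)) (.cut .l 671088 (.cut .d (-131072) (.pos 41 .mp ⟨3518994, 0, 0, 0, 0, 16523413, 0, 0, 0, ⟨0, 0⟩, 0⟩ 0 0) (.cut .v 16908288 (.pos 43 .mp ⟨4151693, 0, 0, 0, 0, 15702996, 0, 0, 0, ⟨0, 0⟩, 0⟩ 0 0) (.pos 44 .mp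 ⟨19669638, 0, 0, 0, 0, 0, 0, 0, 0, ⟨0, 0⟩, 0⟩ 0 0))) (.pos 41 .mp ⟨3392258, 0, 0, 0, 0, 16349073, 0, 0, 0, ⟨0, 0⟩, 0⟩ 0 0))))) (.cut .s 6791168 (.cut .s 6778880 (.cut .s 6772736 (.cut .l 671088 (.cut .d (-131072) (.pos 41 .mp ⟨3572674, 0, 0, 0, 0, 16603299, 0, 0, 0, ⟨0, 0⟩, 0⟩ 0 0) (.cut .v 16908288 (.pos 43 .mp ⟨4208973, 0, 0, 0, 0, 15776992, 0, 0, 0, ⟨0, 0⟩, 0⟩ 0 0) (.pos 44 .mp ⟨19790968, 0, 0, 0, 0, 0, 0, 0, 0, ⟨0, 0⟩, 0⟩ 0 0))) (.pos 41 .mp ⟨3437495, 0, 0, 0, 0, 16436502, 0, 0, 0, ⟨0, 0⟩, 0⟩ 0 0)) (.cut .l 671088 (.cut .d (-131072) (.pos 41 .mp ⟨3626546, 0, 0, 0, 0, 16683516, 0, 0, 0, ⟨0, 0⟩, 0⟩ 0 0) (.cut .v 16908288 (.pos 43 .mp ⟨4266457, 0, 0, 0, 0,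 15851205, 0, 0, 0, ⟨0, 0⟩, 0⟩ 0 0) (.pos 44 .mp ⟨19912728, 0, 0, 0, 0, 0, 0, 0, 0, ⟨0, 0⟩, 0⟩ 0 0))) (.pos 41 .mp ⟨3482888, 0, 0, 0, 0, 16524137, 0, 0, 0, ⟨0, 0⟩, 0⟩ 0 0))) (.cut .s 6785024 (.cut .l 671088 (.cut .d (-131072) (.pos 41 .mp ⟨3680609, 0, 0, 0, 0, 16764066, 0, 0, 0, ⟨0, 0⟩, 0⟩ 0 0) (.cut .s 6781952 (.pos 41 .mp ⟨4473151, 0, 0, 0, 0, 15782261, 0, 0, 0, ⟨0, 0⟩, 0⟩ 0 0) (.pos 41 .mp ⟨4510499, 0, 0, 0, 0, 15812130, 0, 0, 0, ⟨0, 0⟩, 0⟩ 0 0))) (.pos 41 .mp ⟨3528438, 0, 0, 0, 0, 16611975, 0, 0, 0, ⟨0, 0⟩, 0⟩ 0 0)) (.cut .l 671088 (.cut .d (-131072) (.pos 41 .mp ⟨3734864, 0, 0, 0, 0, 16844951, 0, 0, 0, ⟨0, 0⟩, 0⟩ 0 0) (.cut .s 6788096 (.pos 41 .mp ⟨4532547,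 0, 0, 0, 0, 15855917, 0, 0, 0, ⟨0, 0⟩, 0⟩ 0 0) (.pos 41 .mp ⟨4554633, 0, 0, 0, 0, 15899774, 0, 0, 0, ⟨0, 0⟩, 0⟩ 0 0))) (.pos 41 .mp ⟨3574145, 0, 0, 0, 0, 16700017, 0, 0, 0, ⟨0, 0⟩, 0⟩ 0 0)))) (.cut .s 6803456 (.cut .s 6797312 (.cut .l 671088 (.cut .d (-131072) (.pos 41 .mp ⟨3789311, 0, 0, 0, 0, 16926169, 0, 0, 0, ⟨0, 0⟩, 0⟩ 0 0) (.cut .s 6794240 (.pos 41 .mp ⟨4576758, 0, 0, 0, 0, 15943700, 0, 0, 0, ⟨0, 0⟩, 0⟩ 0 0) (.pos 41 .mp ⟨4598920, 0, 0, 0, 0, 15987697, 0, 0, 0, ⟨0, 0⟩, 0⟩ 0 0))) (.pos 41 .mp ⟨3620009, 0, 0, 0, 0, 16788259, 0, 0, 0, ⟨0, 0⟩, 0⟩ 0 0)) (.cut .l 671088 (.cut .d (-131072) (.pos 41 .mp ⟨3843951, 0, 0, 0, 0, 17007724, 0, 0, 0, ⟨0, 0⟩, 0⟩ 0 0)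 (.cut .s 6800384 (.pos 41 .mp ⟨4621122, 0, 0, 0, 0, 16031763, 0, 0, 0, ⟨0, 0⟩, 0⟩ 0 0) (.pos 41 .mp ⟨4643361, 0, 0, 0, 0, 16075899, 0, 0, 0, ⟨0, 0⟩, 0⟩ 0 0))) (.pos 41 .mp ⟨3666031, 0, 0, 0, 0, 16876700, 0, 0, 0, ⟨0, 0⟩, 0⟩ 0 0))) (.cut .s 6809600 (.cut .l 671088 (.cut .d (-131072) (.pos 41 .mp ⟨3898783, 0, 0, 0, 0, 17089614, 0, 0, 0, ⟨0, 0⟩, 0⟩ 0 0) (.cut .s 6806528 (.pos 41 .mp ⟨4665639, 0, 0, 0, 0, 16120104, 0, 0, 0, ⟨0, 0⟩, 0⟩ 0 0) (.pos 41 .mp ⟨4687955, 0, 0, 0, 0, 16164379, 0, 0, 0, ⟨0, 0⟩, 0⟩ 0 0))) (.pos 41 .mp ⟨3712211, 0, 0, 0, 0, 16965340, 0, 0, 0, ⟨0, 0⟩, 0⟩ 0 0)) (.cut .l 671088 (.cut .d (-131072) (.pos 41 .mp ⟨3953809, 0, 0, 0, 0, 17171841, 0,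 0, 0, ⟨0, 0⟩, 0⟩ 0 0) (.cut .s 6812672 (.pos 41 .mp ⟨4710310, 0, 0, 0, 0, 16208724, 0, 0, 0, ⟨0, 0⟩, 0⟩ 0 0) (.pos 41 .mp ⟨4732704, 0, 0, 0, 0, 16253137, 0, 0, 0, ⟨0, 0⟩, 0⟩ 0 0))) (.pos 41 .mp ⟨3758548, 0, 0, 0, 0, 17054176, 0, 0, 0, ⟨0, 0⟩, 0⟩ 0 0))))))) (.pos 42 .mp ⟨20806138, 0, 0, 0, 0, 0, 0, 0, 0, ⟨0, 0⟩, 0⟩ 0 0)))) (.pos 40 .mp ⟨21665261, 0, 0, 0, 0, 0, 0, 0, 0, ⟨0, 0⟩, 0⟩ 0 0)))))))) (.pos 38 .mp ⟨50100202, 0, 0, 0, 0, 0, 0, 0, 0, ⟨0, 0⟩, 0⟩ 0 0)) (.void 36 ⟨100000, 0, 0, 0, 0, 0, 0, 0, 0, ⟨0, 0⟩, 0⟩ 0 0)) (.void 34 ⟨100000, 0, 0, 0, 0, 0, 0, 0, 0, ⟨0, 0⟩, 0⟩ 0 0)) (.void 32 ⟨100000, 0, 0, 0, 0, 0, 0, 0, 0, ⟨0, 0⟩, 0⟩ 0 0)) (.void 83 ⟨100000, 0, 0,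 0, 0, 0, 0, 0, 0, ⟨0, 0⟩, 0⟩ 0 0))) (.cut .v 16777216 (.cut .v 8388608 (.cut .v 4194304 (.void 4 ⟨0, 0, 50000, 0, 50000, 0, 0, 0, 0, ⟨0, 0⟩, 0⟩ 0 0) (.pos 5 .pm ⟨0, 0, 0, 0, 0, 0, 0, 0, 0, ⟨0, 0⟩, 0⟩ 0 0)) (.pos 3 .pm ⟨0, 0, 0, 0, 0, 0, 0, 0, 0, ⟨0, 0⟩, 0⟩ 0 0)) (.cut .v 33554432 (.cut .d 14953607 (.cut .d 7476803 (.cut .v 25165824 (.cut .v 20971520 (.pos 33 .pp ⟨7498994, 0, 0, 0, 0, 0, 0, 0, 0, ⟨0, 0⟩, 0⟩ 0 0) (.pos 34 .pp ⟨4290047, 0, 0, 0, 0, 0, 554093, 0, 0, ⟨0, 0⟩, 0⟩ 0 0)) (.pos 32 .pp ⟨0, 0, 0, 0, 0, 0, 6122551, 0, 0, ⟨0, 0⟩, 0⟩ 0 0)) (.pos 30 .pp ⟨0, 0, 0, 0, 0, 0, 0, 301599294, 0, ⟨4567610, 250900⟩, 0⟩ 133 202)) (.pos 30 .pp ⟨0, 0, 0, 0, 0, 0, 66607469,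 0, 3925096, ⟨0, 0⟩, 19951585⟩ 0 0)) (.cut .v 50331648 (.cut .d 14953607 (.pos 86 .pp ⟨6360798, 0, 0, 0, 0, 0, 168822695, 0, 0, ⟨0, 0⟩, 0⟩ 0 0) (.pos 86 .pp ⟨0, 26716938, 0, 0, 0, 0, 216372194, 0, 0, ⟨0, 0⟩, 0⟩ 0 0)) (.void 87 ⟨0, 0, 0, 0, 0, 0, 100000, 0, 0, ⟨0, 0⟩, 0⟩ 0 0))))),
    by decide +kernel⟩

def covers7 : cell.Covers table row7.1 :=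
  ⟨(.cut .d 0 (.cut .v 16777216 (.cut .d (-8388608) (.void 1 ⟨0, 0, 0, 0, 0, 100000, 0, 0, 0, ⟨0, 0⟩, 0⟩ 0 0) (.cut .d (-4194304) (.void 1 ⟨0, 0, 0, 0, 0, 100000, 0, 0, 0, ⟨0, 0⟩, 0⟩ 0 0) (.cut .d (-2097152) (.void 1 ⟨0, 0, 0, 0, 0, 100000, 0, 0, 0, ⟨0, 0⟩, 0⟩ 0 0) (.cut .d (-1048576) (.void 1 ⟨0, 0, 0, 0, 0, 100000, 0, 0, 0, ⟨0, 0⟩, 0⟩ 0 0) (.cut .d (-524288) (.void 1 ⟨0, 0, 0, 0, 0, 100000, 0, 0, 0, ⟨0, 0⟩, 0⟩ 0 0) (.cut .d (-262144) (.void 1 ⟨0, 0, 0, 0, 0, 100000, 0, 0, 0, ⟨0, 0⟩, 0⟩ 0 0) (.cut .v 8388608 (.cut .v 4194304 (.void 4 ⟨0, 0, 100000, 0, 0, 0, 0, 0, 0, ⟨0, 0⟩, 0⟩ 0 0) (.pos 5 .mm ⟨0, 0, 0, 0, 0, 20657185, 0, 0, 0, ⟨0, 0⟩, 0⟩ 0 0)) (.cut .v 12582912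 (.pos 8 .mm ⟨0, 0, 0, 0, 0, 18165782, 0, 0, 0, ⟨0, 0⟩, 0⟩ 0 0) (.cut .v 14680064 (.pos 12 .mm ⟨0, 0, 0, 0, 0, 22206697, 0, 0, 0, ⟨0, 0⟩, 0⟩ 0 0) (.cut .v 15728640 (.pos 16 .mm ⟨0, 0, 0, 0, 0, 25692397, 0, 0, 0, ⟨0, 0⟩, 0⟩ 0 0) (.cut .s 7176192 (.cut .v 16252928 (.pos 20 .mm ⟨0, 0, 0, 0, 0, 23319202, 0, 0, 0, ⟨0, 0⟩, 0⟩ 0 0) (.cut .s 6995968 (.cut .v 16515072 (.pos 24 .mm ⟨0, 0, 0, 0, 0, 21966631, 0, 0, 0, ⟨0, 0⟩, 0⟩ 0 0) (.cut .s 6905856 (.cut .s 6860800 (.pos 25 .mm ⟨0, 0, 0, 0, 0, 20889274, 0, 0, 0, ⟨0, 0⟩, 0⟩ 0 0) (.pos 25 .mm ⟨0, 0, 0, 0, 0, 21873057, 0, 0, 0, ⟨0, 0⟩, 0⟩ 0 0)) (.cut .s 6950912 (.pos 25 .mm ⟨0, 0, 0, 0, 0, 22897129, 0, 0, 0, ⟨0, 0⟩, 0⟩ 0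 0) (.pos 25 .mm ⟨0, 0, 0, 0, 0, 23960713, 0, 0, 0, ⟨0, 0⟩, 0⟩ 0 0)))) (.cut .v 16515072 (.pos 24 .mm ⟨0, 0, 0, 0, 0, 26398419, 0, 0, 0, ⟨0, 0⟩, 0⟩ 0 0) (.cut .s 7086080 (.cut .s 7041024 (.pos 25 .mm ⟨0, 0, 0, 0, 0, 25063050, 0, 0, 0, ⟨0, 0⟩, 0⟩ 0 0) (.pos 25 .mm ⟨0, 0, 0, 0, 0, 26203405, 0, 0, 0, ⟨0, 0⟩, 0⟩ 0 0)) (.cut .s 7131136 (.pos 25 .mm ⟨0, 0, 0, 0, 0, 27381057, 0, 0, 0, ⟨0, 0⟩, 0⟩ 0 0) (.pos 25 .mm ⟨0, 0, 0, 0, 0, 28595306, 0, 0, 0, ⟨0, 0⟩, 0⟩ 0 0)))))) (.cut .v 16252928 (.pos 20 .mm ⟨0, 0, 0, 0, 0, 33168876, 0, 0, 0, ⟨0, 0⟩, 0⟩ 0 0) (.cut .s 7356416 (.cut .v 16515072 (.pos 24 .mm ⟨0, 0, 0, 0, 0, 31445740, 0, 0, 0, ⟨0, 0⟩, 0⟩ 0 0) (.cut .s 7266304 (.cut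 .s 7221248 (.pos 25 .mm ⟨0, 0, 0, 0, 0, 29845469, 0, 0, 0, ⟨0, 0⟩, 0⟩ 0 0) (.pos 25 .mm ⟨0, 0, 0, 0, 0, 31130877, 0, 0, 0, ⟨0, 0⟩, 0⟩ 0 0)) (.cut .s 7311360 (.pos 25 .mm ⟨0, 0, 0, 0, 0, 32450881, 0, 0, 0, ⟨0, 0⟩, 0⟩ 0 0) (.pos 25 .mm ⟨0, 0, 0, 0, 0, 33804848, 0, 0, 0, ⟨0, 0⟩, 0⟩ 0 0)))) (.cut .s 7446528 (.pos 21 .mm ⟨0, 0, 0, 0, 0, 36404484, 0, 0, 0, ⟨0, 0⟩, 0⟩ 0 0) (.pos 21 .mm ⟨0, 0, 0, 0, 0, 39336077, 0, 0, 0, ⟨0, 0⟩, 0⟩ 0 0))))))))))))))) (.cut .v 33554432 (.cut .v 25165824 (.cut .d (-8388608) (.void 31 ⟨0, 0, 0, 0, 0, 100000, 0, 0, 0, ⟨0, 0⟩, 0⟩ 0 0) (.cut .d (-4194304) (.void 31 ⟨0, 0, 0, 0, 0, 100000, 0, 0, 0, ⟨0, 0⟩, 0⟩ 0 0) (.cut .d (-2097152) (.void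 31 ⟨0, 0, 0, 0, 0, 100000, 0, 0, 0, ⟨0, 0⟩, 0⟩ 0 0) (.cut .d (-1048576) (.void 31 ⟨0, 0, 0, 0, 0, 100000, 0, 0, 0, ⟨0, 0⟩, 0⟩ 0 0) (.cut .d (-524288) (.void 31 ⟨0, 0, 0, 0, 0, 100000, 0, 0, 0, ⟨0, 0⟩, 0⟩ 0 0) (.cut .d (-262144) (.void 31 ⟨0, 0, 0, 0, 0, 100000, 0, 0, 0, ⟨0, 0⟩, 0⟩ 0 0) (.cut .v 20971520 (.cut .v 18874368 (.cut .v 17825792 (.cut .v 17301504 (.cut .s 7176192 (.cut .s 6995968 (.cut .v 17039360 (.cut .s 6905856 (.cut .s 6860800 (.cut .s 6838272 (.cut .s 6827008 (.cut .l 671088 (.cut .d (-131072) (.pos 41 .mp ⟨4010136, 0, 0, 0, 0, 17358976, 0, 0, 0, ⟨0, 0⟩, 0⟩ 0 0) (.cut .d (-65536) (.cut .s 6821376 (.pos 41 .mp ⟨4666718, 0, 0, 0, 0, 16419077, 0,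 0, 0, ⟨0, 0⟩, 0⟩ 0 0) (.pos 41 .mp ⟨4721363, 0, 0, 0, 0, 16489223, 0, 0, 0, ⟨0, 0⟩, 0⟩ 0 0)) (.pos 41 .mp ⟨4973682, 0, 0, 0, 0, 16077802, 0, 0, 0, ⟨0, 0⟩, 0⟩ 0 0))) (.cut .s 6821376 (.pos 41 .mp ⟨3805971, 0, 0, 0, 0, 17145472, 0, 0, 0, ⟨0, 0⟩, 0⟩ 0 0) (.pos 41 .mp ⟨3849002, 0, 0, 0, 0, 17227100, 0, 0, 0, ⟨0, 0⟩, 0⟩ 0 0))) (.cut .d (-131072) (.cut .l 671088 (.pos 41 .mp ⟨4112411, 0, 0, 0, 0, 17512043, 0, 0, 0, ⟨0, 0⟩, 0⟩ 0 0) (.pos 41 .mp ⟨3805725, 0, 0, 0, 0, 17545672, 0, 0, 0, ⟨0, 0⟩, 0⟩ 0 0)) (.cut .d (-65536) (.cut .v 16908288 (.cut .s 6832640 (.pos 43 .mp ⟨4207703, 0, 0, 0, 0, 17096053, 0, 0, 0, ⟨0, 0⟩, 0⟩ 0 0) (.pos 43 .mp ⟨4258118, 0, 0, 0, 0, 17171582,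 0, 0, 0, ⟨0, 0⟩, 0⟩ 0 0)) (.pos 44 .mp ⟨21002378, 0, 0, 0, 0, 0, 0, 0, 0, ⟨0, 0⟩, 0⟩ 0 0)) (.pos 41 .mp ⟨5660173, 0, 0, 0, 0, 15493021, 0, 0, 0, ⟨0, 0⟩, 0⟩ 0 0)))) (.cut .s 6849536 (.cut .d (-131072) (.cut .l 671088 (.pos 41 .mp ⟨4215361, 0, 0, 0, 0, 17666714, 0, 0, 0, ⟨0, 0⟩, 0⟩ 0 0) (.pos 41 .mp ⟨3889722, 0, 0, 0, 0, 17719069, 0, 0, 0, ⟨0, 0⟩, 0⟩ 0 0)) (.cut .v 16908288 (.cut .d (-65536) (.cut .s 6843904 (.pos 43 .mp ⟨4308545, 0, 0, 0, 0, 17247685, 0, 0, 0, ⟨0, 0⟩, 0⟩ 0 0) (.pos 43 .mp ⟨4358992, 0, 0, 0, 0, 17324352, 0, 0, 0, ⟨0, 0⟩, 0⟩ 0 0)) (.pos 43 .mp ⟨5260970, 0, 0, 0, 0, 16178229, 0, 0, 0, ⟨0, 0⟩, 0⟩ 0 0)) (.pos 44 .mp ⟨5556894, 0, 0, 0, 0, 16111635,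 0, 0, 0, ⟨0, 0⟩, 0⟩ 0 0))) (.cut .d (-131072) (.cut .l 671088 (.pos 41 .mp ⟨4318989, 0, 0, 0, 0, 17823000, 0, 0, 0, ⟨0, 0⟩, 0⟩ 0 0) (.pos 41 .mp ⟨3973891, 0, 0, 0, 0, 17894729, 0, 0, 0, ⟨0, 0⟩, 0⟩ 0 0)) (.cut .v 16908288 (.cut .d (-65536) (.cut .s 6855168 (.pos 43 .mp ⟨4409469, 0, 0, 0, 0, 17401575, 0, 0, 0, ⟨0, 0⟩, 0⟩ 0 0) (.pos 43 .mp ⟨4459988, 0, 0, 0, 0, 17479342, 0, 0, 0, ⟨0, 0⟩, 0⟩ 0 0)) (.pos 43 .mp ⟨5361910, 0, 0, 0, 0, 16330322, 0, 0, 0, ⟨0, 0⟩, 0⟩ 0 0)) (.pos 44 .mp ⟨5683507, 0, 0, 0, 0, 16240265, 0, 0, 0, ⟨0, 0⟩, 0⟩ 0 0))))) (.cut .s 6883328 (.cut .d (-131072) (.cut .d (-196608) (.pos 41 .mp ⟨3934749, 0, 0, 0, 0, 18697350, 0, 0, 0, ⟨0, 0⟩, 0⟩ 0 0)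 (.cut .l 671088 (.pos 41 .mp ⟨4423295, 0, 0, 0, 0, 18218378, 0, 0, 0, ⟨0, 0⟩, 0⟩ 0 0) (.cut .s 6872064 (.pos 41 .mp ⟨4135954, 0, 0, 0, 0, 17978047, 0, 0, 0, ⟨0, 0⟩, 0⟩ 0 0) (.pos 41 .mp ⟨4222424, 0, 0, 0, 0, 18155774, 0, 0, 0, ⟨0, 0⟩, 0⟩ 0 0)))) (.cut .l 671088 (.cut .v 16908288 (.cut .s 6872064 (.cut .s 6866432 (.pos 43 .mp ⟨5058341, 0, 0, 0, 0, 16998785, 0, 0, 0, ⟨0, 0⟩, 0⟩ 0 0) (.pos 43 .mp ⟨5100638, 0, 0, 0, 0, 17084736, 0, 0, 0, ⟨0, 0⟩, 0⟩ 0 0)) (.cut .s 6877696 (.pos 43 .mp ⟨5143058, 0, 0, 0, 0, 17171159, 0, 0, 0, ⟨0, 0⟩, 0⟩ 0 0) (.cut .s 6880512 (.pos 43 .mp ⟨5185601, 0, 0, 0, 0, 17232554, 0, 0, 0, ⟨0, 0⟩, 0⟩ 0 0) (.pos 43 .mp ⟨5206919, 0, 0, 0, 0, 17276099,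 0, 0, 0, ⟨0, 0⟩, 0⟩ 0 0)))) (.pos 44 .mp ⟨7375507, 0, 0, 0, 0, 15095844, 0, 0, 0, ⟨0, 0⟩, 0⟩ 0 0)) (.pos 41 .mp ⟨3775647, 0, 0, 0, 0, 0, 0, 0, 0, ⟨0, 0⟩, 0⟩ 0 0))) (.cut .d (-131072) (.cut .l 671088 (.pos 41 .mp ⟨4633951, 0, 0, 0, 0, 18549012, 0, 0, 0, ⟨0, 0⟩, 0⟩ 0 0) (.cut .s 6894592 (.pos 41 .mp ⟨4228052, 0, 0, 0, 0, 18434646, 0, 0, 0, ⟨0, 0⟩, 0⟩ 0 0) (.pos 41 .mp ⟨4298889, 0, 0, 0, 0, 18636603, 0, 0, 0, ⟨0, 0⟩, 0⟩ 0 0))) (.cut .l 671088 (.cut .v 16908288 (.cut .d (-65536) (.cut .v 16842752 (.pos 73 .mp ⟨0, 0, 0, 0, 0, 22824858, 0, 0, 0, ⟨0, 0⟩, 0⟩ 0 0) (.cut .l 432675 (.cut .s 6894592 (.pos 74 .mp ⟨5261873, 0, 0, 0, 0, 17503934, 0, 0, 0, ⟨0, 0⟩, 0⟩ 0 0)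 (.pos 74 .mp ⟨5361390, 0, 0, 0, 0, 17670018, 0, 0, 0, ⟨0, 0⟩, 0⟩ 0 0)) (.cut .s 6894592 (.pos 74 .mp ⟨4940619, 0, 0, 0, 0, 17678641, 0, 0, 0, ⟨0, 0⟩, 0⟩ 0 0) (.pos 74 .mp ⟨5036577, 0, 0, 0, 0, 17847457, 0, 0, 0, ⟨0, 0⟩, 0⟩ 0 0)))) (.cut .s 6894592 (.pos 43 .mp ⟨5572600, 0, 0, 0, 0, 16959922, 0, 0, 0, ⟨0, 0⟩, 0⟩ 0 0) (.pos 43 .mp ⟨5694475, 0, 0, 0, 0, 17096740, 0, 0, 0, ⟨0, 0⟩, 0⟩ 0 0))) (.pos 44 .mp ⟨7676351, 0, 0, 0, 0, 15321120, 0, 0, 0, ⟨0, 0⟩, 0⟩ 0 0)) (.pos 41 .mp ⟨3995797, 0, 0, 0, 0, 0, 0, 0, 0, ⟨0, 0⟩, 0⟩ 0 0))))) (.cut .s 6950912 (.cut .s 6928384 (.cut .d (-131072) (.cut .l 671088 (.pos 41 .mp ⟨4847342, 0, 0, 0, 0, 18887448, 0, 0, 0, ⟨0, 0⟩, 0⟩ 0 0)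 (.cut .s 6917120 (.pos 41 .mp ⟨4360438, 0, 0, 0, 0, 18852491, 0, 0, 0, ⟨0, 0⟩, 0⟩ 0 0) (.pos 41 .mp ⟨4422525, 0, 0, 0, 0, 19070330, 0, 0, 0, ⟨0, 0⟩, 0⟩ 0 0))) (.cut .l 671088 (.cut .v 16908288 (.cut .d (-65536) (.cut .v 16842752 (.pos 73 .mp ⟨0, 0, 0, 0, 0, 23378187, 0, 0, 0, ⟨0, 0⟩, 0⟩ 0 0) (.cut .l 432675 (.cut .s 6917120 (.pos 74 .mp ⟨5461524, 0, 0, 0, 0, 17837839, 0, 0, 0, ⟨0, 0⟩, 0⟩ 0 0) (.pos 74 .mp ⟨5562278, 0, 0, 0, 0, 18007391, 0, 0, 0, ⟨0, 0⟩, 0⟩ 0 0)) (.cut .s 6917120 (.pos 74 .mp ⟨5133125, 0, 0, 0, 0, 18018043, 0, 0, 0, ⟨0, 0⟩, 0⟩ 0 0) (.pos 74 .mp ⟨5230264, 0, 0, 0, 0, 18190393, 0, 0, 0, ⟨0, 0⟩, 0⟩ 0 0)))) (.cut .s 6917120 (.pos 43 .mp ⟨5816951,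 0, 0, 0, 0, 17235226, 0, 0, 0, ⟨0, 0⟩, 0⟩ 0 0) (.pos 43 .mp ⟨5940088, 0, 0, 0, 0, 17375316, 0, 0, 0, ⟨0, 0⟩, 0⟩ 0 0))) (.pos 44 .mp ⟨7979129, 0, 0, 0, 0, 15553345, 0, 0, 0, ⟨0, 0⟩, 0⟩ 0 0)) (.pos 41 .mp ⟨4218758, 0, 0, 0, 0, 0, 0, 0, 0, ⟨0, 0⟩, 0⟩ 0 0))) (.cut .d (-131072) (.cut .l 671088 (.pos 41 .mp ⟨5063482, 0, 0, 0, 0, 19232612, 0, 0, 0, ⟨0, 0⟩, 0⟩ 0 0) (.cut .s 6939648 (.pos 41 .mp ⟨4485246, 0, 0, 0, 0, 19290016, 0, 0, 0, ⟨0, 0⟩, 0⟩ 0 0) (.pos 41 .mp ⟨4548694, 0, 0, 0, 0, 19511441, 0, 0, 0, ⟨0, 0⟩, 0⟩ 0 0))) (.cut .l 671088 (.cut .v 16908288 (.cut .d (-65536) (.cut .v 16842752 (.pos 73 .mp ⟨0, 0, 0, 0, 0, 23941945, 0, 0, 0, ⟨0, 0⟩, 0⟩ 0 0) (.cut .l 432675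 (.cut .s 6939648 (.pos 74 .mp ⟨5663654, 0, 0, 0, 0, 18178668, 0, 0, 0, ⟨0, 0⟩, 0⟩ 0 0) (.pos 74 .mp ⟨5765653, 0, 0, 0, 0, 18351665, 0, 0, 0, ⟨0, 0⟩, 0⟩ 0 0)) (.cut .s 6939648 (.pos 74 .mp ⟨5327995, 0, 0, 0, 0, 18364503, 0, 0, 0, ⟨0, 0⟩, 0⟩ 0 0) (.pos 74 .mp ⟨5426320, 0, 0, 0, 0, 18540365, 0, 0, 0, ⟨0, 0⟩, 0⟩ 0 0)))) (.cut .s 6939648 (.pos 43 .mp ⟨6063947, 0, 0, 0, 0, 17516945, 0, 0, 0, ⟨0, 0⟩, 0⟩ 0 0) (.pos 43 .mp ⟨6188590, 0, 0, 0, 0, 17660049, 0, 0, 0, ⟨0, 0⟩, 0⟩ 0 0))) (.pos 44 .mp ⟨8284745, 0, 0, 0, 0, 15791661, 0, 0, 0, ⟨0, 0⟩, 0⟩ 0 0)) (.pos 41 .mp ⟨4444547, 0, 0, 0, 0, 0, 0, 0, 0, ⟨0, 0⟩, 0⟩ 0 0)))) (.cut .d (-131072) (.cut .l 671088 (.cut .s 6973440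 (.pos 41 .mp ⟨5282385, 0, 0, 0, 0, 19584567, 0, 0, 0, ⟨0, 0⟩, 0⟩ 0 0) (.pos 41 .mp ⟨5504065, 0, 0, 0, 0, 19943374, 0, 0, 0, ⟨0, 0⟩, 0⟩ 0 0)) (.cut .v 16908288 (.pos 43 .mp ⟨0, 0, 0, 0, 0, 24179308, 0, 0, 0, ⟨0, 0⟩, 0⟩ 0 0) (.cut .s 6973440 (.cut .s 6962176 (.pos 44 .mp ⟨4666509, 0, 0, 0, 0, 19700396, 0, 0, 0, ⟨0, 0⟩, 0⟩ 0 0) (.pos 44 .mp ⟨4748985, 0, 0, 0, 0, 19905324, 0, 0, 0, ⟨0, 0⟩, 0⟩ 0 0)) (.cut .s 6984704 (.pos 44 .mp ⟨4853091, 0, 0, 0, 0, 20090181, 0, 0, 0, ⟨0, 0⟩, 0⟩ 0 0) (.pos 44 .mp ⟨4957839, 0, 0, 0, 0, 20276781, 0, 0, 0, ⟨0, 0⟩, 0⟩ 0 0))))) (.cut .l 671088 (.cut .v 16908288 (.cut .s 6973440 (.cut .d (-65536) (.cut .v 16842752 (.pos 73 .mp ⟨0, 0,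 0, 0, 0, 24516226, 0, 0, 0, ⟨0, 0⟩, 0⟩ 0 0) (.cut .l 432675 (.cut .s 6962176 (.pos 74 .mp ⟨5868276, 0, 0, 0, 0, 18526376, 0, 0, 0, ⟨0, 0⟩, 0⟩ 0 0) (.pos 74 .mp ⟨5971525, 0, 0, 0, 0, 18702797, 0, 0, 0, ⟨0, 0⟩, 0⟩ 0 0)) (.cut .s 6962176 (.pos 74 .mp ⟨5525241, 0, 0, 0, 0, 18717977, 0, 0, 0, ⟨0, 0⟩, 0⟩ 0 0) (.pos 74 .mp ⟨5624759, 0, 0, 0, 0, 18897331, 0, 0, 0, ⟨0, 0⟩, 0⟩ 0 0)))) (.cut .s 6962176 (.pos 43 .mp ⟨6299397, 0, 0, 0, 0, 17820301, 0, 0, 0, ⟨0, 0⟩, 0⟩ 0 0) (.pos 43 .mp ⟨6406818, 0, 0, 0, 0, 17986533, 0, 0, 0, ⟨0, 0⟩, 0⟩ 0 0))) (.cut .d (-65536) (.cut .v 16842752 (.pos 73 .mp ⟨0, 0, 0, 0, 0, 25101128, 0, 0, 0, ⟨0, 0⟩, 0⟩ 0 0) (.cut .l 432675 (.cut .s 6984704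 (.pos 74 .mp ⟨6075402, 0, 0, 0, 0, 18880921, 0, 0, 0, ⟨0, 0⟩, 0⟩ 0 0) (.pos 74 .mp ⟨6179909, 0, 0, 0, 0, 19060743, 0, 0, 0, ⟨0, 0⟩, 0⟩ 0 0)) (.cut .s 6984704 (.pos 74 .mp ⟨5724876, 0, 0, 0, 0, 19078424, 0, 0, 0, ⟨0, 0⟩, 0⟩ 0 0) (.pos 74 .mp ⟨5825593, 0, 0, 0, 0, 19261249, 0, 0, 0, ⟨0, 0⟩, 0⟩ 0 0)))) (.cut .s 6984704 (.pos 43 .mp ⟨6514897, 0, 0, 0, 0, 18154413, 0, 0, 0, ⟨0, 0⟩, 0⟩ 0 0) (.pos 43 .mp ⟨6623634, 0, 0, 0, 0, 18323940, 0, 0, 0, ⟨0, 0⟩, 0⟩ 0 0)))) (.pos 44 .mp ⟨10947019, 0, 0, 0, 0, 14093160, 0, 0, 0, ⟨0, 0⟩, 0⟩ 0 0)) (.pos 41 .mp ⟨4904660, 0, 0, 0, 0, 0, 0, 0, 0, ⟨0, 0⟩, 0⟩ 0 0))))) (.pos 42 .mp ⟨25330946, 0, 0, 0, 0, 0, 0, 0, 0, ⟨0, 0⟩, 0⟩ 0 0))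 (.cut .v 17039360 (.cut .s 7086080 (.cut .s 7041024 (.cut .d (-131072) (.cut .l 671088 (.cut .s 7018496 (.pos 41 .mp ⟨5728536, 0, 0, 0, 0, 20309097, 0, 0, 0, ⟨0, 0⟩, 0⟩ 0 0) (.pos 41 .mp ⟨5955813, 0, 0, 0, 0, 20681799, 0, 0, 0, ⟨0, 0⟩, 0⟩ 0 0)) (.cut .v 16908288 (.pos 43 .mp ⟨0, 0, 0, 0, 0, 25323836, 0, 0, 0, ⟨0, 0⟩, 0⟩ 0 0) (.cut .s 7018496 (.cut .s 7007232 (.pos 44 .mp ⟨5063230, 0, 0, 0, 0, 20465119, 0, 0, 0, ⟨0, 0⟩, 0⟩ 0 0) (.pos 44 .mp ⟨5169267, 0, 0, 0, 0, 20655189, 0, 0, 0, ⟨0, 0⟩, 0⟩ 0 0)) (.cut .s 7029760 (.pos 44 .mp ⟨5275951, 0, 0, 0, 0, 20846986, 0, 0, 0, ⟨0, 0⟩, 0⟩ 0 0) (.pos 44 .mp ⟨5383283, 0, 0, 0, 0, 21040502, 0, 0, 0, ⟨0, 0⟩, 0⟩ 0 0))))) (.cut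 .l 671088 (.cut .v 16908288 (.cut .s 7018496 (.cut .d (-65536) (.cut .v 16842752 (.pos 73 .mp ⟨0, 0, 0, 0, 0, 25696749, 0, 0, 0, ⟨0, 0⟩, 0⟩ 0 0) (.cut .l 432675 (.cut .s 7007232 (.pos 74 .mp ⟨6285046, 0, 0, 0, 0, 19242257, 0, 0, 0, ⟨0, 0⟩, 0⟩ 0 0) (.pos 74 .mp ⟨6390816, 0, 0, 0, 0, 19425458, 0, 0, 0, ⟨0, 0⟩, 0⟩ 0 0)) (.cut .s 7007232 (.pos 74 .mp ⟨5926912, 0, 0, 0, 0, 19445801, 0, 0, 0, ⟨0, 0⟩, 0⟩ 0 0) (.pos 74 .mp ⟨6028833, 0, 0, 0, 0, 19632074, 0, 0, 0, ⟨0, 0⟩, 0⟩ 0 0)))) (.cut .d (-32768) (.cut .s 7007232 (.pos 43 .mp ⟨6733032, 0, 0, 0, 0, 18504118, 0, 0, 0, ⟨0, 0⟩, 0⟩ 0 0) (.cut .s 7012864 (.pos 43 .mp ⟨6787979, 0, 0, 0, 0, 18710130, 0, 0, 0, ⟨0, 0⟩, 0⟩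 0 0) (.pos 43 .mp ⟨6843092, 0, 0, 0, 0, 18797910, 0, 0, 0, ⟨0, 0⟩, 0⟩ 0 0))) (.pos 43 .mp ⟨6713273, 0, 0, 0, 0, 0, 0, 0, 0, ⟨0, 0⟩, 0⟩ 0 0))) (.cut .d (-65536) (.cut .v 16842752 (.pos 73 .mp ⟨0, 0, 0, 0, 0, 26303185, 0, 0, 0, ⟨0, 0⟩, 0⟩ 0 0) (.cut .l 432675 (.cut .s 7029760 (.pos 74 .mp ⟨6497220, 0, 0, 0, 0, 19610341, 0, 0, 0, ⟨0, 0⟩, 0⟩ 0 0) (.pos 74 .mp ⟨6604260, 0, 0, 0, 0, 19796899, 0, 0, 0, ⟨0, 0⟩, 0⟩ 0 0)) (.cut .s 7029760 (.pos 74 .mp ⟨6131360, 0, 0, 0, 0, 19820064, 0, 0, 0, ⟨0, 0⟩, 0⟩ 0 0) (.pos 74 .mp ⟨6234493, 0, 0, 0, 0, 20009764, 0, 0, 0, ⟨0, 0⟩, 0⟩ 0 0)))) (.cut .d (-32768) (.cut .d (-49152) (.cut .l 432675 (.cut .s 7029760 (.pos 43 .mp ⟨6848919,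 0, 0, 0, 0, 19068454, 0, 0, 0, ⟨0, 0⟩, 0⟩ 0 0) (.pos 43 .mp ⟨6951642, 0, 0, 0, 0, 19258030, 0, 0, 0, ⟨0, 0⟩, 0⟩ 0 0)) (.pos 43 .mp ⟨0, 0, 0, 0, 0, 0, 0, 0, 0, ⟨0, 0⟩, 0⟩ 0 0)) (.pos 43 .mp ⟨6995405, 0, 0, 0, 0, 18794197, 0, 0, 0, ⟨0, 0⟩, 0⟩ 0 0)) (.pos 43 .mp ⟨6925785, 0, 0, 0, 0, 0, 0, 0, 0, ⟨0, 0⟩, 0⟩ 0 0)))) (.pos 44 .mp ⟨11704478, 0, 0, 0, 0, 14476889, 0, 0, 0, ⟨0, 0⟩, 0⟩ 0 0)) (.pos 41 .mp ⟨6185910, 0, 0, 0, 0, 0, 0, 0, 0, ⟨0, 0⟩, 0⟩ 0 0))) (.cut .d (-131072) (.cut .l 671088 (.pos 41 .mp ⟨6185910, 0, 0, 0, 0, 21697979, 0, 0, 0, ⟨0, 0⟩, 0⟩ 0 0) (.cut .v 16908288 (.pos 43 .mp ⟨0, 0, 0, 0, 0, 26506527, 0, 0, 0, ⟨0, 0⟩, 0⟩ 0 0) (.cut .s 7063552 (.cut .s 7052288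 (.pos 44 .mp ⟨5491266, 0, 0, 0, 0, 21235734, 0, 0, 0, ⟨0, 0⟩, 0⟩ 0 0) (.pos 44 .mp ⟨5599900, 0, 0, 0, 0, 21432674, 0, 0, 0, ⟨0, 0⟩, 0⟩ 0 0)) (.cut .s 7074816 (.pos 44 .mp ⟨5709188, 0, 0, 0, 0, 21631318, 0, 0, 0, ⟨0, 0⟩, 0⟩ 0 0) (.pos 44 .mp ⟨5819132, 0, 0, 0, 0, 21831658, 0, 0, 0, ⟨0, 0⟩, 0⟩ 0 0))))) (.cut .l 671088 (.cut .v 16908288 (.cut .s 7063552 (.cut .d (-65536) (.cut .v 16842752 (.pos 73 .mp ⟨0, 0, 0, 0, 0, 26920537, 0, 0, 0, ⟨0, 0⟩, 0⟩ 0 0) (.cut .l 432675 (.cut .s 7052288 (.pos 74 .mp ⟨6711938, 0, 0, 0, 0, 19985126, 0, 0, 0, ⟨0, 0⟩, 0⟩ 0 0) (.pos 74 .mp ⟨6820255, 0, 0, 0, 0, 20175018, 0, 0, 0, ⟨0, 0⟩, 0⟩ 0 0)) (.cut .s 7052288 (.pos 74 .mp ⟨6338234,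 0, 0, 0, 0, 20201170, 0, 0, 0, ⟨0, 0⟩, 0⟩ 0 0) (.pos 74 .mp ⟨6442584, 0, 0, 0, 0, 20394275, 0, 0, 0, ⟨0, 0⟩, 0⟩ 0 0)))) (.cut .d (-32768) (.cut .d (-49152) (.cut .l 432675 (.cut .s 7052288 (.pos 43 .mp ⟨7054971, 0, 0, 0, 0, 19449387, 0, 0, 0, ⟨0, 0⟩, 0⟩ 0 0) (.pos 43 .mp ⟨7158907, 0, 0, 0, 0, 19642528, 0, 0, 0, ⟨0, 0⟩, 0⟩ 0 0)) (.pos 43 .mp ⟨0, 0, 0, 0, 0, 0, 0, 0, 0, ⟨0, 0⟩, 0⟩ 0 0)) (.pos 43 .mp ⟨7215295, 0, 0, 0, 0, 19156249, 0, 0, 0, ⟨0, 0⟩, 0⟩ 0 0)) (.pos 43 .mp ⟨7140788, 0, 0, 0, 0, 0, 0, 0, 0, ⟨0, 0⟩, 0⟩ 0 0))) (.cut .d (-65536) (.cut .v 16842752 (.pos 73 .mp ⟨0, 0, 0, 0, 0, 27548904, 0, 0, 0, ⟨0, 0⟩, 0⟩ 0 0) (.cut .l 432675 (.cut .s 7074816 (.pos 74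 .mp ⟨6929212, 0, 0, 0, 0, 20366567, 0, 0, 0, ⟨0, 0⟩, 0⟩ 0 0) (.pos 74 .mp ⟨7038813, 0, 0, 0, 0, 20559769, 0, 0, 0, ⟨0, 0⟩, 0⟩ 0 0)) (.cut .s 7074816 (.pos 74 .mp ⟨6547546, 0, 0, 0, 0, 20589074, 0, 0, 0, ⟨0, 0⟩, 0⟩ 0 0) (.pos 74 .mp ⟨6653121, 0, 0, 0, 0, 20785561, 0, 0, 0, ⟨0, 0⟩, 0⟩ 0 0)))) (.cut .d (-32768) (.cut .l 432675 (.cut .s 7074816 (.pos 43 .mp ⟨7188991, 0, 0, 0, 0, 19885179, 0, 0, 0, ⟨0, 0⟩, 0⟩ 0 0) (.cut .s 7080448 (.pos 43 .mp ⟨7291683, 0, 0, 0, 0, 20029185, 0, 0, 0, ⟨0, 0⟩, 0⟩ 0 0) (.pos 43 .mp ⟨7343251, 0, 0, 0, 0, 20128184, 0, 0, 0, ⟨0, 0⟩, 0⟩ 0 0))) (.pos 43 .mp ⟨0, 0, 0, 0, 0, 0, 0, 0, 0, ⟨0, 0⟩, 0⟩ 0 0)) (.pos 43 .mp ⟨7358296, 0, 0, 0, 0,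 0, 0, 0, 0, ⟨0, 0⟩, 0⟩ 0 0)))) (.pos 44 .mp ⟨12488592, 0, 0, 0, 0, 14868881, 0, 0, 0, ⟨0, 0⟩, 0⟩ 0 0)) (.pos 41 .mp ⟨6654621, 0, 0, 0, 0, 0, 0, 0, 0, ⟨0, 0⟩, 0⟩ 0 0)))) (.cut .s 7131136 (.cut .d (-131072) (.cut .l 671088 (.pos 41 .mp ⟨6654621, 0, 0, 0, 0, 22506974, 0, 0, 0, ⟨0, 0⟩, 0⟩ 0 0) (.cut .v 16908288 (.pos 43 .mp ⟨0, 0, 0, 0, 0, 27726674, 0, 0, 0, ⟨0, 0⟩, 0⟩ 0 0) (.cut .s 7108608 (.cut .s 7097344 (.pos 44 .mp ⟨5929733, 0, 0, 0, 0, 22033690, 0, 0, 0, ⟨0, 0⟩, 0⟩ 0 0) (.pos 44 .mp ⟨6040992, 0, 0, 0, 0, 22237407, 0, 0, 0, ⟨0, 0⟩, 0⟩ 0 0)) (.cut .s 7119872 (.pos 44 .mp ⟨6152912, 0, 0, 0, 0, 22442804, 0, 0, 0, ⟨0, 0⟩, 0⟩ 0 0) (.pos 44 .mp ⟨6265494, 0, 0, 0,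 0, 22649873, 0, 0, 0, ⟨0, 0⟩, 0⟩ 0 0))))) (.cut .l 671088 (.cut .v 16908288 (.cut .d (-65536) (.cut .s 7108608 (.cut .v 16842752 (.pos 73 .mp ⟨0, 0, 0, 0, 0, 28188385, 0, 0, 0, ⟨0, 0⟩, 0⟩ 0 0) (.cut .l 432675 (.cut .s 7097344 (.pos 74 .mp ⟨7149057, 0, 0, 0, 0, 20754618, 0, 0, 0, ⟨0, 0⟩, 0⟩ 0 0) (.pos 74 .mp ⟨7259948, 0, 0, 0, 0, 20951108, 0, 0, 0, ⟨0, 0⟩, 0⟩ 0 0)) (.cut .s 7097344 (.pos 74 .mp ⟨6759309, 0, 0, 0, 0, 20983732, 0, 0, 0, ⟨0, 0⟩, 0⟩ 0 0) (.pos 74 .mp ⟨6866114, 0, 0, 0, 0, 21183579, 0, 0, 0, ⟨0, 0⟩, 0⟩ 0 0)))) (.cut .v 16842752 (.pos 73 .mp ⟨0, 0, 0, 0, 0, 28839083, 0, 0, 0, ⟨0, 0⟩, 0⟩ 0 0) (.cut .l 432675 (.cut .s 7119872 (.pos 74 .mp ⟨7371486,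 0, 0, 0, 0, 21149232, 0, 0, 0, ⟨0, 0⟩, 0⟩ 0 0) (.pos 74 .mp ⟨7483673, 0, 0, 0, 0, 21348985, 0, 0, 0, ⟨0, 0⟩, 0⟩ 0 0)) (.cut .s 7119872 (.pos 74 .mp ⟨6973537, 0, 0, 0, 0, 21385097, 0, 0, 0, ⟨0, 0⟩, 0⟩ 0 0) (.pos 74 .mp ⟨7081578, 0, 0, 0, 0, 21588281, 0, 0, 0, ⟨0, 0⟩, 0⟩ 0 0))))) (.cut .d (-32768) (.cut .l 432675 (.cut .l 313468 (.cut .v 16842752 (.cut .v 16809984 (.pos 90 .mp ⟨0, 0, 0, 0, 0, 27308320, 0, 0, 0, ⟨0, 0⟩, 0⟩ 0 0) (.cut .s 7108608 (.cut .s 7097344 (.pos 91 .mp ⟨7265255, 0, 0, 0, 0, 20439528, 0, 0, 0, ⟨0, 0⟩, 0⟩ 0 0) (.pos 91 .mp ⟨7372368, 0, 0, 0, 0, 20635305, 0, 0, 0, ⟨0, 0⟩, 0⟩ 0 0)) (.cut .s 7119872 (.pos 91 .mp ⟨7480094, 0, 0, 0, 0, 20832729,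 0, 0, 0, ⟨0, 0⟩, 0⟩ 0 0) (.pos 91 .mp ⟨7588435, 0, 0, 0, 0, 21031792, 0, 0, 0, ⟨0, 0⟩, 0⟩ 0 0)))) (.pos 74 .mp ⟨13256552, 0, 0, 0, 0, 15282870, 0, 0, 0, ⟨0, 0⟩, 0⟩ 0 0)) (.pos 43 .mp ⟨7776993, 0, 0, 0, 0, 19737338, 0, 0, 0, ⟨0, 0⟩, 0⟩ 0 0)) (.pos 43 .mp ⟨0, 0, 0, 0, 0, 0, 0, 0, 0, ⟨0, 0⟩, 0⟩ 0 0)) (.pos 43 .mp ⟨7800880, 0, 0, 0, 0, 0, 0, 0, 0, ⟨0, 0⟩, 0⟩ 0 0))) (.pos 44 .mp ⟨13306609, 0, 0, 0, 0, 15261870, 0, 0, 0, ⟨0, 0⟩, 0⟩ 0 0)) (.pos 41 .mp ⟨7134788, 0, 0, 0, 0, 0, 0, 0, 0, ⟨0, 0⟩, 0⟩ 0 0))) (.cut .d (-131072) (.cut .l 671088 (.pos 41 .mp ⟨7134788, 0, 0, 0, 0, 23345030, 0, 0, 0, ⟨0, 0⟩, 0⟩ 0 0) (.cut .v 16908288 (.pos 43 .mp ⟨0, 0, 0, 0, 0, 28983585, 0,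 0, 0, ⟨0, 0⟩, 0⟩ 0 0) (.cut .d (-196608) (.cut .s 7153664 (.pos 44 .mp ⟨6518572, 0, 0, 0, 0, 23132230, 0, 0, 0, ⟨0, 0⟩, 0⟩ 0 0) (.pos 44 .mp ⟨6760085, 0, 0, 0, 0, 23551755, 0, 0, 0, ⟨0, 0⟩, 0⟩ 0 0)) (.cut .l 909501 (.cut .s 7153664 (.pos 44 .mp ⟨7414332, 0, 0, 0, 0, 21885797, 0, 0, 0, ⟨0, 0⟩, 0⟩ 0 0) (.pos 44 .mp ⟨7688352, 0, 0, 0, 0, 22257520, 0, 0, 0, ⟨0, 0⟩, 0⟩ 0 0)) (.pos 44 .mp ⟨7263622, 0, 0, 0, 0, 21797319, 0, 0, 0, ⟨0, 0⟩, 0⟩ 0 0))))) (.cut .l 671088 (.cut .v 16908288 (.cut .d (-65536) (.cut .s 7153664 (.cut .v 16842752 (.pos 73 .mp ⟨0, 0, 0, 0, 0, 29501098, 0, 0, 0, ⟨0, 0⟩, 0⟩ 0 0) (.cut .l 432675 (.cut .s 7142400 (.pos 74 .mp ⟨7596511, 0, 0, 0, 0,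 21550361, 0, 0, 0, ⟨0, 0⟩, 0⟩ 0 0) (.pos 74 .mp ⟨7710003, 0, 0, 0, 0, 21753354, 0, 0, 0, ⟨0, 0⟩, 0⟩ 0 0)) (.cut .s 7142400 (.pos 74 .mp ⟨7190241, 0, 0, 0, 0, 21793125, 0, 0, 0, ⟨0, 0⟩, 0⟩ 0 0) (.pos 74 .mp ⟨7299526, 0, 0, 0, 0, 21999623, 0, 0, 0, ⟨0, 0⟩, 0⟩ 0 0)))) (.cut .v 16842752 (.pos 73 .mp ⟨0, 0, 0, 0, 0, 30174534, 0, 0, 0, ⟨0, 0⟩, 0⟩ 0 0) (.cut .l 432675 (.cut .s 7164928 (.pos 74 .mp ⟨7840262, 0, 0, 0, 0, 21940859, 0, 0, 0, ⟨0, 0⟩, 0⟩ 0 0) (.pos 74 .mp ⟨7972969, 0, 0, 0, 0, 22128034, 0, 0, 0, ⟨0, 0⟩, 0⟩ 0 0)) (.cut .s 7164928 (.pos 74 .mp ⟨7409436, 0, 0, 0, 0, 22207768, 0, 0, 0, ⟨0, 0⟩, 0⟩ 0 0) (.pos 74 .mp ⟨7519971, 0, 0, 0, 0, 22417556, 0, 0, 0, ⟨0,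 0⟩, 0⟩ 0 0))))) (.cut .d (-32768) (.cut .l 432675 (.cut .l 313468 (.cut .v 16842752 (.cut .v 16809984 (.pos 90 .mp ⟨0, 0, 0, 0, 0, 28518428, 0, 0, 0, ⟨0, 0⟩, 0⟩ 0 0) (.cut .s 7153664 (.cut .s 7142400 (.pos 91 .mp ⟨7697394, 0, 0, 0, 0, 21232490, 0, 0, 0, ⟨0, 0⟩, 0⟩ 0 0) (.pos 91 .mp ⟨7806971, 0, 0, 0, 0, 21434816, 0, 0, 0, ⟨0, 0⟩, 0⟩ 0 0)) (.cut .s 7164928 (.pos 91 .mp ⟨7917168, 0, 0, 0, 0, 21638765, 0, 0, 0, ⟨0, 0⟩, 0⟩ 0 0) (.pos 91 .mp ⟨8027987, 0, 0, 0, 0, 21844331, 0, 0, 0, ⟨0, 0⟩, 0⟩ 0 0)))) (.pos 74 .mp ⟨14018743, 0, 0, 0, 0, 15757817, 0, 0, 0, ⟨0, 0⟩, 0⟩ 0 0)) (.pos 43 .mp ⟨8242428, 0, 0, 0, 0, 20501921, 0, 0, 0, ⟨0, 0⟩, 0⟩ 0 0)) (.pos 43 .mp ⟨0, 0, 0,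 0, 0, 0, 0, 0, 0, ⟨0, 0⟩, 0⟩ 0 0)) (.pos 43 .mp ⟨8253645, 0, 0, 0, 0, 0, 0, 0, 0, ⟨0, 0⟩, 0⟩ 0 0))) (.pos 44 .mp ⟨14165811, 0, 0, 0, 0, 15648427, 0, 0, 0, ⟨0, 0⟩, 0⟩ 0 0)) (.pos 41 .mp ⟨7626533, 0, 0, 0, 0, 0, 0, 0, 0, ⟨0, 0⟩, 0⟩ 0 0))))) (.pos 42 .mp ⟨29942648, 0, 0, 0, 0, 0, 0, 0, 0, ⟨0, 0⟩, 0⟩ 0 0))) (.cut .s 7356416 (.cut .v 17039360 (.cut .s 7266304 (.cut .d (-131072) (.cut .l 671088 (.pos 41 .mp ⟨7626533, 0, 0, 0, 0, 25677367, 0, 0, 0, ⟨0, 0⟩, 0⟩ 0 0) (.cut .s 7221248 (.cut .d (-196608) (.pos 41 .mp ⟨6426221, 0, 0, 0, 0, 25128944, 0, 0, 0, ⟨0, 0⟩, 0⟩ 0 0) (.cut .v 16908288 (.pos 43 .mp ⟨0, 0, 0, 0, 0, 30182680, 0, 0, 0, ⟨0, 0⟩, 0⟩ 0 0) (.cut .s 7198720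 (.pos 44 .mp ⟨7965719, 0, 0, 0, 0, 22542007, 0, 0, 0, ⟨0, 0⟩, 0⟩ 0 0) (.pos 44 .mp ⟨8246451, 0, 0, 0, 0, 22923182, 0, 0, 0, ⟨0, 0⟩, 0⟩ 0 0)))) (.cut .d (-196608) (.pos 41 .mp ⟨6954540, 0, 0, 0, 0, 25993282, 0, 0, 0, ⟨0, 0⟩, 0⟩ 0 0) (.cut .s 7243776 (.cut .s 7232512 (.pos 41 .mp ⟨7976439, 0, 0, 0, 0, 23710643, 0, 0, 0, ⟨0, 0⟩, 0⟩ 0 0) (.pos 41 .mp ⟨8120312, 0, 0, 0, 0, 23903455, 0, 0, 0, ⟨0, 0⟩, 0⟩ 0 0)) (.pos 41 .mp ⟨8308012, 0, 0, 0, 0, 24194212, 0, 0, 0, ⟨0, 0⟩, 0⟩ 0 0))))) (.cut .l 671088 (.cut .v 16908288 (.cut .s 7221248 (.cut .d (-65536) (.cut .s 7198720 (.cut .v 16842752 (.pos 73 .mp ⟨0, 0, 0, 0, 0, 30859494, 0, 0, 0, ⟨0, 0⟩, 0⟩ 0 0) (.cut .l 432675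 (.cut .s 7187456 (.pos 74 .mp ⟨8107411, 0, 0, 0, 0, 22315627, 0, 0, 0, ⟨0, 0⟩, 0⟩ 0 0) (.pos 74 .mp ⟨8243635, 0, 0, 0, 0, 22503581, 0, 0, 0, ⟨0, 0⟩, 0⟩ 0 0)) (.cut .s 7187456 (.pos 74 .mp ⟨7631134, 0, 0, 0, 0, 22628981, 0, 0, 0, ⟨0, 0⟩, 0⟩ 0 0) (.pos 74 .mp ⟨7742926, 0, 0, 0, 0, 22842035, 0, 0, 0, ⟨0, 0⟩, 0⟩ 0 0)))) (.cut .d (-98304) (.pos 43 .mp ⟨7655710, 0, 0, 0, 0, 23763563, 0, 0, 0, ⟨0, 0⟩, 0⟩ 0 0) (.cut .l 432675 (.pos 43 .mp ⟨8263136, 0, 0, 0, 0, 23060772, 0, 0, 0, ⟨0, 0⟩, 0⟩ 0 0) (.pos 43 .mp ⟨8336484, 0, 0, 0, 0, 22460319, 0, 0, 0, ⟨0, 0⟩, 0⟩ 0 0)))) (.cut .d (-32768) (.cut .l 432675 (.cut .l 313468 (.cut .v 16842752 (.cut .v 16809984 (.pos 90 .mp ⟨0,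 0, 0, 0, 0, 29763586, 0, 0, 0, ⟨0, 0⟩, 0⟩ 0 0) (.cut .s 7198720 (.cut .s 7187456 (.pos 91 .mp ⟨8139429, 0, 0, 0, 0, 22051508, 0, 0, 0, ⟨0, 0⟩, 0⟩ 0 0) (.pos 91 .mp ⟨8251497, 0, 0, 0, 0, 22260291, 0, 0, 0, ⟨0, 0⟩, 0⟩ 0 0)) (.cut .s 7209984 (.pos 91 .mp ⟨8364192, 0, 0, 0, 0, 22470672, 0, 0, 0, ⟨0, 0⟩, 0⟩ 0 0) (.pos 91 .mp ⟨8477515, 0, 0, 0, 0, 22682647, 0, 0, 0, ⟨0, 0⟩, 0⟩ 0 0)))) (.pos 74 .mp ⟨14838367, 0, 0, 0, 0, 16210546, 0, 0, 0, ⟨0, 0⟩, 0⟩ 0 0)) (.pos 43 .mp ⟨8718643, 0, 0, 0, 0, 21280311, 0, 0, 0, ⟨0, 0⟩, 0⟩ 0 0)) (.pos 43 .mp ⟨0, 0, 0, 0, 0, 0, 0, 0, 0, ⟨0, 0⟩, 0⟩ 0 0)) (.pos 43 .mp ⟨8716699, 0, 0, 0, 0, 0, 0, 0, 0, ⟨0, 0⟩, 0⟩ 0 0))) (.cut .d (-65536)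 (.cut .s 7243776 (.cut .s 7232512 (.cut .s 7226880 (.pos 43 .mp ⟨8477509, 0, 0, 0, 0, 23072975, 0, 0, 0, ⟨0, 0⟩, 0⟩ 0 0) (.pos 43 .mp ⟨8546661, 0, 0, 0, 0, 23169144, 0, 0, 0, ⟨0, 0⟩, 0⟩ 0 0)) (.pos 43 .mp ⟨8384531, 0, 0, 0, 0, 23620765, 0, 0, 0, ⟨0, 0⟩, 0⟩ 0 0)) (.cut .s 7255040 (.pos 43 .mp ⟨8531110, 0, 0, 0, 0, 23809577, 0, 0, 0, ⟨0, 0⟩, 0⟩ 0 0) (.pos 43 .mp ⟨8680077, 0, 0, 0, 0, 23998119, 0, 0, 0, ⟨0, 0⟩, 0⟩ 0 0))) (.cut .d (-32768) (.cut .l 432675 (.cut .l 313468 (.cut .v 16842752 (.cut .v 16809984 (.pos 90 .mp ⟨0, 0, 0, 0, 0, 31043155, 0, 0, 0, ⟨0, 0⟩, 0⟩ 0 0) (.cut .s 7243776 (.cut .s 7232512 (.pos 91 .mp ⟨8591468, 0, 0, 0, 0, 22896209, 0, 0, 0, ⟨0, 0⟩,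 0⟩ 0 0) (.pos 91 .mp ⟨8706054, 0, 0, 0, 0, 23111352, 0, 0, 0, ⟨0, 0⟩, 0⟩ 0 0)) (.cut .s 7255040 (.pos 91 .mp ⟨8821273, 0, 0, 0, 0, 23328070, 0, 0, 0, ⟨0, 0⟩, 0⟩ 0 0) (.pos 91 .mp ⟨8963965, 0, 0, 0, 0, 23518682, 0, 0, 0, ⟨0, 0⟩, 0⟩ 0 0)))) (.pos 74 .mp ⟨15722920, 0, 0, 0, 0, 16633026, 0, 0, 0, ⟨0, 0⟩, 0⟩ 0 0)) (.pos 43 .mp ⟨9205755, 0, 0, 0, 0, 22070180, 0, 0, 0, ⟨0, 0⟩, 0⟩ 0 0)) (.pos 43 .mp ⟨0, 0, 0, 0, 0, 0, 0, 0, 0, ⟨0, 0⟩, 0⟩ 0 0)) (.pos 43 .mp ⟨9190156, 0, 0, 0, 0, 0, 0, 0, 0, ⟨0, 0⟩, 0⟩ 0 0)))) (.cut .s 7221248 (.pos 44 .mp ⟨15073521, 0, 0, 0, 0, 16020951, 0, 0, 0, ⟨0, 0⟩, 0⟩ 0 0) (.pos 44 .mp ⟨16037098, 0, 0, 0, 0, 16371670, 0, 0, 0, ⟨0, 0⟩, 0⟩ 0 0)))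 (.pos 41 .mp ⟨7910681, 0, 0, 0, 0, 21232121, 0, 0, 0, ⟨0, 0⟩, 0⟩ 0 0))) (.cut .d (-131072) (.cut .l 671088 (.void 41 ⟨0, 0, 0, 0, 0, 100000, 0, 0, 0, ⟨0, 0⟩, 0⟩ 0 0) (.cut .v 16908288 (.pos 43 .mp ⟨0, 0, 0, 0, 0, 34042440, 0, 0, 0, ⟨0, 0⟩, 0⟩ 0 0) (.cut .s 7311360 (.cut .s 7288832 (.cut .s 7277568 (.pos 44 .mp ⟨7790138, 0, 0, 0, 0, 25491238, 0, 0, 0, ⟨0, 0⟩, 0⟩ 0 0) (.pos 44 .mp ⟨7912180, 0, 0, 0, 0, 25721081, 0, 0, 0, ⟨0, 0⟩, 0⟩ 0 0)) (.pos 44 .mp ⟨8034912, 0, 0, 0, 0, 26160358, 0, 0, 0, ⟨0, 0⟩, 0⟩ 0 0)) (.cut .s 7333888 (.pos 44 .mp ⟨8282451, 0, 0, 0, 0, 26631363, 0, 0, 0, ⟨0, 0⟩, 0⟩ 0 0) (.pos 44 .mp ⟨8532772, 0, 0, 0, 0, 27108571, 0, 0, 0, ⟨0, 0⟩, 0⟩ 0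 0))))) (.cut .l 671088 (.cut .v 16908288 (.cut .s 7311360 (.cut .d (-65536) (.cut .v 16842752 (.pos 73 .mp ⟨0, 0, 0, 0, 0, 33928616, 0, 0, 0, ⟨0, 0⟩, 0⟩ 0 0) (.cut .s 7288832 (.cut .s 7277568 (.pos 74 .mp ⟨8908796, 0, 0, 0, 0, 24119648, 0, 0, 0, ⟨0, 0⟩, 0⟩ 0 0) (.pos 74 .mp ⟨9067909, 0, 0, 0, 0, 24302849, 0, 0, 0, ⟨0, 0⟩, 0⟩ 0 0)) (.cut .s 7300096 (.pos 74 .mp ⟨9229861, 0, 0, 0, 0, 24485317, 0, 0, 0, ⟨0, 0⟩, 0⟩ 0 0) (.pos 74 .mp ⟨9394719, 0, 0, 0, 0, 24666972, 0, 0, 0, ⟨0, 0⟩, 0⟩ 0 0)))) (.cut .d (-32768) (.cut .l 432675 (.cut .l 313468 (.cut .v 16842752 (.cut .s 7288832 (.cut .s 7277568 (.pos 73 .mp ⟨9093595, 0, 0, 0, 0, 23720293, 0, 0, 0, ⟨0, 0⟩, 0⟩ 0 0)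 (.pos 73 .mp ⟨9253633, 0, 0, 0, 0, 23897333, 0, 0, 0, ⟨0, 0⟩, 0⟩ 0 0)) (.pos 73 .mp ⟨9183894, 0, 0, 0, 0, 24487717, 0, 0, 0, ⟨0, 0⟩, 0⟩ 0 0)) (.pos 74 .mp ⟨16679976, 0, 0, 0, 0, 17017011, 0, 0, 0, ⟨0, 0⟩, 0⟩ 0 0)) (.pos 43 .mp ⟨9703883, 0, 0, 0, 0, 22873508, 0, 0, 0, ⟨0, 0⟩, 0⟩ 0 0)) (.pos 43 .mp ⟨0, 0, 0, 0, 0, 0, 0, 0, 0, ⟨0, 0⟩, 0⟩ 0 0)) (.pos 43 .mp ⟨9674130, 0, 0, 0, 0, 0, 0, 0, 0, ⟨0, 0⟩, 0⟩ 0 0))) (.cut .d (-65536) (.cut .v 16842752 (.pos 73 .mp ⟨0, 0, 0, 0, 0, 35438003, 0, 0, 0, ⟨0, 0⟩, 0⟩ 0 0) (.cut .s 7333888 (.cut .s 7322624 (.pos 74 .mp ⟨9562549, 0, 0, 0, 0, 24847735, 0, 0, 0, ⟨0, 0⟩, 0⟩ 0 0) (.pos 74 .mp ⟨9733419, 0, 0, 0, 0, 25027526, 0, 0, 0,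 ⟨0, 0⟩, 0⟩ 0 0)) (.cut .s 7345152 (.pos 74 .mp ⟨9907394, 0, 0, 0, 0, 25206266, 0, 0, 0, ⟨0, 0⟩, 0⟩ 0 0) (.pos 74 .mp ⟨10084541, 0, 0, 0, 0, 25383874, 0, 0, 0, ⟨0, 0⟩, 0⟩ 0 0)))) (.cut .d (-32768) (.cut .l 432675 (.cut .l 313468 (.cut .s 7333888 (.cut .s 7322624 (.pos 43 .mp ⟨9825787, 0, 0, 0, 0, 24366586, 0, 0, 0, ⟨0, 0⟩, 0⟩ 0 0) (.pos 43 .mp ⟨9967109, 0, 0, 0, 0, 24566774, 0, 0, 0, ⟨0, 0⟩, 0⟩ 0 0)) (.pos 43 .mp ⟨10099140, 0, 0, 0, 0, 24970652, 0, 0, 0, ⟨0, 0⟩, 0⟩ 0 0)) (.pos 43 .mp ⟨10213150, 0, 0, 0, 0, 23694970, 0, 0, 0, ⟨0, 0⟩, 0⟩ 0 0)) (.pos 43 .mp ⟨0, 0, 0, 0, 0, 0, 0, 0, 0, ⟨0, 0⟩, 0⟩ 0 0)) (.pos 43 .mp ⟨10168737, 0, 0, 0, 0, 0, 0, 0, 0, ⟨0, 0⟩, 0⟩ 0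 0)))) (.pos 44 .mp ⟨23489653, 0, 0, 0, 0, 11148357, 0, 0, 0, ⟨0, 0⟩, 0⟩ 0 0)) (.pos 41 .mp ⟨9006753, 0, 0, 0, 0, 23502787, 0, 0, 0, ⟨0, 0⟩, 0⟩ 0 0)))) (.pos 42 .mp ⟨35012141, 0, 0, 0, 0, 0, 0, 0, 0, ⟨0, 0⟩, 0⟩ 0 0)) (.cut .v 17039360 (.cut .s 7446528 (.cut .d (-131072) (.cut .l 671088 (.void 41 ⟨0, 0, 0, 0, 0, 100000, 0, 0, 0, ⟨0, 0⟩, 0⟩ 0 0) (.cut .d (-196608) (.pos 41 .mp ⟨8615780, 0, 0, 0, 0, 29978869, 0, 0, 0, ⟨0, 0⟩, 0⟩ 0 0) (.cut .s 7401472 (.cut .s 7378944 (.pos 41 .mp ⟨9501712, 0, 0, 0, 0, 26597629, 0, 0, 0, ⟨0, 0⟩, 0⟩ 0 0) (.pos 41 .mp ⟨9748585, 0, 0, 0, 0, 27098850, 0, 0, 0, ⟨0, 0⟩, 0⟩ 0 0)) (.pos 41 .mp ⟨9998204, 0, 0, 0, 0, 27949748, 0, 0, 0, ⟨0,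 0⟩, 0⟩ 0 0)))) (.cut .l 671088 (.cut .v 16908288 (.cut .s 7401472 (.cut .d (-65536) (.cut .s 7378944 (.pos 43 .mp ⟨9631759, 0, 0, 0, 0, 26449704, 0, 0, 0, ⟨0, 0⟩, 0⟩ 0 0) (.pos 43 .mp ⟨9984026, 0, 0, 0, 0, 26820078, 0, 0, 0, ⟨0, 0⟩, 0⟩ 0 0)) (.cut .d (-32768) (.cut .l 432675 (.cut .s 7378944 (.cut .s 7367680 (.pos 43 .mp ⟨10447326, 0, 0, 0, 0, 25100796, 0, 0, 0, ⟨0, 0⟩, 0⟩ 0 0) (.pos 43 .mp ⟨10675227, 0, 0, 0, 0, 25204692, 0, 0, 0, ⟨0, 0⟩, 0⟩ 0 0)) (.pos 43 .mp ⟨10637422, 0, 0, 0, 0, 25783986, 0, 0, 0, ⟨0, 0⟩, 0⟩ 0 0)) (.pos 43 .mp ⟨0, 0, 0, 0, 0, 0, 0, 0, 0, ⟨0, 0⟩, 0⟩ 0 0)) (.pos 43 .mp ⟨10674099, 0, 0, 0, 0, 0, 0, 0, 0, ⟨0, 0⟩, 0⟩ 0 0))) (.cut .d (-65536)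 (.cut .s 7424000 (.pos 43 .mp ⟨10346052, 0, 0, 0, 0, 27188189, 0, 0, 0, ⟨0, 0⟩, 0⟩ 0 0) (.pos 43 .mp ⟨10697774, 0, 0, 0, 0, 27571589, 0, 0, 0, ⟨0, 0⟩, 0⟩ 0 0)) (.cut .d (-32768) (.cut .s 7424000 (.pos 43 .mp ⟨11261547, 0, 0, 0, 0, 25778479, 0, 0, 0, ⟨0, 0⟩, 0⟩ 0 0) (.pos 43 .mp ⟨11187493, 0, 0, 0, 0, 26659710, 0, 0, 0, ⟨0, 0⟩, 0⟩ 0 0)) (.pos 43 .mp ⟨11190336, 0, 0, 0, 0, 0, 0, 0, 0, ⟨0, 0⟩, 0⟩ 0 0)))) (.pos 44 .mp ⟨26245595, 0, 0, 0, 0, 11177987, 0, 0, 0, ⟨0, 0⟩, 0⟩ 0 0)) (.pos 41 .mp ⟨10280010, 0, 0, 0, 0, 24913840, 0, 0, 0, ⟨0, 0⟩, 0⟩ 0 0))) (.cut .d (-131072) (.cut .d (-196608) (.pos 41 .mp ⟨9788252, 0, 0, 0, 0, 32445497, 0, 0, 0, ⟨0, 0⟩, 0⟩ 0 0) (.cut .l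 671088 (.void 41 ⟨0, 0, 0, 0, 0, 100000, 0, 0, 0, ⟨0, 0⟩, 0⟩ 0 0) (.cut .s 7491584 (.pos 41 .mp ⟨9757414, 0, 0, 0, 0, 29915951, 0, 0, 0, ⟨0, 0⟩, 0⟩ 0 0) (.pos 41 .mp ⟨10292651, 0, 0, 0, 0, 30972806, 0, 0, 0, ⟨0, 0⟩, 0⟩ 0 0)))) (.cut .l 671088 (.cut .v 16908288 (.cut .s 7491584 (.cut .d (-65536) (.cut .s 7469056 (.pos 43 .mp ⟨11060691, 0, 0, 0, 0, 27951256, 0, 0, 0, ⟨0, 0⟩, 0⟩ 0 0) (.pos 43 .mp ⟨11435166, 0, 0, 0, 0, 28326707, 0, 0, 0, ⟨0, 0⟩, 0⟩ 0 0)) (.cut .d (-32768) (.cut .s 7469056 (.pos 43 .mp ⟨11466990, 0, 0, 0, 0, 27135122, 0, 0, 0, ⟨0, 0⟩, 0⟩ 0 0) (.pos 43 .mp ⟨11749486, 0, 0, 0, 0, 27617373, 0, 0, 0, ⟨0, 0⟩, 0⟩ 0 0)) (.pos 43 .mp ⟨11717574, 0, 0, 0,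 0, 0, 0, 0, 0, ⟨0, 0⟩, 0⟩ 0 0))) (.cut .d (-65536) (.pos 43 .mp ⟨10975666, 0, 0, 0, 0, 30152678, 0, 0, 0, ⟨0, 0⟩, 0⟩ 0 0) (.cut .s 7514112 (.cut .s 7502848 (.pos 43 .mp ⟨12228008, 0, 0, 0, 0, 27281878, 0, 0, 0, ⟨0, 0⟩, 0⟩ 0 0) (.pos 43 .mp ⟨12369045, 0, 0, 0, 0, 27503078, 0, 0, 0, ⟨0, 0⟩, 0⟩ 0 0)) (.pos 43 .mp ⟨12653369, 0, 0, 0, 0, 27737326, 0, 0, 0, ⟨0, 0⟩, 0⟩ 0 0)))) (.pos 44 .mp ⟨29341956, 0, 0, 0, 0, 10980622, 0, 0, 0, ⟨0, 0⟩, 0⟩ 0 0)) (.pos 41 .mp ⟨11580268, 0, 0, 0, 0, 26409944, 0, 0, 0, ⟨0, 0⟩, 0⟩ 0 0)))) (.pos 42 .mp ⟨40459128, 0, 0, 0, 0, 0, 0, 0, 0, ⟨0, 0⟩, 0⟩ 0 0)))) (.pos 40 .mp ⟨35180252, 0, 0, 0, 0, 0, 0, 0, 0, ⟨0, 0⟩, 0⟩ 0 0)) (.pos 38 .mp ⟨38726126,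 0, 0, 0, 0, 0, 0, 0, 0, ⟨0, 0⟩, 0⟩ 0 0)) (.void 36 ⟨100000, 0, 0, 0, 0, 0, 0, 0, 0, ⟨0, 0⟩, 0⟩ 0 0)) (.void 34 ⟨100000, 0, 0, 0, 0, 0, 0, 0, 0, ⟨0, 0⟩, 0⟩ 0 0)))))))) (.void 32 ⟨100000, 0, 0, 0, 0, 0, 0, 0, 0, ⟨0, 0⟩, 0⟩ 0 0)) (.void 83 ⟨100000, 0, 0, 0, 0, 0, 0, 0, 0, ⟨0, 0⟩, 0⟩ 0 0))) (.cut .v 16777216 (.cut .v 8388608 (.cut .v 4194304 (.void 4 ⟨0, 0, 50000, 0, 50000, 0, 0, 0, 0, ⟨0, 0⟩, 0⟩ 0 0) (.pos 5 .pm ⟨0, 0, 0, 0, 0, 0, 0, 0, 0, ⟨0, 0⟩, 0⟩ 0 0)) (.pos 3 .pm ⟨0, 0, 0, 0, 0, 0, 0, 0, 0, ⟨0, 0⟩, 0⟩ 0 0)) (.cut .v 33554432 (.cut .d 12260274 (.cut .v 25165824 (.cut .v 20971520 (.pos 33 .pp ⟨14771169, 0, 0, 0, 0, 0, 0, 0, 0, ⟨0, 0⟩, 0⟩ 0 0) (.pos 34 .pp ⟨18183107,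 0, 0, 0, 0, 0, 0, 0, 0, ⟨0, 0⟩, 0⟩ 0 0)) (.pos 32 .pp ⟨17270097, 0, 0, 0, 0, 0, 1665647, 0, 0, ⟨0, 0⟩, 0⟩ 0 0)) (.cut .d 18390411 (.pos 30 .pp ⟨0, 6050943, 0, 0, 0, 0, 0, 8637322, 2058278, ⟨4756016, 5074⟩, 19951585⟩ 180 293) (.void 30 ⟨0, 87688, 0, 0, 0, 0, 0, 0, 12312, ⟨0, 0⟩, 19951585⟩ 0 0))) (.cut .v 50331648 (.cut .d 12260274 (.cut .d 6130137 (.pos 86 .pp ⟨34021598, 0, 0, 0, 0, 0, 3446445, 0, 0, ⟨0, 0⟩, 0⟩ 0 0) (.pos 86 .pp ⟨0, 0, 0, 0, 0, 0, 43632448, 0, 0, ⟨0, 0⟩, 0⟩ 0 0)) (.cut .d 18390411 (.pos 86 .pp ⟨0, 16949349, 0, 0, 0, 0, 82694694, 0, 0, ⟨0, 0⟩, 0⟩ 0 0) (.void 86 ⟨0, 100000, 0, 0, 0, 0, 0, 0, 0, ⟨0, 0⟩, 0⟩ 0 0))) (.void 87 ⟨0, 0, 0, 0, 0, 0, 100000,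 0, 0, ⟨0, 0⟩, 0⟩ 0 0))))),
    by decide +kernel⟩

def covers8 : cell.Covers table row8.1 :=
  ⟨(.cut .d 0 (.cut .v 16777216 (.cut .d (-8388608) (.void 1 ⟨0, 0, 0, 0, 0, 100000, 0, 0, 0, ⟨0, 0⟩, 0⟩ 0 0) (.cut .d (-4194304) (.void 1 ⟨0, 0, 0, 0, 0, 100000, 0, 0, 0, ⟨0, 0⟩, 0⟩ 0 0) (.cut .d (-2097152) (.void 1 ⟨0, 0, 0, 0, 0, 100000, 0, 0, 0, ⟨0, 0⟩, 0⟩ 0 0) (.cut .d (-1048576) (.void 1 ⟨0, 0, 0, 0, 0, 100000, 0, 0, 0, ⟨0, 0⟩, 0⟩ 0 0) (.cut .d (-524288) (.void 1 ⟨0, 0, 0, 0, 0, 100000, 0, 0, 0, ⟨0, 0⟩, 0⟩ 0 0) (.cut .d (-262144) (.void 1 ⟨0, 0, 0, 0, 0, 100000, 0, 0, 0, ⟨0, 0⟩, 0⟩ 0 0) (.cut .v 8388608 (.cut .v 4194304 (.void 4 ⟨0, 0, 100000, 0, 0, 0, 0, 0, 0,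 ⟨0, 0⟩, 0⟩ 0 0) (.pos 5 .mm ⟨0, 0, 0, 0, 0, 28731405, 0, 0, 0, ⟨0, 0⟩, 0⟩ 0 0)) (.cut .v 12582912 (.pos 8 .mm ⟨0, 0, 0, 0, 0, 33638090, 0, 0, 0, ⟨0, 0⟩, 0⟩ 0 0) (.cut .v 14680064 (.pos 12 .mm ⟨0, 0, 0, 0, 0, 41241348, 0, 0, 0, ⟨0, 0⟩, 0⟩ 0 0) (.cut .v 15728640 (.pos 16 .mm ⟨0, 0, 0, 0, 0, 46378935, 0, 0, 0, ⟨0, 0⟩, 0⟩ 0 0) (.cut .s 7798784 (.cut .d (-131072) (.pos 17 .mm ⟨0, 0, 0, 0, 0, 49013532, 0, 0, 0, ⟨0, 0⟩, 0⟩ 0 0) (.cut .s 7667712 (.pos 17 .mm ⟨0, 0, 0, 0, 0, 42956757, 0, 0, 0, ⟨0, 0⟩, 0⟩ 0 0) (.cut .s 7733248 (.pos 17 .mm ⟨0, 0, 0, 0, 0, 45940363, 0, 0, 0, ⟨0, 0⟩, 0⟩ 0 0) (.pos 17 .mm ⟨0, 0, 0, 0, 0, 48462640, 0, 0, 0, ⟨0, 0⟩, 0⟩ 0 0)))) (.cut .d (-131072)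 (.pos 17 .mm ⟨0, 0, 0, 0, 0, 60327072, 0, 0, 0, ⟨0, 0⟩, 0⟩ 0 0) (.cut .l 671088 (.cut .v 16252928 (.pos 20 .mm ⟨0, 0, 0, 0, 0, 52482434, 0, 0, 0, ⟨0, 0⟩, 0⟩ 0 0) (.cut .v 16515072 (.pos 24 .mm ⟨0, 0, 0, 0, 0, 54106606, 0, 0, 0, ⟨0, 0⟩, 0⟩ 0 0) (.cut .v 16646144 (.pos 28 .mm ⟨0, 0, 0, 0, 0, 54940891, 0, 0, 0, ⟨0, 0⟩, 0⟩ 0 0) (.cut .s 7929856 (.cut .s 7864320 (.pos 29 .mm ⟨0, 0, 0, 0, 0, 51083628, 0, 0, 0, ⟨0, 0⟩, 0⟩ 0 0) (.pos 29 .mm ⟨0, 0, 0, 0, 0, 53800893, 0, 0, 0, ⟨0, 0⟩, 0⟩ 0 0)) (.cut .s 7995392 (.pos 29 .mm ⟨0, 0, 0, 0, 0, 56612077, 0, 0, 0, ⟨0, 0⟩, 0⟩ 0 0) (.pos 29 .mm ⟨0, 0, 0, 0, 0, 59514903, 0, 0, 0, ⟨0, 0⟩, 0⟩ 0 0)))))) (.pos 17 .mm ⟨0, 0, 0, 0,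 0, 50899733, 0, 0, 0, ⟨0, 0⟩, 0⟩ 0 0)))))))))))))) (.cut .v 67108864 (.cut .v 33554432 (.cut .v 25165824 (.cut .d (-8388608) (.void 31 ⟨0, 0, 0, 0, 0, 100000, 0, 0, 0, ⟨0, 0⟩, 0⟩ 0 0) (.cut .v 20971520 (.cut .d (-4194304) (.void 33 ⟨0, 0, 0, 0, 0, 100000, 0, 0, 0, ⟨0, 0⟩, 0⟩ 0 0) (.cut .d (-2097152) (.void 33 ⟨0, 0, 0, 0, 0, 100000, 0, 0, 0, ⟨0, 0⟩, 0⟩ 0 0) (.cut .d (-1048576) (.void 33 ⟨0, 0, 0, 0, 0, 100000, 0, 0, 0, ⟨0, 0⟩, 0⟩ 0 0) (.cut .d (-524288) (.void 33 ⟨0, 0, 0, 0, 0, 100000, 0, 0, 0, ⟨0, 0⟩, 0⟩ 0 0) (.cut .d (-262144) (.void 33 ⟨0, 0, 0, 0, 0, 100000, 0, 0, 0, ⟨0, 0⟩, 0⟩ 0 0) (.cut .v 18874368 (.cut .v 17825792 (.cut .v 17301504 (.cut .s 7798784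 (.cut .s 7667712 (.cut .v 17039360 (.cut .d (-131072) (.cut .d (-196608) (.pos 41 .mp ⟨12452386, 0, 0, 0, 0, 34538771, 0, 0, 0, ⟨0, 0⟩, 0⟩ 0 0) (.cut .l 671088 (.void 41 ⟨0, 0, 0, 0, 0, 100000, 0, 0, 0, ⟨0, 0⟩, 0⟩ 0 0) (.cut .s 7602176 (.pos 41 .mp ⟨10837172, 0, 0, 0, 0, 32727185, 0, 0, 0, ⟨0, 0⟩, 0⟩ 0 0) (.cut .s 7634944 (.pos 41 .mp ⟨11676875, 0, 0, 0, 0, 33420326, 0, 0, 0, ⟨0, 0⟩, 0⟩ 0 0) (.pos 41 .mp ⟨12105680, 0, 0, 0, 0, 34158577, 0, 0, 0, ⟨0, 0⟩, 0⟩ 0 0))))) (.cut .l 671088 (.cut .v 16908288 (.cut .s 7602176 (.cut .d (-65536) (.cut .s 7569408 (.pos 43 .mp ⟨12438323, 0, 0, 0, 0, 29914336, 0, 0, 0, ⟨0, 0⟩, 0⟩ 0 0) (.pos 43 .mp ⟨12646594, 0, 0, 0, 0, 30828682,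 0, 0, 0, ⟨0, 0⟩, 0⟩ 0 0)) (.cut .d (-32768) (.cut .s 7569408 (.pos 43 .mp ⟨12749325, 0, 0, 0, 0, 29088187, 0, 0, 0, ⟨0, 0⟩, 0⟩ 0 0) (.pos 43 .mp ⟨13182222, 0, 0, 0, 0, 29700090, 0, 0, 0, ⟨0, 0⟩, 0⟩ 0 0)) (.pos 43 .mp ⟨13399772, 0, 0, 0, 0, 0, 0, 0, 0, ⟨0, 0⟩, 0⟩ 0 0))) (.cut .d (-65536) (.cut .s 7634944 (.pos 43 .mp ⟨12868633, 0, 0, 0, 0, 31755939, 0, 0, 0, ⟨0, 0⟩, 0⟩ 0 0) (.pos 43 .mp ⟨13106004, 0, 0, 0, 0, 32694182, 0, 0, 0, ⟨0, 0⟩, 0⟩ 0 0)) (.cut .d (-32768) (.cut .l 432675 (.cut .s 7634944 (.pos 43 .mp ⟨13621305, 0, 0, 0, 0, 30414337, 0, 0, 0, ⟨0, 0⟩, 0⟩ 0 0) (.cut .s 7651328 (.pos 43 .mp ⟨13932071, 0, 0, 0, 0, 30963413, 0, 0, 0, ⟨0, 0⟩, 0⟩ 0 0) (.pos 43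 .mp ⟨14066626, 0, 0, 0, 0, 31410948, 0, 0, 0, ⟨0, 0⟩, 0⟩ 0 0))) (.pos 43 .mp ⟨13434011, 0, 0, 0, 0, 0, 0, 0, 0, ⟨0, 0⟩, 0⟩ 0 0)) (.pos 43 .mp ⟨14026258, 0, 0, 0, 0, 28897327, 0, 0, 0, ⟨0, 0⟩, 0⟩ 0 0)))) (.pos 44 .mp ⟨45228579, 0, 0, 0, 0, 0, 0, 0, 0, ⟨0, 0⟩, 0⟩ 0 0)) (.cut .s 7602176 (.pos 41 .mp ⟨12884000, 0, 0, 0, 0, 28301126, 0, 0, 0, ⟨0, 0⟩, 0⟩ 0 0) (.pos 41 .mp ⟨13803924, 0, 0, 0, 0, 29625648, 0, 0, 0, ⟨0, 0⟩, 0⟩ 0 0)))) (.pos 42 .mp ⟨46647260, 0, 0, 0, 0, 0, 0, 0, 0, ⟨0, 0⟩, 0⟩ 0 0)) (.cut .v 17039360 (.cut .d (-131072) (.cut .l 671088 (.void 41 ⟨0, 0, 0, 0, 0, 100000, 0, 0, 0, ⟨0, 0⟩, 0⟩ 0 0) (.cut .d (-196608) (.pos 41 .mp ⟨12940197, 0, 0, 0, 0, 46256241,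 0, 0, 0, ⟨0, 0⟩, 0⟩ 0 0) (.cut .v 16908288 (.pos 43 .mp ⟨0, 0, 0, 0, 0, 49664044, 0, 0, 0, ⟨0, 0⟩, 0⟩ 0 0) (.cut .s 7733248 (.cut .s 7700480 (.pos 44 .mp ⟨14795966, 0, 0, 0, 0, 32258329, 0, 0, 0, ⟨0, 0⟩, 0⟩ 0 0) (.pos 44 .mp ⟨15336366, 0, 0, 0, 0, 32913524, 0, 0, 0, ⟨0, 0⟩, 0⟩ 0 0)) (.cut .s 7766016 (.pos 44 .mp ⟨15885046, 0, 0, 0, 0, 33586790, 0, 0, 0, ⟨0, 0⟩, 0⟩ 0 0) (.cut .s 7782400 (.pos 44 .mp ⟨16162514, 0, 0, 0, 0, 34184135, 0, 0, 0, ⟨0, 0⟩, 0⟩ 0 0) (.pos 44 .mp ⟨16442079, 0, 0, 0, 0, 34534154, 0, 0, 0, ⟨0, 0⟩, 0⟩ 0 0))))))) (.cut .s 7733248 (.cut .l 671088 (.cut .v 16908288 (.cut .d (-65536) (.cut .s 7700480 (.pos 43 .mp ⟨13342388, 0, 0, 0, 0, 33657784,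 0, 0, 0, ⟨0, 0⟩, 0⟩ 0 0) (.cut .s 7716864 (.pos 43 .mp ⟨14233252, 0, 0, 0, 0, 33442021, 0, 0, 0, ⟨0, 0⟩, 0⟩ 0 0) (.pos 43 .mp ⟨14048465, 0, 0, 0, 0, 34384590, 0, 0, 0, ⟨0, 0⟩, 0⟩ 0 0))) (.cut .d (-32768) (.cut .l 432675 (.cut .s 7700480 (.cut .s 7684096 (.pos 43 .mp ⟨14291644, 0, 0, 0, 0, 31755853, 0, 0, 0, ⟨0, 0⟩, 0⟩ 0 0) (.pos 43 .mp ⟨14518243, 0, 0, 0, 0, 32105791, 0, 0, 0, ⟨0, 0⟩, 0⟩ 0 0)) (.cut .s 7716864 (.pos 43 .mp ⟨14746429, 0, 0, 0, 0, 32460755, 0, 0, 0, ⟨0, 0⟩, 0⟩ 0 0) (.pos 43 .mp ⟨14976210, 0, 0, 0, 0, 32820736, 0, 0, 0, ⟨0, 0⟩, 0⟩ 0 0))) (.pos 43 .mp ⟨14314112, 0, 0, 0, 0, 0, 0, 0, 0, ⟨0, 0⟩, 0⟩ 0 0)) (.pos 43 .mp ⟨14912080, 0, 0, 0, 0, 30298795,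 0, 0, 0, ⟨0, 0⟩, 0⟩ 0 0))) (.pos 44 .mp ⟨49214110, 0, 0, 0, 0, 0, 0, 0, 0, ⟨0, 0⟩, 0⟩ 0 0)) (.pos 41 .mp ⟨14750971, 0, 0, 0, 0, 31015234, 0, 0, 0, ⟨0, 0⟩, 0⟩ 0 0)) (.cut .l 671088 (.cut .v 16908288 (.cut .d (-65536) (.cut .l 432675 (.pos 43 .mp ⟨14605290, 0, 0, 0, 0, 36557234, 0, 0, 0, ⟨0, 0⟩, 0⟩ 0 0) (.cut .s 7766016 (.pos 43 .mp ⟨13654105, 0, 0, 0, 0, 35576954, 0, 0, 0, ⟨0, 0⟩, 0⟩ 0 0) (.pos 43 .mp ⟨14088000, 0, 0, 0, 0, 36403028, 0, 0, 0, ⟨0, 0⟩, 0⟩ 0 0))) (.cut .d (-32768) (.cut .l 432675 (.cut .s 7766016 (.cut .s 7749632 (.pos 43 .mp ⟨15207592, 0, 0, 0, 0, 33185726, 0, 0, 0, ⟨0, 0⟩, 0⟩ 0 0) (.pos 43 .mp ⟨15440584, 0, 0, 0, 0, 33555714, 0, 0, 0, ⟨0, 0⟩,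 0⟩ 0 0)) (.cut .v 16842752 (.cut .s 7782400 (.pos 73 .mp ⟨15025876, 0, 0, 0, 0, 34683636, 0, 0, 0, ⟨0, 0⟩, 0⟩ 0 0) (.pos 73 .mp ⟨15197835, 0, 0, 0, 0, 35142352, 0, 0, 0, ⟨0, 0⟩, 0⟩ 0 0)) (.pos 74 .mp ⟨23742811, 0, 0, 0, 0, 26025390, 0, 0, 0, ⟨0, 0⟩, 0⟩ 0 0))) (.pos 43 .mp ⟨15218446, 0, 0, 0, 0, 0, 0, 0, 0, ⟨0, 0⟩, 0⟩ 0 0)) (.pos 43 .mp ⟨15813845, 0, 0, 0, 0, 31774408, 0, 0, 0, ⟨0, 0⟩, 0⟩ 0 0))) (.pos 44 .mp ⟨51510259, 0, 0, 0, 0, 0, 0, 0, 0, ⟨0, 0⟩, 0⟩ 0 0)) (.cut .s 7766016 (.pos 41 .mp ⟨15234816, 0, 0, 0, 0, 32771375, 0, 0, 0, ⟨0, 0⟩, 0⟩ 0 0) (.pos 41 .mp ⟨15725624, 0, 0, 0, 0, 33522015, 0, 0, 0, ⟨0, 0⟩, 0⟩ 0 0))))) (.pos 42 .mp ⟨51218131, 0, 0, 0, 0, 0,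 0, 0, 0, ⟨0, 0⟩, 0⟩ 0 0))) (.cut .d (-131072) (.cut .v 17039360 (.cut .l 671088 (.void 41 ⟨0, 0, 0, 0, 0, 100000, 0, 0, 0, ⟨0, 0⟩, 0⟩ 0 0) (.cut .d (-196608) (.void 41 ⟨0, 0, 0, 0, 0, 100000, 0, 0, 0, ⟨0, 0⟩, 0⟩ 0 0) (.cut .s 7929856 (.cut .s 7864320 (.cut .v 16908288 (.pos 43 .mp ⟨0, 0, 0, 0, 0, 53990856, 0, 0, 0, ⟨0, 0⟩, 0⟩ 0 0) (.cut .l 909501 (.pos 44 .mp ⟨15124428, 0, 0, 0, 0, 38879108, 0, 0, 0, ⟨0, 0⟩, 0⟩ 0 0) (.cut .s 7831552 (.pos 44 .mp ⟨16293962, 0, 0, 0, 0, 35571285, 0, 0, 0, ⟨0, 0⟩, 0⟩ 0 0) (.cut .s 7847936 (.pos 44 .mp ⟨16571645, 0, 0, 0, 0, 36306188, 0, 0, 0, ⟨0, 0⟩, 0⟩ 0 0) (.pos 44 .mp ⟨16851372, 0, 0, 0, 0, 36688295, 0, 0, 0, ⟨0, 0⟩, 0⟩ 0 0)))))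 (.cut .v 16908288 (.pos 43 .mp ⟨0, 0, 0, 0, 0, 56846204, 0, 0, 0, ⟨0, 0⟩, 0⟩ 0 0) (.cut .s 7897088 (.cut .s 7880704 (.pos 44 .mp ⟨17871699, 0, 0, 0, 0, 36351482, 0, 0, 0, ⟨0, 0⟩, 0⟩ 0 0) (.pos 44 .mp ⟨18164048, 0, 0, 0, 0, 36728291, 0, 0, 0, ⟨0, 0⟩, 0⟩ 0 0)) (.cut .s 7913472 (.pos 44 .mp ⟨18458561, 0, 0, 0, 0, 37109513, 0, 0, 0, ⟨0, 0⟩, 0⟩ 0 0) (.pos 44 .mp ⟨16096183, 0, 0, 0, 0, 40722638, 0, 0, 0, ⟨0, 0⟩, 0⟩ 0 0))))) (.cut .v 16908288 (.pos 43 .mp ⟨0, 0, 0, 0, 0, 61081481, 0, 0, 0, ⟨0, 0⟩, 0⟩ 0 0) (.cut .s 7995392 (.cut .l 909501 (.pos 44 .mp ⟨17100851, 0, 0, 0, 0, 42533929, 0, 0, 0, ⟨0, 0⟩, 0⟩ 0 0) (.cut .d (-163840) (.cut .s 7962624 (.pos 44 .mp ⟨16771345,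 0, 0, 0, 0, 41434318, 0, 0, 0, ⟨0, 0⟩, 0⟩ 0 0) (.pos 44 .mp ⟨17300423, 0, 0, 0, 0, 42347311, 0, 0, 0, ⟨0, 0⟩, 0⟩ 0 0)) (.cut .s 7962624 (.pos 44 .mp ⟨18079030, 0, 0, 0, 0, 38726182, 0, 0, 0, ⟨0, 0⟩, 0⟩ 0 0) (.pos 44 .mp ⟨18633380, 0, 0, 0, 0, 39572030, 0, 0, 0, ⟨0, 0⟩, 0⟩ 0 0)))) (.cut .d (-163840) (.pos 44 .mp ⟨17836853, 0, 0, 0, 0, 44693268, 0, 0, 0, ⟨0, 0⟩, 0⟩ 0 0) (.cut .s 8028160 (.pos 44 .mp ⟨19795320, 0, 0, 0, 0, 40182887, 0, 0, 0, ⟨0, 0⟩, 0⟩ 0 0) (.pos 44 .mp ⟨20391766, 0, 0, 0, 0, 41043066, 0, 0, 0, ⟨0, 0⟩, 0⟩ 0 0)))))))) (.pos 42 .mp ⟨61223549, 0, 0, 0, 0, 0, 0, 0, 0, ⟨0, 0⟩, 0⟩ 0 0)) (.cut .v 17039360 (.cut .s 7929856 (.cut .s 7864320 (.cut .l 671088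 (.cut .v 16908288 (.cut .d (-65536) (.cut .d (-98304) (.pos 43 .mp ⟨15106238, 0, 0, 0, 0, 38516570, 0, 0, 0, ⟨0, 0⟩, 0⟩ 0 0) (.cut .l 432675 (.pos 43 .mp ⟨15496264, 0, 0, 0, 0, 38249033, 0, 0, 0, ⟨0, 0⟩, 0⟩ 0 0) (.cut .s 7831552 (.pos 43 .mp ⟨14805180, 0, 0, 0, 0, 36761870, 0, 0, 0, ⟨0, 0⟩, 0⟩ 0 0) (.pos 43 .mp ⟨15243868, 0, 0, 0, 0, 37622443, 0, 0, 0, ⟨0, 0⟩, 0⟩ 0 0)))) (.cut .l 432675 (.cut .d (-32768) (.cut .s 7831552 (.cut .v 16842752 (.cut .s 7815168 (.pos 73 .mp ⟨15375673, 0, 0, 0, 0, 35601102, 0, 0, 0, ⟨0, 0⟩, 0⟩ 0 0) (.pos 73 .mp ⟨15559578, 0, 0, 0, 0, 36059635, 0, 0, 0, ⟨0, 0⟩, 0⟩ 0 0)) (.pos 74 .mp ⟨24209135, 0, 0, 0, 0, 26789203, 0, 0, 0, ⟨0, 0⟩,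 0⟩ 0 0)) (.cut .v 16842752 (.cut .s 7847936 (.pos 73 .mp ⟨15749741, 0, 0, 0, 0, 36517703, 0, 0, 0, ⟨0, 0⟩, 0⟩ 0 0) (.pos 73 .mp ⟨15946349, 0, 0, 0, 0, 36975052, 0, 0, 0, ⟨0, 0⟩, 0⟩ 0 0)) (.pos 74 .mp ⟨24726815, 0, 0, 0, 0, 27526234, 0, 0, 0, ⟨0, 0⟩, 0⟩ 0 0))) (.cut .s 7831552 (.pos 43 .mp ⟨16294183, 0, 0, 0, 0, 33727430, 0, 0, 0, ⟨0, 0⟩, 0⟩ 0 0) (.pos 43 .mp ⟨16746399, 0, 0, 0, 0, 34540098, 0, 0, 0, ⟨0, 0⟩, 0⟩ 0 0))) (.pos 43 .mp ⟨16147456, 0, 0, 0, 0, 0, 0, 0, 0, ⟨0, 0⟩, 0⟩ 0 0))) (.pos 44 .mp ⟨53875306, 0, 0, 0, 0, 0, 0, 0, 0, ⟨0, 0⟩, 0⟩ 0 0)) (.cut .s 7831552 (.pos 41 .mp ⟨16223458, 0, 0, 0, 0, 34287017, 0, 0, 0, ⟨0, 0⟩, 0⟩ 0 0) (.cut .s 7847936 (.pos 41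 .mp ⟨16475030, 0, 0, 0, 0, 35226093, 0, 0, 0, ⟨0, 0⟩, 0⟩ 0 0) (.pos 41 .mp ⟨16728382, 0, 0, 0, 0, 35621638, 0, 0, 0, ⟨0, 0⟩, 0⟩ 0 0)))) (.cut .l 671088 (.cut .v 16908288 (.cut .d (-65536) (.cut .d (-98304) (.pos 43 .mp ⟨16053974, 0, 0, 0, 0, 40261361, 0, 0, 0, ⟨0, 0⟩, 0⟩ 0 0) (.cut .l 432675 (.pos 43 .mp ⟨16411600, 0, 0, 0, 0, 40040534, 0, 0, 0, ⟨0, 0⟩, 0⟩ 0 0) (.cut .s 7897088 (.pos 43 .mp ⟨15688345, 0, 0, 0, 0, 38504132, 0, 0, 0, ⟨0, 0⟩, 0⟩ 0 0) (.pos 43 .mp ⟨16138666, 0, 0, 0, 0, 39406868, 0, 0, 0, ⟨0, 0⟩, 0⟩ 0 0)))) (.cut .l 432675 (.cut .d (-32768) (.cut .s 7897088 (.cut .v 16842752 (.cut .s 7880704 (.pos 73 .mp ⟨16149592, 0, 0, 0, 0, 37431433, 0, 0, 0,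 ⟨0, 0⟩, 0⟩ 0 0) (.pos 73 .mp ⟨16359657, 0, 0, 0, 0, 37886591, 0, 0, 0, ⟨0, 0⟩, 0⟩ 0 0)) (.pos 74 .mp ⟨25299923, 0, 0, 0, 0, 28231767, 0, 0, 0, ⟨0, 0⟩, 0⟩ 0 0)) (.cut .v 16842752 (.cut .s 7913472 (.pos 73 .mp ⟨16576733, 0, 0, 0, 0, 38340273, 0, 0, 0, ⟨0, 0⟩, 0⟩ 0 0) (.pos 73 .mp ⟨16801008, 0, 0, 0, 0, 38792224, 0, 0, 0, ⟨0, 0⟩, 0⟩ 0 0)) (.pos 74 .mp ⟨25932560, 0, 0, 0, 0, 28901003, 0, 0, 0, ⟨0, 0⟩, 0⟩ 0 0))) (.cut .s 7897088 (.pos 43 .mp ⟨17203708, 0, 0, 0, 0, 35368552, 0, 0, 0, ⟨0, 0⟩, 0⟩ 0 0) (.pos 43 .mp ⟨17666174, 0, 0, 0, 0, 36212373, 0, 0, 0, ⟨0, 0⟩, 0⟩ 0 0))) (.pos 43 .mp ⟨17101598, 0, 0, 0, 0, 0, 0, 0, 0, ⟨0, 0⟩, 0⟩ 0 0))) (.pos 44 .mp ⟨56304920, 0,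 0, 0, 0, 0, 0, 0, 0, ⟨0, 0⟩, 0⟩ 0 0)) (.cut .d (-65536) (.cut .d (-98304) (.cut .s 7897088 (.pos 41 .mp ⟨16753989, 0, 0, 0, 0, 36894517, 0, 0, 0, ⟨0, 0⟩, 0⟩ 0 0) (.pos 41 .mp ⟨17287794, 0, 0, 0, 0, 37678167, 0, 0, 0, ⟨0, 0⟩, 0⟩ 0 0)) (.pos 41 .mp ⟨17071465, 0, 0, 0, 0, 0, 0, 0, 0, ⟨0, 0⟩, 0⟩ 0 0)) (.pos 41 .mp ⟨0, 0, 0, 0, 0, 0, 0, 0, 0, ⟨0, 0⟩, 0⟩ 0 0)))) (.cut .s 7995392 (.cut .l 671088 (.cut .v 16908288 (.cut .d (-65536) (.cut .d (-98304) (.pos 43 .mp ⟨17027804, 0, 0, 0, 0, 42107325, 0, 0, 0, ⟨0, 0⟩, 0⟩ 0 0) (.cut .l 432675 (.pos 43 .mp ⟨17351749, 0, 0, 0, 0, 41934482, 0, 0, 0, ⟨0, 0⟩, 0⟩ 0 0) (.cut .s 7962624 (.pos 43 .mp ⟨16594884, 0, 0, 0, 0, 40330576,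 0, 0, 0, ⟨0, 0⟩, 0⟩ 0 0) (.pos 43 .mp ⟨17057056, 0, 0, 0, 0, 41275181, 0, 0, 0, ⟨0, 0⟩, 0⟩ 0 0)))) (.cut .l 432675 (.cut .d (-32768) (.cut .s 7962624 (.cut .v 16842752 (.cut .s 7946240 (.pos 73 .mp ⟨17032667, 0, 0, 0, 0, 39242189, 0, 0, 0, ⟨0, 0⟩, 0⟩ 0 0) (.pos 73 .mp ⟨17271900, 0, 0, 0, 0, 39689912, 0, 0, 0, ⟨0, 0⟩, 0⟩ 0 0)) (.pos 74 .mp ⟨26628854, 0, 0, 0, 0, 29529056, 0, 0, 0, ⟨0, 0⟩, 0⟩ 0 0)) (.cut .d (-49152) (.pos 43 .mp ⟨17742670, 0, 0, 0, 0, 40879068, 0, 0, 0, ⟨0, 0⟩, 0⟩ 0 0) (.cut .s 7979008 (.pos 43 .mp ⟨18497453, 0, 0, 0, 0, 38857075, 0, 0, 0, ⟨0, 0⟩, 0⟩ 0 0) (.pos 43 .mp ⟨18743072, 0, 0, 0, 0, 39309696, 0, 0, 0, ⟨0, 0⟩, 0⟩ 0 0)))) (.cut .s 7962624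 (.pos 43 .mp ⟨18133862, 0, 0, 0, 0, 37071144, 0, 0, 0, ⟨0, 0⟩, 0⟩ 0 0) (.pos 43 .mp ⟨18606837, 0, 0, 0, 0, 37944453, 0, 0, 0, ⟨0, 0⟩, 0⟩ 0 0))) (.pos 43 .mp ⟨18081345, 0, 0, 0, 0, 0, 0, 0, 0, ⟨0, 0⟩, 0⟩ 0 0))) (.pos 44 .mp ⟨58794992, 0, 0, 0, 0, 0, 0, 0, 0, ⟨0, 0⟩, 0⟩ 0 0)) (.cut .d (-65536) (.cut .d (-98304) (.cut .s 7962624 (.pos 41 .mp ⟨17829056, 0, 0, 0, 0, 38482149, 0, 0, 0, ⟨0, 0⟩, 0⟩ 0 0) (.pos 41 .mp ⟨18377844, 0, 0, 0, 0, 39306493, 0, 0, 0, ⟨0, 0⟩, 0⟩ 0 0)) (.pos 41 .mp ⟨18075781, 0, 0, 0, 0, 0, 0, 0, 0, ⟨0, 0⟩, 0⟩ 0 0)) (.pos 41 .mp ⟨0, 0, 0, 0, 0, 0, 0, 0, 0, ⟨0, 0⟩, 0⟩ 0 0))) (.cut .l 671088 (.cut .v 16908288 (.cut .d (-65536) (.cut .l 432675 (.pos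 43 .mp ⟨18317176, 0, 0, 0, 0, 43933686, 0, 0, 0, ⟨0, 0⟩, 0⟩ 0 0) (.cut .s 8028160 (.pos 43 .mp ⟨17289615, 0, 0, 0, 0, 42727290, 0, 0, 0, ⟨0, 0⟩, 0⟩ 0 0) (.pos 43 .mp ⟨17771133, 0, 0, 0, 0, 43705713, 0, 0, 0, ⟨0, 0⟩, 0⟩ 0 0))) (.cut .l 432675 (.cut .d (-32768) (.cut .s 8028160 (.cut .s 8011776 (.pos 43 .mp ⟨19133615, 0, 0, 0, 0, 39698624, 0, 0, 0, ⟨0, 0⟩, 0⟩ 0 0) (.pos 43 .mp ⟨19393378, 0, 0, 0, 0, 40147189, 0, 0, 0, ⟨0, 0⟩, 0⟩ 0 0)) (.cut .s 8044544 (.pos 43 .mp ⟨19654881, 0, 0, 0, 0, 40600564, 0, 0, 0, ⟨0, 0⟩, 0⟩ 0 0) (.pos 43 .mp ⟨19918133, 0, 0, 0, 0, 41058738, 0, 0, 0, ⟨0, 0⟩, 0⟩ 0 0))) (.cut .s 8028160 (.pos 43 .mp ⟨18857024, 0, 0, 0, 0, 39103577, 0, 0,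 0, ⟨0, 0⟩, 0⟩ 0 0) (.pos 43 .mp ⟨19345060, 0, 0, 0, 0, 40000162, 0, 0, 0, ⟨0, 0⟩, 0⟩ 0 0))) (.pos 43 .mp ⟨19308363, 0, 0, 0, 0, 0, 0, 0, 0, ⟨0, 0⟩, 0⟩ 0 0))) (.pos 44 .mp ⟨61341632, 0, 0, 0, 0, 0, 0, 0, 0, ⟨0, 0⟩, 0⟩ 0 0)) (.cut .d (-65536) (.cut .s 8028160 (.pos 41 .mp ⟨19361647, 0, 0, 0, 0, 39441285, 0, 0, 0, ⟨0, 0⟩, 0⟩ 0 0) (.pos 41 .mp ⟨19498281, 0, 0, 0, 0, 40847170, 0, 0, 0, ⟨0, 0⟩, 0⟩ 0 0)) (.pos 41 .mp ⟨0, 0, 0, 0, 0, 0, 0, 0, 0, ⟨0, 0⟩, 0⟩ 0 0))))) (.pos 42 .mp ⟨54091367, 0, 0, 0, 0, 0, 0, 0, 0, ⟨0, 0⟩, 0⟩ 0 0)))) (.pos 40 .mp ⟨55930868, 0, 0, 0, 0, 0, 0, 0, 0, ⟨0, 0⟩, 0⟩ 0 0)) (.pos 38 .mp ⟨60278724, 0, 0, 0, 0, 0, 0, 0, 0, ⟨0, 0⟩, 0⟩ 0 0)) (.void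 36 ⟨100000, 0, 0, 0, 0, 0, 0, 0, 0, ⟨0, 0⟩, 0⟩ 0 0))))))) (.void 34 ⟨100000, 0, 0, 0, 0, 0, 0, 0, 0, ⟨0, 0⟩, 0⟩ 0 0))) (.void 32 ⟨100000, 0, 0, 0, 0, 0, 0, 0, 0, ⟨0, 0⟩, 0⟩ 0 0)) (.void 83 ⟨100000, 0, 0, 0, 0, 0, 0, 0, 0, ⟨0, 0⟩, 0⟩ 0 0)) (.void 96 ⟨100000, 0, 0, 0, 0, 0, 0, 0, 0, ⟨0, 0⟩, 0⟩ 0 0))) (.cut .v 16777216 (.cut .v 8388608 (.cut .v 4194304 (.void 4 ⟨0, 0, 32105, 0, 0, 0, 0, 0, 67895, ⟨0, 0⟩, 3966728⟩ 0 0) (.pos 5 .pm ⟨0, 0, 0, 0, 0, 0, 0, 0, 0, ⟨0, 0⟩, 0⟩ 0 0)) (.cut .d 10285164 (.pos 3 .pm ⟨0, 0, 0, 0, 0, 0, 0, 0, 0, ⟨0, 0⟩, 0⟩ 0 0) (.pos 3 .pm ⟨0, 21312367, 0, 0, 0, 0, 0, 0, 12339716, ⟨0, 0⟩, 14107901⟩ 0 0))) (.cut .v 67108864 (.cut .d 10285164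 (.cut .d 5142582 (.cut .v 33554432 (.cut .v 25165824 (.cut .v 20971520 (.pos 33 .pp ⟨22546042, 0, 0, 0, 0, 0, 0, 0, 0, ⟨0, 0⟩, 0⟩ 0 0) (.pos 34 .pp ⟨38700429, 0, 0, 0, 0, 0, 0, 0, 0, ⟨0, 0⟩, 0⟩ 0 0)) (.pos 32 .pp ⟨49471657, 0, 0, 0, 0, 0, 446892, 0, 0, ⟨0, 0⟩, 0⟩ 0 0)) (.cut .d 2571291 (.pos 83 .pp ⟨246294159, 0, 0, 0, 0, 0, 0, 0, 0, ⟨0, 0⟩, 0⟩ 0 0) (.pos 83 .pp ⟨33833537, 0, 0, 0, 0, 0, 1853350, 0, 0, ⟨0, 0⟩, 0⟩ 0 0))) (.pos 82 .pp ⟨0, 0, 0, 0, 0, 0, 3094787, 0, 0, ⟨0, 0⟩, 0⟩ 0 0)) (.cut .v 33554432 (.cut .d 15427746 (.pos 30 .pp ⟨0, 13892555, 0, 0, 0, 0, 0, 22188552, 0, ⟨4757767, 3280⟩, 0⟩ 185 281) (.pos 30 .pp ⟨0, 73194088, 0, 0, 0, 0, 0, 0, 3822466, ⟨0,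 0⟩, 19951585⟩ 0 0)) (.pos 83 .pp ⟨0, 53082861, 0, 0, 0, 0, 3059600, 0, 0, ⟨0, 0⟩, 0⟩ 0 0))) (.cut .d 10285164 (.pos 96 .pp ⟨224917604, 0, 0, 0, 0, 0, 1465479505, 0, 0, ⟨0, 0⟩, 0⟩ 0 0) (.void 96 ⟨0, 76505, 0, 0, 0, 0, 23495, 0, 0, ⟨0, 0⟩, 0⟩ 0 0))))),
    by decide +kernel⟩

def covers9 : cell.Covers table row9.1 :=
  ⟨(.cut .d 0 (.cut .v 16777216 (.cut .d (-8388608) (.void 1 ⟨0, 0, 0, 0, 0, 100000, 0, 0, 0, ⟨0, 0⟩, 0⟩ 0 0) (.cut .d (-4194304) (.void 1 ⟨0, 0, 0, 0, 0, 100000, 0, 0, 0, ⟨0, 0⟩, 0⟩ 0 0) (.cut .d (-2097152) (.void 1 ⟨0, 0, 0, 0, 0, 100000, 0, 0, 0, ⟨0, 0⟩, 0⟩ 0 0) (.cut .d (-1048576) (.void 1 ⟨0, 0, 0, 0, 0, 100000, 0, 0, 0, ⟨0, 0⟩, 0⟩ 0 0) (.cut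 .d (-524288) (.void 1 ⟨0, 0, 0, 0, 0, 100000, 0, 0, 0, ⟨0, 0⟩, 0⟩ 0 0) (.cut .d (-262144) (.void 1 ⟨0, 0, 0, 0, 0, 100000, 0, 0, 0, ⟨0, 0⟩, 0⟩ 0 0) (.cut .v 8388608 (.cut .v 4194304 (.void 4 ⟨0, 0, 100000, 0, 0, 0, 0, 0, 0, ⟨0, 0⟩, 0⟩ 0 0) (.pos 5 .mm ⟨0, 0, 0, 0, 0, 39606996, 0, 0, 0, ⟨0, 0⟩, 0⟩ 0 0)) (.cut .v 12582912 (.pos 8 .mm ⟨0, 0, 0, 0, 0, 51019957, 0, 0, 0, ⟨0, 0⟩, 0⟩ 0 0) (.cut .v 14680064 (.pos 12 .mm ⟨0, 0, 0, 0, 0, 62703334, 0, 0, 0, ⟨0, 0⟩, 0⟩ 0 0) (.cut .v 15728640 (.pos 16 .mm ⟨0, 0, 0, 0, 0, 70093660, 0, 0, 0, ⟨0, 0⟩, 0⟩ 0 0) (.cut .s 8323072 (.cut .d (-131072) (.pos 17 .mm ⟨0, 0, 0, 0, 0, 73970654, 0, 0, 0, ⟨0, 0⟩, 0⟩ 0 0) (.cut .l 671088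 (.cut .d (-65536) (.pos 17 .mm ⟨0, 0, 0, 0, 0, 72201061, 0, 0, 0, ⟨0, 0⟩, 0⟩ 0 0) (.cut .s 8192000 (.pos 17 .mm ⟨0, 0, 0, 0, 0, 63493835, 0, 0, 0, ⟨0, 0⟩, 0⟩ 0 0) (.pos 17 .mm ⟨0, 0, 0, 0, 0, 69949537, 0, 0, 0, ⟨0, 0⟩, 0⟩ 0 0))) (.pos 17 .mm ⟨0, 0, 0, 0, 0, 63322566, 0, 0, 0, ⟨0, 0⟩, 0⟩ 0 0))) (.cut .d (-131072) (.pos 17 .mm ⟨0, 0, 0, 0, 0, 89508936, 0, 0, 0, ⟨0, 0⟩, 0⟩ 0 0) (.cut .l 671088 (.cut .d (-65536) (.pos 17 .mm ⟨0, 0, 0, 0, 0, 87315842, 0, 0, 0, ⟨0, 0⟩, 0⟩ 0 0) (.cut .s 8454144 (.pos 17 .mm ⟨0, 0, 0, 0, 0, 76891050, 0, 0, 0, ⟨0, 0⟩, 0⟩ 0 0) (.pos 17 .mm ⟨0, 0, 0, 0, 0, 84296514, 0, 0, 0, ⟨0, 0⟩, 0⟩ 0 0))) (.pos 17 .mm ⟨0, 0, 0, 0, 0, 76784091, 0,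 0, 0, ⟨0, 0⟩, 0⟩ 0 0)))))))))))))) (.cut .v 67108864 (.cut .v 33554432 (.cut .v 25165824 (.cut .d (-8388608) (.void 31 ⟨0, 0, 0, 0, 0, 100000, 0, 0, 0, ⟨0, 0⟩, 0⟩ 0 0) (.cut .v 20971520 (.cut .d (-4194304) (.void 33 ⟨0, 0, 0, 0, 0, 100000, 0, 0, 0, ⟨0, 0⟩, 0⟩ 0 0) (.cut .d (-2097152) (.void 33 ⟨0, 0, 0, 0, 0, 100000, 0, 0, 0, ⟨0, 0⟩, 0⟩ 0 0) (.cut .d (-1048576) (.void 33 ⟨0, 0, 0, 0, 0, 100000, 0, 0, 0, ⟨0, 0⟩, 0⟩ 0 0) (.cut .d (-524288) (.void 33 ⟨0, 0, 0, 0, 0, 100000, 0, 0, 0, ⟨0, 0⟩, 0⟩ 0 0) (.cut .d (-262144) (.void 33 ⟨0, 0, 0, 0, 0, 100000, 0, 0, 0, ⟨0, 0⟩, 0⟩ 0 0) (.cut .v 18874368 (.cut .v 17825792 (.cut .v 17301504 (.cut .d (-131072) (.cut .d (-196608)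 (.void 39 ⟨0, 0, 0, 0, 0, 100000, 0, 0, 0, ⟨0, 0⟩, 0⟩ 0 0) (.cut .v 17039360 (.cut .l 671088 (.void 41 ⟨0, 0, 0, 0, 0, 100000, 0, 0, 0, ⟨0, 0⟩, 0⟩ 0 0) (.cut .s 8323072 (.cut .s 8192000 (.cut .v 16908288 (.pos 43 .mp ⟨0, 0, 0, 0, 0, 68084993, 0, 0, 0, ⟨0, 0⟩, 0⟩ 0 0) (.cut .l 909501 (.pos 44 .mp ⟨19262475, 0, 0, 0, 0, 49841922, 0, 0, 0, ⟨0, 0⟩, 0⟩ 0 0) (.cut .d (-163840) (.cut .s 8126464 (.pos 44 .mp ⟨18933899, 0, 0, 0, 0, 46937476, 0, 0, 0, ⟨0, 0⟩, 0⟩ 0 0) (.pos 44 .mp ⟨20073958, 0, 0, 0, 0, 48969651, 0, 0, 0, ⟨0, 0⟩, 0⟩ 0 0)) (.cut .v 16973824 (.cut .s 8126464 (.pos 45 .mp ⟨18317010, 0, 0, 0, 0, 45664530, 0, 0, 0, ⟨0, 0⟩, 0⟩ 0 0) (.cut .s 8159232 (.pos 45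 .mp ⟨19271386, 0, 0, 0, 0, 47010751, 0, 0, 0, ⟨0, 0⟩, 0⟩ 0 0) (.pos 45 .mp ⟨19814896, 0, 0, 0, 0, 48016748, 0, 0, 0, ⟨0, 0⟩, 0⟩ 0 0))) (.pos 46 .mp ⟨61243817, 0, 0, 0, 0, 0, 0, 0, 0, ⟨0, 0⟩, 0⟩ 0 0))))) (.cut .v 16908288 (.pos 43 .mp ⟨0, 0, 0, 0, 0, 74993007, 0, 0, 0, ⟨0, 0⟩, 0⟩ 0 0) (.cut .l 909501 (.pos 44 .mp ⟨21583811, 0, 0, 0, 0, 54234981, 0, 0, 0, ⟨0, 0⟩, 0⟩ 0 0) (.cut .d (-163840) (.cut .s 8257536 (.pos 44 .mp ⟨21242505, 0, 0, 0, 0, 51119664, 0, 0, 0, ⟨0, 0⟩, 0⟩ 0 0) (.pos 44 .mp ⟨22440110, 0, 0, 0, 0, 53342778, 0, 0, 0, ⟨0, 0⟩, 0⟩ 0 0)) (.cut .v 16973824 (.cut .s 8257536 (.cut .s 8224768 (.pos 45 .mp ⟨20364735, 0, 0, 0, 0, 49051167, 0, 0, 0, ⟨0, 0⟩,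 0⟩ 0 0) (.pos 45 .mp ⟨20920968, 0, 0, 0, 0, 50113929, 0, 0, 0, ⟨0, 0⟩, 0⟩ 0 0)) (.cut .s 8290304 (.pos 45 .mp ⟨21483661, 0, 0, 0, 0, 51204955, 0, 0, 0, ⟨0, 0⟩, 0⟩ 0 0) (.pos 45 .mp ⟨22052879, 0, 0, 0, 0, 52324160, 0, 0, 0, ⟨0, 0⟩, 0⟩ 0 0))) (.pos 46 .mp ⟨49077933, 0, 0, 0, 0, 20511450, 0, 0, 0, ⟨0, 0⟩, 0⟩ 0 0)))))) (.cut .d (-163840) (.void 41 ⟨0, 0, 0, 0, 0, 100000, 0, 0, 0, ⟨0, 0⟩, 0⟩ 0 0) (.cut .l 909501 (.void 41 ⟨0, 0, 0, 0, 0, 100000, 0, 0, 0, ⟨0, 0⟩, 0⟩ 0 0) (.cut .v 16908288 (.pos 43 .mp ⟨0, 0, 0, 0, 0, 83869587, 0, 0, 0, ⟨0, 0⟩, 0⟩ 0 0) (.cut .s 8454144 (.cut .s 8388608 (.cut .s 8355840 (.pos 44 .mp ⟨25164213, 0, 0, 0, 0, 50325980, 0, 0, 0, ⟨0, 0⟩,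 0⟩ 0 0) (.pos 44 .mp ⟨25827159, 0, 0, 0, 0, 51391996, 0, 0, 0, ⟨0, 0⟩, 0⟩ 0 0)) (.pos 44 .mp ⟨27178033, 0, 0, 0, 0, 52535580, 0, 0, 0, ⟨0, 0⟩, 0⟩ 0 0)) (.cut .s 8519680 (.pos 44 .mp ⟨28562795, 0, 0, 0, 0, 54797847, 0, 0, 0, ⟨0, 0⟩, 0⟩ 0 0) (.pos 44 .mp ⟨26340042, 0, 0, 0, 0, 62337776, 0, 0, 0, ⟨0, 0⟩, 0⟩ 0 0)))))))) (.pos 42 .mp ⟨78521678, 0, 0, 0, 0, 0, 0, 0, 0, ⟨0, 0⟩, 0⟩ 0 0))) (.cut .s 8323072 (.cut .v 17039360 (.cut .s 8192000 (.cut .s 8126464 (.cut .s 8093696 (.cut .l 671088 (.cut .v 16908288 (.cut .d (-65536) (.pos 43 .mp ⟨18260394, 0, 0, 0, 0, 45025015, 0, 0, 0, ⟨0, 0⟩, 0⟩ 0 0) (.cut .d (-32768) (.cut .s 8077312 (.pos 43 .mp ⟨20185550, 0, 0, 0, 0, 41506725,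 0, 0, 0, ⟨0, 0⟩, 0⟩ 0 0) (.pos 43 .mp ⟨20453084, 0, 0, 0, 0, 41940097, 0, 0, 0, ⟨0, 0⟩, 0⟩ 0 0)) (.pos 43 .mp ⟨19842451, 0, 0, 0, 0, 41062204, 0, 0, 0, ⟨0, 0⟩, 0⟩ 0 0))) (.pos 44 .mp ⟨63836614, 0, 0, 0, 0, 0, 0, 0, 0, ⟨0, 0⟩, 0⟩ 0 0)) (.cut .s 8077312 (.pos 41 .mp ⟨20191864, 0, 0, 0, 0, 41102688, 0, 0, 0, ⟨0, 0⟩, 0⟩ 0 0) (.pos 41 .mp ⟨20473288, 0, 0, 0, 0, 41539836, 0, 0, 0, ⟨0, 0⟩, 0⟩ 0 0))) (.cut .l 671088 (.cut .v 16908288 (.cut .d (-65536) (.cut .s 8110080 (.pos 43 .mp ⟨19207852, 0, 0, 0, 0, 44933765, 0, 0, 0, ⟨0, 0⟩, 0⟩ 0 0) (.pos 43 .mp ⟨19451717, 0, 0, 0, 0, 45422060, 0, 0, 0, ⟨0, 0⟩, 0⟩ 0 0)) (.cut .l 432675 (.cut .v 16842752 (.cut .d (-32768) (.cut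 .s 8110080 (.pos 73 .mp ⟨19673700, 0, 0, 0, 0, 43708940, 0, 0, 0, ⟨0, 0⟩, 0⟩ 0 0) (.pos 73 .mp ⟨19876211, 0, 0, 0, 0, 44247146, 0, 0, 0, ⟨0, 0⟩, 0⟩ 0 0)) (.pos 73 .mp ⟨20308952, 0, 0, 0, 0, 42008797, 0, 0, 0, ⟨0, 0⟩, 0⟩ 0 0)) (.pos 74 .mp ⟨31509513, 0, 0, 0, 0, 31492969, 0, 0, 0, ⟨0, 0⟩, 0⟩ 0 0)) (.pos 43 .mp ⟨20293638, 0, 0, 0, 0, 41965240, 0, 0, 0, ⟨0, 0⟩, 0⟩ 0 0))) (.pos 44 .mp ⟨65163592, 0, 0, 0, 0, 0, 0, 0, 0, ⟨0, 0⟩, 0⟩ 0 0)) (.cut .s 8110080 (.pos 41 .mp ⟨20756472, 0, 0, 0, 0, 41982452, 0, 0, 0, ⟨0, 0⟩, 0⟩ 0 0) (.pos 41 .mp ⟨21041425, 0, 0, 0, 0, 42430470, 0, 0, 0, ⟨0, 0⟩, 0⟩ 0 0)))) (.cut .s 8159232 (.cut .l 671088 (.cut .v 16908288 (.cut .d (-65536)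 (.cut .s 8142848 (.pos 43 .mp ⟨19696912, 0, 0, 0, 0, 45919078, 0, 0, 0, ⟨0, 0⟩, 0⟩ 0 0) (.pos 43 .mp ⟨19943444, 0, 0, 0, 0, 46424883, 0, 0, 0, ⟨0, 0⟩, 0⟩ 0 0)) (.cut .l 432675 (.cut .v 16842752 (.cut .d (-32768) (.cut .s 8142848 (.pos 73 .mp ⟨20085320, 0, 0, 0, 0, 44786334, 0, 0, 0, ⟨0, 0⟩, 0⟩ 0 0) (.pos 73 .mp ⟨20301268, 0, 0, 0, 0, 45326179, 0, 0, 0, ⟨0, 0⟩, 0⟩ 0 0)) (.cut .s 8142848 (.pos 73 .mp ⟨20561266, 0, 0, 0, 0, 43127934, 0, 0, 0, ⟨0, 0⟩, 0⟩ 0 0) (.pos 73 .mp ⟨20814970, 0, 0, 0, 0, 43613569, 0, 0, 0, ⟨0, 0⟩, 0⟩ 0 0))) (.pos 74 .mp ⟨32120942, 0, 0, 0, 0, 32313050, 0, 0, 0, ⟨0, 0⟩, 0⟩ 0 0)) (.pos 43 .mp ⟨20819289, 0, 0, 0, 0, 42900707, 0, 0, 0, ⟨0, 0⟩,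 0⟩ 0 0))) (.pos 44 .mp ⟨66513958, 0, 0, 0, 0, 0, 0, 0, 0, ⟨0, 0⟩, 0⟩ 0 0)) (.cut .d (-65536) (.cut .s 8142848 (.pos 41 .mp ⟨20954700, 0, 0, 0, 0, 43696827, 0, 0, 0, ⟨0, 0⟩, 0⟩ 0 0) (.pos 41 .mp ⟨21251092, 0, 0, 0, 0, 44139228, 0, 0, 0, ⟨0, 0⟩, 0⟩ 0 0)) (.pos 41 .mp ⟨0, 0, 0, 0, 0, 0, 0, 0, 0, ⟨0, 0⟩, 0⟩ 0 0))) (.cut .l 671088 (.cut .v 16908288 (.cut .d (-65536) (.cut .s 8175616 (.pos 43 .mp ⟨20191318, 0, 0, 0, 0, 46939541, 0, 0, 0, ⟨0, 0⟩, 0⟩ 0 0) (.pos 43 .mp ⟨20424087, 0, 0, 0, 0, 47485893, 0, 0, 0, ⟨0, 0⟩, 0⟩ 0 0)) (.cut .l 432675 (.cut .v 16842752 (.cut .d (-32768) (.cut .s 8175616 (.pos 73 .mp ⟨20524300, 0, 0, 0, 0, 45866356, 0, 0, 0, ⟨0, 0⟩, 0⟩ 0 0) (.pos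 73 .mp ⟨20754659, 0, 0, 0, 0, 46406539, 0, 0, 0, ⟨0, 0⟩, 0⟩ 0 0)) (.cut .s 8175616 (.pos 73 .mp ⟨21070068, 0, 0, 0, 0, 44104831, 0, 0, 0, ⟨0, 0⟩, 0⟩ 0 0) (.cut .s 8183808 (.pos 73 .mp ⟨21198143, 0, 0, 0, 0, 44686619, 0, 0, 0, ⟨0, 0⟩, 0⟩ 0 0) (.pos 73 .mp ⟨21326569, 0, 0, 0, 0, 44937292, 0, 0, 0, ⟨0, 0⟩, 0⟩ 0 0)))) (.pos 74 .mp ⟨32799451, 0, 0, 0, 0, 33095375, 0, 0, 0, ⟨0, 0⟩, 0⟩ 0 0)) (.pos 43 .mp ⟨21349672, 0, 0, 0, 0, 43859838, 0, 0, 0, ⟨0, 0⟩, 0⟩ 0 0))) (.pos 44 .mp ⟨67887027, 0, 0, 0, 0, 0, 0, 0, 0, ⟨0, 0⟩, 0⟩ 0 0)) (.cut .d (-65536) (.cut .s 8175616 (.pos 41 .mp ⟨21549322, 0, 0, 0, 0, 44588314, 0, 0, 0, ⟨0, 0⟩, 0⟩ 0 0) (.pos 41 .mp ⟨21849398, 0, 0, 0,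 0, 45044072, 0, 0, 0, ⟨0, 0⟩, 0⟩ 0 0)) (.pos 41 .mp ⟨0, 0, 0, 0, 0, 0, 0, 0, 0, ⟨0, 0⟩, 0⟩ 0 0))))) (.cut .s 8257536 (.cut .s 8224768 (.cut .v 16908288 (.cut .d (-65536) (.cut .l 671088 (.cut .s 8208384 (.pos 43 .mp ⟨20655017, 0, 0, 0, 0, 48045727, 0, 0, 0, ⟨0, 0⟩, 0⟩ 0 0) (.pos 43 .mp ⟨20895345, 0, 0, 0, 0, 48603538, 0, 0, 0, ⟨0, 0⟩, 0⟩ 0 0)) (.pos 43 .mp ⟨18382875, 0, 0, 0, 0, 50292124, 0, 0, 0, ⟨0, 0⟩, 0⟩ 0 0)) (.cut .l 671088 (.cut .l 432675 (.cut .d (-32768) (.cut .d (-49152) (.pos 43 .mp ⟨21133859, 0, 0, 0, 0, 48120654, 0, 0, 0, ⟨0, 0⟩, 0⟩ 0 0) (.cut .v 16842752 (.cut .s 8208384 (.pos 73 .mp ⟨21136637, 0, 0, 0, 0, 46731386, 0, 0, 0, ⟨0, 0⟩, 0⟩ 0 0) (.pos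 73 .mp ⟨21384855, 0, 0, 0, 0, 47266567, 0, 0, 0, ⟨0, 0⟩, 0⟩ 0 0)) (.pos 74 .mp ⟨61855599, 0, 0, 0, 0, 0, 0, 0, 0, ⟨0, 0⟩, 0⟩ 0 0))) (.cut .d (-16384) (.cut .d (-24576) (.cut .s 8208384 (.pos 43 .mp ⟨21432694, 0, 0, 0, 0, 46099627, 0, 0, 0, ⟨0, 0⟩, 0⟩ 0 0) (.pos 43 .mp ⟨21696403, 0, 0, 0, 0, 46597155, 0, 0, 0, ⟨0, 0⟩, 0⟩ 0 0)) (.pos 43 .mp ⟨21644366, 0, 0, 0, 0, 0, 0, 0, 0, ⟨0, 0⟩, 0⟩ 0 0)) (.pos 43 .mp ⟨20916558, 0, 0, 0, 0, 0, 0, 0, 0, ⟨0, 0⟩, 0⟩ 0 0))) (.pos 43 .mp ⟨21884859, 0, 0, 0, 0, 44842118, 0, 0, 0, ⟨0, 0⟩, 0⟩ 0 0)) (.pos 43 .mp ⟨0, 0, 0, 0, 0, 0, 0, 0, 0, ⟨0, 0⟩, 0⟩ 0 0))) (.cut .d (-65536) (.cut .s 8208384 (.pos 44 .mp ⟨25432836, 0, 0, 0, 0, 42623196,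 0, 0, 0, ⟨0, 0⟩, 0⟩ 0 0) (.pos 44 .mp ⟨25706613, 0, 0, 0, 0, 43131624, 0, 0, 0, ⟨0, 0⟩, 0⟩ 0 0)) (.pos 44 .mp ⟨61676246, 0, 0, 0, 0, 0, 0, 0, 0, ⟨0, 0⟩, 0⟩ 0 0))) (.cut .v 16908288 (.cut .d (-65536) (.cut .l 671088 (.cut .s 8241152 (.pos 43 .mp ⟨21145381, 0, 0, 0, 0, 49158923, 0, 0, 0, ⟨0, 0⟩, 0⟩ 0 0) (.pos 43 .mp ⟨21405436, 0, 0, 0, 0, 49711471, 0, 0, 0, ⟨0, 0⟩, 0⟩ 0 0)) (.pos 43 .mp ⟨18768644, 0, 0, 0, 0, 51518103, 0, 0, 0, ⟨0, 0⟩, 0⟩ 0 0)) (.cut .l 671088 (.cut .l 432675 (.cut .d (-32768) (.cut .d (-49152) (.pos 43 .mp ⟨21641800, 0, 0, 0, 0, 49227851, 0, 0, 0, ⟨0, 0⟩, 0⟩ 0 0) (.cut .v 16842752 (.cut .s 8241152 (.pos 73 .mp ⟨21641158, 0, 0, 0, 0, 47800707,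 0, 0, 0, ⟨0, 0⟩, 0⟩ 0 0) (.pos 73 .mp ⟨21905791, 0, 0, 0, 0, 48333475, 0, 0, 0, ⟨0, 0⟩, 0⟩ 0 0)) (.pos 74 .mp ⟨63168048, 0, 0, 0, 0, 0, 0, 0, 0, ⟨0, 0⟩, 0⟩ 0 0))) (.cut .d (-16384) (.cut .d (-24576) (.cut .s 8241152 (.pos 43 .mp ⟨21961560, 0, 0, 0, 0, 47099955, 0, 0, 0, ⟨0, 0⟩, 0⟩ 0 0) (.cut .s 8249344 (.pos 43 .mp ⟨22105853, 0, 0, 0, 0, 47551094, 0, 0, 0, ⟨0, 0⟩, 0⟩ 0 0) (.pos 43 .mp ⟨22232983, 0, 0, 0, 0, 47824282, 0, 0, 0, ⟨0, 0⟩, 0⟩ 0 0))) (.pos 43 .mp ⟨22159881, 0, 0, 0, 0, 0, 0, 0, 0, ⟨0, 0⟩, 0⟩ 0 0)) (.pos 43 .mp ⟨21413830, 0, 0, 0, 0, 0, 0, 0, 0, ⟨0, 0⟩, 0⟩ 0 0))) (.pos 43 .mp ⟨22424922, 0, 0, 0, 0, 45847038, 0, 0, 0, ⟨0, 0⟩, 0⟩ 0 0)) (.pos 43 .mp ⟨0,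 0, 0, 0, 0, 0, 0, 0, 0, ⟨0, 0⟩, 0⟩ 0 0))) (.cut .d (-65536) (.cut .s 8241152 (.pos 44 .mp ⟨25998601, 0, 0, 0, 0, 43629273, 0, 0, 0, ⟨0, 0⟩, 0⟩ 0 0) (.pos 44 .mp ⟨26309491, 0, 0, 0, 0, 44115315, 0, 0, 0, ⟨0, 0⟩, 0⟩ 0 0)) (.pos 44 .mp ⟨62984140, 0, 0, 0, 0, 0, 0, 0, 0, ⟨0, 0⟩, 0⟩ 0 0)))) (.cut .s 8290304 (.cut .v 16908288 (.cut .d (-65536) (.cut .l 671088 (.cut .s 8273920 (.pos 43 .mp ⟨21675819, 0, 0, 0, 0, 50260775, 0, 0, 0, ⟨0, 0⟩, 0⟩ 0 0) (.pos 43 .mp ⟨21771165, 0, 0, 0, 0, 51065758, 0, 0, 0, ⟨0, 0⟩, 0⟩ 0 0)) (.pos 43 .mp ⟨19233758, 0, 0, 0, 0, 52694548, 0, 0, 0, ⟨0, 0⟩, 0⟩ 0 0)) (.cut .l 671088 (.cut .l 432675 (.cut .d (-32768) (.cut .d (-49152) (.pos 43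 .mp ⟨22155310, 0, 0, 0, 0, 50371605, 0, 0, 0, ⟨0, 0⟩, 0⟩ 0 0) (.cut .v 16842752 (.cut .s 8273920 (.pos 73 .mp ⟨22178993, 0, 0, 0, 0, 48864537, 0, 0, 0, ⟨0, 0⟩, 0⟩ 0 0) (.pos 73 .mp ⟨22461006, 0, 0, 0, 0, 49393560, 0, 0, 0, ⟨0, 0⟩, 0⟩ 0 0)) (.pos 74 .mp ⟨64511781, 0, 0, 0, 0, 0, 0, 0, 0, ⟨0, 0⟩, 0⟩ 0 0))) (.cut .d (-16384) (.cut .d (-24576) (.cut .v 16842752 (.cut .s 8273920 (.pos 73 .mp ⟨22213355, 0, 0, 0, 0, 48553828, 0, 0, 0, ⟨0, 0⟩, 0⟩ 0 0) (.pos 73 .mp ⟨22470732, 0, 0, 0, 0, 49103207, 0, 0, 0, ⟨0, 0⟩, 0⟩ 0 0)) (.pos 74 .mp ⟨63926896, 0, 0, 0, 0, 0, 0, 0, 0, ⟨0, 0⟩, 0⟩ 0 0)) (.pos 43 .mp ⟨22680962, 0, 0, 0, 0, 0, 0, 0, 0, ⟨0, 0⟩, 0⟩ 0 0)) (.pos 43 .mp ⟨21916314,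 0, 0, 0, 0, 0, 0, 0, 0, ⟨0, 0⟩, 0⟩ 0 0))) (.pos 43 .mp ⟨22969937, 0, 0, 0, 0, 46874091, 0, 0, 0, ⟨0, 0⟩, 0⟩ 0 0)) (.pos 43 .mp ⟨0, 0, 0, 0, 0, 0, 0, 0, 0, ⟨0, 0⟩, 0⟩ 0 0))) (.cut .d (-65536) (.cut .s 8273920 (.pos 44 .mp ⟨26639974, 0, 0, 0, 0, 44588914, 0, 0, 0, ⟨0, 0⟩, 0⟩ 0 0) (.pos 44 .mp ⟨26990748, 0, 0, 0, 0, 45049228, 0, 0, 0, ⟨0, 0⟩, 0⟩ 0 0)) (.pos 44 .mp ⟨64323709, 0, 0, 0, 0, 0, 0, 0, 0, ⟨0, 0⟩, 0⟩ 0 0))) (.cut .v 16908288 (.cut .d (-65536) (.cut .l 671088 (.cut .s 8306688 (.pos 43 .mp ⟨22033966, 0, 0, 0, 0, 51648529, 0, 0, 0, ⟨0, 0⟩, 0⟩ 0 0) (.pos 43 .mp ⟨22298196, 0, 0, 0, 0, 52240709, 0, 0, 0, ⟨0, 0⟩, 0⟩ 0 0)) (.pos 43 .mp ⟨19783895, 0, 0, 0, 0,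 53814564, 0, 0, 0, ⟨0, 0⟩, 0⟩ 0 0)) (.cut .l 671088 (.cut .l 432675 (.cut .d (-32768) (.cut .d (-49152) (.pos 43 .mp ⟨22674448, 0, 0, 0, 0, 51552449, 0, 0, 0, ⟨0, 0⟩, 0⟩ 0 0) (.cut .s 8306688 (.cut .s 8298496 (.pos 43 .mp ⟨23246086, 0, 0, 0, 0, 49137951, 0, 0, 0, ⟨0, 0⟩, 0⟩ 0 0) (.pos 43 .mp ⟨23368512, 0, 0, 0, 0, 49438163, 0, 0, 0, ⟨0, 0⟩, 0⟩ 0 0)) (.pos 43 .mp ⟨23838436, 0, 0, 0, 0, 49419134, 0, 0, 0, ⟨0, 0⟩, 0⟩ 0 0))) (.cut .d (-16384) (.cut .d (-24576) (.cut .s 8306688 (.cut .s 8298496 (.pos 43 .mp ⟨22901115, 0, 0, 0, 0, 49134210, 0, 0, 0, ⟨0, 0⟩, 0⟩ 0 0) (.pos 43 .mp ⟨23036812, 0, 0, 0, 0, 49397324, 0, 0, 0, ⟨0, 0⟩, 0⟩ 0 0)) (.pos 43 .mp ⟨23220147, 0,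 0, 0, 0, 50016048, 0, 0, 0, ⟨0, 0⟩, 0⟩ 0 0)) (.pos 43 .mp ⟨23207668, 0, 0, 0, 0, 0, 0, 0, 0, ⟨0, 0⟩, 0⟩ 0 0)) (.pos 43 .mp ⟨22421617, 0, 0, 0, 0, 0, 0, 0, 0, ⟨0, 0⟩, 0⟩ 0 0))) (.pos 43 .mp ⟨23519977, 0, 0, 0, 0, 47922776, 0, 0, 0, ⟨0, 0⟩, 0⟩ 0 0)) (.pos 43 .mp ⟨0, 0, 0, 0, 0, 0, 0, 0, 0, ⟨0, 0⟩, 0⟩ 0 0))) (.cut .s 8306688 (.cut .s 8298496 (.pos 44 .mp ⟨27422643, 0, 0, 0, 0, 45100203, 0, 0, 0, ⟨0, 0⟩, 0⟩ 0 0) (.pos 44 .mp ⟨27620960, 0, 0, 0, 0, 45310430, 0, 0, 0, ⟨0, 0⟩, 0⟩ 0 0)) (.pos 44 .mp ⟨29470863, 0, 0, 0, 0, 43893134, 0, 0, 0, ⟨0, 0⟩, 0⟩ 0 0)))))) (.pos 42 .mp ⟨64676595, 0, 0, 0, 0, 0, 0, 0, 0, ⟨0, 0⟩, 0⟩ 0 0)) (.cut .v 17039360 (.cut .s 8454144 (.cut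 .s 8388608 (.cut .s 8355840 (.cut .v 16908288 (.cut .d (-65536) (.cut .l 671088 (.cut .s 8339456 (.pos 43 .mp ⟨22563860, 0, 0, 0, 0, 52842367, 0, 0, 0, ⟨0, 0⟩, 0⟩ 0 0) (.pos 43 .mp ⟨22830968, 0, 0, 0, 0, 53453573, 0, 0, 0, ⟨0, 0⟩, 0⟩ 0 0)) (.pos 43 .mp ⟨20424789, 0, 0, 0, 0, 54871120, 0, 0, 0, ⟨0, 0⟩, 0⟩ 0 0)) (.cut .l 671088 (.cut .l 432675 (.cut .v 16842752 (.cut .d (-32768) (.cut .s 8339456 (.pos 73 .mp ⟨23197526, 0, 0, 0, 0, 51214007, 0, 0, 0, ⟨0, 0⟩, 0⟩ 0 0) (.pos 73 .mp ⟨23514454, 0, 0, 0, 0, 51736029, 0, 0, 0, ⟨0, 0⟩, 0⟩ 0 0)) (.cut .d (-16384) (.cut .d (-24576) (.cut .s 8339456 (.pos 73 .mp ⟨23251206, 0, 0, 0, 0, 50782225, 0, 0, 0, ⟨0, 0⟩, 0⟩ 0 0) (.pos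 73 .mp ⟨23514170, 0, 0, 0, 0, 51351997, 0, 0, 0, ⟨0, 0⟩, 0⟩ 0 0)) (.pos 73 .mp ⟨23698286, 0, 0, 0, 0, 0, 0, 0, 0, ⟨0, 0⟩, 0⟩ 0 0)) (.pos 73 .mp ⟨0, 0, 0, 0, 0, 0, 0, 0, 0, ⟨0, 0⟩, 0⟩ 0 0))) (.pos 74 .mp ⟨37392914, 0, 0, 0, 0, 36206865, 0, 0, 0, ⟨0, 0⟩, 0⟩ 0 0)) (.pos 43 .mp ⟨24075117, 0, 0, 0, 0, 48992596, 0, 0, 0, ⟨0, 0⟩, 0⟩ 0 0)) (.pos 43 .mp ⟨0, 0, 0, 0, 0, 0, 0, 0, 0, ⟨0, 0⟩, 0⟩ 0 0))) (.cut .s 8339456 (.pos 44 .mp ⟨29918340, 0, 0, 0, 0, 44267827, 0, 0, 0, ⟨0, 0⟩, 0⟩ 0 0) (.pos 44 .mp ⟨30389488, 0, 0, 0, 0, 44624991, 0, 0, 0, ⟨0, 0⟩, 0⟩ 0 0))) (.cut .v 16908288 (.cut .d (-65536) (.cut .l 671088 (.pos 43 .mp ⟨22948400, 0, 0, 0, 0, 54861652, 0, 0, 0, ⟨0,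 0⟩, 0⟩ 0 0) (.pos 43 .mp ⟨21088210, 0, 0, 0, 0, 55930599, 0, 0, 0, ⟨0, 0⟩, 0⟩ 0 0)) (.cut .l 671088 (.cut .l 432675 (.cut .v 16842752 (.cut .d (-32768) (.cut .s 8372224 (.pos 73 .mp ⟨23841364, 0, 0, 0, 0, 52254383, 0, 0, 0, ⟨0, 0⟩, 0⟩ 0 0) (.pos 73 .mp ⟨24178498, 0, 0, 0, 0, 52768729, 0, 0, 0, ⟨0, 0⟩, 0⟩ 0 0)) (.cut .d (-16384) (.cut .s 8372224 (.cut .s 8364032 (.pos 73 .mp ⟨24106359, 0, 0, 0, 0, 50664956, 0, 0, 0, ⟨0, 0⟩, 0⟩ 0 0) (.pos 73 .mp ⟨24242754, 0, 0, 0, 0, 50944614, 0, 0, 0, ⟨0, 0⟩, 0⟩ 0 0)) (.pos 73 .mp ⟨24516665, 0, 0, 0, 0, 51178854, 0, 0, 0, ⟨0, 0⟩, 0⟩ 0 0)) (.pos 73 .mp ⟨0, 0, 0, 0, 0, 0, 0, 0, 0, ⟨0, 0⟩, 0⟩ 0 0))) (.pos 74 .mp ⟨38591497, 0,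 0, 0, 0, 36620476, 0, 0, 0, ⟨0, 0⟩, 0⟩ 0 0)) (.pos 43 .mp ⟨24635434, 0, 0, 0, 0, 50083058, 0, 0, 0, ⟨0, 0⟩, 0⟩ 0 0)) (.pos 43 .mp ⟨0, 0, 0, 0, 0, 0, 0, 0, 0, ⟨0, 0⟩, 0⟩ 0 0))) (.cut .s 8372224 (.pos 44 .mp ⟨30885026, 0, 0, 0, 0, 44963728, 0, 0, 0, ⟨0, 0⟩, 0⟩ 0 0) (.pos 44 .mp ⟨31405676, 0, 0, 0, 0, 45283133, 0, 0, 0, ⟨0, 0⟩, 0⟩ 0 0)))) (.cut .s 8421376 (.cut .v 16908288 (.cut .d (-65536) (.cut .s 8404992 (.pos 43 .mp ⟨22699910, 0, 0, 0, 0, 56030516, 0, 0, 0, ⟨0, 0⟩, 0⟩ 0 0) (.pos 43 .mp ⟨23072035, 0, 0, 0, 0, 56540013, 0, 0, 0, ⟨0, 0⟩, 0⟩ 0 0)) (.cut .l 671088 (.cut .l 432675 (.cut .v 16842752 (.cut .d (-32768) (.cut .s 8404992 (.pos 73 .mp ⟨24526096, 0, 0,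 0, 0, 53278721, 0, 0, 0, ⟨0, 0⟩, 0⟩ 0 0) (.pos 73 .mp ⟨24884398, 0, 0, 0, 0, 53784015, 0, 0, 0, ⟨0, 0⟩, 0⟩ 0 0)) (.cut .s 8404992 (.cut .s 8396800 (.pos 73 .mp ⟨24654183, 0, 0, 0, 0, 51630611, 0, 0, 0, ⟨0, 0⟩, 0⟩ 0 0) (.pos 73 .mp ⟨24792077, 0, 0, 0, 0, 51914513, 0, 0, 0, ⟨0, 0⟩, 0⟩ 0 0)) (.pos 73 .mp ⟨25068997, 0, 0, 0, 0, 52107036, 0, 0, 0, ⟨0, 0⟩, 0⟩ 0 0))) (.pos 74 .mp ⟨39896883, 0, 0, 0, 0, 36947648, 0, 0, 0, ⟨0, 0⟩, 0⟩ 0 0)) (.pos 43 .mp ⟨25201003, 0, 0, 0, 0, 51193671, 0, 0, 0, ⟨0, 0⟩, 0⟩ 0 0)) (.pos 43 .mp ⟨0, 0, 0, 0, 0, 0, 0, 0, 0, ⟨0, 0⟩, 0⟩ 0 0))) (.cut .s 8404992 (.pos 44 .mp ⟨31952165, 0, 0, 0, 0, 45582294, 0, 0, 0, ⟨0, 0⟩, 0⟩ 0 0) (.pos 44 .mp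 ⟨32525222, 0, 0, 0, 0, 45860286, 0, 0, 0, ⟨0, 0⟩, 0⟩ 0 0))) (.cut .v 16908288 (.cut .l 671088 (.cut .d (-65536) (.pos 43 .mp ⟨24188418, 0, 0, 0, 0, 57224607, 0, 0, 0, ⟨0, 0⟩, 0⟩ 0 0) (.cut .l 432675 (.cut .v 16842752 (.cut .d (-32768) (.pos 73 .mp ⟨24024528, 0, 0, 0, 0, 56353850, 0, 0, 0, ⟨0, 0⟩, 0⟩ 0 0) (.cut .s 8437760 (.pos 73 .mp ⟨25347434, 0, 0, 0, 0, 52679976, 0, 0, 0, ⟨0, 0⟩, 0⟩ 0 0) (.pos 73 .mp ⟨25627396, 0, 0, 0, 0, 53257510, 0, 0, 0, ⟨0, 0⟩, 0⟩ 0 0))) (.pos 74 .mp ⟨41314984, 0, 0, 0, 0, 37180850, 0, 0, 0, ⟨0, 0⟩, 0⟩ 0 0)) (.pos 43 .mp ⟨25771903, 0, 0, 0, 0, 52323949, 0, 0, 0, ⟨0, 0⟩, 0⟩ 0 0))) (.pos 43 .mp ⟨21863448, 0, 0, 0, 0, 57841826, 0, 0, 0,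 ⟨0, 0⟩, 0⟩ 0 0)) (.cut .s 8437760 (.pos 44 .mp ⟨33125579, 0, 0, 0, 0, 46116179, 0, 0, 0, ⟨0, 0⟩, 0⟩ 0 0) (.pos 44 .mp ⟨33753972, 0, 0, 0, 0, 46349033, 0, 0, 0, ⟨0, 0⟩, 0⟩ 0 0))))) (.cut .s 8519680 (.cut .s 8486912 (.cut .v 16908288 (.cut .l 671088 (.cut .d (-65536) (.pos 43 .mp ⟨24741771, 0, 0, 0, 0, 58587243, 0, 0, 0, ⟨0, 0⟩, 0⟩ 0 0) (.cut .l 432675 (.cut .v 16842752 (.cut .d (-32768) (.pos 73 .mp ⟨24651797, 0, 0, 0, 0, 57544481, 0, 0, 0, ⟨0, 0⟩, 0⟩ 0 0) (.cut .s 8470528 (.pos 73 .mp ⟨25908892, 0, 0, 0, 0, 53839579, 0, 0, 0, ⟨0, 0⟩, 0⟩ 0 0) (.pos 73 .mp ⟨26191929, 0, 0, 0, 0, 54426124, 0, 0, 0, ⟨0, 0⟩, 0⟩ 0 0))) (.pos 74 .mp ⟨42851778, 0, 0, 0, 0, 37312400,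 0, 0, 0, ⟨0, 0⟩, 0⟩ 0 0)) (.pos 43 .mp ⟨26348210, 0, 0, 0, 0, 53473409, 0, 0, 0, ⟨0, 0⟩, 0⟩ 0 0))) (.pos 43 .mp ⟨22339320, 0, 0, 0, 0, 59147309, 0, 0, 0, ⟨0, 0⟩, 0⟩ 0 0)) (.cut .s 8470528 (.pos 44 .mp ⟨34411142, 0, 0, 0, 0, 46557897, 0, 0, 0, ⟨0, 0⟩, 0⟩ 0 0) (.pos 44 .mp ⟨35097833, 0, 0, 0, 0, 46741814, 0, 0, 0, ⟨0, 0⟩, 0⟩ 0 0))) (.cut .v 16908288 (.cut .l 671088 (.cut .d (-65536) (.pos 43 .mp ⟨25301145, 0, 0, 0, 0, 59990333, 0, 0, 0, ⟨0, 0⟩, 0⟩ 0 0) (.cut .d (-32768) (.cut .s 8503296 (.pos 43 .mp ⟨27181065, 0, 0, 0, 0, 55878259, 0, 0, 0, ⟨0, 0⟩, 0⟩ 0 0) (.pos 43 .mp ⟨27318039, 0, 0, 0, 0, 56745291, 0, 0, 0, ⟨0, 0⟩, 0⟩ 0 0)) (.pos 43 .mp ⟨26810586, 0, 0, 0,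 0, 54786401, 0, 0, 0, ⟨0, 0⟩, 0⟩ 0 0))) (.pos 43 .mp ⟨22819510, 0, 0, 0, 0, 60473693, 0, 0, 0, ⟨0, 0⟩, 0⟩ 0 0)) (.pos 44 .mp ⟨39586879, 0, 0, 0, 0, 43098431, 0, 0, 0, ⟨0, 0⟩, 0⟩ 0 0))) (.cut .s 8552448 (.cut .v 16908288 (.cut .d (-65536) (.pos 43 .mp ⟨24380455, 0, 0, 0, 0, 62519442, 0, 0, 0, ⟨0, 0⟩, 0⟩ 0 0) (.cut .d (-32768) (.cut .s 8536064 (.pos 43 .mp ⟨27492350, 0, 0, 0, 0, 57557296, 0, 0, 0, ⟨0, 0⟩, 0⟩ 0 0) (.pos 43 .mp ⟨27604377, 0, 0, 0, 0, 58479607, 0, 0, 0, ⟨0, 0⟩, 0⟩ 0 0)) (.pos 43 .mp ⟨27388740, 0, 0, 0, 0, 55976101, 0, 0, 0, ⟨0, 0⟩, 0⟩ 0 0))) (.pos 44 .mp ⟨41201438, 0, 0, 0, 0, 43230249, 0, 0, 0, ⟨0, 0⟩, 0⟩ 0 0)) (.cut .v 16908288 (.cut .d (-65536)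 (.pos 43 .mp ⟨25389645, 0, 0, 0, 0, 63385836, 0, 0, 0, ⟨0, 0⟩, 0⟩ 0 0) (.cut .d (-32768) (.pos 43 .mp ⟨29253294, 0, 0, 0, 0, 57657878, 0, 0, 0, ⟨0, 0⟩, 0⟩ 0 0) (.pos 43 .mp ⟨27973242, 0, 0, 0, 0, 57182583, 0, 0, 0, ⟨0, 0⟩, 0⟩ 0 0))) (.pos 44 .mp ⟨42945750, 0, 0, 0, 0, 43246270, 0, 0, 0, ⟨0, 0⟩, 0⟩ 0 0))))) (.pos 42 .mp ⟨76297985, 0, 0, 0, 0, 0, 0, 0, 0, ⟨0, 0⟩, 0⟩ 0 0)))) (.pos 40 .mp ⟨79023487, 0, 0, 0, 0, 0, 0, 0, 0, ⟨0, 0⟩, 0⟩ 0 0)) (.pos 38 .mp ⟨84796721, 0, 0, 0, 0, 0, 0, 0, 0, ⟨0, 0⟩, 0⟩ 0 0)) (.void 36 ⟨100000, 0, 0, 0, 0, 0, 0, 0, 0, ⟨0, 0⟩, 0⟩ 0 0))))))) (.void 34 ⟨100000, 0, 0, 0, 0, 0, 0, 0, 0, ⟨0, 0⟩, 0⟩ 0 0))) (.void 32 ⟨100000, 0, 0, 0, 0, 0,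 0, 0, 0, ⟨0, 0⟩, 0⟩ 0 0)) (.void 83 ⟨100000, 0, 0, 0, 0, 0, 0, 0, 0, ⟨0, 0⟩, 0⟩ 0 0)) (.void 96 ⟨100000, 0, 0, 0, 0, 0, 0, 0, 0, ⟨0, 0⟩, 0⟩ 0 0))) (.cut .v 16777216 (.cut .v 8388608 (.cut .v 4194304 (.pos 4 .pm ⟨0, 0, 98141232, 0, 0, 0, 0, 0, 186142988, ⟨0, 0⟩, 3966728⟩ 0 0) (.pos 5 .pm ⟨0, 0, 0, 0, 0, 0, 0, 0, 2718064, ⟨0, 0⟩, 9975792⟩ 0 0)) (.cut .d 9070610 (.pos 3 .pm ⟨0, 0, 0, 0, 0, 0, 0, 0, 0, ⟨0, 0⟩, 0⟩ 0 0) (.cut .d 13605915 (.pos 3 .pm ⟨0, 0, 0, 0, 0, 0, 0, 13040959, 661386, ⟨4758903, 2042⟩, 14107901⟩ 189 283) (.cut .d 15873567 (.pos 3 .pm ⟨0, 58431686, 0, 0, 0, 0, 0, 5482449, 2557788, ⟨4760798, 0⟩, 14107901⟩ 253 348) (.void 3 ⟨0, 92926, 0, 0, 0, 0,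 0, 0, 7074, ⟨0, 0⟩, 14107901⟩ 0 0))))) (.cut .v 67108864 (.cut .d 9070610 (.cut .d 4535305 (.cut .v 33554432 (.cut .v 25165824 (.cut .v 20971520 (.pos 33 .pp ⟨30996771, 0, 0, 0, 0, 0, 0, 0, 0, ⟨0, 0⟩, 0⟩ 0 0) (.pos 34 .pp ⟨55837185, 0, 0, 0, 0, 0, 0, 0, 0, ⟨0, 0⟩, 0⟩ 0 0)) (.pos 32 .pp ⟨78624033, 0, 0, 0, 0, 0, 238086, 0, 0, ⟨0, 0⟩, 0⟩ 0 0)) (.cut .d 2267652 (.pos 83 .pp ⟨389821900, 0, 0, 0, 0, 0, 0, 0, 0, ⟨0, 0⟩, 0⟩ 0 0) (.pos 83 .pp ⟨85546541, 0, 0, 0, 0, 0, 1299801, 0, 0, ⟨0, 0⟩, 0⟩ 0 0))) (.pos 82 .pp ⟨0, 0, 0, 0, 0, 0, 3057802, 0, 0, ⟨0, 0⟩, 0⟩ 0 0)) (.cut .d 13605915 (.pos 82 .pp ⟨0, 24811320, 0, 0, 0, 0, 0, 33281196, 0, ⟨4758903, 2042⟩, 0⟩ 189 283) (.cut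 .d 15873567 (.pos 82 .pp ⟨0, 86241480, 0, 0, 0, 0, 0, 16640598, 0, ⟨4760798, 0⟩, 0⟩ 253 348) (.void 82 ⟨0, 100000, 0, 0, 0, 0, 0, 0, 0, ⟨0, 0⟩, 0⟩ 0 0)))) (.cut .v 134217728 (.cut .v 100663296 (.cut .d 9070610 (.cut .d 4535305 (.cut .v 83886080 (.pos 103 .pp ⟨667782713, 0, 0, 0, 0, 0, 0, 0, 0, ⟨0, 0⟩, 0⟩ 0 0) (.pos 104 .pp ⟨1020101965, 0, 0, 0, 0, 0, 30037521, 0, 0, ⟨0, 0⟩, 0⟩ 0 0)) (.pos 101 .pp ⟨0, 0, 0, 0, 0, 0, 94665200, 0, 0, ⟨0, 0⟩, 0⟩ 0 0)) (.void 101 ⟨0, 100000, 0, 0, 0, 0, 0, 0, 0, ⟨0, 0⟩, 0⟩ 0 0)) (.void 102 ⟨0, 0, 0, 0, 0, 0, 100000, 0, 0, ⟨0, 0⟩, 0⟩ 0 0)) (.void 98 ⟨0, 0, 0, 0, 0, 0, 100000, 0, 0, ⟨0, 0⟩, 0⟩ 0 0))))),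
    by decide +kernel⟩

def covers10 : cell.Covers table row10.1 :=
  ⟨(.cut .d 0 (.cut .v 16777216 (.cut .d (-8388608) (.void 1 ⟨0, 0, 0, 0, 0, 100000, 0, 0, 0, ⟨0, 0⟩, 0⟩ 0 0) (.cut .d (-4194304) (.void 1 ⟨0, 0, 0, 0, 0, 100000, 0, 0, 0, ⟨0, 0⟩, 0⟩ 0 0) (.cut .d (-2097152) (.void 1 ⟨0, 0, 0, 0, 0, 100000, 0, 0, 0, ⟨0, 0⟩, 0⟩ 0 0) (.cut .d (-1048576) (.void 1 ⟨0, 0, 0, 0, 0, 100000, 0, 0, 0, ⟨0, 0⟩, 0⟩ 0 0) (.cut .d (-524288) (.void 1 ⟨0, 0, 0, 0, 0, 100000, 0, 0, 0, ⟨0, 0⟩, 0⟩ 0 0) (.cut .d (-262144) (.void 1 ⟨0, 0, 0, 0, 0, 100000, 0, 0, 0, ⟨0, 0⟩, 0⟩ 0 0) (.cut .v 8388608 (.cut .v 4194304 (.void 4 ⟨0, 0, 100000, 0, 0, 0, 0, 0, 0, ⟨0, 0⟩, 0⟩ 0 0) (.pos 5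 .mm ⟨0, 0, 0, 0, 0, 53203906, 0, 0, 0, ⟨0, 0⟩, 0⟩ 0 0)) (.cut .d (-131072) (.pos 3 .mm ⟨0, 0, 0, 0, 0, 121165132, 0, 0, 0, ⟨0, 0⟩, 0⟩ 0 0) (.cut .v 12582912 (.pos 8 .mm ⟨0, 0, 0, 0, 0, 64846803, 0, 0, 0, ⟨0, 0⟩, 0⟩ 0 0) (.cut .v 14680064 (.pos 12 .mm ⟨0, 0, 0, 0, 0, 83483815, 0, 0, 0, ⟨0, 0⟩, 0⟩ 0 0) (.cut .v 15728640 (.pos 16 .mm ⟨0, 0, 0, 0, 0, 93345128, 0, 0, 0, ⟨0, 0⟩, 0⟩ 0 0) (.cut .v 16252928 (.pos 20 .mm ⟨0, 0, 0, 0, 0, 98811129, 0, 0, 0, ⟨0, 0⟩, 0⟩ 0 0) (.cut .s 8814592 (.cut .s 8699904 (.pos 21 .mm ⟨0, 0, 0, 0, 0, 93688934, 0, 0, 0, ⟨0, 0⟩, 0⟩ 0 0) (.pos 21 .mm ⟨0, 0, 0, 0, 0, 101194626, 0, 0, 0, ⟨0, 0⟩, 0⟩ 0 0)) (.cut .s 8929280 (.pos 21 .mm ⟨0, 0,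 0, 0, 0, 109147901, 0, 0, 0, ⟨0, 0⟩, 0⟩ 0 0) (.pos 21 .mm ⟨0, 0, 0, 0, 0, 117531849, 0, 0, 0, ⟨0, 0⟩, 0⟩ 0 0))))))))))))))) (.cut .v 67108864 (.cut .v 33554432 (.cut .v 25165824 (.cut .d (-8388608) (.void 31 ⟨0, 0, 0, 0, 0, 100000, 0, 0, 0, ⟨0, 0⟩, 0⟩ 0 0) (.cut .v 20971520 (.cut .d (-4194304) (.void 33 ⟨0, 0, 0, 0, 0, 100000, 0, 0, 0, ⟨0, 0⟩, 0⟩ 0 0) (.cut .d (-2097152) (.void 33 ⟨0, 0, 0, 0, 0, 100000, 0, 0, 0, ⟨0, 0⟩, 0⟩ 0 0) (.cut .d (-1048576) (.void 33 ⟨0, 0, 0, 0, 0, 100000, 0, 0, 0, ⟨0, 0⟩, 0⟩ 0 0) (.cut .d (-524288) (.void 33 ⟨0, 0, 0, 0, 0, 100000, 0, 0, 0, ⟨0, 0⟩, 0⟩ 0 0) (.cut .d (-262144) (.void 33 ⟨0, 0, 0, 0, 0, 100000, 0, 0, 0, ⟨0, 0⟩, 0⟩ 0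 0) (.cut .v 18874368 (.cut .v 17825792 (.cut .v 17301504 (.cut .d (-131072) (.cut .v 17039360 (.cut .d (-196608) (.void 41 ⟨0, 0, 0, 0, 0, 100000, 0, 0, 0, ⟨0, 0⟩, 0⟩ 0 0) (.cut .d (-163840) (.void 41 ⟨0, 0, 0, 0, 0, 100000, 0, 0, 0, ⟨0, 0⟩, 0⟩ 0 0) (.cut .l 671088 (.void 41 ⟨0, 0, 0, 0, 0, 100000, 0, 0, 0, ⟨0, 0⟩, 0⟩ 0 0) (.cut .d (-147456) (.pos 41 .mp ⟨28135787, 0, 0, 0, 0, 95384745, 0, 0, 0, ⟨0, 0⟩, 0⟩ 0 0) (.cut .l 909501 (.void 41 ⟨0, 0, 0, 0, 0, 100000, 0, 0, 0, ⟨0, 0⟩, 0⟩ 0 0) (.cut .l 1028708 (.pos 41 .mp ⟨28024027, 0, 0, 0, 0, 94912360, 0, 0, 0, ⟨0, 0⟩, 0⟩ 0 0) (.cut .v 16908288 (.pos 43 .mp ⟨0, 0, 0, 0, 0, 111722151, 0, 0, 0, ⟨0, 0⟩, 0⟩ 0 0) (.cut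 .v 16973824 (.cut .s 8814592 (.cut .s 8699904 (.pos 45 .mp ⟨27480232, 0, 0, 0, 0, 67922095, 0, 0, 0, ⟨0, 0⟩, 0⟩ 0 0) (.pos 45 .mp ⟨29820844, 0, 0, 0, 0, 72251588, 0, 0, 0, ⟨0, 0⟩, 0⟩ 0 0)) (.cut .s 8929280 (.pos 45 .mp ⟨32240374, 0, 0, 0, 0, 76975661, 0, 0, 0, ⟨0, 0⟩, 0⟩ 0 0) (.pos 45 .mp ⟨34744131, 0, 0, 0, 0, 82086958, 0, 0, 0, ⟨0, 0⟩, 0⟩ 0 0))) (.pos 46 .mp ⟨99883849, 0, 0, 0, 0, 0, 0, 0, 0, ⟨0, 0⟩, 0⟩ 0 0))))))))) (.pos 42 .mp ⟨113328516, 0, 0, 0, 0, 0, 0, 0, 0, ⟨0, 0⟩, 0⟩ 0 0)) (.cut .s 8814592 (.cut .v 17039360 (.cut .s 8699904 (.cut .s 8642560 (.cut .v 16908288 (.cut .d (-65536) (.cut .s 8613888 (.pos 43 .mp ⟨27034300, 0, 0, 0, 0, 63383208, 0, 0, 0,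 ⟨0, 0⟩, 0⟩ 0 0) (.pos 43 .mp ⟨26941593, 0, 0, 0, 0, 65185455, 0, 0, 0, ⟨0, 0⟩, 0⟩ 0 0)) (.cut .d (-32768) (.cut .s 8613888 (.pos 43 .mp ⟨29648303, 0, 0, 0, 0, 59305159, 0, 0, 0, ⟨0, 0⟩, 0⟩ 0 0) (.pos 43 .mp ⟨30384838, 0, 0, 0, 0, 59994622, 0, 0, 0, ⟨0, 0⟩, 0⟩ 0 0)) (.pos 43 .mp ⟨29012651, 0, 0, 0, 0, 58381264, 0, 0, 0, ⟨0, 0⟩, 0⟩ 0 0))) (.pos 44 .mp ⟨51347375, 0, 0, 0, 0, 36484019, 0, 0, 0, ⟨0, 0⟩, 0⟩ 0 0)) (.cut .d (-65536) (.cut .l 671088 (.pos 41 .mp ⟨28430345, 0, 0, 0, 0, 68120618, 0, 0, 0, ⟨0, 0⟩, 0⟩ 0 0) (.cut .s 8671232 (.pos 41 .mp ⟨31517517, 0, 0, 0, 0, 60467101, 0, 0, 0, ⟨0, 0⟩, 0⟩ 0 0) (.pos 41 .mp ⟨32158451, 0, 0, 0, 0, 61423483, 0, 0, 0, ⟨0, 0⟩,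 0⟩ 0 0))) (.cut .v 16908288 (.cut .d (-32768) (.cut .s 8671232 (.pos 43 .mp ⟨30958086, 0, 0, 0, 0, 60935960, 0, 0, 0, ⟨0, 0⟩, 0⟩ 0 0) (.pos 43 .mp ⟨31536248, 0, 0, 0, 0, 61909521, 0, 0, 0, ⟨0, 0⟩, 0⟩ 0 0)) (.pos 43 .mp ⟨30068285, 0, 0, 0, 0, 60587889, 0, 0, 0, ⟨0, 0⟩, 0⟩ 0 0)) (.pos 44 .mp ⟨82368560, 0, 0, 0, 0, 0, 0, 0, 0, ⟨0, 0⟩, 0⟩ 0 0)))) (.cut .s 8757248 (.cut .d (-65536) (.cut .l 671088 (.pos 41 .mp ⟨29342568, 0, 0, 0, 0, 70734573, 0, 0, 0, ⟨0, 0⟩, 0⟩ 0 0) (.cut .s 8728576 (.pos 41 .mp ⟨32805306, 0, 0, 0, 0, 62406516, 0, 0, 0, ⟨0, 0⟩, 0⟩ 0 0) (.cut .s 8742912 (.pos 41 .mp ⟨33130971, 0, 0, 0, 0, 63475020, 0, 0, 0, ⟨0, 0⟩, 0⟩ 0 0) (.pos 41 .mp ⟨33458139,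 0, 0, 0, 0, 63989484, 0, 0, 0, ⟨0, 0⟩, 0⟩ 0 0)))) (.cut .d (-32768) (.cut .v 16908288 (.cut .s 8728576 (.pos 43 .mp ⟨32119372, 0, 0, 0, 0, 62915542, 0, 0, 0, ⟨0, 0⟩, 0⟩ 0 0) (.cut .s 8742912 (.pos 43 .mp ⟨32208841, 0, 0, 0, 0, 64351229, 0, 0, 0, ⟨0, 0⟩, 0⟩ 0 0) (.pos 43 .mp ⟨32644704, 0, 0, 0, 0, 64695851, 0, 0, 0, ⟨0, 0⟩, 0⟩ 0 0))) (.pos 44 .mp ⟨84884824, 0, 0, 0, 0, 0, 0, 0, 0, ⟨0, 0⟩, 0⟩ 0 0)) (.pos 41 .mp ⟨31355232, 0, 0, 0, 0, 62639935, 0, 0, 0, ⟨0, 0⟩, 0⟩ 0 0))) (.cut .d (-65536) (.cut .l 671088 (.pos 41 .mp ⟨30409142, 0, 0, 0, 0, 73269235, 0, 0, 0, ⟨0, 0⟩, 0⟩ 0 0) (.cut .d (-98304) (.cut .s 8785920 (.pos 41 .mp ⟨29475530, 0, 0, 0, 0, 72161135, 0, 0,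 0, ⟨0, 0⟩, 0⟩ 0 0) (.pos 41 .mp ⟨30017919, 0, 0, 0, 0, 73416929, 0, 0, 0, ⟨0, 0⟩, 0⟩ 0 0)) (.pos 41 .mp ⟨33077599, 0, 0, 0, 0, 65363441, 0, 0, 0, ⟨0, 0⟩, 0⟩ 0 0))) (.cut .d (-32768) (.cut .v 16908288 (.cut .l 671088 (.cut .s 8785920 (.pos 43 .mp ⟨33300711, 0, 0, 0, 0, 65213839, 0, 0, 0, ⟨0, 0⟩, 0⟩ 0 0) (.pos 43 .mp ⟨33899028, 0, 0, 0, 0, 66335523, 0, 0, 0, ⟨0, 0⟩, 0⟩ 0 0)) (.pos 43 .mp ⟨0, 0, 0, 0, 0, 0, 0, 0, 0, ⟨0, 0⟩, 0⟩ 0 0)) (.pos 44 .mp ⟨87524110, 0, 0, 0, 0, 0, 0, 0, 0, ⟨0, 0⟩, 0⟩ 0 0)) (.pos 41 .mp ⟨32432253, 0, 0, 0, 0, 65025189, 0, 0, 0, ⟨0, 0⟩, 0⟩ 0 0))))) (.pos 42 .mp ⟨89027998, 0, 0, 0, 0, 0, 0, 0, 0, ⟨0, 0⟩, 0⟩ 0 0)) (.cut .v 17039360 (.cut .s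 8929280 (.cut .s 8871936 (.cut .d (-65536) (.cut .l 671088 (.pos 41 .mp ⟨31491881, 0, 0, 0, 0, 75924332, 0, 0, 0, ⟨0, 0⟩, 0⟩ 0 0) (.cut .d (-98304) (.cut .s 8843264 (.pos 41 .mp ⟨30564341, 0, 0, 0, 0, 74706064, 0, 0, 0, ⟨0, 0⟩, 0⟩ 0 0) (.pos 41 .mp ⟨31114839, 0, 0, 0, 0, 76028647, 0, 0, 0, ⟨0, 0⟩, 0⟩ 0 0)) (.pos 41 .mp ⟨34306311, 0, 0, 0, 0, 67593513, 0, 0, 0, ⟨0, 0⟩, 0⟩ 0 0))) (.cut .d (-32768) (.cut .v 16908288 (.cut .l 671088 (.cut .s 8843264 (.pos 43 .mp ⟨34502515, 0, 0, 0, 0, 67488026, 0, 0, 0, ⟨0, 0⟩, 0⟩ 0 0) (.pos 43 .mp ⟨35111223, 0, 0, 0, 0, 68671428, 0, 0, 0, ⟨0, 0⟩, 0⟩ 0 0)) (.pos 43 .mp ⟨0, 0, 0, 0, 0, 0, 0, 0, 0, ⟨0, 0⟩, 0⟩ 0 0)) (.pos 44 .mp ⟨90288457,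 0, 0, 0, 0, 0, 0, 0, 0, ⟨0, 0⟩, 0⟩ 0 0)) (.pos 41 .mp ⟨33526014, 0, 0, 0, 0, 67488831, 0, 0, 0, ⟨0, 0⟩, 0⟩ 0 0))) (.cut .d (-65536) (.cut .l 671088 (.pos 41 .mp ⟨32591132, 0, 0, 0, 0, 78699411, 0, 0, 0, ⟨0, 0⟩, 0⟩ 0 0) (.cut .d (-98304) (.cut .s 8900608 (.pos 41 .mp ⟨31669458, 0, 0, 0, 0, 77384784, 0, 0, 0, ⟨0, 0⟩, 0⟩ 0 0) (.pos 41 .mp ⟨32228242, 0, 0, 0, 0, 78774577, 0, 0, 0, ⟨0, 0⟩, 0⟩ 0 0)) (.pos 41 .mp ⟨35567370, 0, 0, 0, 0, 69930324, 0, 0, 0, ⟨0, 0⟩, 0⟩ 0 0))) (.cut .d (-32768) (.cut .s 8900608 (.cut .s 8886272 (.pos 41 .mp ⟨35539417, 0, 0, 0, 0, 69627929, 0, 0, 0, ⟨0, 0⟩, 0⟩ 0 0) (.pos 41 .mp ⟨35852535, 0, 0, 0, 0, 70235980, 0, 0, 0, ⟨0, 0⟩, 0⟩ 0 0))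 (.pos 41 .mp ⟨36482845, 0, 0, 0, 0, 70722236, 0, 0, 0, ⟨0, 0⟩, 0⟩ 0 0)) (.pos 41 .mp ⟨34636872, 0, 0, 0, 0, 70028029, 0, 0, 0, ⟨0, 0⟩, 0⟩ 0 0)))) (.cut .s 8986624 (.cut .d (-65536) (.cut .l 671088 (.pos 41 .mp ⟨33707251, 0, 0, 0, 0, 81593977, 0, 0, 0, ⟨0, 0⟩, 0⟩ 0 0) (.cut .d (-98304) (.cut .s 8957952 (.pos 41 .mp ⟨32791237, 0, 0, 0, 0, 80198130, 0, 0, 0, ⟨0, 0⟩, 0⟩ 0 0) (.pos 41 .mp ⟨33358487, 0, 0, 0, 0, 81655539, 0, 0, 0, ⟨0, 0⟩, 0⟩ 0 0)) (.pos 41 .mp ⟨36841917, 0, 0, 0, 0, 72402220, 0, 0, 0, ⟨0, 0⟩, 0⟩ 0 0))) (.cut .d (-32768) (.cut .s 8957952 (.pos 41 .mp ⟨37118637, 0, 0, 0, 0, 71981447, 0, 0, 0, ⟨0, 0⟩, 0⟩ 0 0) (.pos 41 .mp ⟨37756006, 0, 0, 0, 0, 73280900,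 0, 0, 0, ⟨0, 0⟩, 0⟩ 0 0)) (.pos 41 .mp ⟨35765199, 0, 0, 0, 0, 72639982, 0, 0, 0, ⟨0, 0⟩, 0⟩ 0 0))) (.cut .d (-65536) (.cut .l 671088 (.pos 41 .mp ⟨34847300, 0, 0, 0, 0, 84597630, 0, 0, 0, ⟨0, 0⟩, 0⟩ 0 0) (.cut .d (-98304) (.pos 41 .mp ⟨33945239, 0, 0, 0, 0, 84374160, 0, 0, 0, ⟨0, 0⟩, 0⟩ 0 0) (.pos 41 .mp ⟨38129294, 0, 0, 0, 0, 75011700, 0, 0, 0, ⟨0, 0⟩, 0⟩ 0 0))) (.cut .s 9015296 (.pos 41 .mp ⟨38394264, 0, 0, 0, 0, 74323364, 0, 0, 0, ⟨0, 0⟩, 0⟩ 0 0) (.pos 41 .mp ⟨39038104, 0, 0, 0, 0, 75681696, 0, 0, 0, ⟨0, 0⟩, 0⟩ 0 0))))) (.pos 42 .mp ⟨100953118, 0, 0, 0, 0, 0, 0, 0, 0, ⟨0, 0⟩, 0⟩ 0 0)))) (.pos 40 .mp ⟨105801305, 0, 0, 0, 0, 0, 0, 0, 0, ⟨0, 0⟩, 0⟩ 0 0)) (.pos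 38 .mp ⟨113602100, 0, 0, 0, 0, 0, 0, 0, 0, ⟨0, 0⟩, 0⟩ 0 0)) (.void 36 ⟨100000, 0, 0, 0, 0, 0, 0, 0, 0, ⟨0, 0⟩, 0⟩ 0 0))))))) (.void 34 ⟨100000, 0, 0, 0, 0, 0, 0, 0, 0, ⟨0, 0⟩, 0⟩ 0 0))) (.void 32 ⟨100000, 0, 0, 0, 0, 0, 0, 0, 0, ⟨0, 0⟩, 0⟩ 0 0)) (.void 83 ⟨100000, 0, 0, 0, 0, 0, 0, 0, 0, ⟨0, 0⟩, 0⟩ 0 0)) (.void 96 ⟨100000, 0, 0, 0, 0, 0, 0, 0, 0, ⟨0, 0⟩, 0⟩ 0 0))) (.cut .v 16777216 (.cut .v 8388608 (.cut .v 4194304 (.cut .v 2097152 (.void 6 ⟨0, 0, 25058, 0, 0, 0, 0, 0, 74942, ⟨0, 0⟩, 2804900⟩ 0 0) (.void 7 ⟨0, 0, 45679, 0, 0, 0, 0, 0, 54321, ⟨0, 0⟩, 7053950⟩ 0 0)) (.cut .d 8004398 (.pos 5 .pm ⟨0, 0, 0, 0, 0, 0, 0, 0, 0, ⟨0, 0⟩, 0⟩ 0 0) (.pos 5 .pm ⟨0, 27652268,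 0, 0, 0, 0, 0, 0, 10357980, ⟨0, 0⟩, 9975792⟩ 0 0))) (.cut .d 8004398 (.pos 3 .pm ⟨0, 0, 0, 0, 0, 0, 0, 0, 0, ⟨0, 0⟩, 0⟩ 0 0) (.cut .d 12006597 (.pos 3 .pm ⟨0, 0, 0, 0, 0, 0, 0, 0, 0, ⟨0, 0⟩, 0⟩ 0 0) (.cut .d 14007696 (.cut .v 12582912 (.pos 8 .pm ⟨0, 62191359, 0, 0, 0, 0, 0, 0, 0, ⟨0, 0⟩, 0⟩ 0 0) (.pos 9 .pm ⟨0, 70062780, 0, 0, 0, 0, 0, 0, 0, ⟨0, 0⟩, 0⟩ 0 0)) (.pos 3 .pm ⟨0, 108341966, 0, 0, 0, 0, 0, 0, 958895, ⟨0, 0⟩, 14107901⟩ 0 0))))) (.cut .v 67108864 (.cut .d 8004398 (.cut .d 4002199 (.cut .d 2001099 (.cut .v 33554432 (.cut .v 25165824 (.pos 31 .pp ⟨55944957, 0, 0, 0, 0, 0, 0, 0, 0, ⟨0, 0⟩, 0⟩ 0 0) (.pos 32 .pp ⟨141557695, 0, 0, 0, 0, 0, 0, 0, 0, ⟨0, 0⟩,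 0⟩ 0 0)) (.cut .v 50331648 (.pos 86 .pp ⟨325345285, 0, 0, 0, 0, 0, 0, 0, 0, ⟨0, 0⟩, 0⟩ 0 0) (.void 87 ⟨100000, 0, 0, 0, 0, 0, 0, 0, 0, ⟨0, 0⟩, 0⟩ 0 0))) (.pos 82 .pp ⟨8385018, 0, 0, 0, 0, 0, 2695565, 0, 0, ⟨0, 0⟩, 0⟩ 0 0)) (.pos 82 .pp ⟨0, 0, 0, 0, 0, 0, 0, 22181310, 0, ⟨4724721, 45238⟩, 0⟩ 162 216)) (.cut .d 12006597 (.pos 82 .pp ⟨0, 0, 0, 0, 0, 0, 0, 0, 0, ⟨0, 0⟩, 0⟩ 0 0) (.cut .d 14007696 (.pos 82 .pp ⟨0, 83245423, 0, 0, 0, 0, 0, 22181310, 0, ⟨4760798, 0⟩, 0⟩ 257 341) (.void 82 ⟨0, 100000, 0, 0, 0, 0, 0, 0, 0, ⟨0, 0⟩, 0⟩ 0 0)))) (.cut .v 134217728 (.cut .d 8004398 (.cut .d 4002199 (.cut .v 100663296 (.cut .d 2001099 (.void 101 ⟨100000, 0, 0, 0, 0, 0, 0,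 0, 0, ⟨0, 0⟩, 0⟩ 0 0) (.cut .d 3001649 (.pos 101 .pp ⟨1187740004, 0, 0, 0, 0, 0, 0, 0, 0, ⟨0, 0⟩, 0⟩ 0 0) (.pos 101 .pp ⟨686159485, 0, 0, 0, 0, 0, 0, 0, 0, ⟨0, 0⟩, 0⟩ 0 0))) (.void 102 ⟨45316, 54684, 0, 0, 0, 0, 0, 0, 0, ⟨0, 0⟩, 0⟩ 0 0)) (.pos 97 .pp ⟨0, 195579232, 0, 0, 0, 0, 11360098, 0, 0, ⟨0, 0⟩, 0⟩ 0 0)) (.void 97 ⟨0, 100000, 0, 0, 0, 0, 0, 0, 0, ⟨0, 0⟩, 0⟩ 0 0)) (.void 98 ⟨38573, 61427, 0, 0, 0, 0, 0, 0, 0, ⟨0, 0⟩, 0⟩ 0 0))))),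
    by decide +kernel⟩

def covers11 : cell.Covers table row11.1 :=
  ⟨(.cut .d 0 (.cut .v 16777216 (.cut .d (-8388608) (.void 1 ⟨0, 0, 0, 0, 0, 100000, 0, 0, 0, ⟨0, 0⟩, 0⟩ 0 0) (.cut .d (-4194304) (.void 1 ⟨0, 0, 0, 0, 0, 100000, 0, 0, 0, ⟨0, 0⟩, 0⟩ 0 0) (.cut .d (-2097152) (.void 1 ⟨0, 0, 0, 0, 0, 100000, 0, 0, 0, ⟨0, 0⟩, 0⟩ 0 0) (.cut .d (-1048576) (.void 1 ⟨0, 0, 0, 0, 0, 100000, 0, 0, 0, ⟨0, 0⟩, 0⟩ 0 0) (.cut .d (-524288) (.void 1 ⟨0, 0, 0, 0, 0, 100000, 0, 0, 0, ⟨0, 0⟩, 0⟩ 0 0) (.cut .d (-262144) (.void 1 ⟨0, 0, 0, 0, 0, 100000, 0, 0, 0, ⟨0, 0⟩, 0⟩ 0 0) (.cut .v 8388608 (.cut .v 4194304 (.void 4 ⟨0, 0, 100000, 0, 0, 0, 0, 0, 0, ⟨0, 0⟩, 0⟩ 0 0) (.pos 5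 .mm ⟨0, 0, 0, 0, 0, 72558344, 0, 0, 0, ⟨0, 0⟩, 0⟩ 0 0)) (.cut .d (-131072) (.pos 3 .mm ⟨0, 0, 0, 0, 0, 170895107, 0, 0, 0, ⟨0, 0⟩, 0⟩ 0 0) (.cut .v 12582912 (.pos 8 .mm ⟨0, 0, 0, 0, 0, 94728455, 0, 0, 0, ⟨0, 0⟩, 0⟩ 0 0) (.cut .v 14680064 (.pos 12 .mm ⟨0, 0, 0, 0, 0, 116018578, 0, 0, 0, ⟨0, 0⟩, 0⟩ 0 0) (.cut .v 15728640 (.pos 16 .mm ⟨0, 0, 0, 0, 0, 129097639, 0, 0, 0, ⟨0, 0⟩, 0⟩ 0 0) (.cut .v 16252928 (.pos 20 .mm ⟨0, 0, 0, 0, 0, 136295785, 0, 0, 0, ⟨0, 0⟩, 0⟩ 0 0) (.cut .s 9306112 (.cut .s 9175040 (.pos 21 .mm ⟨0, 0, 0, 0, 0, 127588629, 0, 0, 0, ⟨0, 0⟩, 0⟩ 0 0) (.cut .s 9240576 (.pos 21 .mm ⟨0, 0, 0, 0, 0, 134015783, 0, 0, 0, ⟨0, 0⟩, 0⟩ 0 0) (.pos 21 .mm ⟨0,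 0, 0, 0, 0, 139562784, 0, 0, 0, ⟨0, 0⟩, 0⟩ 0 0))) (.cut .s 9437184 (.cut .s 9371648 (.pos 21 .mm ⟨0, 0, 0, 0, 0, 145283015, 0, 0, 0, ⟨0, 0⟩, 0⟩ 0 0) (.pos 21 .mm ⟨0, 0, 0, 0, 0, 151172881, 0, 0, 0, ⟨0, 0⟩, 0⟩ 0 0)) (.pos 21 .mm ⟨0, 0, 0, 0, 0, 162353455, 0, 0, 0, ⟨0, 0⟩, 0⟩ 0 0))))))))))))))) (.cut .v 67108864 (.cut .v 33554432 (.cut .v 25165824 (.cut .d (-8388608) (.void 31 ⟨0, 0, 0, 0, 0, 100000, 0, 0, 0, ⟨0, 0⟩, 0⟩ 0 0) (.cut .v 20971520 (.cut .d (-4194304) (.void 33 ⟨0, 0, 0, 0, 0, 100000, 0, 0, 0, ⟨0, 0⟩, 0⟩ 0 0) (.cut .d (-2097152) (.void 33 ⟨0, 0, 0, 0, 0, 100000, 0, 0, 0, ⟨0, 0⟩, 0⟩ 0 0) (.cut .d (-1048576) (.void 33 ⟨100000, 0, 0, 0, 0, 0, 0, 0, 0,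 ⟨0, 0⟩, 0⟩ 0 0) (.cut .d (-524288) (.void 33 ⟨0, 0, 0, 0, 0, 100000, 0, 0, 0, ⟨0, 0⟩, 0⟩ 0 0) (.cut .d (-262144) (.void 33 ⟨0, 0, 0, 0, 0, 100000, 0, 0, 0, ⟨0, 0⟩, 0⟩ 0 0) (.cut .v 18874368 (.cut .v 17825792 (.cut .v 17301504 (.cut .d (-131072) (.pos 39 .mp ⟨37647576, 0, 0, 0, 0, 142507198, 0, 0, 0, ⟨0, 0⟩, 0⟩ 0 0) (.cut .s 9306112 (.cut .v 17039360 (.cut .s 9175040 (.cut .s 9109504 (.cut .d (-65536) (.cut .l 671088 (.pos 41 .mp ⟨36037344, 0, 0, 0, 0, 88479721, 0, 0, 0, ⟨0, 0⟩, 0⟩ 0 0) (.cut .d (-98304) (.cut .s 9076736 (.pos 41 .mp ⟨35141435, 0, 0, 0, 0, 86664512, 0, 0, 0, ⟨0, 0⟩, 0⟩ 0 0) (.pos 41 .mp ⟨35849793, 0, 0, 0, 0, 88249965, 0, 0, 0, ⟨0, 0⟩, 0⟩ 0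 0)) (.pos 41 .mp ⟨39655918, 0, 0, 0, 0, 78222701, 0, 0, 0, ⟨0, 0⟩, 0⟩ 0 0))) (.cut .s 9076736 (.pos 41 .mp ⟨39790397, 0, 0, 0, 0, 77082066, 0, 0, 0, ⟨0, 0⟩, 0⟩ 0 0) (.cut .s 9093120 (.pos 41 .mp ⟨40166635, 0, 0, 0, 0, 78537922, 0, 0, 0, ⟨0, 0⟩, 0⟩ 0 0) (.pos 41 .mp ⟨40544313, 0, 0, 0, 0, 79315180, 0, 0, 0, ⟨0, 0⟩, 0⟩ 0 0)))) (.cut .d (-65536) (.cut .l 671088 (.pos 41 .mp ⟨37438185, 0, 0, 0, 0, 91913397, 0, 0, 0, ⟨0, 0⟩, 0⟩ 0 0) (.cut .d (-98304) (.cut .s 9142272 (.pos 41 .mp ⟨36562358, 0, 0, 0, 0, 89892406, 0, 0, 0, ⟨0, 0⟩, 0⟩ 0 0) (.pos 41 .mp ⟨37279192, 0, 0, 0, 0, 91592082, 0, 0, 0, ⟨0, 0⟩, 0⟩ 0 0)) (.cut .s 9142272 (.pos 41 .mp ⟨40425488, 0, 0, 0, 0, 81440415,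 0, 0, 0, ⟨0, 0⟩, 0⟩ 0 0) (.pos 41 .mp ⟨41200896, 0, 0, 0, 0, 82975651, 0, 0, 0, ⟨0, 0⟩, 0⟩ 0 0)))) (.cut .d (-32768) (.cut .s 9142272 (.pos 41 .mp ⟨41304025, 0, 0, 0, 0, 80336712, 0, 0, 0, ⟨0, 0⟩, 0⟩ 0 0) (.cut .s 9158656 (.pos 41 .mp ⟨41686080, 0, 0, 0, 0, 81957889, 0, 0, 0, ⟨0, 0⟩, 0⟩ 0 0) (.pos 41 .mp ⟨42069613, 0, 0, 0, 0, 82744975, 0, 0, 0, ⟨0, 0⟩, 0⟩ 0 0))) (.pos 41 .mp ⟨39727457, 0, 0, 0, 0, 81747955, 0, 0, 0, ⟨0, 0⟩, 0⟩ 0 0)))) (.cut .d (-65536) (.cut .l 671088 (.pos 41 .mp ⟨38856231, 0, 0, 0, 0, 100889420, 0, 0, 0, ⟨0, 0⟩, 0⟩ 0 0) (.cut .d (-98304) (.cut .v 16908288 (.pos 43 .mp ⟨0, 0, 0, 0, 0, 143701351, 0, 0, 0, ⟨0, 0⟩, 0⟩ 0 0) (.cut .l 909501 (.pos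 44 .mp ⟨39847358, 0, 0, 0, 0, 100553705, 0, 0, 0, ⟨0, 0⟩, 0⟩ 0 0) (.cut .s 9240576 (.pos 44 .mp ⟨43881561, 0, 0, 0, 0, 86074952, 0, 0, 0, ⟨0, 0⟩, 0⟩ 0 0) (.pos 44 .mp ⟨45583158, 0, 0, 0, 0, 89360986, 0, 0, 0, ⟨0, 0⟩, 0⟩ 0 0)))) (.cut .l 909501 (.cut .d (-81920) (.cut .s 9240576 (.pos 41 .mp ⟨38426386, 0, 0, 0, 0, 94369683, 0, 0, 0, ⟨0, 0⟩, 0⟩ 0 0) (.pos 41 .mp ⟨39871984, 0, 0, 0, 0, 98042615, 0, 0, 0, ⟨0, 0⟩, 0⟩ 0 0)) (.pos 41 .mp ⟨43052827, 0, 0, 0, 0, 83769415, 0, 0, 0, ⟨0, 0⟩, 0⟩ 0 0)) (.pos 41 .mp ⟨42643353, 0, 0, 0, 0, 67206322, 0, 0, 0, ⟨0, 0⟩, 0⟩ 0 0)))) (.cut .l 671088 (.cut .v 16908288 (.cut .s 9240576 (.cut .d (-32768) (.cut .s 9207808 (.pos 43 .mp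 ⟨36303584, 0, 0, 0, 0, 93160394, 0, 0, 0, ⟨0, 0⟩, 0⟩ 0 0) (.pos 43 .mp ⟨36940932, 0, 0, 0, 0, 95041871, 0, 0, 0, ⟨0, 0⟩, 0⟩ 0 0)) (.pos 43 .mp ⟨40885619, 0, 0, 0, 0, 85358497, 0, 0, 0, ⟨0, 0⟩, 0⟩ 0 0)) (.cut .d (-32768) (.cut .s 9273344 (.pos 43 .mp ⟨37581174, 0, 0, 0, 0, 96983052, 0, 0, 0, ⟨0, 0⟩, 0⟩ 0 0) (.pos 43 .mp ⟨38224359, 0, 0, 0, 0, 98984200, 0, 0, 0, ⟨0, 0⟩, 0⟩ 0 0)) (.pos 43 .mp ⟨42293574, 0, 0, 0, 0, 88885643, 0, 0, 0, ⟨0, 0⟩, 0⟩ 0 0))) (.pos 44 .mp ⟨115324918, 0, 0, 0, 0, 0, 0, 0, 0, ⟨0, 0⟩, 0⟩ 0 0)) (.pos 41 .mp ⟨41745958, 0, 0, 0, 0, 0, 0, 0, 0, ⟨0, 0⟩, 0⟩ 0 0)))) (.pos 42 .mp ⟨115943543, 0, 0, 0, 0, 0, 0, 0, 0, ⟨0, 0⟩, 0⟩ 0 0)) (.cut .v 17039360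 (.cut .s 9437184 (.cut .d (-65536) (.cut .l 671088 (.pos 41 .mp ⟨41745958, 0, 0, 0, 0, 109152263, 0, 0, 0, ⟨0, 0⟩, 0⟩ 0 0) (.cut .s 9371648 (.cut .d (-98304) (.cut .s 9338880 (.pos 41 .mp ⟨40929604, 0, 0, 0, 0, 100957288, 0, 0, 0, ⟨0, 0⟩, 0⟩ 0 0) (.pos 41 .mp ⟨41673393, 0, 0, 0, 0, 103005306, 0, 0, 0, ⟨0, 0⟩, 0⟩ 0 0)) (.cut .s 9338880 (.pos 41 .mp ⟨45168316, 0, 0, 0, 0, 91461942, 0, 0, 0, ⟨0, 0⟩, 0⟩ 0 0) (.pos 41 .mp ⟨45980457, 0, 0, 0, 0, 93322528, 0, 0, 0, ⟨0, 0⟩, 0⟩ 0 0))) (.cut .d (-98304) (.pos 41 .mp ⟨42421908, 0, 0, 0, 0, 107196844, 0, 0, 0, ⟨0, 0⟩, 0⟩ 0 0) (.pos 41 .mp ⟨47624086, 0, 0, 0, 0, 94869162, 0, 0, 0, ⟨0, 0⟩, 0⟩ 0 0)))) (.cut .l 671088 (.cut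 .v 16908288 (.cut .s 9371648 (.cut .d (-32768) (.cut .s 9338880 (.pos 43 .mp ⟨38870536, 0, 0, 0, 0, 101045577, 0, 0, 0, ⟨0, 0⟩, 0⟩ 0 0) (.pos 43 .mp ⟨39519754, 0, 0, 0, 0, 103167439, 0, 0, 0, ⟨0, 0⟩, 0⟩ 0 0)) (.pos 43 .mp ⟨43720019, 0, 0, 0, 0, 92638685, 0, 0, 0, ⟨0, 0⟩, 0⟩ 0 0)) (.cut .s 9404416 (.cut .s 9388032 (.pos 43 .mp ⟨46857193, 0, 0, 0, 0, 94121425, 0, 0, 0, ⟨0, 0⟩, 0⟩ 0 0) (.pos 43 .mp ⟨47255336, 0, 0, 0, 0, 95045956, 0, 0, 0, ⟨0, 0⟩, 0⟩ 0 0)) (.pos 43 .mp ⟨48056449, 0, 0, 0, 0, 96297837, 0, 0, 0, ⟨0, 0⟩, 0⟩ 0 0))) (.pos 44 .mp ⟨123663097, 0, 0, 0, 0, 0, 0, 0, 0, ⟨0, 0⟩, 0⟩ 0 0)) (.pos 41 .mp ⟨44710750, 0, 0, 0, 0, 0, 0, 0, 0, ⟨0, 0⟩, 0⟩ 0 0))) (.cut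 .d (-65536) (.cut .l 671088 (.pos 41 .mp ⟨44710750, 0, 0, 0, 0, 118407752, 0, 0, 0, ⟨0, 0⟩, 0⟩ 0 0) (.cut .s 9502720 (.cut .d (-98304) (.pos 41 .mp ⟨43933401, 0, 0, 0, 0, 111636354, 0, 0, 0, ⟨0, 0⟩, 0⟩ 0 0) (.pos 41 .mp ⟨49294112, 0, 0, 0, 0, 98844429, 0, 0, 0, ⟨0, 0⟩, 0⟩ 0 0)) (.pos 41 .mp ⟨42402909, 0, 0, 0, 0, 118418057, 0, 0, 0, ⟨0, 0⟩, 0⟩ 0 0))) (.cut .l 671088 (.cut .v 16908288 (.cut .s 9502720 (.cut .s 9469952 (.pos 43 .mp ⟨48864072, 0, 0, 0, 0, 98301197, 0, 0, 0, ⟨0, 0⟩, 0⟩ 0 0) (.pos 43 .mp ⟨49678297, 0, 0, 0, 0, 100245718, 0, 0, 0, ⟨0, 0⟩, 0⟩ 0 0)) (.cut .s 9535488 (.pos 43 .mp ⟨50499214, 0, 0, 0, 0, 102187942, 0, 0, 0, ⟨0, 0⟩, 0⟩ 0 0) (.pos 43 .mp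 ⟨51326918, 0, 0, 0, 0, 104155903, 0, 0, 0, ⟨0, 0⟩, 0⟩ 0 0))) (.pos 44 .mp ⟨136183560, 0, 0, 0, 0, 0, 0, 0, 0, ⟨0, 0⟩, 0⟩ 0 0)) (.pos 41 .mp ⟨47755128, 0, 0, 0, 0, 0, 0, 0, 0, ⟨0, 0⟩, 0⟩ 0 0)))) (.pos 42 .mp ⟨132871409, 0, 0, 0, 0, 0, 0, 0, 0, ⟨0, 0⟩, 0⟩ 0 0)))) (.pos 40 .mp ⟨138569974, 0, 0, 0, 0, 0, 0, 0, 0, ⟨0, 0⟩, 0⟩ 0 0)) (.pos 38 .mp ⟨148290226, 0, 0, 0, 0, 0, 0, 0, 0, ⟨0, 0⟩, 0⟩ 0 0)) (.void 36 ⟨100000, 0, 0, 0, 0, 0, 0, 0, 0, ⟨0, 0⟩, 0⟩ 0 0))))))) (.void 34 ⟨100000, 0, 0, 0, 0, 0, 0, 0, 0, ⟨0, 0⟩, 0⟩ 0 0))) (.void 32 ⟨100000, 0, 0, 0, 0, 0, 0, 0, 0, ⟨0, 0⟩, 0⟩ 0 0)) (.void 83 ⟨100000, 0, 0, 0, 0, 0, 0, 0, 0, ⟨0, 0⟩, 0⟩ 0 0)) (.void 96 ⟨100000, 0, 0,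 0, 0, 0, 0, 0, 0, ⟨0, 0⟩, 0⟩ 0 0))) (.cut .v 16777216 (.cut .v 8388608 (.cut .v 4194304 (.cut .v 2097152 (.void 6 ⟨0, 0, 25058, 0, 0, 0, 0, 0, 74942, ⟨0, 0⟩, 2804900⟩ 0 0) (.pos 7 .pm ⟨0, 0, 331286, 0, 0, 0, 0, 0, 0, ⟨0, 0⟩, 0⟩ 0 0)) (.cut .d 7172869 (.pos 5 .pm ⟨0, 0, 0, 0, 0, 0, 0, 0, 0, ⟨0, 0⟩, 0⟩ 0 0) (.cut .d 10759303 (.pos 5 .pm ⟨0, 0, 0, 0, 0, 0, 0, 0, 0, ⟨0, 0⟩, 0⟩ 0 0) (.cut .d 12552520 (.pos 5 .pm ⟨0, 61441609, 0, 0, 0, 0, 0, 0, 0, ⟨0, 0⟩, 0⟩ 0 0) (.pos 5 .pm ⟨0, 92270733, 0, 0, 0, 0, 0, 0, 0, ⟨0, 0⟩, 0⟩ 0 0))))) (.cut .d 7172869 (.pos 3 .pm ⟨0, 0, 0, 0, 0, 0, 0, 0, 0, ⟨0, 0⟩, 0⟩ 0 0) (.cut .d 10759303 (.pos 3 .pm ⟨0, 0, 0, 0, 0, 0, 0, 0, 0, ⟨0, 0⟩,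 0⟩ 0 0) (.cut .d 12552520 (.cut .v 12582912 (.cut .d 11655911 (.pos 8 .pm ⟨0, 63734558, 0, 0, 0, 0, 0, 0, 0, ⟨0, 0⟩, 0⟩ 0 0) (.cut .s 9306112 (.pos 8 .pm ⟨0, 71579681, 0, 0, 0, 0, 0, 0, 0, ⟨0, 0⟩, 0⟩ 0 0) (.cut .v 10485760 (.pos 10 .pm ⟨0, 96018856, 0, 0, 0, 0, 0, 0, 0, ⟨0, 0⟩, 0⟩ 0 0) (.pos 11 .pm ⟨0, 103124116, 0, 0, 0, 0, 0, 0, 0, ⟨0, 0⟩, 0⟩ 0 0)))) (.cut .s 9306112 (.pos 9 .pm ⟨0, 74603486, 0, 0, 0, 0, 0, 0, 0, ⟨0, 0⟩, 0⟩ 0 0) (.pos 9 .pm ⟨0, 102351136, 0, 0, 0, 0, 0, 0, 0, ⟨0, 0⟩, 0⟩ 0 0))) (.cut .v 12582912 (.cut .s 9306112 (.pos 8 .pm ⟨0, 104264413, 0, 0, 0, 0, 0, 0, 0, ⟨0, 0⟩, 0⟩ 0 0) (.pos 8 .pm ⟨0, 291524407, 0, 0, 0, 0, 0, 0, 0, ⟨0, 0⟩, 0⟩ 0 0))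 (.pos 9 .pm ⟨0, 144066933, 0, 0, 0, 0, 0, 0, 0, ⟨0, 0⟩, 0⟩ 0 0)))))) (.cut .v 67108864 (.cut .d 7172869 (.cut .d 3586434 (.cut .d 1793217 (.cut .v 33554432 (.cut .v 25165824 (.pos 31 .pp ⟨82330912, 0, 0, 0, 0, 0, 0, 0, 0, ⟨0, 0⟩, 0⟩ 0 0) (.pos 32 .pp ⟨191888468, 0, 0, 0, 0, 0, 0, 0, 0, ⟨0, 0⟩, 0⟩ 0 0)) (.cut .v 50331648 (.pos 86 .pp ⟨439648324, 0, 0, 0, 0, 0, 0, 0, 0, ⟨0, 0⟩, 0⟩ 0 0) (.pos 87 .pp ⟨938151109, 0, 0, 0, 0, 0, 0, 0, 0, ⟨0, 0⟩, 0⟩ 0 0))) (.pos 82 .pp ⟨65340711, 0, 0, 0, 0, 0, 428196, 0, 0, ⟨0, 0⟩, 0⟩ 0 0)) (.pos 82 .pp ⟨0, 0, 0, 0, 0, 0, 0, 0, 0, ⟨0, 0⟩, 0⟩ 0 0)) (.cut .d 10759303 (.pos 82 .pp ⟨0, 0, 0, 0, 0, 0, 0, 0, 0, ⟨0, 0⟩, 0⟩ 0 0) (.cut .d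 12552520 (.pos 82 .pp ⟨0, 106303631, 0, 0, 0, 0, 0, 0, 0, ⟨0, 0⟩, 0⟩ 0 0) (.void 82 ⟨0, 100000, 0, 0, 0, 0, 0, 0, 0, ⟨0, 0⟩, 0⟩ 0 0)))) (.cut .v 134217728 (.cut .d 7172869 (.cut .d 3586434 (.cut .d 1793217 (.void 97 ⟨100000, 0, 0, 0, 0, 0, 0, 0, 0, ⟨0, 0⟩, 0⟩ 0 0) (.cut .v 100663296 (.cut .d 2689825 (.pos 101 .pp ⟨1502797376, 0, 0, 0, 0, 0, 0, 0, 0, ⟨0, 0⟩, 0⟩ 0 0) (.pos 101 .pp ⟨858251901, 0, 0, 0, 0, 0, 0, 0, 0, ⟨0, 0⟩, 0⟩ 0 0)) (.pos 102 .pp ⟨2301261212, 807702807, 0, 0, 0, 0, 0, 0, 0, ⟨0, 0⟩, 0⟩ 0 0))) (.pos 97 .pp ⟨0, 210399571, 0, 0, 0, 0, 9788427, 0, 0, ⟨0, 0⟩, 0⟩ 0 0)) (.void 97 ⟨0, 100000, 0, 0, 0, 0, 0, 0, 0, ⟨0, 0⟩, 0⟩ 0 0)) (.void 98 ⟨38048, 61952,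 0, 0, 0, 0, 0, 0, 0, ⟨0, 0⟩, 0⟩ 0 0))))),
    by decide +kernel⟩

def covers12 : cell.Covers table row12.1 :=
  ⟨(.cut .d 0 (.cut .v 16777216 (.cut .d (-8388608) (.void 1 ⟨0, 0, 0, 0, 0, 100000, 0, 0, 0, ⟨0, 0⟩, 0⟩ 0 0) (.cut .d (-4194304) (.void 1 ⟨0, 0, 0, 0, 0, 100000, 0, 0, 0, ⟨0, 0⟩, 0⟩ 0 0) (.cut .d (-2097152) (.void 1 ⟨0, 0, 0, 0, 0, 100000, 0, 0, 0, ⟨0, 0⟩, 0⟩ 0 0) (.cut .d (-1048576) (.void 1 ⟨0, 0, 0, 0, 0, 100000, 0, 0, 0, ⟨0, 0⟩, 0⟩ 0 0) (.cut .d (-524288) (.void 1 ⟨0, 0, 0, 0, 0, 100000, 0, 0, 0, ⟨0, 0⟩, 0⟩ 0 0) (.cut .d (-262144) (.void 1 ⟨0, 0, 0, 0, 0, 100000, 0, 0, 0, ⟨0, 0⟩, 0⟩ 0 0) (.cut .d (-131072) (.void 1 ⟨0, 0, 0, 0, 0, 100000, 0, 0,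 0, ⟨0, 0⟩, 0⟩ 0 0) (.cut .v 8388608 (.cut .v 4194304 (.void 4 ⟨0, 0, 100000, 0, 0, 0, 0, 0, 0, ⟨0, 0⟩, 0⟩ 0 0) (.pos 5 .mm ⟨0, 0, 0, 0, 0, 96400984, 0, 0, 0, ⟨0, 0⟩, 0⟩ 0 0)) (.cut .v 12582912 (.pos 8 .mm ⟨0, 0, 0, 0, 0, 135822132, 0, 0, 0, ⟨0, 0⟩, 0⟩ 0 0) (.cut .v 14680064 (.pos 12 .mm ⟨0, 0, 0, 0, 0, 163712641, 0, 0, 0, ⟨0, 0⟩, 0⟩ 0 0) (.cut .v 15728640 (.pos 16 .mm ⟨0, 0, 0, 0, 0, 180453777, 0, 0, 0, ⟨0, 0⟩, 0⟩ 0 0) (.cut .v 16252928 (.pos 20 .mm ⟨0, 0, 0, 0, 0, 189534545, 0, 0, 0, ⟨0, 0⟩, 0⟩ 0 0) (.cut .s 9830400 (.cut .s 9699328 (.pos 21 .mm ⟨0, 0, 0, 0, 0, 175985401, 0, 0, 0, ⟨0, 0⟩, 0⟩ 0 0) (.cut .s 9764864 (.pos 21 .mm ⟨0, 0, 0, 0, 0, 183599840, 0,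 0, 0, ⟨0, 0⟩, 0⟩ 0 0) (.pos 21 .mm ⟨0, 0, 0, 0, 0, 190636828, 0, 0, 0, ⟨0, 0⟩, 0⟩ 0 0))) (.cut .d (-65536) (.pos 21 .mm ⟨0, 0, 0, 0, 0, 220279592, 0, 0, 0, ⟨0, 0⟩, 0⟩ 0 0) (.cut .s 9961472 (.pos 21 .mm ⟨0, 0, 0, 0, 0, 201206017, 0, 0, 0, ⟨0, 0⟩, 0⟩ 0 0) (.pos 21 .mm ⟨0, 0, 0, 0, 0, 216306782, 0, 0, 0, ⟨0, 0⟩, 0⟩ 0 0)))))))))))))))) (.cut .v 268435456 (.cut .v 67108864 (.cut .v 33554432 (.cut .v 25165824 (.cut .d (-8388608) (.void 31 ⟨0, 0, 0, 0, 0, 100000, 0, 0, 0, ⟨0, 0⟩, 0⟩ 0 0) (.cut .v 20971520 (.cut .d (-4194304) (.void 33 ⟨0, 0, 0, 0, 0, 100000, 0, 0, 0, ⟨0, 0⟩, 0⟩ 0 0) (.cut .d (-2097152) (.void 33 ⟨100000, 0, 0, 0, 0, 0, 0, 0, 0, ⟨0, 0⟩, 0⟩ 0 0) (.cut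 .d (-1048576) (.void 33 ⟨100000, 0, 0, 0, 0, 0, 0, 0, 0, ⟨0, 0⟩, 0⟩ 0 0) (.cut .d (-524288) (.void 33 ⟨100000, 0, 0, 0, 0, 0, 0, 0, 0, ⟨0, 0⟩, 0⟩ 0 0) (.cut .d (-262144) (.void 33 ⟨0, 0, 0, 0, 0, 100000, 0, 0, 0, ⟨0, 0⟩, 0⟩ 0 0) (.cut .d (-131072) (.void 33 ⟨0, 0, 0, 0, 0, 100000, 0, 0, 0, ⟨0, 0⟩, 0⟩ 0 0) (.cut .v 18874368 (.cut .v 17825792 (.cut .v 17301504 (.cut .s 9830400 (.cut .v 17039360 (.cut .d (-65536) (.cut .l 671088 (.pos 41 .mp ⟨47757832, 0, 0, 0, 0, 196151856, 0, 0, 0, ⟨0, 0⟩, 0⟩ 0 0) (.cut .d (-98304) (.cut .s 9699328 (.pos 41 .mp ⟨48332117, 0, 0, 0, 0, 127254103, 0, 0, 0, ⟨0, 0⟩, 0⟩ 0 0) (.pos 41 .mp ⟨50388891, 0, 0, 0, 0, 138051396, 0, 0, 0,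 ⟨0, 0⟩, 0⟩ 0 0)) (.cut .s 9699328 (.cut .s 9633792 (.pos 41 .mp ⟨52780288, 0, 0, 0, 0, 109113237, 0, 0, 0, ⟨0, 0⟩, 0⟩ 0 0) (.pos 41 .mp ⟨54585123, 0, 0, 0, 0, 112497459, 0, 0, 0, ⟨0, 0⟩, 0⟩ 0 0)) (.cut .s 9764864 (.cut .s 9732096 (.pos 41 .mp ⟨55494730, 0, 0, 0, 0, 115768888, 0, 0, 0, ⟨0, 0⟩, 0⟩ 0 0) (.pos 41 .mp ⟨56409237, 0, 0, 0, 0, 117710952, 0, 0, 0, ⟨0, 0⟩, 0⟩ 0 0)) (.cut .v 16908288 (.cut .s 9797632 (.pos 43 .mp ⟨47853986, 0, 0, 0, 0, 133626999, 0, 0, 0, ⟨0, 0⟩, 0⟩ 0 0) (.pos 43 .mp ⟨48597055, 0, 0, 0, 0, 136009509, 0, 0, 0, ⟨0, 0⟩, 0⟩ 0 0)) (.pos 44 .mp ⟨83481980, 0, 0, 0, 0, 90183597, 0, 0, 0, ⟨0, 0⟩, 0⟩ 0 0)))))) (.cut .l 671088 (.cut .v 16908288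 (.cut .s 9699328 (.cut .d (-32768) (.cut .s 9633792 (.pos 43 .mp ⟨45240021, 0, 0, 0, 0, 120422784, 0, 0, 0, ⟨0, 0⟩, 0⟩ 0 0) (.pos 43 .mp ⟨45570685, 0, 0, 0, 0, 126067546, 0, 0, 0, ⟨0, 0⟩, 0⟩ 0 0)) (.cut .s 9633792 (.pos 43 .mp ⟨49638456, 0, 0, 0, 0, 109608655, 0, 0, 0, ⟨0, 0⟩, 0⟩ 0 0) (.pos 43 .mp ⟨51168616, 0, 0, 0, 0, 113860363, 0, 0, 0, ⟨0, 0⟩, 0⟩ 0 0))) (.cut .d (-32768) (.cut .l 432675 (.pos 43 .mp ⟨49074623, 0, 0, 0, 0, 135379835, 0, 0, 0, ⟨0, 0⟩, 0⟩ 0 0) (.cut .s 9764864 (.pos 43 .mp ⟨46987242, 0, 0, 0, 0, 129281503, 0, 0, 0, ⟨0, 0⟩, 0⟩ 0 0) (.pos 43 .mp ⟨48406241, 0, 0, 0, 0, 133966785, 0, 0, 0, ⟨0, 0⟩, 0⟩ 0 0))) (.cut .s 9764864 (.pos 43 .mp ⟨52709069,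 0, 0, 0, 0, 118084968, 0, 0, 0, ⟨0, 0⟩, 0⟩ 0 0) (.cut .s 9797632 (.pos 43 .mp ⟨53483289, 0, 0, 0, 0, 122250107, 0, 0, 0, ⟨0, 0⟩, 0⟩ 0 0) (.pos 43 .mp ⟨54260243, 0, 0, 0, 0, 124613720, 0, 0, 0, ⟨0, 0⟩, 0⟩ 0 0))))) (.pos 44 .mp ⟨149428005, 0, 0, 0, 0, 0, 0, 0, 0, ⟨0, 0⟩, 0⟩ 0 0)) (.pos 41 .mp ⟨54279716, 0, 0, 0, 0, 104757614, 0, 0, 0, ⟨0, 0⟩, 0⟩ 0 0))) (.pos 42 .mp ⟨153836032, 0, 0, 0, 0, 0, 0, 0, 0, ⟨0, 0⟩, 0⟩ 0 0)) (.cut .v 17039360 (.cut .d (-65536) (.cut .l 671088 (.void 41 ⟨0, 0, 0, 0, 0, 100000, 0, 0, 0, ⟨0, 0⟩, 0⟩ 0 0) (.cut .d (-98304) (.cut .s 9961472 (.cut .s 9895936 (.pos 41 .mp ⟨53804053, 0, 0, 0, 0, 140921909, 0, 0, 0, ⟨0, 0⟩, 0⟩ 0 0) (.pos 41 .mp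 ⟨55529920, 0, 0, 0, 0, 145746960, 0, 0, 0, ⟨0, 0⟩, 0⟩ 0 0)) (.pos 41 .mp ⟨57268648, 0, 0, 0, 0, 157726816, 0, 0, 0, ⟨0, 0⟩, 0⟩ 0 0)) (.cut .s 9961472 (.cut .s 9895936 (.cut .v 16908288 (.cut .s 9863168 (.pos 43 .mp ⟨49340919, 0, 0, 0, 0, 138472813, 0, 0, 0, ⟨0, 0⟩, 0⟩ 0 0) (.pos 43 .mp ⟨50085611, 0, 0, 0, 0, 141017291, 0, 0, 0, ⟨0, 0⟩, 0⟩ 0 0)) (.cut .s 9863168 (.pos 44 .mp ⟨67378848, 0, 0, 0, 0, 115493196, 0, 0, 0, ⟨0, 0⟩, 0⟩ 0 0) (.pos 44 .mp ⟨67647482, 0, 0, 0, 0, 118585445, 0, 0, 0, ⟨0, 0⟩, 0⟩ 0 0))) (.cut .v 16908288 (.cut .s 9928704 (.pos 43 .mp ⟨50831166, 0, 0, 0, 0, 143643318, 0, 0, 0, ⟨0, 0⟩, 0⟩ 0 0) (.pos 43 .mp ⟨51577621, 0, 0, 0, 0, 146351267, 0,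 0, 0, ⟨0, 0⟩, 0⟩ 0 0)) (.cut .s 9928704 (.pos 44 .mp ⟨68255786, 0, 0, 0, 0, 121328512, 0, 0, 0, ⟨0, 0⟩, 0⟩ 0 0) (.pos 44 .mp ⟨69217828, 0, 0, 0, 0, 123701356, 0, 0, 0, ⟨0, 0⟩, 0⟩ 0 0)))) (.cut .s 10027008 (.cut .v 16908288 (.cut .s 9994240 (.pos 43 .mp ⟨52325011, 0, 0, 0, 0, 149141506, 0, 0, 0, ⟨0, 0⟩, 0⟩ 0 0) (.pos 43 .mp ⟨53073373, 0, 0, 0, 0, 152014400, 0, 0, 0, ⟨0, 0⟩, 0⟩ 0 0)) (.pos 44 .mp ⟨87024689, 0, 0, 0, 0, 106211810, 0, 0, 0, ⟨0, 0⟩, 0⟩ 0 0)) (.cut .s 10059776 (.pos 41 .mp ⟨54418273, 0, 0, 0, 0, 156367944, 0, 0, 0, ⟨0, 0⟩, 0⟩ 0 0) (.pos 41 .mp ⟨55184629, 0, 0, 0, 0, 159422863, 0, 0, 0, ⟨0, 0⟩, 0⟩ 0 0)))))) (.cut .l 671088 (.cut .v 16908288 (.cut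 .s 9961472 (.cut .d (-32768) (.cut .l 432675 (.pos 43 .mp ⟨52040581, 0, 0, 0, 0, 145478256, 0, 0, 0, ⟨0, 0⟩, 0⟩ 0 0) (.cut .v 16842752 (.pos 73 .mp ⟨0, 0, 0, 0, 0, 203472746, 0, 0, 0, ⟨0, 0⟩, 0⟩ 0 0) (.cut .s 9895936 (.pos 74 .mp ⟨57953201, 0, 0, 0, 0, 127666138, 0, 0, 0, ⟨0, 0⟩, 0⟩ 0 0) (.pos 74 .mp ⟨59682260, 0, 0, 0, 0, 132438513, 0, 0, 0, ⟨0, 0⟩, 0⟩ 0 0)))) (.cut .d (-16384) (.cut .l 432675 (.cut .s 9895936 (.pos 43 .mp ⟨55822580, 0, 0, 0, 0, 128392094, 0, 0, 0, ⟨0, 0⟩, 0⟩ 0 0) (.pos 43 .mp ⟨57396539, 0, 0, 0, 0, 133317701, 0, 0, 0, ⟨0, 0⟩, 0⟩ 0 0)) (.pos 43 .mp ⟨55034743, 0, 0, 0, 0, 0, 0, 0, 0, ⟨0, 0⟩, 0⟩ 0 0)) (.pos 43 .mp ⟨55225107, 0, 0, 0, 0, 0, 0,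 0, 0, ⟨0, 0⟩, 0⟩ 0 0))) (.cut .d (-32768) (.cut .l 432675 (.pos 43 .mp ⟨55034743, 0, 0, 0, 0, 156662100, 0, 0, 0, ⟨0, 0⟩, 0⟩ 0 0) (.cut .s 10027008 (.pos 43 .mp ⟨52680406, 0, 0, 0, 0, 149699315, 0, 0, 0, ⟨0, 0⟩, 0⟩ 0 0) (.pos 43 .mp ⟨54111732, 0, 0, 0, 0, 155501697, 0, 0, 0, ⟨0, 0⟩, 0⟩ 0 0))) (.cut .d (-16384) (.cut .s 10027008 (.cut .s 9994240 (.pos 43 .mp ⟨58188024, 0, 0, 0, 0, 138024210, 0, 0, 0, ⟨0, 0⟩, 0⟩ 0 0) (.pos 43 .mp ⟨58982594, 0, 0, 0, 0, 140788240, 0, 0, 0, ⟨0, 0⟩, 0⟩ 0 0)) (.pos 43 .mp ⟨60581239, 0, 0, 0, 0, 143469359, 0, 0, 0, ⟨0, 0⟩, 0⟩ 0 0)) (.pos 43 .mp ⟨58126827, 0, 0, 0, 0, 90536486, 0, 0, 0, ⟨0, 0⟩, 0⟩ 0 0)))) (.pos 44 .mp ⟨168252323, 0,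 0, 0, 0, 0, 0, 0, 0, ⟨0, 0⟩, 0⟩ 0 0)) (.cut .s 9961472 (.pos 41 .mp ⟨57610418, 0, 0, 0, 0, 123772024, 0, 0, 0, ⟨0, 0⟩, 0⟩ 0 0) (.pos 41 .mp ⟨60992845, 0, 0, 0, 0, 133097700, 0, 0, 0, ⟨0, 0⟩, 0⟩ 0 0)))) (.pos 42 .mp ⟨172479843, 0, 0, 0, 0, 0, 0, 0, 0, ⟨0, 0⟩, 0⟩ 0 0))) (.pos 40 .mp ⟨170209715, 0, 0, 0, 0, 0, 0, 0, 0, ⟨0, 0⟩, 0⟩ 0 0)) (.pos 38 .mp ⟨181266482, 0, 0, 0, 0, 0, 0, 0, 0, ⟨0, 0⟩, 0⟩ 0 0)) (.void 36 ⟨100000, 0, 0, 0, 0, 0, 0, 0, 0, ⟨0, 0⟩, 0⟩ 0 0)))))))) (.void 34 ⟨100000, 0, 0, 0, 0, 0, 0, 0, 0, ⟨0, 0⟩, 0⟩ 0 0))) (.void 32 ⟨100000, 0, 0, 0, 0, 0, 0, 0, 0, ⟨0, 0⟩, 0⟩ 0 0)) (.void 83 ⟨100000, 0, 0, 0, 0, 0, 0, 0, 0, ⟨0, 0⟩, 0⟩ 0 0)) (.void 96 ⟨100000,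 0, 0, 0, 0, 0, 0, 0, 0, ⟨0, 0⟩, 0⟩ 0 0)) (.void 109 ⟨62439, 37561, 0, 0, 0, 0, 0, 0, 0, ⟨0, 0⟩, 0⟩ 0 0))) (.cut .v 16777216 (.cut .v 8388608 (.cut .v 4194304 (.cut .v 2097152 (.pos 6 .pm ⟨0, 0, 49719778, 0, 0, 0, 0, 0, 106428644, ⟨0, 0⟩, 2804900⟩ 0 0) (.pos 7 .pm ⟨0, 4881949, 0, 0, 0, 0, 0, 0, 0, ⟨0, 0⟩, 0⟩ 0 0)) (.cut .d 6320185 (.pos 5 .pm ⟨0, 0, 0, 0, 0, 0, 0, 0, 0, ⟨0, 0⟩, 0⟩ 0 0) (.cut .d 9480278 (.pos 5 .pm ⟨0, 0, 0, 0, 0, 0, 0, 0, 0, ⟨0, 0⟩, 0⟩ 0 0) (.cut .v 6291456 (.pos 105 .pm ⟨0, 70605626, 0, 0, 0, 0, 0, 0, 0, ⟨0, 0⟩, 0⟩ 0 0) (.cut .d 11060324 (.cut .d 10270301 (.pos 106 .pm ⟨0, 0, 0, 0, 0, 0, 0, 0, 0, ⟨0, 0⟩, 0⟩ 0 0) (.cut .s 9830400 (.pos 106 .pm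 ⟨0, 0, 0, 0, 0, 0, 0, 0, 0, ⟨0, 0⟩, 0⟩ 0 0) (.pos 106 .pm ⟨0, 100281208, 0, 0, 0, 0, 0, 0, 0, ⟨0, 0⟩, 0⟩ 0 0))) (.cut .s 9830400 (.pos 106 .pm ⟨0, 96633446, 0, 0, 0, 0, 0, 0, 0, ⟨0, 0⟩, 0⟩ 0 0) (.pos 106 .pm ⟨0, 127806397, 0, 0, 0, 0, 0, 0, 0, ⟨0, 0⟩, 0⟩ 0 0))))))) (.cut .d 6320185 (.pos 3 .pm ⟨0, 0, 0, 0, 0, 0, 0, 0, 0, ⟨0, 0⟩, 0⟩ 0 0) (.cut .d 9480278 (.pos 3 .pm ⟨0, 0, 0, 0, 0, 0, 0, 0, 0, ⟨0, 0⟩, 0⟩ 0 0) (.cut .d 11060324 (.cut .v 12582912 (.cut .d 10270301 (.cut .v 10485760 (.pos 10 .pm ⟨0, 23355807, 0, 0, 0, 0, 0, 0, 0, ⟨0, 0⟩, 0⟩ 0 0) (.pos 11 .pm ⟨0, 80255417, 0, 0, 0, 0, 0, 0, 0, ⟨0, 0⟩, 0⟩ 0 0)) (.cut .s 9830400 (.cut .v 10485760 (.pos 10 .pm ⟨0,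 82611487, 0, 0, 0, 0, 0, 0, 0, ⟨0, 0⟩, 0⟩ 0 0) (.pos 11 .pm ⟨0, 90135853, 0, 0, 0, 0, 0, 0, 0, ⟨0, 0⟩, 0⟩ 0 0)) (.cut .v 10485760 (.cut .d 10665312 (.cut .s 9961472 (.pos 10 .pm ⟨0, 97465180, 0, 0, 0, 0, 0, 0, 0, ⟨0, 0⟩, 0⟩ 0 0) (.cut .d 10467806 (.pos 10 .pm ⟨0, 108944683, 0, 0, 0, 0, 0, 0, 0, ⟨0, 0⟩, 0⟩ 0 0) (.pos 10 .pm ⟨0, 118290866, 0, 0, 0, 0, 0, 0, 0, ⟨0, 0⟩, 0⟩ 0 0))) (.cut .s 9961472 (.pos 10 .pm ⟨0, 112437515, 0, 0, 0, 0, 0, 0, 0, ⟨0, 0⟩, 0⟩ 0 0) (.pos 10 .pm ⟨0, 131595332, 0, 0, 0, 0, 0, 0, 0, ⟨0, 0⟩, 0⟩ 0 0))) (.cut .s 9961472 (.pos 11 .pm ⟨0, 114450662, 0, 0, 0, 0, 0, 0, 0, ⟨0, 0⟩, 0⟩ 0 0) (.pos 11 .pm ⟨0, 132326913, 0, 0, 0, 0, 0, 0, 0, ⟨0, 0⟩,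 0⟩ 0 0))))) (.cut .s 9830400 (.pos 9 .pm ⟨0, 96423275, 0, 0, 0, 0, 0, 0, 0, ⟨0, 0⟩, 0⟩ 0 0) (.pos 9 .pm ⟨0, 130953096, 0, 0, 0, 0, 0, 0, 0, ⟨0, 0⟩, 0⟩ 0 0))) (.cut .v 12582912 (.cut .s 9830400 (.cut .d 11850347 (.cut .v 10485760 (.cut .s 9699328 (.pos 10 .pm ⟨0, 98723174, 0, 0, 0, 0, 0, 0, 0, ⟨0, 0⟩, 0⟩ 0 0) (.pos 10 .pm ⟨0, 115761009, 0, 0, 0, 0, 0, 0, 0, ⟨0, 0⟩, 0⟩ 0 0)) (.cut .s 9699328 (.pos 11 .pm ⟨0, 105086589, 0, 0, 0, 0, 0, 0, 0, ⟨0, 0⟩, 0⟩ 0 0) (.pos 11 .pm ⟨0, 123127943, 0, 0, 0, 0, 0, 0, 0, ⟨0, 0⟩, 0⟩ 0 0))) (.void 8 ⟨0, 100000, 0, 0, 0, 0, 0, 0, 0, ⟨0, 0⟩, 0⟩ 0 0)) (.pos 8 .pm ⟨0, 260559269, 0, 0, 0, 0, 0, 0, 0, ⟨0, 0⟩, 0⟩ 0 0)) (.pos 9 .pm ⟨0,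 175970921, 0, 0, 0, 0, 0, 0, 0, ⟨0, 0⟩, 0⟩ 0 0)))))) (.cut .v 268435456 (.cut .v 67108864 (.cut .d 6320185 (.cut .d 3160092 (.cut .v 33554432 (.cut .d 1580046 (.cut .v 25165824 (.pos 31 .pp ⟨111827422, 0, 0, 0, 0, 0, 0, 0, 0, ⟨0, 0⟩, 0⟩ 0 0) (.pos 32 .pp ⟨253309500, 0, 0, 0, 0, 0, 0, 0, 0, ⟨0, 0⟩, 0⟩ 0 0)) (.pos 30 .pp ⟨0, 0, 0, 0, 0, 0, 0, 0, 0, ⟨0, 0⟩, 0⟩ 0 0)) (.cut .d 1580046 (.cut .v 50331648 (.pos 86 .pp ⟨571168973, 0, 0, 0, 0, 0, 0, 0, 0, ⟨0, 0⟩, 0⟩ 0 0) (.pos 87 .pp ⟨1194179083, 0, 0, 0, 0, 0, 0, 0, 0, ⟨0, 0⟩, 0⟩ 0 0)) (.pos 83 .pp ⟨287703552, 0, 0, 0, 0, 0, 4197, 0, 0, ⟨0, 0⟩, 0⟩ 0 0))) (.pos 82 .pp ⟨0, 0, 0, 0, 0, 0, 0, 0, 0, ⟨0, 0⟩, 0⟩ 0 0)) (.cut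 .d 9480278 (.pos 82 .pp ⟨0, 0, 0, 0, 0, 0, 0, 0, 0, ⟨0, 0⟩, 0⟩ 0 0) (.pos 82 .pp ⟨0, 179062853, 0, 0, 0, 0, 0, 0, 0, ⟨0, 0⟩, 0⟩ 0 0))) (.cut .v 134217728 (.cut .d 6320185 (.cut .d 3160092 (.cut .d 1580046 (.void 97 ⟨100000, 0, 0, 0, 0, 0, 0, 0, 0, ⟨0, 0⟩, 0⟩ 0 0) (.cut .v 100663296 (.cut .d 2370069 (.pos 101 .pp ⟨1892142999, 0, 0, 0, 0, 0, 0, 0, 0, ⟨0, 0⟩, 0⟩ 0 0) (.pos 101 .pp ⟨1100116212, 0, 0, 0, 0, 0, 0, 0, 0, ⟨0, 0⟩, 0⟩ 0 0)) (.cut .d 2370069 (.void 102 ⟨100000, 0, 0, 0, 0, 0, 0, 0, 0, ⟨0, 0⟩, 0⟩ 0 0) (.pos 102 .pp ⟨2256074047, 515815669, 0, 0, 0, 0, 0, 0, 0, ⟨0, 0⟩, 0⟩ 0 0)))) (.pos 97 .pp ⟨0, 262525665, 0, 0, 0, 0, 3934735, 0, 0, ⟨0, 0⟩, 0⟩ 0 0)) (.void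 97 ⟨0, 100000, 0, 0, 0, 0, 0, 0, 0, ⟨0, 0⟩, 0⟩ 0 0)) (.void 98 ⟨37646, 62354, 0, 0, 0, 0, 0, 0, 0, ⟨0, 0⟩, 0⟩ 0 0))) (.void 109 ⟨0, 0, 0, 100000, 0, 0, 0, 0, 0, ⟨0, 0⟩, 0⟩ 0 0)))),
    by decide +kernel⟩

def covers13 : cell.Covers table row13.1 :=
  ⟨(.cut .d 0 (.cut .v 16777216 (.cut .d (-8388608) (.void 1 ⟨0, 0, 0, 0, 0, 100000, 0, 0, 0, ⟨0, 0⟩, 0⟩ 0 0) (.cut .d (-4194304) (.void 1 ⟨0, 0, 0, 0, 0, 100000, 0, 0, 0, ⟨0, 0⟩, 0⟩ 0 0) (.cut .d (-2097152) (.void 1 ⟨0, 0, 0, 0, 0, 100000, 0, 0, 0, ⟨0, 0⟩, 0⟩ 0 0) (.cut .d (-1048576) (.void 1 ⟨0, 0, 0, 0, 0, 100000, 0, 0, 0, ⟨0, 0⟩, 0⟩ 0 0) (.cut .d (-524288) (.void 1 ⟨0, 0, 0, 0, 0, 100000, 0, 0, 0, ⟨0, 0⟩, 0⟩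 0 0) (.cut .d (-262144) (.void 1 ⟨0, 0, 0, 0, 0, 100000, 0, 0, 0, ⟨0, 0⟩, 0⟩ 0 0) (.cut .d (-131072) (.void 1 ⟨0, 0, 0, 0, 0, 100000, 0, 0, 0, ⟨0, 0⟩, 0⟩ 0 0) (.cut .v 8388608 (.cut .v 4194304 (.void 4 ⟨0, 0, 100000, 0, 0, 0, 0, 0, 0, ⟨0, 0⟩, 0⟩ 0 0) (.pos 5 .mm ⟨0, 0, 0, 0, 0, 119187480, 0, 0, 0, ⟨0, 0⟩, 0⟩ 0 0)) (.cut .v 12582912 (.pos 8 .mm ⟨0, 0, 0, 0, 0, 179720782, 0, 0, 0, ⟨0, 0⟩, 0⟩ 0 0) (.cut .v 14680064 (.pos 12 .mm ⟨0, 0, 0, 0, 0, 214469173, 0, 0, 0, ⟨0, 0⟩, 0⟩ 0 0) (.cut .v 15728640 (.pos 16 .mm ⟨0, 0, 0, 0, 0, 234207533, 0, 0, 0, ⟨0, 0⟩, 0⟩ 0 0) (.cut .v 16252928 (.pos 20 .mm ⟨0, 0, 0, 0, 0, 244677436, 0, 0, 0, ⟨0, 0⟩, 0⟩ 0 0) (.cut .s 10289152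 (.cut .s 10190848 (.pos 21 .mm ⟨0, 0, 0, 0, 0, 232798958, 0, 0, 0, ⟨0, 0⟩, 0⟩ 0 0) (.pos 21 .mm ⟨0, 0, 0, 0, 0, 245501577, 0, 0, 0, ⟨0, 0⟩, 0⟩ 0 0)) (.cut .s 10387456 (.pos 21 .mm ⟨0, 0, 0, 0, 0, 258676993, 0, 0, 0, ⟨0, 0⟩, 0⟩ 0 0) (.pos 21 .mm ⟨0, 0, 0, 0, 0, 272502850, 0, 0, 0, ⟨0, 0⟩, 0⟩ 0 0))))))))))))))) (.cut .v 268435456 (.cut .v 67108864 (.cut .v 33554432 (.cut .v 25165824 (.cut .d (-8388608) (.void 31 ⟨0, 0, 0, 0, 0, 100000, 0, 0, 0, ⟨0, 0⟩, 0⟩ 0 0) (.cut .d (-4194304) (.void 31 ⟨100000, 0, 0, 0, 0, 0, 0, 0, 0, ⟨0, 0⟩, 0⟩ 0 0) (.cut .v 20971520 (.cut .d (-2097152) (.void 33 ⟨100000, 0, 0, 0, 0, 0, 0, 0, 0, ⟨0, 0⟩, 0⟩ 0 0) (.cut .d (-1048576) (.void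 33 ⟨100000, 0, 0, 0, 0, 0, 0, 0, 0, ⟨0, 0⟩, 0⟩ 0 0) (.cut .d (-524288) (.void 33 ⟨100000, 0, 0, 0, 0, 0, 0, 0, 0, ⟨0, 0⟩, 0⟩ 0 0) (.cut .d (-262144) (.void 33 ⟨100000, 0, 0, 0, 0, 0, 0, 0, 0, ⟨0, 0⟩, 0⟩ 0 0) (.cut .d (-131072) (.void 33 ⟨0, 0, 0, 0, 0, 100000, 0, 0, 0, ⟨0, 0⟩, 0⟩ 0 0) (.cut .v 18874368 (.cut .v 17825792 (.cut .v 17301504 (.cut .v 17039360 (.cut .d (-65536) (.cut .d (-98304) (.void 41 ⟨0, 0, 0, 0, 0, 100000, 0, 0, 0, ⟨0, 0⟩, 0⟩ 0 0) (.cut .l 671088 (.void 41 ⟨0, 0, 0, 0, 0, 100000, 0, 0, 0, ⟨0, 0⟩, 0⟩ 0 0) (.cut .s 10289152 (.cut .s 10190848 (.cut .s 10141696 (.pos 41 .mp ⟨55945382, 0, 0, 0, 0, 164739517, 0, 0, 0, ⟨0, 0⟩, 0⟩ 0 0) (.cut .v 16908288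 (.pos 43 .mp ⟨56514123, 0, 0, 0, 0, 167204723, 0, 0, 0, ⟨0, 0⟩, 0⟩ 0 0) (.pos 44 .mp ⟨79525176, 0, 0, 0, 0, 137137998, 0, 0, 0, ⟨0, 0⟩, 0⟩ 0 0))) (.cut .l 909501 (.pos 41 .mp ⟨61000104, 0, 0, 0, 0, 176933207, 0, 0, 0, ⟨0, 0⟩, 0⟩ 0 0) (.cut .d (-81920) (.cut .s 10240000 (.pos 41 .mp ⟨60979601, 0, 0, 0, 0, 170677366, 0, 0, 0, ⟨0, 0⟩, 0⟩ 0 0) (.pos 41 .mp ⟨62286666, 0, 0, 0, 0, 174891909, 0, 0, 0, ⟨0, 0⟩, 0⟩ 0 0)) (.cut .s 10240000 (.pos 41 .mp ⟨64964524, 0, 0, 0, 0, 157085808, 0, 0, 0, ⟨0, 0⟩, 0⟩ 0 0) (.pos 41 .mp ⟨66328015, 0, 0, 0, 0, 161000003, 0, 0, 0, ⟨0, 0⟩, 0⟩ 0 0))))) (.cut .s 10387456 (.cut .s 10338304 (.cut .v 16908288 (.cut .s 10313728 (.pos 43 .mp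 ⟨60071144, 0, 0, 0, 0, 178593782, 0, 0, 0, ⟨0, 0⟩, 0⟩ 0 0) (.pos 43 .mp ⟨60659391, 0, 0, 0, 0, 181025580, 0, 0, 0, ⟨0, 0⟩, 0⟩ 0 0)) (.pos 44 .mp ⟨86961446, 0, 0, 0, 0, 145033781, 0, 0, 0, ⟨0, 0⟩, 0⟩ 0 0)) (.cut .v 16908288 (.pos 43 .mp ⟨61246330, 0, 0, 0, 0, 185509525, 0, 0, 0, ⟨0, 0⟩, 0⟩ 0 0) (.pos 44 .mp ⟨91757889, 0, 0, 0, 0, 145024759, 0, 0, 0, ⟨0, 0⟩, 0⟩ 0 0))) (.cut .s 10436608 (.cut .s 10412032 (.pos 41 .mp ⟨63193442, 0, 0, 0, 0, 190204777, 0, 0, 0, ⟨0, 0⟩, 0⟩ 0 0) (.pos 41 .mp ⟨63789230, 0, 0, 0, 0, 192892363, 0, 0, 0, ⟨0, 0⟩, 0⟩ 0 0)) (.pos 41 .mp ⟨64383761, 0, 0, 0, 0, 197776500, 0, 0, 0, ⟨0, 0⟩, 0⟩ 0 0)))))) (.cut .s 10289152 (.cut .v 16908288 (.cut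 .s 10190848 (.cut .l 671088 (.cut .d (-32768) (.cut .s 10141696 (.pos 43 .mp ⟨55540970, 0, 0, 0, 0, 162593217, 0, 0, 0, ⟨0, 0⟩, 0⟩ 0 0) (.pos 43 .mp ⟨56656490, 0, 0, 0, 0, 166726787, 0, 0, 0, ⟨0, 0⟩, 0⟩ 0 0)) (.cut .s 10141696 (.pos 43 .mp ⟨61790071, 0, 0, 0, 0, 148736267, 0, 0, 0, ⟨0, 0⟩, 0⟩ 0 0) (.pos 43 .mp ⟨63004259, 0, 0, 0, 0, 152754619, 0, 0, 0, ⟨0, 0⟩, 0⟩ 0 0))) (.pos 43 .mp ⟨62926276, 0, 0, 0, 0, 147396062, 0, 0, 0, ⟨0, 0⟩, 0⟩ 0 0)) (.cut .l 671088 (.cut .d (-32768) (.cut .s 10240000 (.pos 43 .mp ⟨57766308, 0, 0, 0, 0, 171095524, 0, 0, 0, ⟨0, 0⟩, 0⟩ 0 0) (.cut .s 10264576 (.pos 43 .mp ⟨58870416, 0, 0, 0, 0, 173448388, 0, 0, 0, ⟨0, 0⟩, 0⟩ 0 0) (.pos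 43 .mp ⟨59420328, 0, 0, 0, 0, 175816864, 0, 0, 0, ⟨0, 0⟩, 0⟩ 0 0))) (.cut .d (-16384) (.cut .s 10240000 (.pos 43 .mp ⟨64218509, 0, 0, 0, 0, 157700477, 0, 0, 0, ⟨0, 0⟩, 0⟩ 0 0) (.cut .s 10264576 (.pos 43 .mp ⟨64825688, 0, 0, 0, 0, 161811144, 0, 0, 0, ⟨0, 0⟩, 0⟩ 0 0) (.pos 43 .mp ⟨65432920, 0, 0, 0, 0, 164018405, 0, 0, 0, ⟨0, 0⟩, 0⟩ 0 0))) (.pos 43 .mp ⟨62659940, 0, 0, 0, 0, 156404221, 0, 0, 0, ⟨0, 0⟩, 0⟩ 0 0))) (.cut .s 10240000 (.pos 43 .mp ⟨64221997, 0, 0, 0, 0, 155917860, 0, 0, 0, ⟨0, 0⟩, 0⟩ 0 0) (.pos 43 .mp ⟨65518334, 0, 0, 0, 0, 160178319, 0, 0, 0, ⟨0, 0⟩, 0⟩ 0 0)))) (.pos 44 .mp ⟨181660431, 0, 0, 0, 0, 0, 0, 0, 0, ⟨0, 0⟩, 0⟩ 0 0)) (.cut .s 10387456 (.cut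 .v 16908288 (.cut .l 671088 (.cut .d (-32768) (.cut .l 432675 (.pos 43 .mp ⟨62696544, 0, 0, 0, 0, 185017466, 0, 0, 0, ⟨0, 0⟩, 0⟩ 0 0) (.cut .s 10338304 (.pos 43 .mp ⟨59968809, 0, 0, 0, 0, 179641521, 0, 0, 0, ⟨0, 0⟩, 0⟩ 0 0) (.pos 43 .mp ⟨61061479, 0, 0, 0, 0, 184631391, 0, 0, 0, ⟨0, 0⟩, 0⟩ 0 0))) (.cut .d (-16384) (.cut .v 16842752 (.cut .s 10338304 (.pos 73 .mp ⟨56859158, 0, 0, 0, 0, 180909761, 0, 0, 0, ⟨0, 0⟩, 0⟩ 0 0) (.pos 73 .mp ⟨57838231, 0, 0, 0, 0, 186059409, 0, 0, 0, ⟨0, 0⟩, 0⟩ 0 0)) (.pos 74 .mp ⟨188943011, 0, 0, 0, 0, 0, 0, 0, 0, ⟨0, 0⟩, 0⟩ 0 0)) (.pos 43 .mp ⟨64882318, 0, 0, 0, 0, 165160574, 0, 0, 0, ⟨0, 0⟩, 0⟩ 0 0))) (.cut .s 10338304 (.pos 43 .mp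 ⟨66815405, 0, 0, 0, 0, 164555948, 0, 0, 0, ⟨0, 0⟩, 0⟩ 0 0) (.pos 43 .mp ⟨68113330, 0, 0, 0, 0, 169048722, 0, 0, 0, ⟨0, 0⟩, 0⟩ 0 0))) (.pos 44 .mp ⟨191472488, 0, 0, 0, 0, 0, 0, 0, 0, ⟨0, 0⟩, 0⟩ 0 0)) (.cut .v 16908288 (.cut .l 671088 (.cut .d (-32768) (.cut .s 10436608 (.pos 43 .mp ⟨62148417, 0, 0, 0, 0, 190959044, 0, 0, 0, ⟨0, 0⟩, 0⟩ 0 0) (.pos 43 .mp ⟨63229611, 0, 0, 0, 0, 196531196, 0, 0, 0, ⟨0, 0⟩, 0⟩ 0 0)) (.cut .s 10436608 (.cut .s 10412032 (.pos 43 .mp ⟨68470347, 0, 0, 0, 0, 174717521, 0, 0, 0, ⟨0, 0⟩, 0⟩ 0 0) (.pos 43 .mp ⟨69078179, 0, 0, 0, 0, 177140401, 0, 0, 0, ⟨0, 0⟩, 0⟩ 0 0)) (.pos 43 .mp ⟨70294302, 0, 0, 0, 0, 180369869, 0, 0, 0, ⟨0, 0⟩, 0⟩ 0 0)))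 (.cut .s 10436608 (.pos 43 .mp ⟨69412234, 0, 0, 0, 0, 173654643, 0, 0, 0, ⟨0, 0⟩, 0⟩ 0 0) (.pos 43 .mp ⟨70712244, 0, 0, 0, 0, 178371740, 0, 0, 0, ⟨0, 0⟩, 0⟩ 0 0))) (.pos 44 .mp ⟨200282534, 0, 0, 0, 0, 0, 0, 0, 0, ⟨0, 0⟩, 0⟩ 0 0))))) (.pos 42 .mp ⟨202922794, 0, 0, 0, 0, 0, 0, 0, 0, ⟨0, 0⟩, 0⟩ 0 0)) (.pos 40 .mp ⟨208490599, 0, 0, 0, 0, 0, 0, 0, 0, ⟨0, 0⟩, 0⟩ 0 0)) (.pos 38 .mp ⟨222427249, 0, 0, 0, 0, 0, 0, 0, 0, ⟨0, 0⟩, 0⟩ 0 0)) (.void 36 ⟨100000, 0, 0, 0, 0, 0, 0, 0, 0, ⟨0, 0⟩, 0⟩ 0 0))))))) (.void 34 ⟨100000, 0, 0, 0, 0, 0, 0, 0, 0, ⟨0, 0⟩, 0⟩ 0 0)))) (.void 32 ⟨100000, 0, 0, 0, 0, 0, 0, 0, 0, ⟨0, 0⟩, 0⟩ 0 0)) (.void 83 ⟨100000, 0, 0, 0, 0, 0, 0, 0, 0, ⟨0,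 0⟩, 0⟩ 0 0)) (.void 96 ⟨100000, 0, 0, 0, 0, 0, 0, 0, 0, ⟨0, 0⟩, 0⟩ 0 0)) (.void 109 ⟨61538, 38462, 0, 0, 0, 0, 0, 0, 0, ⟨0, 0⟩, 0⟩ 0 0))) (.cut .v 16777216 (.cut .v 8388608 (.cut .v 4194304 (.cut .v 2097152 (.cut .v 1048576 (.void 118 ⟨0, 0, 19122, 0, 0, 0, 0, 0, 80878, ⟨0, 0⟩, 1983364⟩ 0 0) (.pos 119 .pm ⟨0, 0, 7452370, 0, 0, 0, 0, 0, 0, ⟨0, 0⟩, 0⟩ 0 0)) (.pos 7 .pm ⟨0, 6693513, 0, 0, 0, 0, 0, 0, 0, ⟨0, 0⟩, 0⟩ 0 0)) (.cut .d 5556092 (.pos 5 .pm ⟨0, 0, 0, 0, 0, 0, 0, 0, 0, ⟨0, 0⟩, 0⟩ 0 0) (.cut .d 8334138 (.pos 5 .pm ⟨0, 0, 0, 0, 0, 0, 0, 0, 0, ⟨0, 0⟩, 0⟩ 0 0) (.cut .d 9723161 (.cut .d 9028649 (.pos 5 .pm ⟨0, 0, 0, 0, 0, 0, 0, 0, 0, ⟨0, 0⟩, 0⟩ 0 0) (.cut .s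 10289152 (.pos 5 .pm ⟨0, 0, 0, 0, 0, 0, 0, 0, 0, ⟨0, 0⟩, 0⟩ 0 0) (.cut .d 9375905 (.pos 5 .pm ⟨0, 0, 0, 0, 0, 0, 0, 0, 0, ⟨0, 0⟩, 0⟩ 0 0) (.cut .s 10387456 (.pos 5 .pm ⟨0, 108949776, 0, 0, 0, 0, 0, 0, 0, ⟨0, 0⟩, 0⟩ 0 0) (.pos 5 .pm ⟨0, 123354672, 0, 0, 0, 0, 0, 0, 0, ⟨0, 0⟩, 0⟩ 0 0))))) (.cut .d 10417673 (.cut .s 10289152 (.cut .d 10070417 (.pos 5 .pm ⟨0, 104826108, 0, 0, 0, 0, 0, 0, 0, ⟨0, 0⟩, 0⟩ 0 0) (.pos 5 .pm ⟨0, 116603428, 0, 0, 0, 0, 0, 0, 0, ⟨0, 0⟩, 0⟩ 0 0)) (.pos 5 .pm ⟨0, 136498266, 0, 0, 0, 0, 0, 0, 0, ⟨0, 0⟩, 0⟩ 0 0)) (.pos 5 .pm ⟨0, 151687038, 0, 0, 0, 0, 0, 0, 0, ⟨0, 0⟩, 0⟩ 0 0)))))) (.cut .d 5556092 (.pos 3 .pm ⟨0, 0, 0, 0, 0, 0, 0, 0, 0, ⟨0,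 0⟩, 0⟩ 0 0) (.cut .d 8334138 (.pos 3 .pm ⟨0, 0, 0, 0, 0, 0, 0, 0, 0, ⟨0, 0⟩, 0⟩ 0 0) (.cut .d 9723161 (.cut .v 12582912 (.cut .s 10289152 (.pos 8 .pm ⟨0, 0, 0, 0, 0, 0, 0, 0, 0, ⟨0, 0⟩, 0⟩ 0 0) (.cut .v 10485760 (.cut .d 9028649 (.pos 10 .pm ⟨0, 0, 0, 0, 0, 0, 0, 0, 0, ⟨0, 0⟩, 0⟩ 0 0) (.cut .d 9375905 (.pos 10 .pm ⟨0, 34496679, 0, 0, 0, 0, 0, 0, 0, ⟨0, 0⟩, 0⟩ 0 0) (.cut .v 9437184 (.cut .s 10387456 (.pos 112 .pm ⟨0, 116221862, 0, 0, 0, 0, 0, 0, 0, ⟨0, 0⟩, 0⟩ 0 0) (.cut .d 9549533 (.pos 112 .pm ⟨0, 125452051, 0, 0, 0, 0, 0, 0, 0, ⟨0, 0⟩, 0⟩ 0 0) (.pos 112 .pm ⟨0, 134898113, 0, 0, 0, 0, 0, 0, 0, ⟨0, 0⟩, 0⟩ 0 0))) (.pos 113 .pm ⟨0, 130745071, 0, 0, 0, 0, 0, 0,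 0, ⟨0, 0⟩, 0⟩ 0 0)))) (.pos 11 .pm ⟨0, 127501916, 0, 0, 0, 0, 0, 0, 0, ⟨0, 0⟩, 0⟩ 0 0))) (.pos 9 .pm ⟨0, 127897780, 0, 0, 0, 0, 0, 0, 0, ⟨0, 0⟩, 0⟩ 0 0)) (.cut .d 10417673 (.cut .v 12582912 (.cut .s 10289152 (.cut .v 10485760 (.cut .d 10070417 (.cut .s 10190848 (.pos 10 .pm ⟨0, 88247308, 0, 0, 0, 0, 0, 0, 0, ⟨0, 0⟩, 0⟩ 0 0) (.cut .v 9437184 (.pos 112 .pm ⟨0, 117967704, 0, 0, 0, 0, 0, 0, 0, ⟨0, 0⟩, 0⟩ 0 0) (.pos 113 .pm ⟨0, 123663075, 0, 0, 0, 0, 0, 0, 0, ⟨0, 0⟩, 0⟩ 0 0))) (.cut .s 10190848 (.cut .v 9437184 (.pos 112 .pm ⟨0, 118719291, 0, 0, 0, 0, 0, 0, 0, ⟨0, 0⟩, 0⟩ 0 0) (.pos 113 .pm ⟨0, 122850146, 0, 0, 0, 0, 0, 0, 0, ⟨0, 0⟩, 0⟩ 0 0)) (.pos 10 .pm ⟨0, 136010598,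 0, 0, 0, 0, 0, 0, 0, ⟨0, 0⟩, 0⟩ 0 0))) (.pos 11 .pm ⟨0, 134814087, 0, 0, 0, 0, 0, 0, 0, ⟨0, 0⟩, 0⟩ 0 0)) (.cut .v 10485760 (.cut .s 10387456 (.cut .d 10070417 (.cut .v 9437184 (.pos 112 .pm ⟨0, 133140814, 0, 0, 0, 0, 0, 0, 0, ⟨0, 0⟩, 0⟩ 0 0) (.pos 113 .pm ⟨0, 138872221, 0, 0, 0, 0, 0, 0, 0, ⟨0, 0⟩, 0⟩ 0 0)) (.void 10 ⟨0, 100000, 0, 0, 0, 0, 0, 0, 0, ⟨0, 0⟩, 0⟩ 0 0)) (.void 10 ⟨0, 100000, 0, 0, 0, 0, 0, 0, 0, ⟨0, 0⟩, 0⟩ 0 0)) (.pos 11 .pm ⟨0, 168469947, 0, 0, 0, 0, 0, 0, 0, ⟨0, 0⟩, 0⟩ 0 0))) (.pos 9 .pm ⟨0, 174405368, 0, 0, 0, 0, 0, 0, 0, ⟨0, 0⟩, 0⟩ 0 0)) (.pos 3 .pm ⟨0, 270957185, 0, 0, 0, 0, 0, 0, 0, ⟨0, 0⟩, 0⟩ 0 0)))))) (.cut .v 268435456 (.cut .v 67108864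 (.cut .d 5556092 (.cut .d 2778046 (.cut .v 33554432 (.cut .v 25165824 (.cut .v 20971520 (.pos 33 .pp ⟨92503157, 0, 0, 0, 0, 0, 0, 0, 0, ⟨0, 0⟩, 0⟩ 0 0) (.pos 34 .pp ⟨175321169, 0, 0, 0, 0, 0, 0, 0, 0, ⟨0, 0⟩, 0⟩ 0 0)) (.pos 32 .pp ⟨256875466, 0, 0, 0, 0, 0, 0, 0, 0, ⟨0, 0⟩, 0⟩ 0 0)) (.cut .d 1389023 (.cut .v 50331648 (.pos 86 .pp ⟨689772997, 0, 0, 0, 0, 0, 0, 0, 0, ⟨0, 0⟩, 0⟩ 0 0) (.pos 87 .pp ⟨1422081279, 0, 0, 0, 0, 0, 0, 0, 0, ⟨0, 0⟩, 0⟩ 0 0)) (.pos 83 .pp ⟨383053241, 0, 0, 0, 0, 0, 0, 0, 0, ⟨0, 0⟩, 0⟩ 0 0))) (.pos 82 .pp ⟨0, 0, 0, 0, 0, 0, 0, 0, 0, ⟨0, 0⟩, 0⟩ 0 0)) (.cut .d 8334138 (.pos 82 .pp ⟨0, 0, 0, 0, 0, 0, 0, 0, 0, ⟨0, 0⟩, 0⟩ 0 0) (.pos 82 .pp ⟨0,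 206960645, 0, 0, 0, 0, 0, 0, 0, ⟨0, 0⟩, 0⟩ 0 0))) (.cut .v 134217728 (.cut .d 5556092 (.cut .d 2778046 (.cut .d 1389023 (.void 97 ⟨100000, 0, 0, 0, 0, 0, 0, 0, 0, ⟨0, 0⟩, 0⟩ 0 0) (.cut .v 100663296 (.cut .d 2083534 (.pos 101 .pp ⟨2303545659, 0, 0, 0, 0, 0, 0, 0, 0, ⟨0, 0⟩, 0⟩ 0 0) (.pos 101 .pp ⟨1389524310, 0, 0, 0, 0, 0, 0, 0, 0, ⟨0, 0⟩, 0⟩ 0 0)) (.cut .d 2083534 (.void 102 ⟨100000, 0, 0, 0, 0, 0, 0, 0, 0, ⟨0, 0⟩, 0⟩ 0 0) (.pos 102 .pp ⟨2780230641, 639145372, 0, 0, 0, 0, 0, 0, 0, ⟨0, 0⟩, 0⟩ 0 0)))) (.pos 97 .pp ⟨0, 325377503, 0, 0, 0, 0, 2866756, 0, 0, ⟨0, 0⟩, 0⟩ 0 0)) (.pos 97 .pp ⟨0, 0, 0, 0, 0, 0, 0, 0, 0, ⟨0, 0⟩, 0⟩ 0 0)) (.void 98 ⟨37538, 62462, 0, 0,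 0, 0, 0, 0, 0, ⟨0, 0⟩, 0⟩ 0 0))) (.void 109 ⟨0, 0, 0, 100000, 0, 0, 0, 0, 0, ⟨0, 0⟩, 0⟩ 0 0)))),
    by decide +kernel⟩

def covers14 : cell.Covers table row14.1 :=
  ⟨(.cut .d 0 (.cut .v 16777216 (.cut .d (-8388608) (.void 1 ⟨0, 0, 0, 0, 0, 100000, 0, 0, 0, ⟨0, 0⟩, 0⟩ 0 0) (.cut .d (-4194304) (.void 1 ⟨0, 0, 0, 0, 0, 100000, 0, 0, 0, ⟨0, 0⟩, 0⟩ 0 0) (.cut .d (-2097152) (.void 1 ⟨0, 0, 0, 0, 0, 100000, 0, 0, 0, ⟨0, 0⟩, 0⟩ 0 0) (.cut .d (-1048576) (.void 1 ⟨0, 0, 0, 0, 0, 100000, 0, 0, 0, ⟨0, 0⟩, 0⟩ 0 0) (.cut .d (-524288) (.void 1 ⟨0, 0, 0, 0, 0, 100000, 0, 0, 0, ⟨0, 0⟩, 0⟩ 0 0) (.cut .d (-262144) (.void 1 ⟨0, 0, 0, 0, 0, 100000, 0, 0, 0, ⟨0, 0⟩, 0⟩ 0 0) (.cut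 .d (-131072) (.void 1 ⟨0, 0, 0, 0, 0, 100000, 0, 0, 0, ⟨0, 0⟩, 0⟩ 0 0) (.cut .v 8388608 (.cut .v 4194304 (.void 4 ⟨0, 0, 100000, 0, 0, 0, 0, 0, 0, ⟨0, 0⟩, 0⟩ 0 0) (.pos 5 .mm ⟨0, 0, 0, 0, 0, 146232349, 0, 0, 0, ⟨0, 0⟩, 0⟩ 0 0)) (.cut .d (-65536) (.pos 3 .mm ⟨0, 0, 0, 0, 0, 334176137, 0, 0, 0, ⟨0, 0⟩, 0⟩ 0 0) (.cut .v 12582912 (.pos 8 .mm ⟨0, 0, 0, 0, 0, 219263325, 0, 0, 0, ⟨0, 0⟩, 0⟩ 0 0) (.cut .v 14680064 (.pos 12 .mm ⟨0, 0, 0, 0, 0, 257496938, 0, 0, 0, ⟨0, 0⟩, 0⟩ 0 0) (.cut .v 15728640 (.pos 16 .mm ⟨0, 0, 0, 0, 0, 279627627, 0, 0, 0, ⟨0, 0⟩, 0⟩ 0 0) (.cut .v 16252928 (.pos 20 .mm ⟨0, 0, 0, 0, 0, 291462499, 0, 0, 0, ⟨0, 0⟩, 0⟩ 0 0) (.cut .v 16515072 (.pos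 24 .mm ⟨0, 0, 0, 0, 0, 297574074, 0, 0, 0, ⟨0, 0⟩, 0⟩ 0 0) (.cut .s 10682368 (.cut .s 10584064 (.pos 25 .mm ⟨0, 0, 0, 0, 0, 283932481, 0, 0, 0, ⟨0, 0⟩, 0⟩ 0 0) (.pos 25 .mm ⟨0, 0, 0, 0, 0, 298585178, 0, 0, 0, ⟨0, 0⟩, 0⟩ 0 0)) (.cut .s 10780672 (.pos 25 .mm ⟨0, 0, 0, 0, 0, 313837235, 0, 0, 0, ⟨0, 0⟩, 0⟩ 0 0) (.pos 25 .mm ⟨0, 0, 0, 0, 0, 329672535, 0, 0, 0, ⟨0, 0⟩, 0⟩ 0 0))))))))))))))))) (.cut .v 268435456 (.cut .v 67108864 (.cut .v 33554432 (.cut .v 25165824 (.cut .d (-8388608) (.void 31 ⟨0, 0, 0, 0, 0, 100000, 0, 0, 0, ⟨0, 0⟩, 0⟩ 0 0) (.cut .d (-4194304) (.void 31 ⟨100000, 0, 0, 0, 0, 0, 0, 0, 0, ⟨0, 0⟩, 0⟩ 0 0) (.cut .v 20971520 (.cut .d (-2097152) (.void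 33 ⟨100000, 0, 0, 0, 0, 0, 0, 0, 0, ⟨0, 0⟩, 0⟩ 0 0) (.cut .d (-1048576) (.void 33 ⟨100000, 0, 0, 0, 0, 0, 0, 0, 0, ⟨0, 0⟩, 0⟩ 0 0) (.cut .d (-524288) (.void 33 ⟨100000, 0, 0, 0, 0, 0, 0, 0, 0, ⟨0, 0⟩, 0⟩ 0 0) (.cut .d (-262144) (.void 33 ⟨100000, 0, 0, 0, 0, 0, 0, 0, 0, ⟨0, 0⟩, 0⟩ 0 0) (.cut .d (-131072) (.void 33 ⟨0, 0, 0, 0, 0, 100000, 0, 0, 0, ⟨0, 0⟩, 0⟩ 0 0) (.cut .v 18874368 (.cut .v 17825792 (.cut .v 17301504 (.cut .v 17039360 (.cut .d (-65536) (.cut .d (-98304) (.void 41 ⟨0, 0, 0, 0, 0, 100000, 0, 0, 0, ⟨0, 0⟩, 0⟩ 0 0) (.cut .l 671088 (.void 41 ⟨0, 0, 0, 0, 0, 100000, 0, 0, 0, ⟨0, 0⟩, 0⟩ 0 0) (.cut .l 909501 (.pos 41 .mp ⟨69177099, 0, 0, 0, 0, 251768739,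 0, 0, 0, ⟨0, 0⟩, 0⟩ 0 0) (.cut .d (-81920) (.cut .s 10682368 (.pos 41 .mp ⟨70884420, 0, 0, 0, 0, 221645824, 0, 0, 0, ⟨0, 0⟩, 0⟩ 0 0) (.pos 41 .mp ⟨74273237, 0, 0, 0, 0, 243051490, 0, 0, 0, ⟨0, 0⟩, 0⟩ 0 0)) (.cut .s 10682368 (.cut .s 10584064 (.cut .v 16908288 (.pos 43 .mp ⟨64741853, 0, 0, 0, 0, 205900718, 0, 0, 0, ⟨0, 0⟩, 0⟩ 0 0) (.pos 44 .mp ⟨116438612, 0, 0, 0, 0, 136514115, 0, 0, 0, ⟨0, 0⟩, 0⟩ 0 0)) (.cut .v 16908288 (.cut .s 10633216 (.pos 43 .mp ⟨28055925, 0, 0, 0, 0, 264185914, 0, 0, 0, ⟨0, 0⟩, 0⟩ 0 0) (.pos 43 .mp ⟨22029407, 0, 0, 0, 0, 279364827, 0, 0, 0, ⟨0, 0⟩, 0⟩ 0 0)) (.cut .s 10633216 (.pos 44 .mp ⟨77048454, 0, 0, 0, 0, 198001737, 0, 0, 0, ⟨0,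 0⟩, 0⟩ 0 0) (.pos 44 .mp ⟨78497269, 0, 0, 0, 0, 202790620, 0, 0, 0, ⟨0, 0⟩, 0⟩ 0 0)))) (.cut .s 10780672 (.cut .s 10731520 (.cut .s 10706944 (.pos 41 .mp ⟨70555407, 0, 0, 0, 0, 222001461, 0, 0, 0, ⟨0, 0⟩, 0⟩ 0 0) (.pos 41 .mp ⟨71162979, 0, 0, 0, 0, 224912840, 0, 0, 0, ⟨0, 0⟩, 0⟩ 0 0)) (.pos 41 .mp ⟨71767032, 0, 0, 0, 0, 229677798, 0, 0, 0, ⟨0, 0⟩, 0⟩ 0 0)) (.pos 41 .mp ⟨72964493, 0, 0, 0, 0, 238865696, 0, 0, 0, ⟨0, 0⟩, 0⟩ 0 0))))))) (.cut .s 10682368 (.cut .v 16908288 (.cut .s 10584064 (.cut .s 10534912 (.cut .d (-32768) (.cut .l 671088 (.pos 43 .mp ⟨64335139, 0, 0, 0, 0, 202701530, 0, 0, 0, ⟨0, 0⟩, 0⟩ 0 0) (.pos 43 .mp ⟨58354777, 0, 0, 0, 0, 207551932, 0,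 0, 0, ⟨0, 0⟩, 0⟩ 0 0)) (.pos 43 .mp ⟨71523698, 0, 0, 0, 0, 186127737, 0, 0, 0, ⟨0, 0⟩, 0⟩ 0 0)) (.cut .l 671088 (.cut .d (-32768) (.pos 43 .mp ⟨65424671, 0, 0, 0, 0, 207795876, 0, 0, 0, ⟨0, 0⟩, 0⟩ 0 0) (.cut .s 10559488 (.pos 43 .mp ⟨72135131, 0, 0, 0, 0, 190079727, 0, 0, 0, ⟨0, 0⟩, 0⟩ 0 0) (.pos 43 .mp ⟨72744718, 0, 0, 0, 0, 192685283, 0, 0, 0, ⟨0, 0⟩, 0⟩ 0 0))) (.pos 43 .mp ⟨73407514, 0, 0, 0, 0, 189442039, 0, 0, 0, ⟨0, 0⟩, 0⟩ 0 0))) (.cut .s 10633216 (.cut .d (-32768) (.cut .l 671088 (.pos 43 .mp ⟨66528700, 0, 0, 0, 0, 213142002, 0, 0, 0, ⟨0, 0⟩, 0⟩ 0 0) (.cut .s 10608640 (.pos 43 .mp ⟨60709708, 0, 0, 0, 0, 216368195, 0, 0, 0, ⟨0, 0⟩, 0⟩ 0 0) (.pos 43 .mp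 ⟨60907730, 0, 0, 0, 0, 219622567, 0, 0, 0, ⟨0, 0⟩, 0⟩ 0 0))) (.cut .s 10608640 (.pos 43 .mp ⟨73352455, 0, 0, 0, 0, 195327685, 0, 0, 0, ⟨0, 0⟩, 0⟩ 0 0) (.pos 43 .mp ⟨73958337, 0, 0, 0, 0, 198006691, 0, 0, 0, ⟨0, 0⟩, 0⟩ 0 0))) (.cut .d (-32768) (.cut .l 671088 (.pos 43 .mp ⟨67618109, 0, 0, 0, 0, 218787199, 0, 0, 0, ⟨0, 0⟩, 0⟩ 0 0) (.cut .s 10657792 (.pos 43 .mp ⟨61317786, 0, 0, 0, 0, 222616947, 0, 0, 0, ⟨0, 0⟩, 0⟩ 0 0) (.pos 43 .mp ⟨61792503, 0, 0, 0, 0, 225580173, 0, 0, 0, ⟨0, 0⟩, 0⟩ 0 0))) (.cut .s 10657792 (.pos 43 .mp ⟨74562362, 0, 0, 0, 0, 200722064, 0, 0, 0, ⟨0, 0⟩, 0⟩ 0 0) (.pos 43 .mp ⟨75164524, 0, 0, 0, 0, 203473565, 0, 0, 0, ⟨0, 0⟩, 0⟩ 0 0))))) (.pos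 44 .mp ⟨217351247, 0, 0, 0, 0, 0, 0, 0, 0, ⟨0, 0⟩, 0⟩ 0 0)) (.cut .s 10780672 (.cut .v 16908288 (.cut .s 10731520 (.cut .d (-32768) (.cut .l 671088 (.pos 43 .mp ⟨68692721, 0, 0, 0, 0, 224733980, 0, 0, 0, ⟨0, 0⟩, 0⟩ 0 0) (.cut .s 10706944 (.pos 43 .mp ⟨62261650, 0, 0, 0, 0, 228621827, 0, 0, 0, ⟨0, 0⟩, 0⟩ 0 0) (.pos 43 .mp ⟨62856502, 0, 0, 0, 0, 231536767, 0, 0, 0, ⟨0, 0⟩, 0⟩ 0 0))) (.cut .s 10706944 (.pos 43 .mp ⟨75764818, 0, 0, 0, 0, 206260963, 0, 0, 0, ⟨0, 0⟩, 0⟩ 0 0) (.pos 43 .mp ⟨76363241, 0, 0, 0, 0, 209084025, 0, 0, 0, ⟨0, 0⟩, 0⟩ 0 0))) (.cut .d (-32768) (.cut .l 671088 (.pos 43 .mp ⟨69752348, 0, 0, 0, 0, 230984855, 0, 0, 0, ⟨0, 0⟩, 0⟩ 0 0) (.pos 43 .mp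 ⟨63183062, 0, 0, 0, 0, 235846955, 0, 0, 0, ⟨0, 0⟩, 0⟩ 0 0)) (.cut .s 10756096 (.pos 43 .mp ⟨76959787, 0, 0, 0, 0, 211942524, 0, 0, 0, ⟨0, 0⟩, 0⟩ 0 0) (.pos 43 .mp ⟨77554452, 0, 0, 0, 0, 214836232, 0, 0, 0, ⟨0, 0⟩, 0⟩ 0 0)))) (.pos 44 .mp ⟨227645200, 0, 0, 0, 0, 0, 0, 0, 0, ⟨0, 0⟩, 0⟩ 0 0)) (.cut .v 16908288 (.cut .s 10829824 (.cut .l 671088 (.cut .d (-32768) (.pos 43 .mp ⟨70796797, 0, 0, 0, 0, 237542333, 0, 0, 0, ⟨0, 0⟩, 0⟩ 0 0) (.cut .s 10805248 (.pos 43 .mp ⟨78147230, 0, 0, 0, 0, 217764926, 0, 0, 0, ⟨0, 0⟩, 0⟩ 0 0) (.pos 43 .mp ⟨78738117, 0, 0, 0, 0, 220728386, 0, 0, 0, ⟨0, 0⟩, 0⟩ 0 0))) (.pos 43 .mp ⟨80026692, 0, 0, 0, 0, 216045614, 0, 0, 0, ⟨0, 0⟩, 0⟩ 0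 0)) (.cut .l 671088 (.cut .d (-32768) (.pos 43 .mp ⟨71825868, 0, 0, 0, 0, 244408919, 0, 0, 0, ⟨0, 0⟩, 0⟩ 0 0) (.cut .s 10854400 (.pos 43 .mp ⟨79327106, 0, 0, 0, 0, 223726392, 0, 0, 0, ⟨0, 0⟩, 0⟩ 0 0) (.pos 43 .mp ⟨79914193, 0, 0, 0, 0, 226758729, 0, 0, 0, ⟨0, 0⟩, 0⟩ 0 0))) (.pos 43 .mp ⟨81330558, 0, 0, 0, 0, 221784071, 0, 0, 0, ⟨0, 0⟩, 0⟩ 0 0))) (.pos 44 .mp ⟨237778835, 0, 0, 0, 0, 0, 0, 0, 0, ⟨0, 0⟩, 0⟩ 0 0))))) (.pos 42 .mp ⟨241854552, 0, 0, 0, 0, 0, 0, 0, 0, ⟨0, 0⟩, 0⟩ 0 0)) (.pos 40 .mp ⟨248681220, 0, 0, 0, 0, 0, 0, 0, 0, ⟨0, 0⟩, 0⟩ 0 0)) (.pos 38 .mp ⟨264396111, 0, 0, 0, 0, 0, 0, 0, 0, ⟨0, 0⟩, 0⟩ 0 0)) (.void 36 ⟨100000, 0, 0, 0, 0, 0, 0, 0, 0, ⟨0, 0⟩,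 0⟩ 0 0))))))) (.void 34 ⟨100000, 0, 0, 0, 0, 0, 0, 0, 0, ⟨0, 0⟩, 0⟩ 0 0)))) (.void 32 ⟨100000, 0, 0, 0, 0, 0, 0, 0, 0, ⟨0, 0⟩, 0⟩ 0 0)) (.void 83 ⟨100000, 0, 0, 0, 0, 0, 0, 0, 0, ⟨0, 0⟩, 0⟩ 0 0)) (.void 96 ⟨100000, 0, 0, 0, 0, 0, 0, 0, 0, ⟨0, 0⟩, 0⟩ 0 0)) (.void 109 ⟨60664, 39336, 0, 0, 0, 0, 0, 0, 0, ⟨0, 0⟩, 0⟩ 0 0))) (.cut .v 16777216 (.cut .v 8388608 (.cut .v 4194304 (.cut .v 2097152 (.cut .v 1048576 (.pos 118 .pm ⟨0, 0, 34136195, 0, 0, 0, 0, 0, 71242732, ⟨0, 0⟩, 1983364⟩ 0 0) (.pos 119 .pm ⟨0, 0, 5215002, 0, 0, 0, 0, 0, 0, ⟨0, 0⟩, 0⟩ 0 0)) (.cut .d 5033166 (.pos 7 .pm ⟨0, 0, 30137055, 0, 0, 0, 0, 0, 0, ⟨0, 0⟩, 0⟩ 0 0) (.pos 7 .pm ⟨0, 42774948, 0, 0, 0,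 0, 0, 0, 0, ⟨0, 0⟩, 0⟩ 0 0))) (.cut .d 5033166 (.pos 5 .pm ⟨0, 0, 0, 0, 0, 0, 0, 0, 0, ⟨0, 0⟩, 0⟩ 0 0) (.cut .d 7549749 (.pos 5 .pm ⟨0, 0, 0, 0, 0, 0, 0, 0, 0, ⟨0, 0⟩, 0⟩ 0 0) (.cut .d 8808040 (.cut .d 8178894 (.pos 5 .pm ⟨0, 0, 0, 0, 0, 0, 0, 0, 0, ⟨0, 0⟩, 0⟩ 0 0) (.cut .s 10682368 (.pos 5 .pm ⟨0, 0, 0, 0, 0, 0, 0, 0, 0, ⟨0, 0⟩, 0⟩ 0 0) (.cut .d 8493467 (.pos 5 .pm ⟨0, 0, 0, 0, 0, 0, 0, 0, 0, ⟨0, 0⟩, 0⟩ 0 0) (.cut .s 10780672 (.pos 5 .pm ⟨0, 113389359, 0, 0, 0, 0, 0, 0, 0, ⟨0, 0⟩, 0⟩ 0 0) (.cut .v 6291456 (.pos 105 .pm ⟨0, 111465416, 0, 0, 0, 0, 0, 0, 0, ⟨0, 0⟩, 0⟩ 0 0) (.pos 106 .pm ⟨0, 138026622, 0, 0, 0, 0, 0, 0, 0, ⟨0, 0⟩, 0⟩ 0 0)))))) (.cut .d 9437186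 (.cut .v 6291456 (.pos 105 .pm ⟨0, 112747006, 0, 0, 0, 0, 0, 0, 0, ⟨0, 0⟩, 0⟩ 0 0) (.cut .s 10682368 (.cut .d 9122613 (.pos 106 .pm ⟨0, 116762900, 0, 0, 0, 0, 0, 0, 0, ⟨0, 0⟩, 0⟩ 0 0) (.cut .s 10584064 (.pos 106 .pm ⟨0, 125245057, 0, 0, 0, 0, 0, 0, 0, ⟨0, 0⟩, 0⟩ 0 0) (.pos 106 .pm ⟨0, 142136626, 0, 0, 0, 0, 0, 0, 0, ⟨0, 0⟩, 0⟩ 0 0))) (.cut .s 10780672 (.cut .d 9122613 (.pos 106 .pm ⟨0, 140776000, 0, 0, 0, 0, 0, 0, 0, ⟨0, 0⟩, 0⟩ 0 0) (.pos 106 .pm ⟨0, 429374664, 0, 0, 0, 0, 0, 0, 0, ⟨0, 0⟩, 0⟩ 0 0)) (.pos 106 .pm ⟨0, 165401926, 0, 0, 0, 0, 0, 0, 0, ⟨0, 0⟩, 0⟩ 0 0)))) (.pos 5 .pm ⟨0, 176639633, 0, 0, 0, 0, 0, 0, 0, ⟨0, 0⟩, 0⟩ 0 0)))))) (.cut .d 5033166 (.pos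 3 .pm ⟨0, 0, 0, 0, 0, 0, 0, 0, 0, ⟨0, 0⟩, 0⟩ 0 0) (.cut .d 7549749 (.pos 3 .pm ⟨0, 0, 0, 0, 0, 0, 0, 0, 0, ⟨0, 0⟩, 0⟩ 0 0) (.cut .d 8808040 (.cut .v 12582912 (.cut .s 10682368 (.pos 8 .pm ⟨0, 0, 0, 0, 0, 0, 0, 0, 0, ⟨0, 0⟩, 0⟩ 0 0) (.cut .d 8178894 (.pos 8 .pm ⟨0, 0, 0, 0, 0, 0, 0, 0, 0, ⟨0, 0⟩, 0⟩ 0 0) (.cut .s 10780672 (.pos 8 .pm ⟨0, 129366897, 0, 0, 0, 0, 0, 0, 0, ⟨0, 0⟩, 0⟩ 0 0) (.cut .d 8493467 (.pos 8 .pm ⟨0, 93513789, 0, 0, 0, 0, 0, 0, 0, ⟨0, 0⟩, 0⟩ 0 0) (.pos 8 .pm ⟨0, 152964863, 0, 0, 0, 0, 0, 0, 0, ⟨0, 0⟩, 0⟩ 0 0))))) (.pos 9 .pm ⟨0, 149534486, 0, 0, 0, 0, 0, 0, 0, ⟨0, 0⟩, 0⟩ 0 0)) (.cut .d 9437186 (.cut .v 12582912 (.cut .v 10485760 (.cut .s 10682368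 (.cut .d 9122613 (.cut .s 10584064 (.pos 10 .pm ⟨0, 6784550, 0, 0, 0, 0, 0, 0, 0, ⟨0, 0⟩, 0⟩ 0 0) (.pos 10 .pm ⟨0, 134133638, 0, 0, 0, 0, 0, 0, 0, ⟨0, 0⟩, 0⟩ 0 0)) (.cut .s 10584064 (.cut .d 9279899 (.pos 10 .pm ⟨0, 129592901, 0, 0, 0, 0, 0, 0, 0, ⟨0, 0⟩, 0⟩ 0 0) (.pos 10 .pm ⟨0, 139956190, 0, 0, 0, 0, 0, 0, 0, ⟨0, 0⟩, 0⟩ 0 0)) (.pos 10 .pm ⟨0, 152982697, 0, 0, 0, 0, 0, 0, 0, ⟨0, 0⟩, 0⟩ 0 0))) (.cut .d 9122613 (.cut .s 10780672 (.pos 10 .pm ⟨0, 151715105, 0, 0, 0, 0, 0, 0, 0, ⟨0, 0⟩, 0⟩ 0 0) (.void 10 ⟨0, 100000, 0, 0, 0, 0, 0, 0, 0, ⟨0, 0⟩, 0⟩ 0 0)) (.void 10 ⟨0, 100000, 0, 0, 0, 0, 0, 0, 0, ⟨0, 0⟩, 0⟩ 0 0))) (.pos 11 .pm ⟨0, 176711256, 0, 0, 0, 0, 0, 0, 0,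 ⟨0, 0⟩, 0⟩ 0 0)) (.pos 9 .pm ⟨0, 202851535, 0, 0, 0, 0, 0, 0, 0, ⟨0, 0⟩, 0⟩ 0 0)) (.pos 3 .pm ⟨0, 229875373, 0, 0, 0, 0, 0, 0, 0, ⟨0, 0⟩, 0⟩ 0 0)))))) (.cut .v 268435456 (.cut .d 5033166 (.cut .v 67108864 (.cut .d 2516583 (.cut .v 33554432 (.cut .v 25165824 (.cut .v 20971520 (.pos 33 .pp ⟨106928045, 0, 0, 0, 0, 0, 0, 0, 0, ⟨0, 0⟩, 0⟩ 0 0) (.pos 34 .pp ⟨210134976, 0, 0, 0, 0, 0, 0, 0, 0, ⟨0, 0⟩, 0⟩ 0 0)) (.pos 32 .pp ⟨306237405, 0, 0, 0, 0, 0, 0, 0, 0, ⟨0, 0⟩, 0⟩ 0 0)) (.cut .d 1258291 (.cut .v 50331648 (.pos 86 .pp ⟨809326919, 0, 0, 0, 0, 0, 0, 0, 0, ⟨0, 0⟩, 0⟩ 0 0) (.pos 87 .pp ⟨1654049531, 0, 0, 0, 0, 0, 0, 0, 0, ⟨0, 0⟩, 0⟩ 0 0)) (.pos 83 .pp ⟨462615505,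 0, 0, 0, 0, 0, 0, 0, 0, ⟨0, 0⟩, 0⟩ 0 0))) (.pos 82 .pp ⟨0, 0, 0, 0, 0, 0, 0, 0, 0, ⟨0, 0⟩, 0⟩ 0 0)) (.cut .v 134217728 (.cut .d 2516583 (.cut .d 1258291 (.void 97 ⟨100000, 0, 0, 0, 0, 0, 0, 0, 0, ⟨0, 0⟩, 0⟩ 0 0) (.cut .v 100663296 (.cut .d 1887437 (.pos 101 .pp ⟨2669328253, 0, 0, 0, 0, 0, 0, 0, 0, ⟨0, 0⟩, 0⟩ 0 0) (.pos 101 .pp ⟨1636327633, 0, 0, 0, 0, 0, 0, 0, 0, ⟨0, 0⟩, 0⟩ 0 0)) (.cut .d 1887437 (.void 102 ⟨100000, 0, 0, 0, 0, 0, 0, 0, 0, ⟨0, 0⟩, 0⟩ 0 0) (.cut .v 117440512 (.pos 116 .pp ⟨3061723545, 555901373, 0, 0, 0, 0, 0, 0, 0, ⟨0, 0⟩, 0⟩ 0 0) (.void 117 ⟨6020, 93980, 0, 0, 0, 0, 0, 0, 0, ⟨0, 0⟩, 0⟩ 0 0))))) (.pos 97 .pp ⟨0, 389769805, 0, 0, 0, 0, 0, 0,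 0, ⟨0, 0⟩, 0⟩ 0 0)) (.void 98 ⟨40138, 59862, 0, 0, 0, 0, 0, 0, 0, ⟨0, 0⟩, 0⟩ 0 0))) (.pos 95 .pp ⟨0, 170314241, 0, 0, 0, 0, 0, 0, 0, ⟨0, 0⟩, 0⟩ 0 0)) (.void 109 ⟨0, 0, 0, 100000, 0, 0, 0, 0, 0, ⟨0, 0⟩, 0⟩ 0 0)))),
    by decide +kernel⟩

def covers15 : cell.Covers table row15.1 :=
  ⟨(.cut .d 0 (.cut .v 16777216 (.cut .d (-8388608) (.void 1 ⟨0, 0, 0, 0, 0, 100000, 0, 0, 0, ⟨0, 0⟩, 0⟩ 0 0) (.cut .d (-4194304) (.void 1 ⟨0, 0, 0, 0, 0, 100000, 0, 0, 0, ⟨0, 0⟩, 0⟩ 0 0) (.cut .d (-2097152) (.void 1 ⟨0, 0, 0, 0, 0, 100000, 0, 0, 0, ⟨0, 0⟩, 0⟩ 0 0) (.cut .d (-1048576) (.void 1 ⟨0, 0, 0, 0, 0, 100000, 0, 0, 0, ⟨0, 0⟩, 0⟩ 0 0) (.cut .d (-524288) (.void 1 ⟨0, 0, 0, 0,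 0, 100000, 0, 0, 0, ⟨0, 0⟩, 0⟩ 0 0) (.cut .d (-262144) (.void 1 ⟨0, 0, 0, 0, 0, 100000, 0, 0, 0, ⟨0, 0⟩, 0⟩ 0 0) (.cut .d (-131072) (.void 1 ⟨0, 0, 0, 0, 0, 100000, 0, 0, 0, ⟨0, 0⟩, 0⟩ 0 0) (.cut .v 8388608 (.cut .v 4194304 (.void 4 ⟨0, 0, 100000, 0, 0, 0, 0, 0, 0, ⟨0, 0⟩, 0⟩ 0 0) (.pos 5 .mm ⟨0, 0, 0, 0, 0, 183914919, 0, 0, 0, ⟨0, 0⟩, 0⟩ 0 0)) (.cut .d (-65536) (.pos 3 .mm ⟨0, 0, 0, 0, 0, 421443675, 0, 0, 0, ⟨0, 0⟩, 0⟩ 0 0) (.cut .v 12582912 (.pos 8 .mm ⟨0, 0, 0, 0, 0, 279031858, 0, 0, 0, ⟨0, 0⟩, 0⟩ 0 0) (.cut .v 14680064 (.pos 12 .mm ⟨0, 0, 0, 0, 0, 323602374, 0, 0, 0, ⟨0, 0⟩, 0⟩ 0 0) (.cut .v 15728640 (.pos 16 .mm ⟨0, 0, 0, 0, 0, 349263275, 0, 0, 0, ⟨0,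 0⟩, 0⟩ 0 0) (.cut .v 16252928 (.pos 20 .mm ⟨0, 0, 0, 0, 0, 362959268, 0, 0, 0, ⟨0, 0⟩, 0⟩ 0 0) (.cut .v 16515072 (.pos 24 .mm ⟨0, 0, 0, 0, 0, 370026016, 0, 0, 0, ⟨0, 0⟩, 0⟩ 0 0) (.cut .s 11108352 (.cut .s 10993664 (.pos 25 .mm ⟨0, 0, 0, 0, 0, 349625618, 0, 0, 0, ⟨0, 0⟩, 0⟩ 0 0) (.pos 25 .mm ⟨0, 0, 0, 0, 0, 369224943, 0, 0, 0, ⟨0, 0⟩, 0⟩ 0 0)) (.cut .s 11223040 (.cut .s 11165696 (.pos 25 .mm ⟨0, 0, 0, 0, 0, 382000401, 0, 0, 0, ⟨0, 0⟩, 0⟩ 0 0) (.pos 25 .mm ⟨0, 0, 0, 0, 0, 392731258, 0, 0, 0, ⟨0, 0⟩, 0⟩ 0 0)) (.pos 25 .mm ⟨0, 0, 0, 0, 0, 412628832, 0, 0, 0, ⟨0, 0⟩, 0⟩ 0 0))))))))))))))))) (.cut .v 268435456 (.cut .v 67108864 (.cut .v 33554432 (.cut .d (-8388608)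 (.void 30 ⟨0, 0, 0, 0, 0, 100000, 0, 0, 0, ⟨0, 0⟩, 0⟩ 0 0) (.cut .v 25165824 (.cut .d (-4194304) (.void 31 ⟨100000, 0, 0, 0, 0, 0, 0, 0, 0, ⟨0, 0⟩, 0⟩ 0 0) (.cut .v 20971520 (.cut .d (-2097152) (.void 33 ⟨100000, 0, 0, 0, 0, 0, 0, 0, 0, ⟨0, 0⟩, 0⟩ 0 0) (.cut .d (-1048576) (.void 33 ⟨100000, 0, 0, 0, 0, 0, 0, 0, 0, ⟨0, 0⟩, 0⟩ 0 0) (.cut .d (-524288) (.void 33 ⟨100000, 0, 0, 0, 0, 0, 0, 0, 0, ⟨0, 0⟩, 0⟩ 0 0) (.cut .d (-262144) (.void 33 ⟨100000, 0, 0, 0, 0, 0, 0, 0, 0, ⟨0, 0⟩, 0⟩ 0 0) (.cut .d (-131072) (.void 33 ⟨100000, 0, 0, 0, 0, 0, 0, 0, 0, ⟨0, 0⟩, 0⟩ 0 0) (.cut .v 18874368 (.cut .v 17825792 (.cut .v 17301504 (.cut .d (-65536) (.cut .v 17039360 (.cut .d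 (-98304) (.void 41 ⟨0, 0, 0, 0, 0, 100000, 0, 0, 0, ⟨0, 0⟩, 0⟩ 0 0) (.cut .d (-81920) (.void 41 ⟨0, 0, 0, 0, 0, 100000, 0, 0, 0, ⟨0, 0⟩, 0⟩ 0 0) (.cut .l 671088 (.void 41 ⟨0, 0, 0, 0, 0, 100000, 0, 0, 0, ⟨0, 0⟩, 0⟩ 0 0) (.cut .l 909501 (.void 41 ⟨0, 0, 0, 0, 0, 100000, 0, 0, 0, ⟨0, 0⟩, 0⟩ 0 0) (.cut .s 11108352 (.cut .s 10993664 (.pos 41 .mp ⟨76606461, 0, 0, 0, 0, 261097281, 0, 0, 0, ⟨0, 0⟩, 0⟩ 0 0) (.cut .d (-73728) (.pos 41 .mp ⟨81754129, 0, 0, 0, 0, 279188497, 0, 0, 0, ⟨0, 0⟩, 0⟩ 0 0) (.cut .s 11051008 (.pos 41 .mp ⟨78277629, 0, 0, 0, 0, 267378277, 0, 0, 0, ⟨0, 0⟩, 0⟩ 0 0) (.cut .s 11079680 (.pos 41 .mp ⟨79699763, 0, 0, 0, 0, 270775202, 0, 0, 0, ⟨0, 0⟩,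 0⟩ 0 0) (.pos 41 .mp ⟨80396927, 0, 0, 0, 0, 274642477, 0, 0, 0, ⟨0, 0⟩, 0⟩ 0 0))))) (.cut .s 11223040 (.cut .s 11165696 (.pos 41 .mp ⟨81084704, 0, 0, 0, 0, 283527616, 0, 0, 0, ⟨0, 0⟩, 0⟩ 0 0) (.pos 41 .mp ⟨82431723, 0, 0, 0, 0, 291877932, 0, 0, 0, ⟨0, 0⟩, 0⟩ 0 0)) (.pos 41 .mp ⟨83740056, 0, 0, 0, 0, 306872940, 0, 0, 0, ⟨0, 0⟩, 0⟩ 0 0))))))) (.pos 42 .mp ⟨312510748, 0, 0, 0, 0, 0, 0, 0, 0, ⟨0, 0⟩, 0⟩ 0 0)) (.cut .v 17039360 (.cut .s 11108352 (.cut .v 16908288 (.cut .s 10993664 (.cut .d (-32768) (.cut .l 671088 (.pos 43 .mp ⟨72846386, 0, 0, 0, 0, 261389946, 0, 0, 0, ⟨0, 0⟩, 0⟩ 0 0) (.cut .s 10936320 (.pos 43 .mp ⟨65816843, 0, 0, 0, 0, 259100773, 0, 0, 0, ⟨0,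 0⟩, 0⟩ 0 0) (.cut .s 10964992 (.pos 43 .mp ⟨66929206, 0, 0, 0, 0, 264160951, 0, 0, 0, ⟨0, 0⟩, 0⟩ 0 0) (.pos 43 .mp ⟨67466782, 0, 0, 0, 0, 267905002, 0, 0, 0, ⟨0, 0⟩, 0⟩ 0 0)))) (.cut .d (-16384) (.cut .l 671088 (.cut .s 10936320 (.pos 43 .mp ⟨81305964, 0, 0, 0, 0, 234356037, 0, 0, 0, ⟨0, 0⟩, 0⟩ 0 0) (.cut .s 10964992 (.pos 43 .mp ⟨81989248, 0, 0, 0, 0, 239641480, 0, 0, 0, ⟨0, 0⟩, 0⟩ 0 0) (.pos 43 .mp ⟨82666145, 0, 0, 0, 0, 243032602, 0, 0, 0, ⟨0, 0⟩, 0⟩ 0 0))) (.pos 43 .mp ⟨0, 0, 0, 0, 0, 0, 0, 0, 0, ⟨0, 0⟩, 0⟩ 0 0)) (.pos 43 .mp ⟨78068330, 0, 0, 0, 0, 236409606, 0, 0, 0, ⟨0, 0⟩, 0⟩ 0 0))) (.cut .d (-32768) (.cut .l 671088 (.cut .s 11051008 (.pos 43 .mp ⟨75305801,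 0, 0, 0, 0, 268025958, 0, 0, 0, ⟨0, 0⟩, 0⟩ 0 0) (.pos 43 .mp ⟨76478372, 0, 0, 0, 0, 276173593, 0, 0, 0, ⟨0, 0⟩, 0⟩ 0 0)) (.cut .v 16842752 (.pos 73 .mp ⟨0, 0, 0, 0, 0, 370532588, 0, 0, 0, ⟨0, 0⟩, 0⟩ 0 0) (.cut .d (-49152) (.cut .s 11051008 (.cut .s 11022336 (.pos 74 .mp ⟨73110863, 0, 0, 0, 0, 265736681, 0, 0, 0, ⟨0, 0⟩, 0⟩ 0 0) (.pos 74 .mp ⟨73724364, 0, 0, 0, 0, 269534279, 0, 0, 0, ⟨0, 0⟩, 0⟩ 0 0)) (.cut .s 11079680 (.pos 74 .mp ⟨74326829, 0, 0, 0, 0, 273486025, 0, 0, 0, ⟨0, 0⟩, 0⟩ 0 0) (.pos 74 .mp ⟨74918144, 0, 0, 0, 0, 277593356, 0, 0, 0, ⟨0, 0⟩, 0⟩ 0 0))) (.pos 74 .mp ⟨83180251, 0, 0, 0, 0, 249889227, 0, 0, 0, ⟨0, 0⟩, 0⟩ 0 0)))) (.cut .l 671088 (.cut .s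 11051008 (.cut .d (-16384) (.cut .s 11022336 (.pos 43 .mp ⟨83336602, 0, 0, 0, 0, 246567867, 0, 0, 0, ⟨0, 0⟩, 0⟩ 0 0) (.pos 43 .mp ⟨84000563, 0, 0, 0, 0, 250248573, 0, 0, 0, ⟨0, 0⟩, 0⟩ 0 0)) (.pos 43 .mp ⟨79213784, 0, 0, 0, 0, 249874079, 0, 0, 0, ⟨0, 0⟩, 0⟩ 0 0)) (.cut .d (-16384) (.cut .s 11079680 (.pos 43 .mp ⟨84657970, 0, 0, 0, 0, 254076026, 0, 0, 0, ⟨0, 0⟩, 0⟩ 0 0) (.pos 43 .mp ⟨85308766, 0, 0, 0, 0, 258051540, 0, 0, 0, ⟨0, 0⟩, 0⟩ 0 0)) (.pos 43 .mp ⟨80325699, 0, 0, 0, 0, 257721393, 0, 0, 0, ⟨0, 0⟩, 0⟩ 0 0))) (.pos 43 .mp ⟨0, 0, 0, 0, 0, 0, 0, 0, 0, ⟨0, 0⟩, 0⟩ 0 0)))) (.pos 44 .mp ⟨260923215, 0, 0, 0, 0, 0, 0, 0, 0, ⟨0, 0⟩, 0⟩ 0 0)) (.cut .s 11223040 (.cut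 .v 16908288 (.cut .d (-32768) (.cut .l 671088 (.cut .s 11165696 (.pos 43 .mp ⟨77611832, 0, 0, 0, 0, 284850657, 0, 0, 0, ⟨0, 0⟩, 0⟩ 0 0) (.pos 43 .mp ⟨78705372, 0, 0, 0, 0, 294062822, 0, 0, 0, ⟨0, 0⟩, 0⟩ 0 0)) (.cut .d (-49152) (.cut .l 909501 (.pos 43 .mp ⟨78755935, 0, 0, 0, 0, 288561631, 0, 0, 0, ⟨0, 0⟩, 0⟩ 0 0) (.pos 43 .mp ⟨74929881, 0, 0, 0, 0, 283834042, 0, 0, 0, ⟨0, 0⟩, 0⟩ 0 0)) (.pos 43 .mp ⟨85156093, 0, 0, 0, 0, 263452672, 0, 0, 0, ⟨0, 0⟩, 0⟩ 0 0))) (.cut .l 671088 (.cut .l 432675 (.cut .v 16842752 (.cut .d (-16384) (.cut .s 11165696 (.pos 73 .mp ⟨75917325, 0, 0, 0, 0, 282202130, 0, 0, 0, ⟨0, 0⟩, 0⟩ 0 0) (.pos 73 .mp ⟨76886078, 0, 0, 0, 0, 291359177,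 0, 0, 0, ⟨0, 0⟩, 0⟩ 0 0)) (.cut .s 11165696 (.pos 73 .mp ⟨80817417, 0, 0, 0, 0, 266607734, 0, 0, 0, ⟨0, 0⟩, 0⟩ 0 0) (.pos 73 .mp ⟨81844816, 0, 0, 0, 0, 274999923, 0, 0, 0, ⟨0, 0⟩, 0⟩ 0 0))) (.pos 74 .mp ⟨284054616, 0, 0, 0, 0, 0, 0, 0, 0, ⟨0, 0⟩, 0⟩ 0 0)) (.pos 43 .mp ⟨83794988, 0, 0, 0, 0, 263507935, 0, 0, 0, ⟨0, 0⟩, 0⟩ 0 0)) (.pos 43 .mp ⟨0, 0, 0, 0, 0, 0, 0, 0, 0, ⟨0, 0⟩, 0⟩ 0 0))) (.pos 44 .mp ⟨273755124, 0, 0, 0, 0, 0, 0, 0, 0, ⟨0, 0⟩, 0⟩ 0 0)) (.cut .v 16908288 (.cut .d (-32768) (.cut .s 11280384 (.cut .s 11251712 (.pos 43 .mp ⟨71722575, 0, 0, 0, 0, 309727202, 0, 0, 0, ⟨0, 0⟩, 0⟩ 0 0) (.pos 43 .mp ⟨73059058, 0, 0, 0, 0, 313591689, 0, 0, 0, ⟨0, 0⟩, 0⟩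 0 0)) (.pos 43 .mp ⟨72519555, 0, 0, 0, 0, 323757419, 0, 0, 0, ⟨0, 0⟩, 0⟩ 0 0)) (.cut .d (-16384) (.cut .s 11280384 (.cut .s 11251712 (.pos 43 .mp ⟨88461428, 0, 0, 0, 0, 279805098, 0, 0, 0, ⟨0, 0⟩, 0⟩ 0 0) (.pos 43 .mp ⟨89071249, 0, 0, 0, 0, 284810953, 0, 0, 0, ⟨0, 0⟩, 0⟩ 0 0)) (.pos 43 .mp ⟨90269639, 0, 0, 0, 0, 290476232, 0, 0, 0, ⟨0, 0⟩, 0⟩ 0 0)) (.pos 43 .mp ⟨84423970, 0, 0, 0, 0, 283254529, 0, 0, 0, ⟨0, 0⟩, 0⟩ 0 0))) (.pos 44 .mp ⟨287744841, 0, 0, 0, 0, 0, 0, 0, 0, ⟨0, 0⟩, 0⟩ 0 0)))) (.pos 42 .mp ⟨276523999, 0, 0, 0, 0, 0, 0, 0, 0, ⟨0, 0⟩, 0⟩ 0 0))) (.pos 40 .mp ⟨298997532, 0, 0, 0, 0, 0, 0, 0, 0, ⟨0, 0⟩, 0⟩ 0 0)) (.pos 38 .mp ⟨317291167, 0, 0, 0, 0, 0,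 0, 0, 0, ⟨0, 0⟩, 0⟩ 0 0)) (.void 36 ⟨100000, 0, 0, 0, 0, 0, 0, 0, 0, ⟨0, 0⟩, 0⟩ 0 0))))))) (.void 34 ⟨100000, 0, 0, 0, 0, 0, 0, 0, 0, ⟨0, 0⟩, 0⟩ 0 0))) (.void 32 ⟨100000, 0, 0, 0, 0, 0, 0, 0, 0, ⟨0, 0⟩, 0⟩ 0 0))) (.void 83 ⟨100000, 0, 0, 0, 0, 0, 0, 0, 0, ⟨0, 0⟩, 0⟩ 0 0)) (.void 96 ⟨100000, 0, 0, 0, 0, 0, 0, 0, 0, ⟨0, 0⟩, 0⟩ 0 0)) (.void 109 ⟨96784, 0, 0, 3216, 0, 0, 0, 0, 0, ⟨0, 0⟩, 0⟩ 0 0))) (.cut .v 16777216 (.cut .v 8388608 (.cut .v 4194304 (.cut .v 2097152 (.cut .v 1048576 (.pos 118 .pm ⟨0, 0, 15830927, 0, 0, 0, 0, 0, 0, ⟨0, 0⟩, 0⟩ 0 0) (.pos 119 .pm ⟨0, 0, 1773747, 0, 0, 0, 0, 0, 0, ⟨0, 0⟩, 0⟩ 0 0)) (.cut .d 4548041 (.pos 7 .pm ⟨0, 0, 35863902, 0, 0,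 0, 0, 0, 0, ⟨0, 0⟩, 0⟩ 0 0) (.cut .d 6822062 (.pos 7 .pm ⟨0, 0, 0, 0, 0, 0, 0, 0, 0, ⟨0, 0⟩, 0⟩ 0 0) (.pos 7 .pm ⟨0, 81592941, 0, 0, 0, 0, 0, 0, 0, ⟨0, 0⟩, 0⟩ 0 0)))) (.cut .d 4548041 (.pos 5 .pm ⟨0, 0, 0, 0, 0, 0, 0, 0, 0, ⟨0, 0⟩, 0⟩ 0 0) (.cut .d 6822062 (.pos 5 .pm ⟨0, 0, 0, 0, 0, 0, 0, 0, 0, ⟨0, 0⟩, 0⟩ 0 0) (.cut .d 7959072 (.cut .s 11108352 (.pos 5 .pm ⟨0, 0, 0, 0, 0, 0, 0, 0, 0, ⟨0, 0⟩, 0⟩ 0 0) (.cut .d 7390567 (.pos 5 .pm ⟨0, 0, 0, 0, 0, 0, 0, 0, 0, ⟨0, 0⟩, 0⟩ 0 0) (.cut .v 6291456 (.pos 105 .pm ⟨0, 125378900, 0, 0, 0, 0, 0, 0, 0, ⟨0, 0⟩, 0⟩ 0 0) (.cut .s 11223040 (.pos 106 .pm ⟨0, 133551589, 0, 0, 0, 0, 0, 0, 0, ⟨0, 0⟩, 0⟩ 0 0) (.cut .d 7674819 (.pos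 106 .pm ⟨0, 140805902, 0, 0, 0, 0, 0, 0, 0, ⟨0, 0⟩, 0⟩ 0 0) (.pos 106 .pm ⟨0, 162740972, 0, 0, 0, 0, 0, 0, 0, ⟨0, 0⟩, 0⟩ 0 0)))))) (.cut .d 8527577 (.cut .s 11108352 (.cut .v 6291456 (.pos 105 .pm ⟨0, 118843694, 0, 0, 0, 0, 0, 0, 0, ⟨0, 0⟩, 0⟩ 0 0) (.cut .s 10993664 (.cut .d 8243324 (.pos 106 .pm ⟨0, 0, 0, 0, 0, 0, 0, 0, 0, ⟨0, 0⟩, 0⟩ 0 0) (.pos 106 .pm ⟨0, 137503368, 0, 0, 0, 0, 0, 0, 0, ⟨0, 0⟩, 0⟩ 0 0)) (.cut .d 8243324 (.pos 106 .pm ⟨0, 140035896, 0, 0, 0, 0, 0, 0, 0, ⟨0, 0⟩, 0⟩ 0 0) (.pos 106 .pm ⟨0, 162899747, 0, 0, 0, 0, 0, 0, 0, ⟨0, 0⟩, 0⟩ 0 0)))) (.cut .v 6291456 (.pos 105 .pm ⟨0, 152877598, 0, 0, 0, 0, 0, 0, 0, ⟨0, 0⟩, 0⟩ 0 0) (.cut .v 7340032 (.pos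 110 .pm ⟨0, 176297193, 0, 0, 0, 0, 0, 0, 0, ⟨0, 0⟩, 0⟩ 0 0) (.cut .s 11223040 (.pos 111 .pm ⟨0, 179127672, 0, 0, 0, 0, 0, 0, 0, ⟨0, 0⟩, 0⟩ 0 0) (.void 111 ⟨0, 100000, 0, 0, 0, 0, 0, 0, 0, ⟨0, 0⟩, 0⟩ 0 0))))) (.cut .v 6291456 (.pos 105 .pm ⟨0, 166176058, 0, 0, 0, 0, 0, 0, 0, ⟨0, 0⟩, 0⟩ 0 0) (.cut .s 11108352 (.pos 106 .pm ⟨0, 181986926, 0, 0, 0, 0, 0, 0, 0, ⟨0, 0⟩, 0⟩ 0 0) (.void 106 ⟨0, 0, 0, 100000, 0, 0, 0, 0, 0, ⟨0, 0⟩, 0⟩ 0 0)))))))) (.cut .d 4548041 (.pos 3 .pm ⟨0, 0, 0, 0, 0, 0, 0, 0, 0, ⟨0, 0⟩, 0⟩ 0 0) (.cut .d 6822062 (.pos 3 .pm ⟨0, 0, 0, 0, 0, 0, 0, 0, 0, ⟨0, 0⟩, 0⟩ 0 0) (.cut .v 12582912 (.cut .d 7959072 (.cut .s 11108352 (.pos 8 .pm ⟨0, 0, 0, 0,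 0, 0, 0, 0, 0, ⟨0, 0⟩, 0⟩ 0 0) (.cut .d 7390567 (.pos 8 .pm ⟨0, 0, 0, 0, 0, 0, 0, 0, 0, ⟨0, 0⟩, 0⟩ 0 0) (.pos 8 .pm ⟨0, 164905871, 0, 0, 0, 0, 0, 0, 0, ⟨0, 0⟩, 0⟩ 0 0))) (.cut .s 11108352 (.cut .d 8527577 (.cut .s 10993664 (.pos 8 .pm ⟨0, 147581070, 0, 0, 0, 0, 0, 0, 0, ⟨0, 0⟩, 0⟩ 0 0) (.pos 8 .pm ⟨0, 172216163, 0, 0, 0, 0, 0, 0, 0, ⟨0, 0⟩, 0⟩ 0 0)) (.pos 8 .pm ⟨0, 206113403, 0, 0, 0, 0, 0, 0, 0, ⟨0, 0⟩, 0⟩ 0 0)) (.pos 8 .pm ⟨0, 243472793, 0, 0, 0, 0, 0, 0, 0, ⟨0, 0⟩, 0⟩ 0 0))) (.pos 9 .pm ⟨0, 238769224, 0, 0, 0, 0, 0, 0, 0, ⟨0, 0⟩, 0⟩ 0 0))))) (.cut .v 268435456 (.cut .d 4548041 (.cut .v 67108864 (.cut .d 2274020 (.cut .v 33554432 (.cut .v 25165824 (.cut .v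 20971520 (.pos 33 .pp ⟨122109500, 0, 0, 0, 0, 0, 0, 0, 0, ⟨0, 0⟩, 0⟩ 0 0) (.pos 34 .pp ⟨249933664, 0, 0, 0, 0, 0, 0, 0, 0, ⟨0, 0⟩, 0⟩ 0 0)) (.pos 32 .pp ⟨363123889, 0, 0, 0, 0, 0, 0, 0, 0, ⟨0, 0⟩, 0⟩ 0 0)) (.cut .d 1137010 (.cut .v 50331648 (.pos 86 .pp ⟨954366424, 0, 0, 0, 0, 0, 0, 0, 0, ⟨0, 0⟩, 0⟩ 0 0) (.pos 87 .pp ⟨1936137660, 0, 0, 0, 0, 0, 0, 0, 0, ⟨0, 0⟩, 0⟩ 0 0)) (.pos 83 .pp ⟨548254439, 0, 0, 0, 0, 0, 0, 0, 0, ⟨0, 0⟩, 0⟩ 0 0))) (.pos 82 .pp ⟨0, 0, 0, 0, 0, 0, 0, 0, 0, ⟨0, 0⟩, 0⟩ 0 0)) (.cut .v 134217728 (.cut .d 2274020 (.cut .d 1137010 (.void 97 ⟨100000, 0, 0, 0, 0, 0, 0, 0, 0, ⟨0, 0⟩, 0⟩ 0 0) (.cut .v 100663296 (.cut .d 1705515 (.cut .v 83886080 (.pos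 103 .pp ⟨2216540133, 0, 0, 0, 0, 0, 0, 0, 0, ⟨0, 0⟩, 0⟩ 0 0) (.pos 104 .pp ⟨3583961052, 0, 0, 0, 0, 0, 0, 0, 0, ⟨0, 0⟩, 0⟩ 0 0)) (.pos 101 .pp ⟨1907087952, 0, 0, 0, 0, 0, 0, 0, 0, ⟨0, 0⟩, 0⟩ 0 0)) (.cut .d 1705515 (.pos 102 .pp ⟨8337350422, 0, 0, 0, 0, 0, 0, 0, 0, ⟨0, 0⟩, 0⟩ 0 0) (.cut .v 117440512 (.cut .v 109051904 (.pos 126 .pp ⟨3433830749, 0, 0, 0, 0, 0, 0, 0, 0, ⟨0, 0⟩, 0⟩ 0 0) (.pos 127 .pp ⟨4097265087, 673922867, 0, 0, 0, 0, 0, 0, 0, ⟨0, 0⟩, 0⟩ 0 0)) (.void 117 ⟨15935, 84065, 0, 0, 0, 0, 0, 0, 0, ⟨0, 0⟩, 0⟩ 0 0))))) (.pos 97 .pp ⟨0, 463513706, 0, 0, 0, 0, 0, 0, 0, ⟨0, 0⟩, 0⟩ 0 0)) (.void 98 ⟨39452, 60548, 0, 0, 0, 0, 0, 0, 0, ⟨0, 0⟩, 0⟩ 0 0))) (.pos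 95 .pp ⟨0, 205783154, 0, 0, 0, 0, 0, 0, 0, ⟨0, 0⟩, 0⟩ 0 0)) (.void 109 ⟨0, 0, 0, 100000, 0, 0, 0, 0, 0, ⟨0, 0⟩, 0⟩ 0 0)))),
    by decide +kernel⟩

def covers16 : cell.Covers table row16.1 :=
  ⟨(.cut .d 0 (.cut .v 16777216 (.cut .d (-8388608) (.void 1 ⟨0, 0, 0, 0, 0, 100000, 0, 0, 0, ⟨0, 0⟩, 0⟩ 0 0) (.cut .d (-4194304) (.void 1 ⟨0, 0, 0, 0, 0, 100000, 0, 0, 0, ⟨0, 0⟩, 0⟩ 0 0) (.cut .d (-2097152) (.void 1 ⟨0, 0, 0, 0, 0, 100000, 0, 0, 0, ⟨0, 0⟩, 0⟩ 0 0) (.cut .d (-1048576) (.void 1 ⟨0, 0, 0, 0, 0, 100000, 0, 0, 0, ⟨0, 0⟩, 0⟩ 0 0) (.cut .d (-524288) (.void 1 ⟨0, 0, 0, 0, 0, 100000, 0, 0, 0, ⟨0, 0⟩, 0⟩ 0 0) (.cut .d (-262144) (.void 1 ⟨0, 0, 0, 0, 0, 100000,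 0, 0, 0, ⟨0, 0⟩, 0⟩ 0 0) (.cut .d (-131072) (.void 1 ⟨0, 0, 0, 0, 0, 100000, 0, 0, 0, ⟨0, 0⟩, 0⟩ 0 0) (.cut .v 8388608 (.cut .v 4194304 (.void 4 ⟨0, 0, 100000, 0, 0, 0, 0, 0, 0, ⟨0, 0⟩, 0⟩ 0 0) (.pos 5 .mm ⟨0, 0, 0, 0, 0, 222203026, 0, 0, 0, ⟨0, 0⟩, 0⟩ 0 0)) (.cut .d (-65536) (.pos 3 .mm ⟨0, 0, 0, 0, 0, 509028428, 0, 0, 0, ⟨0, 0⟩, 0⟩ 0 0) (.cut .v 12582912 (.pos 8 .mm ⟨0, 0, 0, 0, 0, 346220803, 0, 0, 0, ⟨0, 0⟩, 0⟩ 0 0) (.cut .v 14680064 (.pos 12 .mm ⟨0, 0, 0, 0, 0, 399301525, 0, 0, 0, ⟨0, 0⟩, 0⟩ 0 0) (.cut .v 15728640 (.pos 16 .mm ⟨0, 0, 0, 0, 0, 428751793, 0, 0, 0, ⟨0, 0⟩, 0⟩ 0 0) (.cut .v 16252928 (.pos 20 .mm ⟨0, 0, 0, 0, 0, 444226198, 0, 0, 0, ⟨0, 0⟩, 0⟩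 0 0) (.cut .v 16515072 (.pos 24 .mm ⟨0, 0, 0, 0, 0, 452153102, 0, 0, 0, ⟨0, 0⟩, 0⟩ 0 0) (.cut .s 11534336 (.cut .s 11436032 (.pos 25 .mm ⟨0, 0, 0, 0, 0, 431519098, 0, 0, 0, ⟨0, 0⟩, 0⟩ 0 0) (.pos 25 .mm ⟨0, 0, 0, 0, 0, 451896589, 0, 0, 0, ⟨0, 0⟩, 0⟩ 0 0)) (.cut .s 11632640 (.pos 25 .mm ⟨0, 0, 0, 0, 0, 473054645, 0, 0, 0, ⟨0, 0⟩, 0⟩ 0 0) (.pos 25 .mm ⟨0, 0, 0, 0, 0, 494973779, 0, 0, 0, ⟨0, 0⟩, 0⟩ 0 0))))))))))))))))) (.cut .v 268435456 (.cut .v 67108864 (.cut .v 33554432 (.cut .d (-8388608) (.void 30 ⟨100000, 0, 0, 0, 0, 0, 0, 0, 0, ⟨0, 0⟩, 0⟩ 0 0) (.cut .v 25165824 (.cut .d (-4194304) (.void 31 ⟨100000, 0, 0, 0, 0, 0, 0, 0, 0, ⟨0, 0⟩, 0⟩ 0 0) (.cut .v 20971520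 (.cut .d (-2097152) (.void 33 ⟨100000, 0, 0, 0, 0, 0, 0, 0, 0, ⟨0, 0⟩, 0⟩ 0 0) (.cut .d (-1048576) (.void 33 ⟨100000, 0, 0, 0, 0, 0, 0, 0, 0, ⟨0, 0⟩, 0⟩ 0 0) (.cut .d (-524288) (.void 33 ⟨100000, 0, 0, 0, 0, 0, 0, 0, 0, ⟨0, 0⟩, 0⟩ 0 0) (.cut .d (-262144) (.void 33 ⟨100000, 0, 0, 0, 0, 0, 0, 0, 0, ⟨0, 0⟩, 0⟩ 0 0) (.cut .d (-131072) (.void 33 ⟨100000, 0, 0, 0, 0, 0, 0, 0, 0, ⟨0, 0⟩, 0⟩ 0 0) (.cut .v 18874368 (.cut .v 17825792 (.cut .d (-65536) (.pos 37 .mp ⟨96584849, 0, 0, 0, 0, 409844369, 0, 0, 0, ⟨0, 0⟩, 0⟩ 0 0) (.cut .v 17301504 (.cut .v 17039360 (.cut .s 11534336 (.cut .v 16908288 (.cut .d (-32768) (.cut .s 11436032 (.cut .s 11386880 (.pos 43 .mp ⟨73590475,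 0, 0, 0, 0, 333416751, 0, 0, 0, ⟨0, 0⟩, 0⟩ 0 0) (.pos 43 .mp ⟨73987764, 0, 0, 0, 0, 341157438, 0, 0, 0, ⟨0, 0⟩, 0⟩ 0 0)) (.pos 43 .mp ⟨74661214, 0, 0, 0, 0, 354370929, 0, 0, 0, ⟨0, 0⟩, 0⟩ 0 0)) (.cut .s 11436032 (.cut .s 11386880 (.pos 43 .mp ⟨91231135, 0, 0, 0, 0, 296239211, 0, 0, 0, ⟨0, 0⟩, 0⟩ 0 0) (.pos 43 .mp ⟨92160635, 0, 0, 0, 0, 304269597, 0, 0, 0, ⟨0, 0⟩, 0⟩ 0 0)) (.pos 43 .mp ⟨93908857, 0, 0, 0, 0, 313021261, 0, 0, 0, ⟨0, 0⟩, 0⟩ 0 0))) (.pos 44 .mp ⟨281492408, 0, 0, 0, 0, 43079926, 0, 0, 0, ⟨0, 0⟩, 0⟩ 0 0)) (.cut .d (-32768) (.cut .s 11632640 (.cut .s 11583488 (.pos 41 .mp ⟨77163949, 0, 0, 0, 0, 368642247, 0, 0, 0, ⟨0, 0⟩, 0⟩ 0 0) (.pos 41 .mp ⟨77678237,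 0, 0, 0, 0, 378337512, 0, 0, 0, ⟨0, 0⟩, 0⟩ 0 0)) (.pos 41 .mp ⟨78127910, 0, 0, 0, 0, 394678848, 0, 0, 0, ⟨0, 0⟩, 0⟩ 0 0)) (.pos 41 .mp ⟨98471941, 0, 0, 0, 0, 327897033, 0, 0, 0, ⟨0, 0⟩, 0⟩ 0 0))) (.pos 42 .mp ⟨325822947, 0, 0, 0, 0, 0, 0, 0, 0, ⟨0, 0⟩, 0⟩ 0 0)) (.pos 40 .mp ⟨334395482, 0, 0, 0, 0, 0, 0, 0, 0, ⟨0, 0⟩, 0⟩ 0 0))) (.pos 38 .mp ⟨372468709, 0, 0, 0, 0, 0, 0, 0, 0, ⟨0, 0⟩, 0⟩ 0 0)) (.void 36 ⟨100000, 0, 0, 0, 0, 0, 0, 0, 0, ⟨0, 0⟩, 0⟩ 0 0))))))) (.void 34 ⟨100000, 0, 0, 0, 0, 0, 0, 0, 0, ⟨0, 0⟩, 0⟩ 0 0))) (.void 32 ⟨100000, 0, 0, 0, 0, 0, 0, 0, 0, ⟨0, 0⟩, 0⟩ 0 0))) (.void 83 ⟨100000, 0, 0, 0, 0, 0, 0, 0, 0, ⟨0, 0⟩, 0⟩ 0 0)) (.void 96 ⟨100000, 0, 0,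 0, 0, 0, 0, 0, 0, ⟨0, 0⟩, 0⟩ 0 0)) (.void 109 ⟨96662, 0, 0, 3338, 0, 0, 0, 0, 0, ⟨0, 0⟩, 0⟩ 0 0))) (.cut .v 16777216 (.cut .v 8388608 (.cut .v 4194304 (.cut .v 2097152 (.cut .v 1048576 (.pos 118 .pm ⟨0, 0, 14774753, 0, 0, 0, 0, 0, 0, ⟨0, 0⟩, 0⟩ 0 0) (.pos 119 .pm ⟨0, 0, 234127, 0, 0, 0, 0, 0, 0, ⟨0, 0⟩, 0⟩ 0 0)) (.cut .d 4024593 (.pos 7 .pm ⟨0, 0, 43797595, 0, 0, 0, 0, 0, 0, ⟨0, 0⟩, 0⟩ 0 0) (.cut .d 6036890 (.pos 7 .pm ⟨0, 0, 0, 0, 0, 0, 0, 0, 0, ⟨0, 0⟩, 0⟩ 0 0) (.pos 7 .pm ⟨0, 95971372, 0, 0, 0, 0, 0, 0, 0, ⟨0, 0⟩, 0⟩ 0 0)))) (.cut .d 4024593 (.pos 5 .pm ⟨0, 0, 0, 0, 0, 0, 0, 0, 0, ⟨0, 0⟩, 0⟩ 0 0) (.cut .d 6036890 (.pos 5 .pm ⟨0, 0, 0, 0, 0, 0, 0, 0, 0, ⟨0,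 0⟩, 0⟩ 0 0) (.cut .d 7043038 (.cut .v 6291456 (.pos 105 .pm ⟨0, 104515882, 0, 0, 0, 0, 0, 0, 0, ⟨0, 0⟩, 0⟩ 0 0) (.cut .s 11534336 (.pos 106 .pm ⟨0, 0, 0, 0, 0, 0, 0, 0, 0, ⟨0, 0⟩, 0⟩ 0 0) (.cut .d 6539964 (.pos 106 .pm ⟨0, 0, 0, 0, 0, 0, 0, 0, 0, ⟨0, 0⟩, 0⟩ 0 0) (.pos 106 .pm ⟨0, 151296837, 0, 0, 0, 0, 0, 0, 0, ⟨0, 0⟩, 0⟩ 0 0)))) (.cut .d 7546112 (.cut .s 11534336 (.cut .v 6291456 (.pos 105 .pm ⟨0, 136719210, 0, 0, 0, 0, 0, 0, 0, ⟨0, 0⟩, 0⟩ 0 0) (.cut .s 11436032 (.pos 106 .pm ⟨0, 143679401, 0, 0, 0, 0, 0, 0, 0, ⟨0, 0⟩, 0⟩ 0 0) (.pos 106 .pm ⟨0, 164449965, 0, 0, 0, 0, 0, 0, 0, ⟨0, 0⟩, 0⟩ 0 0))) (.cut .v 6291456 (.pos 105 .pm ⟨0, 173350908, 0, 0, 0, 0, 0, 0,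 0, ⟨0, 0⟩, 0⟩ 0 0) (.cut .d 7294575 (.pos 106 .pm ⟨0, 185963738, 0, 0, 0, 0, 0, 0, 0, ⟨0, 0⟩, 0⟩ 0 0) (.void 106 ⟨0, 100000, 0, 0, 0, 0, 0, 0, 0, ⟨0, 0⟩, 0⟩ 0 0)))) (.cut .v 6291456 (.pos 105 .pm ⟨0, 189557954, 0, 0, 0, 0, 0, 0, 0, ⟨0, 0⟩, 0⟩ 0 0) (.cut .s 11534336 (.pos 106 .pm ⟨0, 201402704, 0, 0, 0, 0, 0, 0, 0, ⟨0, 0⟩, 0⟩ 0 0) (.void 106 ⟨0, 0, 0, 100000, 0, 0, 0, 0, 0, ⟨0, 0⟩, 0⟩ 0 0)))))))) (.cut .d 4024593 (.pos 3 .pm ⟨0, 0, 0, 0, 0, 0, 0, 0, 0, ⟨0, 0⟩, 0⟩ 0 0) (.cut .d 6036890 (.pos 3 .pm ⟨0, 0, 0, 0, 0, 0, 0, 0, 0, ⟨0, 0⟩, 0⟩ 0 0) (.cut .d 7043038 (.pos 3 .pm ⟨0, 151875787, 0, 0, 0, 0, 0, 0, 0, ⟨0, 0⟩, 0⟩ 0 0) (.cut .d 7546112 (.cut .s 11534336 (.pos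 3 .pm ⟨0, 182153293, 0, 0, 0, 0, 0, 0, 0, ⟨0, 0⟩, 0⟩ 0 0) (.pos 3 .pm ⟨0, 239189646, 0, 0, 0, 0, 0, 0, 0, ⟨0, 0⟩, 0⟩ 0 0)) (.pos 3 .pm ⟨0, 285904215, 0, 0, 0, 0, 0, 0, 0, ⟨0, 0⟩, 0⟩ 0 0)))))) (.cut .v 268435456 (.cut .d 4024593 (.cut .v 67108864 (.cut .d 2012296 (.cut .v 33554432 (.cut .v 25165824 (.pos 31 .pp ⟨204414473, 0, 0, 0, 0, 0, 0, 0, 0, ⟨0, 0⟩, 0⟩ 0 0) (.pos 32 .pp ⟨430816490, 0, 0, 0, 0, 0, 0, 0, 0, ⟨0, 0⟩, 0⟩ 0 0)) (.cut .d 1006148 (.cut .v 50331648 (.pos 86 .pp ⟨1098493300, 0, 0, 0, 0, 0, 0, 0, 0, ⟨0, 0⟩, 0⟩ 0 0) (.pos 87 .pp ⟨2219282755, 0, 0, 0, 0, 0, 0, 0, 0, ⟨0, 0⟩, 0⟩ 0 0)) (.pos 83 .pp ⟨654340537, 0, 0, 0, 0, 0, 0, 0, 0, ⟨0, 0⟩, 0⟩ 0 0)))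 (.pos 82 .pp ⟨0, 0, 0, 0, 0, 0, 0, 0, 0, ⟨0, 0⟩, 0⟩ 0 0)) (.cut .v 134217728 (.cut .d 2012296 (.cut .d 1006148 (.void 97 ⟨100000, 0, 0, 0, 0, 0, 0, 0, 0, ⟨0, 0⟩, 0⟩ 0 0) (.cut .v 100663296 (.cut .d 1509222 (.cut .v 83886080 (.pos 103 .pp ⟨2561886296, 0, 0, 0, 0, 0, 0, 0, 0, ⟨0, 0⟩, 0⟩ 0 0) (.pos 104 .pp ⟨4125513210, 0, 0, 0, 0, 0, 0, 0, 0, ⟨0, 0⟩, 0⟩ 0 0)) (.pos 101 .pp ⟨2250003428, 0, 0, 0, 0, 0, 0, 0, 0, ⟨0, 0⟩, 0⟩ 0 0)) (.cut .v 117440512 (.cut .d 1509222 (.pos 116 .pp ⟨7591492748, 0, 0, 0, 0, 0, 0, 0, 0, ⟨0, 0⟩, 0⟩ 0 0) (.cut .v 109051904 (.pos 126 .pp ⟨3994855548, 0, 0, 0, 0, 0, 0, 0, 0, ⟨0, 0⟩, 0⟩ 0 0) (.cut .v 113246208 (.cut .d 1760759 (.cut .d 1634990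 (.pos 128 .pp ⟨5101260143, 299725072, 0, 0, 0, 0, 0, 0, 0, ⟨0, 0⟩, 0⟩ 0 0) (.pos 128 .pp ⟨4598857593, 527289583, 0, 0, 0, 0, 0, 0, 0, ⟨0, 0⟩, 0⟩ 0 0)) (.pos 128 .pp ⟨2312150027, 822893713, 0, 0, 0, 0, 0, 0, 0, ⟨0, 0⟩, 0⟩ 0 0)) (.void 129 ⟨39290, 60710, 0, 0, 0, 0, 0, 0, 0, ⟨0, 0⟩, 0⟩ 0 0)))) (.void 117 ⟨39616, 60384, 0, 0, 0, 0, 0, 0, 0, ⟨0, 0⟩, 0⟩ 0 0)))) (.pos 97 .pp ⟨0, 562471676, 0, 0, 0, 0, 0, 0, 0, ⟨0, 0⟩, 0⟩ 0 0)) (.void 98 ⟨38969, 61031, 0, 0, 0, 0, 0, 0, 0, ⟨0, 0⟩, 0⟩ 0 0))) (.pos 95 .pp ⟨0, 232603527, 0, 0, 0, 0, 0, 0, 0, ⟨0, 0⟩, 0⟩ 0 0)) (.void 109 ⟨0, 0, 0, 100000, 0, 0, 0, 0, 0, ⟨0, 0⟩, 0⟩ 0 0)))),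
    by decide +kernel⟩

def covers17 : cell.Covers table row17.1 :=
  ⟨(.cut .d 0 (.cut .v 16777216 (.cut .d (-8388608) (.void 1 ⟨0, 0, 0, 0, 0, 100000, 0, 0, 0, ⟨0, 0⟩, 0⟩ 0 0) (.cut .d (-4194304) (.void 1 ⟨0, 0, 0, 0, 0, 100000, 0, 0, 0, ⟨0, 0⟩, 0⟩ 0 0) (.cut .d (-2097152) (.void 1 ⟨0, 0, 0, 0, 0, 100000, 0, 0, 0, ⟨0, 0⟩, 0⟩ 0 0) (.cut .d (-1048576) (.void 1 ⟨0, 0, 0, 0, 0, 100000, 0, 0, 0, ⟨0, 0⟩, 0⟩ 0 0) (.cut .d (-524288) (.void 1 ⟨0, 0, 0, 0, 0, 100000, 0, 0, 0, ⟨0, 0⟩, 0⟩ 0 0) (.cut .d (-262144) (.void 1 ⟨0, 0, 0, 0, 0, 100000, 0, 0, 0, ⟨0, 0⟩, 0⟩ 0 0) (.cut .d (-131072) (.void 1 ⟨0, 0, 0, 0, 0, 100000, 0, 0, 0, ⟨0, 0⟩, 0⟩ 0 0) (.cut .d (-65536) (.void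 1 ⟨0, 0, 0, 0, 0, 100000, 0, 0, 0, ⟨0, 0⟩, 0⟩ 0 0) (.cut .v 8388608 (.cut .v 4194304 (.void 4 ⟨0, 0, 100000, 0, 0, 0, 0, 0, 0, ⟨0, 0⟩, 0⟩ 0 0) (.pos 5 .mm ⟨0, 0, 689860, 0, 0, 279655155, 0, 0, 0, ⟨0, 0⟩, 0⟩ 0 0)) (.cut .s 11993088 (.cut .s 11862016 (.pos 3 .mm ⟨0, 0, 0, 0, 0, 516759977, 0, 0, 0, ⟨0, 0⟩, 0⟩ 0 0) (.pos 3 .mm ⟨0, 0, 0, 0, 0, 558504371, 0, 0, 0, ⟨0, 0⟩, 0⟩ 0 0)) (.pos 3 .mm ⟨0, 0, 0, 0, 0, 619322232, 0, 0, 0, ⟨0, 0⟩, 0⟩ 0 0))))))))))) (.cut .v 268435456 (.cut .v 67108864 (.cut .v 33554432 (.cut .d (-8388608) (.void 30 ⟨100000, 0, 0, 0, 0, 0, 0, 0, 0, ⟨0, 0⟩, 0⟩ 0 0) (.cut .v 25165824 (.cut .d (-4194304) (.void 31 ⟨100000, 0, 0, 0, 0, 0, 0, 0, 0,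 ⟨0, 0⟩, 0⟩ 0 0) (.cut .v 20971520 (.cut .d (-2097152) (.void 33 ⟨100000, 0, 0, 0, 0, 0, 0, 0, 0, ⟨0, 0⟩, 0⟩ 0 0) (.cut .d (-1048576) (.void 33 ⟨100000, 0, 0, 0, 0, 0, 0, 0, 0, ⟨0, 0⟩, 0⟩ 0 0) (.cut .d (-524288) (.void 33 ⟨100000, 0, 0, 0, 0, 0, 0, 0, 0, ⟨0, 0⟩, 0⟩ 0 0) (.cut .d (-262144) (.void 33 ⟨100000, 0, 0, 0, 0, 0, 0, 0, 0, ⟨0, 0⟩, 0⟩ 0 0) (.cut .d (-131072) (.void 33 ⟨100000, 0, 0, 0, 0, 0, 0, 0, 0, ⟨0, 0⟩, 0⟩ 0 0) (.cut .s 11993088 (.cut .d (-65536) (.void 33 ⟨0, 0, 0, 0, 0, 100000, 0, 0, 0, ⟨0, 0⟩, 0⟩ 0 0) (.cut .s 11862016 (.cut .s 11796480 (.cut .v 18874368 (.pos 35 .mp ⟨140975920, 0, 0, 0, 0, 309399528, 0, 0, 0, ⟨0, 0⟩, 0⟩ 0 0) (.void 36 ⟨100000,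 0, 0, 0, 0, 0, 0, 0, 0, ⟨0, 0⟩, 0⟩ 0 0)) (.pos 33 .mp ⟨177322984, 0, 0, 0, 0, 279437331, 0, 0, 0, ⟨0, 0⟩, 0⟩ 0 0)) (.pos 33 .mp ⟨183154728, 0, 0, 0, 0, 297376925, 0, 0, 0, ⟨0, 0⟩, 0⟩ 0 0))) (.pos 33 .mp ⟨246913633, 0, 0, 0, 0, 274415339, 0, 0, 0, ⟨0, 0⟩, 0⟩ 0 0))))))) (.void 34 ⟨100000, 0, 0, 0, 0, 0, 0, 0, 0, ⟨0, 0⟩, 0⟩ 0 0))) (.void 32 ⟨100000, 0, 0, 0, 0, 0, 0, 0, 0, ⟨0, 0⟩, 0⟩ 0 0))) (.void 83 ⟨100000, 0, 0, 0, 0, 0, 0, 0, 0, ⟨0, 0⟩, 0⟩ 0 0)) (.void 96 ⟨100000, 0, 0, 0, 0, 0, 0, 0, 0, ⟨0, 0⟩, 0⟩ 0 0)) (.void 109 ⟨96523, 0, 0, 3477, 0, 0, 0, 0, 0, ⟨0, 0⟩, 0⟩ 0 0))) (.cut .v 16777216 (.cut .v 8388608 (.cut .v 4194304 (.cut .v 2097152 (.cut .v 1048576 (.pos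 118 .pm ⟨0, 0, 12513725, 0, 0, 0, 0, 0, 0, ⟨0, 0⟩, 0⟩ 0 0) (.pos 119 .pm ⟨0, 5743604, 0, 0, 0, 0, 0, 0, 0, ⟨0, 0⟩, 0⟩ 0 0)) (.cut .d 3608508 (.pos 7 .pm ⟨0, 0, 52449634, 0, 0, 0, 0, 0, 0, ⟨0, 0⟩, 0⟩ 0 0) (.cut .d 5412762 (.pos 7 .pm ⟨0, 0, 0, 0, 0, 0, 0, 0, 0, ⟨0, 0⟩, 0⟩ 0 0) (.cut .d 6314889 (.pos 7 .pm ⟨0, 99093066, 0, 0, 0, 0, 0, 0, 0, ⟨0, 0⟩, 0⟩ 0 0) (.pos 7 .pm ⟨0, 148157884, 0, 0, 0, 0, 0, 0, 0, ⟨0, 0⟩, 0⟩ 0 0))))) (.cut .d 3608508 (.pos 5 .pm ⟨0, 0, 689860, 0, 0, 0, 0, 0, 0, ⟨0, 0⟩, 0⟩ 0 0) (.cut .d 5412762 (.pos 5 .pm ⟨0, 0, 0, 0, 0, 0, 0, 0, 0, ⟨0, 0⟩, 0⟩ 0 0) (.cut .d 6314889 (.cut .s 11993088 (.pos 5 .pm ⟨0, 0, 0, 0, 0, 0, 0, 0, 0, ⟨0, 0⟩, 0⟩ 0 0)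 (.cut .d 5863825 (.pos 5 .pm ⟨0, 0, 0, 0, 0, 0, 0, 0, 0, ⟨0, 0⟩, 0⟩ 0 0) (.cut .v 6291456 (.cut .s 12124160 (.pos 105 .pm ⟨0, 153323914, 0, 0, 0, 0, 0, 0, 0, ⟨0, 0⟩, 0⟩ 0 0) (.pos 105 .pm ⟨0, 184809678, 0, 0, 0, 0, 0, 0, 0, ⟨0, 0⟩, 0⟩ 0 0)) (.cut .s 12124160 (.pos 106 .pm ⟨0, 179249356, 0, 0, 0, 0, 0, 0, 0, ⟨0, 0⟩, 0⟩ 0 0) (.pos 106 .pm ⟨0, 210518444, 0, 0, 0, 0, 0, 0, 0, ⟨0, 0⟩, 0⟩ 0 0))))) (.cut .s 11993088 (.cut .d 6765953 (.cut .v 6291456 (.cut .s 11862016 (.pos 105 .pm ⟨0, 143014237, 0, 0, 0, 0, 0, 0, 0, ⟨0, 0⟩, 0⟩ 0 0) (.pos 105 .pm ⟨0, 173599577, 0, 0, 0, 0, 0, 0, 0, ⟨0, 0⟩, 0⟩ 0 0)) (.cut .s 11862016 (.pos 106 .pm ⟨0, 162639753, 0, 0, 0, 0, 0, 0, 0,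 ⟨0, 0⟩, 0⟩ 0 0) (.pos 106 .pm ⟨0, 193500584, 0, 0, 0, 0, 0, 0, 0, ⟨0, 0⟩, 0⟩ 0 0))) (.cut .v 6291456 (.pos 105 .pm ⟨0, 200288418, 0, 0, 0, 0, 0, 0, 0, ⟨0, 0⟩, 0⟩ 0 0) (.pos 106 .pm ⟨0, 233591390, 0, 0, 0, 0, 0, 0, 0, ⟨0, 0⟩, 0⟩ 0 0))) (.cut .v 6291456 (.pos 105 .pm ⟨0, 240829772, 0, 0, 0, 0, 0, 0, 0, ⟨0, 0⟩, 0⟩ 0 0) (.pos 106 .pm ⟨0, 292749367, 0, 0, 0, 0, 0, 0, 0, ⟨0, 0⟩, 0⟩ 0 0))))))) (.cut .d 3608508 (.pos 3 .pm ⟨0, 0, 0, 0, 0, 0, 0, 0, 0, ⟨0, 0⟩, 0⟩ 0 0) (.cut .d 5412762 (.pos 3 .pm ⟨0, 0, 0, 0, 0, 0, 0, 0, 0, ⟨0, 0⟩, 0⟩ 0 0) (.cut .d 6314889 (.pos 3 .pm ⟨0, 189928309, 0, 0, 0, 0, 0, 0, 0, ⟨0, 0⟩, 0⟩ 0 0) (.cut .s 11993088 (.pos 3 .pm ⟨0, 257694938, 0,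 0, 0, 0, 0, 0, 0, ⟨0, 0⟩, 0⟩ 0 0) (.void 3 ⟨0, 100000, 0, 0, 0, 0, 0, 0, 0, ⟨0, 0⟩, 0⟩ 0 0)))))) (.cut .v 268435456 (.cut .d 3608508 (.cut .v 67108864 (.cut .d 1804254 (.cut .v 33554432 (.cut .v 25165824 (.pos 31 .pp ⟨223526438, 0, 0, 0, 0, 0, 0, 0, 0, ⟨0, 0⟩, 0⟩ 0 0) (.pos 32 .pp ⟨500925498, 0, 0, 0, 0, 0, 0, 0, 0, ⟨0, 0⟩, 0⟩ 0 0)) (.cut .d 902127 (.cut .v 50331648 (.pos 86 .pp ⟨1276652711, 0, 0, 0, 0, 0, 0, 0, 0, ⟨0, 0⟩, 0⟩ 0 0) (.pos 87 .pp ⟨2589022858, 0, 0, 0, 0, 0, 0, 0, 0, ⟨0, 0⟩, 0⟩ 0 0)) (.pos 83 .pp ⟨747970337, 0, 0, 0, 0, 0, 0, 0, 0, ⟨0, 0⟩, 0⟩ 0 0))) (.pos 82 .pp ⟨0, 0, 0, 0, 0, 0, 0, 0, 0, ⟨0, 0⟩, 0⟩ 0 0)) (.cut .v 134217728 (.cut .d 1804254 (.cut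 .d 902127 (.void 97 ⟨100000, 0, 0, 0, 0, 0, 0, 0, 0, ⟨0, 0⟩, 0⟩ 0 0) (.cut .v 100663296 (.cut .d 1353190 (.cut .v 83886080 (.pos 103 .pp ⟨2900254442, 0, 0, 0, 0, 0, 0, 0, 0, ⟨0, 0⟩, 0⟩ 0 0) (.pos 104 .pp ⟨4667452410, 0, 0, 0, 0, 0, 0, 0, 0, ⟨0, 0⟩, 0⟩ 0 0)) (.pos 101 .pp ⟨2564400214, 0, 0, 0, 0, 0, 0, 0, 0, ⟨0, 0⟩, 0⟩ 0 0)) (.cut .v 117440512 (.cut .d 1353190 (.cut .v 109051904 (.pos 126 .pp ⟨6115020222, 0, 0, 0, 0, 0, 0, 0, 0, ⟨0, 0⟩, 0⟩ 0 0) (.cut .v 113246208 (.pos 128 .pp ⟨6380390287, 0, 0, 0, 0, 0, 0, 0, 0, ⟨0, 0⟩, 0⟩ 0 0) (.cut .v 115343360 (.pos 134 .pp ⟨6691534314, 537419992, 0, 0, 0, 0, 0, 0, 0, ⟨0, 0⟩, 0⟩ 0 0) (.cut .d 1127658 (.void 135 ⟨100000,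 0, 0, 0, 0, 0, 0, 0, 0, ⟨0, 0⟩, 0⟩ 0 0) (.pos 135 .pp ⟨7013165002, 1418917986, 0, 0, 0, 0, 0, 0, 0, ⟨0, 0⟩, 0⟩ 0 0))))) (.cut .v 109051904 (.pos 126 .pp ⟨4457550273, 0, 0, 0, 0, 0, 0, 0, 0, ⟨0, 0⟩, 0⟩ 0 0) (.cut .d 1578722 (.cut .v 113246208 (.cut .s 11993088 (.cut .s 11862016 (.cut .d 1465956 (.pos 128 .pp ⟨8297019570, 0, 0, 0, 0, 0, 0, 0, 0, ⟨0, 0⟩, 0⟩ 0 0) (.pos 128 .pp ⟨4996851440, 0, 0, 0, 0, 0, 0, 0, 0, ⟨0, 0⟩, 0⟩ 0 0)) (.pos 128 .pp ⟨5186017231, 0, 0, 0, 0, 0, 0, 0, 0, ⟨0, 0⟩, 0⟩ 0 0)) (.pos 128 .pp ⟨5322820446, 0, 0, 0, 0, 0, 0, 0, 0, ⟨0, 0⟩, 0⟩ 0 0)) (.cut .v 115343360 (.cut .s 11993088 (.cut .l 671088 (.pos 134 .pp ⟨5846590161, 924873728, 0, 0, 0,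 0, 0, 0, 0, ⟨0, 0⟩, 0⟩ 0 0) (.cut .d 1465956 (.cut .s 11862016 (.void 134 ⟨100000, 0, 0, 0, 0, 0, 0, 0, 0, ⟨0, 0⟩, 0⟩ 0 0) (.cut .d 1409573 (.void 134 ⟨100000, 0, 0, 0, 0, 0, 0, 0, 0, ⟨0, 0⟩, 0⟩ 0 0) (.cut .d 1437764 (.pos 134 .pp ⟨5989875457, 614511868, 0, 0, 0, 0, 0, 0, 0, ⟨0, 0⟩, 0⟩ 0 0) (.cut .l 909501 (.pos 134 .pp ⟨5846030893, 620535501, 0, 0, 0, 0, 0, 0, 0, ⟨0, 0⟩, 0⟩ 0 0) (.cut .l 1028708 (.pos 134 .pp ⟨5835999045, 616258407, 0, 0, 0, 0, 0, 0, 0, ⟨0, 0⟩, 0⟩ 0 0) (.cut .l 1088311 (.pos 134 .pp ⟨5834205405, 613487459, 0, 0, 0, 0, 0, 0, 0, ⟨0, 0⟩, 0⟩ 0 0) (.cut .s 11927552 (.cut .v 114294784 (.pos 138 .pp ⟨5769354119, 595496310, 0, 0, 0, 0, 0, 0, 0, ⟨0,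 0⟩, 0⟩ 0 0) (.void 139 ⟨39294, 60706, 0, 0, 0, 0, 0, 0, 0, ⟨0, 0⟩, 0⟩ 0 0)) (.cut .v 114294784 (.pos 138 .pp ⟨5757279456, 578735966, 0, 0, 0, 0, 0, 0, 0, ⟨0, 0⟩, 0⟩ 0 0) (.pos 139 .pp ⟨6093908167, 1094334296, 0, 0, 0, 0, 0, 0, 0, ⟨0, 0⟩, 0⟩ 0 0))))))))) (.cut .v 114294784 (.cut .l 909501 (.pos 138 .pp ⟨5557436149, 698981906, 0, 0, 0, 0, 0, 0, 0, ⟨0, 0⟩, 0⟩ 0 0) (.cut .s 11862016 (.cut .l 1028708 (.pos 138 .pp ⟨5494468515, 703158931, 0, 0, 0, 0, 0, 0, 0, ⟨0, 0⟩, 0⟩ 0 0) (.cut .l 1088311 (.pos 138 .pp ⟨5501759493, 727062256, 0, 0, 0, 0, 0, 0, 0, ⟨0, 0⟩, 0⟩ 0 0) (.cut .d 1522339 (.cut .s 11796480 (.pos 138 .pp ⟨5516383730, 575689669, 0, 0, 0, 0, 0, 0, 0, ⟨0, 0⟩,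 0⟩ 0 0) (.cut .d 1494147 (.pos 138 .pp ⟨5619268427, 589785095, 0, 0, 0, 0, 0, 0, 0, ⟨0, 0⟩, 0⟩ 0 0) (.cut .v 113770496 (.cut .s 11829248 (.pos 140 .pp ⟨5478459015, 561030734, 0, 0, 0, 0, 0, 0, 0, ⟨0, 0⟩, 0⟩ 0 0) (.pos 140 .pp ⟨5493894653, 545572262, 0, 0, 0, 0, 0, 0, 0, ⟨0, 0⟩, 0⟩ 0 0)) (.pos 141 .pp ⟨5638275959, 790136203, 0, 0, 0, 0, 0, 0, 0, ⟨0, 0⟩, 0⟩ 0 0)))) (.cut .s 11796480 (.pos 138 .pp ⟨5369846083, 624123829, 0, 0, 0, 0, 0, 0, 0, ⟨0, 0⟩, 0⟩ 0 0) (.pos 138 .pp ⟨3103496043, 1050658770, 0, 0, 0, 0, 0, 0, 0, ⟨0, 0⟩, 0⟩ 0 0))))) (.cut .v 113770496 (.pos 140 .pp ⟨5151928150, 0, 0, 0, 0, 0, 0, 0, 0, ⟨0, 0⟩, 0⟩ 0 0) (.cut .s 11927552 (.cut .d 1522339 (.cut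 .s 11894784 (.cut .d 1494147 (.cut .d 1480051 (.pos 141 .pp ⟨5674788100, 617087634, 0, 0, 0, 0, 0, 0, 0, ⟨0, 0⟩, 0⟩ 0 0) (.pos 141 .pp ⟨5614687234, 631562097, 0, 0, 0, 0, 0, 0, 0, ⟨0, 0⟩, 0⟩ 0 0)) (.void 141 ⟨0, 100000, 0, 0, 0, 0, 0, 0, 0, ⟨0, 0⟩, 0⟩ 0 0)) (.pos 141 .pp ⟨5642829633, 654755133, 0, 0, 0, 0, 0, 0, 0, ⟨0, 0⟩, 0⟩ 0 0)) (.void 141 ⟨0, 100000, 0, 0, 0, 0, 0, 0, 0, ⟨0, 0⟩, 0⟩ 0 0)) (.pos 141 .pp ⟨3819797005, 1004558550, 0, 0, 0, 0, 0, 0, 0, ⟨0, 0⟩, 0⟩ 0 0))))) (.void 139 ⟨24022, 75978, 0, 0, 0, 0, 0, 0, 0, ⟨0, 0⟩, 0⟩ 0 0)))) (.cut .d 1465956 (.cut .s 12124160 (.cut .v 114294784 (.pos 138 .pp ⟨5471884477, 0, 0, 0, 0, 0, 0, 0, 0, ⟨0, 0⟩, 0⟩ 0 0) (.cut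 .d 1409573 (.cut .s 12058624 (.pos 139 .pp ⟨6126768433, 677144212, 0, 0, 0, 0, 0, 0, 0, ⟨0, 0⟩, 0⟩ 0 0) (.pos 139 .pp ⟨6129538041, 645724909, 0, 0, 0, 0, 0, 0, 0, ⟨0, 0⟩, 0⟩ 0 0)) (.pos 139 .pp ⟨5918666005, 722888411, 0, 0, 0, 0, 0, 0, 0, ⟨0, 0⟩, 0⟩ 0 0))) (.pos 134 .pp ⟨6002624231, 413656374, 0, 0, 0, 0, 0, 0, 0, ⟨0, 0⟩, 0⟩ 0 0)) (.pos 134 .pp ⟨0, 1760748811, 0, 0, 0, 0, 0, 0, 0, ⟨0, 0⟩, 0⟩ 0 0))) (.void 135 ⟨24802, 75198, 0, 0, 0, 0, 0, 0, 0, ⟨0, 0⟩, 0⟩ 0 0))) (.pos 127 .pp ⟨2662892756, 1041650882, 0, 0, 0, 0, 0, 0, 0, ⟨0, 0⟩, 0⟩ 0 0)))) (.void 117 ⟨38778, 61222, 0, 0, 0, 0, 0, 0, 0, ⟨0, 0⟩, 0⟩ 0 0)))) (.pos 97 .pp ⟨0, 656372776, 0, 0, 0, 0, 0, 0, 0, ⟨0,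 0⟩, 0⟩ 0 0)) (.void 98 ⟨38196, 61804, 0, 0, 0, 0, 0, 0, 0, ⟨0, 0⟩, 0⟩ 0 0))) (.pos 95 .pp ⟨0, 292909893, 0, 0, 0, 0, 0, 0, 0, ⟨0, 0⟩, 0⟩ 0 0)) (.void 109 ⟨0, 0, 0, 100000, 0, 0, 0, 0, 0, ⟨0, 0⟩, 0⟩ 0 0)))),
    by decide +kernel⟩

def covers18 : cell.Covers table row18.1 :=
  ⟨(.cut .d 0 (.cut .v 16777216 (.cut .d (-8388608) (.void 1 ⟨0, 0, 0, 0, 0, 100000, 0, 0, 0, ⟨0, 0⟩, 0⟩ 0 0) (.cut .d (-4194304) (.void 1 ⟨0, 0, 0, 0, 0, 100000, 0, 0, 0, ⟨0, 0⟩, 0⟩ 0 0) (.cut .d (-2097152) (.void 1 ⟨0, 0, 0, 0, 0, 100000, 0, 0, 0, ⟨0, 0⟩, 0⟩ 0 0) (.cut .d (-1048576) (.void 1 ⟨0, 0, 0, 0, 0, 100000, 0, 0, 0, ⟨0, 0⟩, 0⟩ 0 0) (.cut .d (-524288) (.void 1 ⟨0, 0, 0, 0, 0, 100000,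 0, 0, 0, ⟨0, 0⟩, 0⟩ 0 0) (.cut .d (-262144) (.void 1 ⟨0, 0, 0, 0, 0, 100000, 0, 0, 0, ⟨0, 0⟩, 0⟩ 0 0) (.cut .d (-131072) (.void 1 ⟨0, 0, 0, 0, 0, 100000, 0, 0, 0, ⟨0, 0⟩, 0⟩ 0 0) (.cut .d (-65536) (.void 1 ⟨0, 0, 0, 0, 0, 100000, 0, 0, 0, ⟨0, 0⟩, 0⟩ 0 0) (.cut .v 8388608 (.cut .v 4194304 (.void 4 ⟨0, 0, 100000, 0, 0, 0, 0, 0, 0, ⟨0, 0⟩, 0⟩ 0 0) (.pos 5 .mm ⟨0, 0, 3193311, 0, 0, 340831617, 0, 0, 0, ⟨0, 0⟩, 0⟩ 0 0)) (.cut .v 12582912 (.pos 8 .mm ⟨0, 0, 0, 0, 0, 456870258, 0, 0, 0, ⟨0, 0⟩, 0⟩ 0 0) (.pos 9 .mm ⟨0, 0, 0, 0, 0, 749168559, 0, 0, 0, ⟨0, 0⟩, 0⟩ 0 0))))))))))) (.cut .v 268435456 (.cut .v 67108864 (.cut .v 33554432 (.cut .d (-8388608) (.void 30 ⟨100000,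 0, 0, 0, 0, 0, 0, 0, 0, ⟨0, 0⟩, 0⟩ 0 0) (.cut .v 25165824 (.cut .d (-4194304) (.void 31 ⟨100000, 0, 0, 0, 0, 0, 0, 0, 0, ⟨0, 0⟩, 0⟩ 0 0) (.cut .v 20971520 (.cut .d (-2097152) (.void 33 ⟨100000, 0, 0, 0, 0, 0, 0, 0, 0, ⟨0, 0⟩, 0⟩ 0 0) (.cut .d (-1048576) (.void 33 ⟨100000, 0, 0, 0, 0, 0, 0, 0, 0, ⟨0, 0⟩, 0⟩ 0 0) (.cut .d (-524288) (.void 33 ⟨100000, 0, 0, 0, 0, 0, 0, 0, 0, ⟨0, 0⟩, 0⟩ 0 0) (.cut .d (-262144) (.void 33 ⟨100000, 0, 0, 0, 0, 0, 0, 0, 0, ⟨0, 0⟩, 0⟩ 0 0) (.cut .s 12484608 (.pos 33 .mp ⟨391458783, 0, 0, 0, 0, 143410683, 0, 0, 0, ⟨0, 0⟩, 0⟩ 0 0) (.pos 33 .mp ⟨430476110, 0, 0, 0, 0, 150202600, 0, 0, 0, ⟨0, 0⟩, 0⟩ 0 0)))))) (.void 34 ⟨100000, 0, 0, 0,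 0, 0, 0, 0, 0, ⟨0, 0⟩, 0⟩ 0 0))) (.void 32 ⟨100000, 0, 0, 0, 0, 0, 0, 0, 0, ⟨0, 0⟩, 0⟩ 0 0))) (.void 83 ⟨100000, 0, 0, 0, 0, 0, 0, 0, 0, ⟨0, 0⟩, 0⟩ 0 0)) (.void 96 ⟨100000, 0, 0, 0, 0, 0, 0, 0, 0, ⟨0, 0⟩, 0⟩ 0 0)) (.void 109 ⟨96384, 0, 0, 3616, 0, 0, 0, 0, 0, ⟨0, 0⟩, 0⟩ 0 0))) (.cut .v 16777216 (.cut .v 8388608 (.cut .v 4194304 (.cut .v 2097152 (.cut .v 1048576 (.cut .v 524288 (.pos 148 .pm ⟨0, 0, 16523963, 0, 0, 0, 0, 0, 0, ⟨0, 0⟩, 0⟩ 0 0) (.pos 149 .pm ⟨0, 0, 6392512, 0, 0, 0, 0, 0, 0, ⟨0, 0⟩, 0⟩ 0 0)) (.pos 119 .pm ⟨0, 7541582, 0, 0, 0, 0, 0, 0, 0, ⟨0, 0⟩, 0⟩ 0 0)) (.cut .d 3095263 (.pos 7 .pm ⟨0, 0, 66362289, 0, 0, 0, 0, 0, 0, ⟨0, 0⟩, 0⟩ 0 0) (.cut .d 4642894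 (.pos 7 .pm ⟨0, 0, 0, 0, 0, 0, 0, 0, 0, ⟨0, 0⟩, 0⟩ 0 0) (.cut .d 5416710 (.pos 7 .pm ⟨0, 107973528, 0, 0, 0, 0, 0, 0, 0, ⟨0, 0⟩, 0⟩ 0 0) (.pos 7 .pm ⟨0, 172959945, 0, 0, 0, 0, 0, 0, 0, ⟨0, 0⟩, 0⟩ 0 0))))) (.cut .d 3095263 (.pos 5 .pm ⟨0, 0, 3193311, 0, 0, 0, 0, 0, 0, ⟨0, 0⟩, 0⟩ 0 0) (.cut .d 4642894 (.pos 5 .pm ⟨0, 0, 0, 0, 0, 0, 0, 0, 0, ⟨0, 0⟩, 0⟩ 0 0) (.cut .d 5416710 (.cut .v 6291456 (.cut .s 12484608 (.pos 105 .pm ⟨0, 0, 0, 0, 0, 0, 0, 0, 0, ⟨0, 0⟩, 0⟩ 0 0) (.cut .d 5029802 (.pos 105 .pm ⟨0, 0, 0, 0, 0, 0, 0, 0, 0, ⟨0, 0⟩, 0⟩ 0 0) (.pos 105 .pm ⟨0, 176915381, 0, 0, 0, 0, 0, 0, 0, ⟨0, 0⟩, 0⟩ 0 0))) (.pos 106 .pm ⟨0, 173008123, 0, 0, 0, 0, 0, 0, 0, ⟨0, 0⟩,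 0⟩ 0 0)) (.cut .s 12484608 (.cut .d 5803618 (.cut .v 6291456 (.pos 105 .pm ⟨0, 170684640, 0, 0, 0, 0, 0, 0, 0, ⟨0, 0⟩, 0⟩ 0 0) (.pos 106 .pm ⟨0, 201594466, 0, 0, 0, 0, 0, 0, 0, ⟨0, 0⟩, 0⟩ 0 0)) (.cut .v 6291456 (.pos 105 .pm ⟨0, 225943606, 0, 0, 0, 0, 0, 0, 0, ⟨0, 0⟩, 0⟩ 0 0) (.pos 106 .pm ⟨0, 255803686, 0, 0, 0, 0, 0, 0, 0, ⟨0, 0⟩, 0⟩ 0 0))) (.cut .v 6291456 (.cut .v 5242880 (.pos 132 .pm ⟨0, 235042141, 0, 0, 0, 0, 0, 0, 0, ⟨0, 0⟩, 0⟩ 0 0) (.pos 133 .pm ⟨0, 272001142, 0, 0, 0, 0, 0, 0, 0, ⟨0, 0⟩, 0⟩ 0 0)) (.pos 106 .pm ⟨0, 319683739, 0, 0, 0, 0, 0, 0, 0, ⟨0, 0⟩, 0⟩ 0 0))))))) (.cut .d 3095263 (.pos 3 .pm ⟨0, 0, 0, 0, 0, 0, 0, 0, 0, ⟨0, 0⟩, 0⟩ 0 0) (.cut .d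 4642894 (.pos 3 .pm ⟨0, 0, 0, 0, 0, 0, 0, 0, 0, ⟨0, 0⟩, 0⟩ 0 0) (.cut .d 5416710 (.pos 3 .pm ⟨0, 220385534, 0, 0, 0, 0, 0, 0, 0, ⟨0, 0⟩, 0⟩ 0 0) (.pos 3 .pm ⟨0, 352746601, 0, 0, 0, 0, 0, 0, 0, ⟨0, 0⟩, 0⟩ 0 0))))) (.cut .v 268435456 (.cut .d 3095263 (.cut .v 67108864 (.cut .d 1547631 (.cut .d 773815 (.cut .v 33554432 (.cut .v 25165824 (.pos 31 .pp ⟨232221963, 0, 0, 0, 0, 0, 0, 0, 0, ⟨0, 0⟩, 0⟩ 0 0) (.pos 32 .pp ⟨702920812, 0, 0, 0, 0, 0, 0, 0, 0, ⟨0, 0⟩, 0⟩ 0 0)) (.cut .v 50331648 (.pos 86 .pp ⟨1490772432, 0, 0, 0, 0, 0, 0, 0, 0, ⟨0, 0⟩, 0⟩ 0 0) (.pos 87 .pp ⟨2982707866, 0, 0, 0, 0, 0, 0, 0, 0, ⟨0, 0⟩, 0⟩ 0 0))) (.pos 82 .pp ⟨294723974, 0, 0, 0, 0, 0, 0, 0,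 0, ⟨0, 0⟩, 0⟩ 0 0)) (.pos 82 .pp ⟨0, 0, 0, 0, 0, 0, 0, 0, 0, ⟨0, 0⟩, 0⟩ 0 0)) (.cut .v 134217728 (.cut .d 1547631 (.cut .d 773815 (.void 97 ⟨100000, 0, 0, 0, 0, 0, 0, 0, 0, ⟨0, 0⟩, 0⟩ 0 0) (.cut .v 100663296 (.cut .d 1160723 (.pos 101 .pp ⟨4605683923, 0, 0, 0, 0, 0, 0, 0, 0, ⟨0, 0⟩, 0⟩ 0 0) (.pos 101 .pp ⟨3067275686, 0, 0, 0, 0, 0, 0, 0, 0, ⟨0, 0⟩, 0⟩ 0 0)) (.cut .v 117440512 (.cut .d 1160723 (.pos 116 .pp ⟨7763382550, 292474202, 0, 0, 0, 0, 0, 0, 0, ⟨0, 0⟩, 0⟩ 0 0) (.cut .d 1354177 (.cut .v 109051904 (.pos 126 .pp ⟨5769097553, 0, 0, 0, 0, 0, 0, 0, 0, ⟨0, 0⟩, 0⟩ 0 0) (.cut .v 113246208 (.pos 128 .pp ⟨6185626284, 0, 0, 0, 0, 0, 0, 0, 0, ⟨0, 0⟩, 0⟩ 0 0) (.cut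 .s 12484608 (.cut .v 115343360 (.pos 134 .pp ⟨6246898242, 0, 0, 0, 0, 0, 0, 0, 0, ⟨0, 0⟩, 0⟩ 0 0) (.cut .d 1257450 (.cut .v 116391936 (.pos 136 .pp ⟨7164780509, 687154209, 0, 0, 0, 0, 0, 0, 0, ⟨0, 0⟩, 0⟩ 0 0) (.pos 137 .pp ⟨7341563371, 1210275240, 0, 0, 0, 0, 0, 0, 0, ⟨0, 0⟩, 0⟩ 0 0)) (.cut .s 12369920 (.pos 135 .pp ⟨6717262192, 953840884, 0, 0, 0, 0, 0, 0, 0, ⟨0, 0⟩, 0⟩ 0 0) (.pos 135 .pp ⟨6756927518, 867281845, 0, 0, 0, 0, 0, 0, 0, ⟨0, 0⟩, 0⟩ 0 0)))) (.cut .d 1257450 (.cut .v 115343360 (.pos 134 .pp ⟨6634619231, 0, 0, 0, 0, 0, 0, 0, 0, ⟨0, 0⟩, 0⟩ 0 0) (.cut .s 12599296 (.cut .d 1209086 (.pos 135 .pp ⟨7334870096, 838863487, 0, 0, 0, 0, 0, 0, 0, ⟨0, 0⟩, 0⟩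 0 0) (.pos 135 .pp ⟨7037118122, 951086437, 0, 0, 0, 0, 0, 0, 0, ⟨0, 0⟩, 0⟩ 0 0)) (.pos 135 .pp ⟨7279414732, 1033799521, 0, 0, 0, 0, 0, 0, 0, ⟨0, 0⟩, 0⟩ 0 0))) (.pos 129 .pp ⟨0, 2182493503, 0, 0, 0, 0, 0, 0, 0, ⟨0, 0⟩, 0⟩ 0 0))))) (.pos 116 .pp ⟨0, 1728679416, 0, 0, 0, 0, 0, 0, 0, ⟨0, 0⟩, 0⟩ 0 0))) (.cut .d 1160723 (.cut .d 967269 (.void 117 ⟨100000, 0, 0, 0, 0, 0, 0, 0, 0, ⟨0, 0⟩, 0⟩ 0 0) (.cut .d 1063996 (.void 117 ⟨100000, 0, 0, 0, 0, 0, 0, 0, 0, ⟨0, 0⟩, 0⟩ 0 0) (.pos 117 .pp ⟨8355318684, 1900511210, 0, 0, 0, 0, 0, 0, 0, ⟨0, 0⟩, 0⟩ 0 0))) (.void 117 ⟨25786, 74214, 0, 0, 0, 0, 0, 0, 0, ⟨0, 0⟩, 0⟩ 0 0))))) (.pos 97 .pp ⟨0, 787984156, 0, 0, 0, 0, 0, 0, 0, ⟨0,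 0⟩, 0⟩ 0 0)) (.void 98 ⟨37659, 62341, 0, 0, 0, 0, 0, 0, 0, ⟨0, 0⟩, 0⟩ 0 0))) (.pos 95 .pp ⟨0, 333675572, 0, 0, 0, 0, 0, 0, 0, ⟨0, 0⟩, 0⟩ 0 0)) (.void 109 ⟨0, 0, 0, 100000, 0, 0, 0, 0, 0, ⟨0, 0⟩, 0⟩ 0 0)))),
    by decide +kernel⟩

def covers19 : cell.Covers table row19.1 :=
  ⟨(.cut .d 0 (.cut .v 16777216 (.cut .d (-8388608) (.void 1 ⟨0, 0, 0, 0, 0, 100000, 0, 0, 0, ⟨0, 0⟩, 0⟩ 0 0) (.cut .d (-4194304) (.pos 1 .mm ⟨0, 0, 0, 0, 0, 167772160000, 0, 0, 0, ⟨0, 0⟩, 0⟩ 0 0) (.cut .d (-2097152) (.void 1 ⟨0, 0, 0, 0, 0, 100000, 0, 0, 0, ⟨0, 0⟩, 0⟩ 0 0) (.cut .d (-1048576) (.void 1 ⟨0, 0, 0, 0, 0, 100000, 0, 0, 0, ⟨0, 0⟩, 0⟩ 0 0) (.cut .d (-524288) (.void 1 ⟨0, 0, 0,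 0, 0, 100000, 0, 0, 0, ⟨0, 0⟩, 0⟩ 0 0) (.cut .d (-262144) (.void 1 ⟨0, 0, 0, 0, 0, 100000, 0, 0, 0, ⟨0, 0⟩, 0⟩ 0 0) (.cut .d (-131072) (.void 1 ⟨0, 0, 0, 0, 0, 100000, 0, 0, 0, ⟨0, 0⟩, 0⟩ 0 0) (.cut .d (-65536) (.void 1 ⟨0, 0, 0, 0, 0, 100000, 0, 0, 0, ⟨0, 0⟩, 0⟩ 0 0) (.cut .v 8388608 (.cut .v 4194304 (.void 4 ⟨0, 0, 100000, 0, 0, 0, 0, 0, 0, ⟨0, 0⟩, 0⟩ 0 0) (.cut .v 6291456 (.void 105 ⟨0, 0, 100000, 0, 0, 0, 0, 0, 0, ⟨0, 0⟩, 0⟩ 0 0) (.pos 106 .mm ⟨0, 0, 9093450, 0, 0, 423655861, 0, 0, 0, ⟨0, 0⟩, 0⟩ 0 0))) (.cut .v 12582912 (.pos 8 .mm ⟨0, 0, 0, 0, 0, 455938747, 0, 0, 0, ⟨0, 0⟩, 0⟩ 0 0) (.pos 9 .mm ⟨0, 0, 0, 0, 0, 775624352, 0, 0, 0, ⟨0, 0⟩, 0⟩ 0 0)))))))))))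 (.cut .v 268435456 (.cut .v 67108864 (.cut .v 33554432 (.cut .d (-8388608) (.void 30 ⟨100000, 0, 0, 0, 0, 0, 0, 0, 0, ⟨0, 0⟩, 0⟩ 0 0) (.cut .v 25165824 (.cut .d (-4194304) (.void 31 ⟨100000, 0, 0, 0, 0, 0, 0, 0, 0, ⟨0, 0⟩, 0⟩ 0 0) (.cut .d (-2097152) (.void 31 ⟨100000, 0, 0, 0, 0, 0, 0, 0, 0, ⟨0, 0⟩, 0⟩ 0 0) (.cut .d (-1048576) (.void 31 ⟨100000, 0, 0, 0, 0, 0, 0, 0, 0, ⟨0, 0⟩, 0⟩ 0 0) (.cut .d (-524288) (.void 31 ⟨100000, 0, 0, 0, 0, 0, 0, 0, 0, ⟨0, 0⟩, 0⟩ 0 0) (.cut .d (-262144) (.void 31 ⟨100000, 0, 0, 0, 0, 0, 0, 0, 0, ⟨0, 0⟩, 0⟩ 0 0) (.pos 31 .mp ⟨620914656, 0, 0, 0, 0, 0, 0, 0, 0, ⟨0, 0⟩, 0⟩ 0 0)))))) (.void 32 ⟨100000, 0, 0, 0, 0, 0, 0, 0, 0, ⟨0, 0⟩,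 0⟩ 0 0))) (.void 83 ⟨100000, 0, 0, 0, 0, 0, 0, 0, 0, ⟨0, 0⟩, 0⟩ 0 0)) (.void 96 ⟨100000, 0, 0, 0, 0, 0, 0, 0, 0, ⟨0, 0⟩, 0⟩ 0 0)) (.void 109 ⟨96237, 0, 0, 3763, 0, 0, 0, 0, 0, ⟨0, 0⟩, 0⟩ 0 0))) (.cut .v 16777216 (.cut .v 8388608 (.cut .v 4194304 (.cut .v 2097152 (.cut .d 2680896 (.void 6 ⟨0, 0, 100000, 0, 0, 0, 0, 0, 0, ⟨0, 0⟩, 0⟩ 0 0) (.cut .v 1048576 (.cut .v 524288 (.pos 148 .pm ⟨0, 0, 8798170, 0, 0, 0, 0, 0, 0, ⟨0, 0⟩, 0⟩ 0 0) (.pos 149 .pm ⟨0, 23878838, 0, 0, 0, 0, 0, 0, 0, ⟨0, 0⟩, 0⟩ 0 0)) (.pos 119 .pm ⟨0, 58373921, 0, 0, 0, 0, 0, 0, 0, ⟨0, 0⟩, 0⟩ 0 0))) (.cut .d 2680896 (.pos 7 .pm ⟨0, 0, 81688485, 0, 0, 0, 0, 0, 0, ⟨0, 0⟩, 0⟩ 0 0) (.cut .d 4021344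 (.pos 7 .pm ⟨0, 0, 0, 0, 0, 0, 0, 0, 0, ⟨0, 0⟩, 0⟩ 0 0) (.cut .d 4691568 (.cut .s 12976128 (.pos 7 .pm ⟨0, 0, 0, 0, 0, 0, 0, 0, 0, ⟨0, 0⟩, 0⟩ 0 0) (.pos 7 .pm ⟨0, 145709828, 0, 0, 0, 0, 0, 0, 0, ⟨0, 0⟩, 0⟩ 0 0)) (.cut .s 12976128 (.pos 7 .pm ⟨0, 171581946, 0, 0, 0, 0, 0, 0, 0, ⟨0, 0⟩, 0⟩ 0 0) (.pos 7 .pm ⟨0, 234696395, 0, 0, 0, 0, 0, 0, 0, ⟨0, 0⟩, 0⟩ 0 0)))))) (.cut .d 2680896 (.pos 5 .pm ⟨0, 0, 9824051, 0, 0, 0, 0, 0, 0, ⟨0, 0⟩, 0⟩ 0 0) (.cut .d 4021344 (.pos 5 .pm ⟨0, 0, 0, 0, 0, 0, 0, 0, 0, ⟨0, 0⟩, 0⟩ 0 0) (.cut .d 4691568 (.cut .s 12976128 (.pos 5 .pm ⟨0, 0, 0, 0, 0, 0, 0, 0, 0, ⟨0, 0⟩, 0⟩ 0 0) (.cut .v 6291456 (.cut .d 4356456 (.pos 105 .pm ⟨0, 151530753,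 0, 0, 0, 0, 0, 0, 0, ⟨0, 0⟩, 0⟩ 0 0) (.pos 105 .pm ⟨0, 205107136, 0, 0, 0, 0, 0, 0, 0, ⟨0, 0⟩, 0⟩ 0 0)) (.pos 106 .pm ⟨0, 244411389, 0, 0, 0, 0, 0, 0, 0, ⟨0, 0⟩, 0⟩ 0 0))) (.cut .s 12976128 (.cut .v 6291456 (.cut .d 5026680 (.pos 105 .pm ⟨0, 184410084, 0, 0, 0, 0, 0, 0, 0, ⟨0, 0⟩, 0⟩ 0 0) (.pos 105 .pm ⟨0, 249527723, 0, 0, 0, 0, 0, 0, 0, ⟨0, 0⟩, 0⟩ 0 0)) (.pos 106 .pm ⟨0, 266057825, 0, 0, 0, 0, 0, 0, 0, ⟨0, 0⟩, 0⟩ 0 0)) (.pos 5 .pm ⟨0, 358592279, 0, 0, 0, 0, 0, 0, 0, ⟨0, 0⟩, 0⟩ 0 0)))))) (.cut .d 2680896 (.pos 3 .pm ⟨0, 0, 0, 0, 0, 0, 0, 0, 0, ⟨0, 0⟩, 0⟩ 0 0) (.cut .d 4021344 (.pos 3 .pm ⟨0, 0, 0, 0, 0, 0, 0, 0, 0, ⟨0, 0⟩, 0⟩ 0 0) (.cut .d 4691568 (.pos 3 .pm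 ⟨0, 258975005, 0, 0, 0, 0, 0, 0, 0, ⟨0, 0⟩, 0⟩ 0 0) (.pos 3 .pm ⟨0, 415018897, 0, 0, 0, 0, 0, 0, 0, ⟨0, 0⟩, 0⟩ 0 0))))) (.cut .v 268435456 (.cut .d 2680896 (.cut .v 67108864 (.cut .d 1340448 (.cut .d 670224 (.cut .v 33554432 (.cut .v 25165824 (.pos 31 .pp ⟨231668617, 0, 0, 0, 0, 0, 0, 0, 0, ⟨0, 0⟩, 0⟩ 0 0) (.pos 32 .pp ⟨779740796, 0, 0, 0, 0, 0, 0, 0, 0, ⟨0, 0⟩, 0⟩ 0 0)) (.cut .v 50331648 (.pos 86 .pp ⟨1628358910, 0, 0, 0, 0, 0, 0, 0, 0, ⟨0, 0⟩, 0⟩ 0 0) (.pos 87 .pp ⟨3369203212, 0, 0, 0, 0, 0, 0, 0, 0, ⟨0, 0⟩, 0⟩ 0 0))) (.pos 82 .pp ⟨288689884, 0, 0, 0, 0, 0, 0, 0, 0, ⟨0, 0⟩, 0⟩ 0 0)) (.pos 82 .pp ⟨0, 0, 0, 0, 0, 0, 0, 0, 0, ⟨0, 0⟩, 0⟩ 0 0)) (.cut .v 134217728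 (.cut .d 1340448 (.cut .d 670224 (.void 97 ⟨100000, 0, 0, 0, 0, 0, 0, 0, 0, ⟨0, 0⟩, 0⟩ 0 0) (.cut .v 100663296 (.cut .v 83886080 (.pos 103 .pp ⟨3316665550, 0, 0, 0, 0, 0, 0, 0, 0, ⟨0, 0⟩, 0⟩ 0 0) (.pos 104 .pp ⟨5140117302, 0, 0, 0, 0, 0, 0, 0, 0, ⟨0, 0⟩, 0⟩ 0 0)) (.cut .v 117440512 (.cut .d 1005336 (.pos 116 .pp ⟨9359031889, 0, 0, 0, 0, 0, 0, 0, 0, ⟨0, 0⟩, 0⟩ 0 0) (.cut .d 1172892 (.cut .s 12976128 (.cut .d 1089114 (.pos 116 .pp ⟨7484223887, 0, 0, 0, 0, 0, 0, 0, 0, ⟨0, 0⟩, 0⟩ 0 0) (.cut .v 109051904 (.pos 126 .pp ⟨6239666203, 0, 0, 0, 0, 0, 0, 0, 0, ⟨0, 0⟩, 0⟩ 0 0) (.pos 127 .pp ⟨7434938527, 462010943, 0, 0, 0, 0, 0, 0, 0, ⟨0, 0⟩, 0⟩ 0 0))) (.pos 116 .pp ⟨7386551164,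 0, 0, 0, 0, 0, 0, 0, 0, ⟨0, 0⟩, 0⟩ 0 0)) (.pos 116 .pp ⟨0, 2027580265, 0, 0, 0, 0, 0, 0, 0, ⟨0, 0⟩, 0⟩ 0 0))) (.cut .v 125829120 (.cut .v 121634816 (.cut .d 1005336 (.cut .s 12976128 (.void 152 ⟨100000, 0, 0, 0, 0, 0, 0, 0, 0, ⟨0, 0⟩, 0⟩ 0 0) (.cut .s 13107200 (.pos 152 .pp ⟨9490870550, 1050080613, 0, 0, 0, 0, 0, 0, 0, ⟨0, 0⟩, 0⟩ 0 0) (.cut .d 837780 (.void 152 ⟨100000, 0, 0, 0, 0, 0, 0, 0, 0, ⟨0, 0⟩, 0⟩ 0 0) (.cut .v 119537664 (.pos 154 .pp ⟨9129847445, 1040058511, 0, 0, 0, 0, 0, 0, 0, ⟨0, 0⟩, 0⟩ 0 0) (.pos 155 .pp ⟨9825460457, 2098880693, 0, 0, 0, 0, 0, 0, 0, ⟨0, 0⟩, 0⟩ 0 0))))) (.cut .d 1172892 (.cut .v 119537664 (.cut .s 12976128 (.cut .d 1089114 (.cut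 .s 12845056 (.pos 154 .pp ⟨8371538533, 1035773655, 0, 0, 0, 0, 0, 0, 0, ⟨0, 0⟩, 0⟩ 0 0) (.cut .v 118489088 (.pos 156 .pp ⟨7982458072, 435830482, 0, 0, 0, 0, 0, 0, 0, ⟨0, 0⟩, 0⟩ 0 0) (.cut .s 12910592 (.pos 157 .pp ⟨8583697782, 1439030089, 0, 0, 0, 0, 0, 0, 0, ⟨0, 0⟩, 0⟩ 0 0) (.pos 157 .pp ⟨8616852902, 1398690722, 0, 0, 0, 0, 0, 0, 0, ⟨0, 0⟩, 0⟩ 0 0)))) (.cut .s 12845056 (.cut .s 12779520 (.pos 154 .pp ⟨7953234794, 1194839118, 0, 0, 0, 0, 0, 0, 0, ⟨0, 0⟩, 0⟩ 0 0) (.pos 154 .pp ⟨7982379560, 1152525583, 0, 0, 0, 0, 0, 0, 0, ⟨0, 0⟩, 0⟩ 0 0)) (.pos 154 .pp ⟨7057724278, 1300317849, 0, 0, 0, 0, 0, 0, 0, ⟨0, 0⟩, 0⟩ 0 0))) (.cut .v 118489088 (.pos 156 .pp ⟨7747409390,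 0, 0, 0, 0, 0, 0, 0, 0, ⟨0, 0⟩, 0⟩ 0 0) (.pos 157 .pp ⟨8578238136, 1368617819, 0, 0, 0, 0, 0, 0, 0, ⟨0, 0⟩, 0⟩ 0 0))) (.void 155 ⟨27033, 72967, 0, 0, 0, 0, 0, 0, 0, ⟨0, 0⟩, 0⟩ 0 0)) (.void 152 ⟨0, 100000, 0, 0, 0, 0, 0, 0, 0, ⟨0, 0⟩, 0⟩ 0 0))) (.void 153 ⟨37415, 62585, 0, 0, 0, 0, 0, 0, 0, ⟨0, 0⟩, 0⟩ 0 0)) (.void 151 ⟨37415, 62585, 0, 0, 0, 0, 0, 0, 0, ⟨0, 0⟩, 0⟩ 0 0))))) (.pos 97 .pp ⟨0, 904518202, 0, 0, 0, 0, 0, 0, 0, ⟨0, 0⟩, 0⟩ 0 0)) (.void 98 ⟨36979, 63021, 0, 0, 0, 0, 0, 0, 0, ⟨0, 0⟩, 0⟩ 0 0))) (.pos 95 .pp ⟨0, 400630104, 0, 0, 0, 0, 0, 0, 0, ⟨0, 0⟩, 0⟩ 0 0)) (.void 109 ⟨0, 0, 0, 100000, 0, 0, 0, 0, 0, ⟨0, 0⟩, 0⟩ 0 0)))),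
    by decide +kernel⟩

def covers20 : cell.Covers table row20.1 :=
  ⟨(.cut .d 0 (.cut .v 16777216 (.cut .d (-8388608) (.void 1 ⟨0, 0, 0, 0, 0, 100000, 0, 0, 0, ⟨0, 0⟩, 0⟩ 0 0) (.cut .d (-4194304) (.pos 1 .mm ⟨0, 0, 0, 0, 0, 167772160000, 0, 0, 0, ⟨0, 0⟩, 0⟩ 0 0) (.cut .d (-2097152) (.void 1 ⟨0, 0, 0, 0, 0, 100000, 0, 0, 0, ⟨0, 0⟩, 0⟩ 0 0) (.cut .d (-1048576) (.void 1 ⟨0, 0, 0, 0, 0, 100000, 0, 0, 0, ⟨0, 0⟩, 0⟩ 0 0) (.cut .d (-524288) (.void 1 ⟨0, 0, 0, 0, 0, 100000, 0, 0, 0, ⟨0, 0⟩, 0⟩ 0 0) (.cut .d (-262144) (.void 1 ⟨0, 0, 0, 0, 0, 100000, 0, 0, 0, ⟨0, 0⟩, 0⟩ 0 0) (.cut .d (-131072) (.void 1 ⟨0, 0, 0, 0, 0, 100000, 0, 0, 0, ⟨0, 0⟩, 0⟩ 0 0) (.cut .d (-65536)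 (.void 1 ⟨0, 0, 0, 0, 0, 100000, 0, 0, 0, ⟨0, 0⟩, 0⟩ 0 0) (.cut .v 8388608 (.cut .v 4194304 (.void 4 ⟨0, 0, 100000, 0, 0, 0, 0, 0, 0, ⟨0, 0⟩, 0⟩ 0 0) (.cut .d (-32768) (.pos 5 .mm ⟨0, 0, 9415299, 0, 0, 830743919, 0, 0, 0, ⟨0, 0⟩, 0⟩ 0 0) (.cut .v 6291456 (.void 105 ⟨0, 0, 100000, 0, 0, 0, 0, 0, 0, ⟨0, 0⟩, 0⟩ 0 0) (.cut .s 13500416 (.pos 106 .mm ⟨0, 0, 10407755, 0, 0, 428500333, 0, 0, 0, ⟨0, 0⟩, 0⟩ 0 0) (.cut .s 13631488 (.pos 106 .mm ⟨0, 0, 14941504, 0, 0, 486692381, 0, 0, 0, ⟨0, 0⟩, 0⟩ 0 0) (.pos 106 .mm ⟨0, 0, 18873470, 0, 0, 521217482, 0, 0, 0, ⟨0, 0⟩, 0⟩ 0 0)))))) (.cut .v 12582912 (.pos 8 .mm ⟨0, 0, 0, 0, 0, 511598306, 0, 0, 0, ⟨0, 0⟩, 0⟩ 0 0) (.pos 9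 .mm ⟨0, 0, 0, 0, 0, 777664435, 0, 0, 0, ⟨0, 0⟩, 0⟩ 0 0))))))))))) (.cut .v 268435456 (.cut .v 67108864 (.cut .v 33554432 (.cut .d (-8388608) (.void 30 ⟨100000, 0, 0, 0, 0, 0, 0, 0, 0, ⟨0, 0⟩, 0⟩ 0 0) (.cut .d (-4194304) (.void 30 ⟨100000, 0, 0, 0, 0, 0, 0, 0, 0, ⟨0, 0⟩, 0⟩ 0 0) (.cut .v 25165824 (.cut .d (-2097152) (.void 31 ⟨100000, 0, 0, 0, 0, 0, 0, 0, 0, ⟨0, 0⟩, 0⟩ 0 0) (.cut .d (-1048576) (.void 31 ⟨100000, 0, 0, 0, 0, 0, 0, 0, 0, ⟨0, 0⟩, 0⟩ 0 0) (.cut .d (-524288) (.void 31 ⟨100000, 0, 0, 0, 0, 0, 0, 0, 0, ⟨0, 0⟩, 0⟩ 0 0) (.pos 31 .mp ⟨961345329, 0, 0, 0, 0, 0, 0, 0, 0, ⟨0, 0⟩, 0⟩ 0 0)))) (.void 32 ⟨100000, 0, 0, 0, 0, 0, 0, 0, 0, ⟨0, 0⟩, 0⟩ 0 0)))) (.void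 83 ⟨100000, 0, 0, 0, 0, 0, 0, 0, 0, ⟨0, 0⟩, 0⟩ 0 0)) (.void 96 ⟨100000, 0, 0, 0, 0, 0, 0, 0, 0, ⟨0, 0⟩, 0⟩ 0 0)) (.void 109 ⟨96085, 0, 0, 3915, 0, 0, 0, 0, 0, ⟨0, 0⟩, 0⟩ 0 0))) (.cut .v 16777216 (.cut .v 8388608 (.cut .v 4194304 (.cut .v 2097152 (.cut .d 2242500 (.void 6 ⟨0, 0, 100000, 0, 0, 0, 0, 0, 0, ⟨0, 0⟩, 0⟩ 0 0) (.cut .v 1048576 (.cut .v 524288 (.pos 148 .pm ⟨0, 0, 4545704, 0, 0, 0, 0, 0, 0, ⟨0, 0⟩, 0⟩ 0 0) (.pos 149 .pm ⟨0, 32208582, 0, 0, 0, 0, 0, 0, 0, ⟨0, 0⟩, 0⟩ 0 0)) (.cut .d 3363750 (.pos 119 .pm ⟨0, 0, 0, 0, 0, 0, 0, 0, 0, ⟨0, 0⟩, 0⟩ 0 0) (.pos 119 .pm ⟨0, 105532179, 0, 0, 0, 0, 0, 0, 0, ⟨0, 0⟩, 0⟩ 0 0)))) (.cut .d 2242500 (.pos 7 .pm ⟨0, 0, 103391753,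 0, 0, 0, 0, 0, 0, ⟨0, 0⟩, 0⟩ 0 0) (.cut .d 3363750 (.pos 7 .pm ⟨0, 0, 0, 0, 0, 0, 0, 0, 0, ⟨0, 0⟩, 0⟩ 0 0) (.cut .d 3924375 (.cut .s 13500416 (.pos 7 .pm ⟨0, 0, 0, 0, 0, 0, 0, 0, 0, ⟨0, 0⟩, 0⟩ 0 0) (.pos 7 .pm ⟨0, 157891092, 0, 0, 0, 0, 0, 0, 0, ⟨0, 0⟩, 0⟩ 0 0)) (.cut .s 13500416 (.pos 7 .pm ⟨0, 186213646, 0, 0, 0, 0, 0, 0, 0, ⟨0, 0⟩, 0⟩ 0 0) (.pos 7 .pm ⟨0, 271926579, 0, 0, 0, 0, 0, 0, 0, ⟨0, 0⟩, 0⟩ 0 0)))))) (.cut .d 2242500 (.pos 5 .pm ⟨0, 0, 20231490, 0, 0, 0, 0, 0, 0, ⟨0, 0⟩, 0⟩ 0 0) (.cut .d 3363750 (.pos 5 .pm ⟨0, 0, 0, 0, 0, 0, 0, 0, 0, ⟨0, 0⟩, 0⟩ 0 0) (.cut .d 3924375 (.cut .s 13500416 (.pos 5 .pm ⟨0, 108421745, 0, 0, 0, 0, 0, 0, 0, ⟨0, 0⟩, 0⟩ 0 0)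 (.pos 5 .pm ⟨0, 217822844, 0, 0, 0, 0, 0, 0, 0, ⟨0, 0⟩, 0⟩ 0 0)) (.cut .s 13500416 (.cut .d 4204688 (.pos 5 .pm ⟨0, 211343720, 0, 0, 0, 0, 0, 0, 0, ⟨0, 0⟩, 0⟩ 0 0) (.pos 5 .pm ⟨0, 279995022, 0, 0, 0, 0, 0, 0, 0, ⟨0, 0⟩, 0⟩ 0 0)) (.pos 5 .pm ⟨0, 384366070, 0, 0, 0, 0, 0, 0, 0, ⟨0, 0⟩, 0⟩ 0 0)))))) (.cut .d 2242500 (.pos 3 .pm ⟨0, 0, 0, 0, 0, 0, 0, 0, 0, ⟨0, 0⟩, 0⟩ 0 0) (.cut .d 3363750 (.pos 3 .pm ⟨0, 0, 0, 0, 0, 0, 0, 0, 0, ⟨0, 0⟩, 0⟩ 0 0) (.pos 3 .pm ⟨0, 402463990, 0, 0, 0, 0, 0, 0, 0, ⟨0, 0⟩, 0⟩ 0 0)))) (.cut .v 268435456 (.cut .d 2242500 (.cut .v 67108864 (.cut .d 1121250 (.cut .v 33554432 (.pos 30 .pp ⟨458623900, 0, 0, 0, 0, 0, 0, 0, 0, ⟨0, 0⟩, 0⟩ 0 0)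 (.cut .v 50331648 (.pos 86 .pp ⟨1461297978, 0, 0, 0, 0, 0, 0, 0, 0, ⟨0, 0⟩, 0⟩ 0 0) (.pos 87 .pp ⟨2875604670, 0, 0, 0, 0, 0, 0, 0, 0, ⟨0, 0⟩, 0⟩ 0 0))) (.pos 82 .pp ⟨0, 0, 0, 0, 0, 0, 0, 0, 0, ⟨0, 0⟩, 0⟩ 0 0)) (.cut .v 134217728 (.cut .d 1121250 (.cut .d 560625 (.pos 97 .pp ⟨37962604924, 0, 0, 0, 0, 0, 0, 0, 0, ⟨0, 0⟩, 0⟩ 0 0) (.cut .v 100663296 (.cut .d 840937 (.pos 101 .pp ⟨6033602571, 0, 0, 0, 0, 0, 0, 0, 0, ⟨0, 0⟩, 0⟩ 0 0) (.pos 101 .pp ⟨3814419558, 0, 0, 0, 0, 0, 0, 0, 0, ⟨0, 0⟩, 0⟩ 0 0)) (.cut .d 840937 (.pos 102 .pp ⟨12909844332, 406353022, 0, 0, 0, 0, 0, 0, 0, ⟨0, 0⟩, 0⟩ 0 0) (.cut .v 117440512 (.pos 116 .pp ⟨7797481760, 0, 0, 0, 0, 0, 0, 0, 0, ⟨0,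 0⟩, 0⟩ 0 0) (.cut .v 125829120 (.cut .d 981093 (.cut .v 121634816 (.pos 152 .pp ⟨9541132025, 999178741, 0, 0, 0, 0, 0, 0, 0, ⟨0, 0⟩, 0⟩ 0 0) (.void 153 ⟨28172, 71828, 0, 0, 0, 0, 0, 0, 0, ⟨0, 0⟩, 0⟩ 0 0)) (.pos 150 .pp ⟨0, 3139106547, 0, 0, 0, 0, 0, 0, 0, ⟨0, 0⟩, 0⟩ 0 0)) (.void 151 ⟨21334, 78666, 0, 0, 0, 0, 0, 0, 0, ⟨0, 0⟩, 0⟩ 0 0)))))) (.pos 97 .pp ⟨0, 977302093, 0, 0, 0, 0, 0, 0, 0, ⟨0, 0⟩, 0⟩ 0 0)) (.void 98 ⟨36360, 63640, 0, 0, 0, 0, 0, 0, 0, ⟨0, 0⟩, 0⟩ 0 0))) (.pos 95 .pp ⟨0, 461088324, 0, 0, 0, 0, 0, 0, 0, ⟨0, 0⟩, 0⟩ 0 0)) (.void 109 ⟨0, 0, 0, 100000, 0, 0, 0, 0, 0, ⟨0, 0⟩, 0⟩ 0 0)))),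
    by decide +kernel⟩

def covers21 : cell.Covers table row21.1 :=
  ⟨(.cut .d 0 (.cut .v 16777216 (.cut .d (-8388608) (.void 1 ⟨0, 0, 0, 0, 0, 100000, 0, 0, 0, ⟨0, 0⟩, 0⟩ 0 0) (.cut .d (-4194304) (.void 1 ⟨0, 0, 5383, 0, 0, 98092, 0, 0, 0, ⟨0, 0⟩, 0⟩ 0 0) (.cut .d (-2097152) (.void 1 ⟨0, 0, 0, 0, 0, 100000, 0, 0, 0, ⟨0, 0⟩, 0⟩ 0 0) (.cut .d (-1048576) (.void 1 ⟨0, 0, 0, 0, 0, 99998, 0, 0, 0, ⟨0, 0⟩, 0⟩ 0 0) (.cut .d (-524288) (.void 1 ⟨0, 0, 0, 0, 0, 100000, 0, 0, 0, ⟨0, 0⟩, 0⟩ 0 0) (.cut .d (-262144) (.void 1 ⟨0, 0, 0, 0, 0, 100000, 0, 0, 0, ⟨0, 0⟩, 0⟩ 0 0) (.cut .d (-131072) (.void 1 ⟨0, 0, 0, 0, 0, 100000, 0, 0, 0, ⟨0, 0⟩, 0⟩ 0 0) (.cut .v 8388608 (.cut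 .v 4194304 (.void 4 ⟨0, 0, 100000, 0, 0, 0, 0, 0, 0, ⟨0, 0⟩, 0⟩ 0 0) (.cut .v 6291456 (.void 105 ⟨0, 0, 100000, 0, 0, 0, 0, 0, 0, ⟨0, 0⟩, 0⟩ 0 0) (.cut .s 13959168 (.cut .s 13860864 (.cut .s 13811712 (.cut .s 13787136 (.pos 106 .mm ⟨0, 0, 18948975, 0, 0, 538879377, 0, 0, 0, ⟨0, 0⟩, 0⟩ 0 0) (.pos 106 .mm ⟨0, 0, 19718320, 0, 0, 544422615, 0, 0, 0, ⟨0, 0⟩, 0⟩ 0 0)) (.pos 106 .mm ⟨0, 0, 20898180, 0, 0, 554302674, 0, 0, 0, ⟨0, 0⟩, 0⟩ 0 0)) (.pos 106 .mm ⟨0, 0, 23591276, 0, 0, 575787680, 0, 0, 0, ⟨0, 0⟩, 0⟩ 0 0)) (.pos 106 .mm ⟨0, 0, 30463816, 0, 0, 625180919, 0, 0, 0, ⟨0, 0⟩, 0⟩ 0 0)))) (.pos 3 .mm ⟨0, 0, 0, 0, 0, 718765212, 0, 0, 0, ⟨0, 0⟩, 0⟩ 0 0))))))))) (.cut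 .v 268435456 (.cut .v 67108864 (.cut .v 33554432 (.cut .d (-8388608) (.void 30 ⟨100000, 0, 0, 0, 0, 0, 0, 0, 0, ⟨0, 0⟩, 0⟩ 0 0) (.pos 30 .mp ⟨330030058, 0, 0, 0, 0, 9281223153, 0, 0, 0, ⟨0, 0⟩, 0⟩ 0 0)) (.void 83 ⟨100000, 0, 0, 0, 0, 0, 0, 0, 0, ⟨0, 0⟩, 0⟩ 0 0)) (.void 96 ⟨100000, 0, 0, 0, 0, 0, 0, 0, 0, ⟨0, 0⟩, 0⟩ 0 0)) (.void 109 ⟨95966, 0, 0, 4034, 0, 0, 0, 0, 0, ⟨0, 0⟩, 0⟩ 0 0))) (.cut .v 16777216 (.cut .v 8388608 (.cut .v 4194304 (.cut .v 2097152 (.cut .d 1837506 (.void 6 ⟨0, 0, 100000, 0, 0, 0, 0, 0, 0, ⟨0, 0⟩, 0⟩ 0 0) (.cut .v 1048576 (.cut .v 524288 (.pos 148 .pm ⟨0, 0, 3010822, 0, 0, 0, 0, 0, 0, ⟨0, 0⟩, 0⟩ 0 0) (.pos 149 .pm ⟨0, 33742592, 0, 0, 0,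 0, 0, 0, 0, ⟨0, 0⟩, 0⟩ 0 0)) (.cut .d 2756259 (.pos 119 .pm ⟨0, 0, 0, 0, 0, 0, 0, 0, 0, ⟨0, 0⟩, 0⟩ 0 0) (.pos 119 .pm ⟨0, 106297406, 0, 0, 0, 0, 0, 0, 0, ⟨0, 0⟩, 0⟩ 0 0)))) (.cut .d 1837506 (.pos 7 .pm ⟨0, 0, 145438310, 0, 0, 0, 0, 0, 0, ⟨0, 0⟩, 0⟩ 0 0) (.cut .d 2756259 (.pos 7 .pm ⟨0, 0, 0, 0, 0, 0, 0, 0, 0, ⟨0, 0⟩, 0⟩ 0 0) (.cut .d 3215635 (.pos 7 .pm ⟨0, 111494571, 0, 0, 0, 0, 0, 0, 0, ⟨0, 0⟩, 0⟩ 0 0) (.cut .d 3445323 (.pos 7 .pm ⟨0, 176313426, 0, 0, 0, 0, 0, 0, 0, ⟨0, 0⟩, 0⟩ 0 0) (.pos 7 .pm ⟨0, 239170482, 0, 0, 0, 0, 0, 0, 0, ⟨0, 0⟩, 0⟩ 0 0)))))) (.cut .d 1837506 (.pos 5 .pm ⟨0, 0, 33317597, 0, 0, 0, 0, 0, 0, ⟨0, 0⟩, 0⟩ 0 0) (.cut .d 2756259 (.pos 5 .pm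 ⟨0, 0, 0, 0, 0, 0, 0, 0, 0, ⟨0, 0⟩, 0⟩ 0 0) (.cut .d 3215635 (.pos 5 .pm ⟨0, 168086889, 0, 0, 0, 0, 0, 0, 0, ⟨0, 0⟩, 0⟩ 0 0) (.pos 5 .pm ⟨0, 289209174, 0, 0, 0, 0, 0, 0, 0, ⟨0, 0⟩, 0⟩ 0 0))))) (.cut .d 1837506 (.pos 3 .pm ⟨0, 0, 0, 0, 0, 0, 0, 0, 0, ⟨0, 0⟩, 0⟩ 0 0) (.pos 3 .pm ⟨0, 288180066, 0, 0, 0, 0, 0, 0, 0, ⟨0, 0⟩, 0⟩ 0 0))) (.cut .v 268435456 (.cut .d 1837506 (.cut .v 67108864 (.cut .v 33554432 (.pos 30 .pp ⟨330030058, 0, 0, 0, 0, 0, 0, 0, 0, ⟨0, 0⟩, 0⟩ 0 0) (.cut .v 50331648 (.pos 86 .pp ⟨1252682845, 0, 0, 0, 0, 0, 0, 0, 0, ⟨0, 0⟩, 0⟩ 0 0) (.cut .d 918753 (.pos 87 .pp ⟨3297605764, 0, 0, 0, 0, 0, 0, 0, 0, ⟨0, 0⟩, 0⟩ 0 0) (.pos 87 .pp ⟨0, 0, 0, 0, 0, 0,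 0, 0, 0, ⟨0, 0⟩, 0⟩ 0 0)))) (.cut .v 134217728 (.cut .d 918753 (.cut .d 459376 (.pos 97 .pp ⟨165399441664, 0, 0, 0, 0, 0, 0, 0, 0, ⟨0, 0⟩, 0⟩ 0 0) (.cut .v 100663296 (.pos 101 .pp ⟨5581936047, 0, 0, 0, 0, 0, 0, 0, 0, ⟨0, 0⟩, 0⟩ 0 0) (.cut .v 117440512 (.pos 116 .pp ⟨9534255150, 0, 0, 0, 0, 0, 0, 0, 0, ⟨0, 0⟩, 0⟩ 0 0) (.pos 117 .pp ⟨13089387047, 5361180230, 0, 0, 0, 0, 0, 0, 0, ⟨0, 0⟩, 0⟩ 0 0)))) (.pos 97 .pp ⟨0, 969029993, 0, 0, 0, 0, 0, 0, 0, ⟨0, 0⟩, 0⟩ 0 0)) (.void 98 ⟨35972, 64028, 0, 0, 0, 0, 0, 0, 0, ⟨0, 0⟩, 0⟩ 0 0))) (.pos 95 .pp ⟨0, 449401604, 0, 0, 0, 0, 0, 0, 0, ⟨0, 0⟩, 0⟩ 0 0)) (.void 109 ⟨0, 0, 0, 100000, 0, 0, 0, 0, 0, ⟨0, 0⟩, 0⟩ 0 0)))),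
    by decide +kernel⟩

def covers22 : cell.Covers table row22.1 :=
  ⟨(.cut .d 0 (.cut .v 16777216 (.cut .d (-8388608) (.void 1 ⟨0, 0, 0, 0, 0, 100000, 0, 0, 0, ⟨0, 0⟩, 0⟩ 0 0) (.cut .d (-4194304) (.void 1 ⟨0, 0, 0, 0, 0, 100000, 0, 0, 0, ⟨0, 0⟩, 0⟩ 0 0) (.cut .d (-2097152) (.void 1 ⟨0, 0, 2, 0, 0, 100005, 0, 0, 0, ⟨0, 0⟩, 0⟩ 0 0) (.cut .d (-1048576) (.void 1 ⟨0, 0, 0, 0, 0, 100000, 0, 0, 0, ⟨0, 0⟩, 0⟩ 0 0) (.cut .d (-524288) (.void 1 ⟨0, 0, 0, 0, 0, 100000, 0, 0, 0, ⟨0, 0⟩, 0⟩ 0 0) (.cut .d (-262144) (.void 1 ⟨0, 0, 0, 0, 0, 100000, 0, 0, 0, ⟨0, 0⟩, 0⟩ 0 0) (.cut .v 8388608 (.cut .v 4194304 (.void 4 ⟨0, 0, 100000, 0, 0, 0, 0, 0, 0, ⟨0, 0⟩, 0⟩ 0 0) (.cut .s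 14319616 (.pos 5 .mm ⟨0, 0, 42895888, 0, 0, 700173488, 0, 0, 0, ⟨0, 0⟩, 0⟩ 0 0) (.pos 5 .mm ⟨0, 0, 52634713, 0, 0, 758901412, 0, 0, 0, ⟨0, 0⟩, 0⟩ 0 0))) (.pos 3 .mm ⟨0, 0, 0, 0, 0, 1202587690, 0, 0, 0, ⟨0, 0⟩, 0⟩ 0 0)))))))) (.cut .v 268435456 (.cut .v 67108864 (.cut .v 33554432 (.pos 30 .mp ⟨120142154, 0, 0, 0, 0, 20211905219, 0, 0, 0, ⟨0, 0⟩, 0⟩ 0 0) (.void 83 ⟨100000, 0, 0, 0, 0, 0, 0, 0, 0, ⟨0, 0⟩, 0⟩ 0 0)) (.void 96 ⟨100000, 0, 0, 0, 0, 0, 0, 0, 0, ⟨0, 0⟩, 0⟩ 0 0)) (.void 109 ⟨96226, 0, 0, 3120, 0, 0, 0, 0, 0, ⟨0, 0⟩, 0⟩ 0 0))) (.cut .v 16777216 (.cut .v 8388608 (.cut .v 4194304 (.cut .v 2097152 (.cut .d 1553447 (.void 6 ⟨0, 0, 100000, 0, 0, 0, 0, 0, 0,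 ⟨0, 0⟩, 0⟩ 0 0) (.cut .v 1048576 (.cut .v 524288 (.cut .v 262144 (.pos 164 .pm ⟨0, 0, 12063389, 0, 0, 0, 0, 0, 0, ⟨0, 0⟩, 0⟩ 0 0) (.pos 165 .pm ⟨0, 7922479, 0, 0, 0, 0, 0, 0, 0, ⟨0, 0⟩, 0⟩ 0 0)) (.pos 149 .pm ⟨0, 33928893, 0, 0, 0, 0, 0, 0, 0, ⟨0, 0⟩, 0⟩ 0 0)) (.pos 119 .pm ⟨0, 65648144, 0, 0, 0, 0, 0, 0, 0, ⟨0, 0⟩, 0⟩ 0 0))) (.cut .d 1553447 (.pos 7 .pm ⟨0, 0, 192239346, 0, 0, 0, 0, 0, 0, ⟨0, 0⟩, 0⟩ 0 0) (.cut .d 2330170 (.pos 7 .pm ⟨0, 0, 0, 0, 0, 0, 0, 0, 0, ⟨0, 0⟩, 0⟩ 0 0) (.cut .d 2718532 (.pos 7 .pm ⟨0, 102153060, 0, 0, 0, 0, 0, 0, 0, ⟨0, 0⟩, 0⟩ 0 0) (.pos 7 .pm ⟨0, 188085804, 0, 0, 0, 0, 0, 0, 0, ⟨0, 0⟩, 0⟩ 0 0))))) (.cut .d 1553447 (.pos 5 .pm ⟨0, 0,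 51804065, 0, 0, 0, 0, 0, 0, ⟨0, 0⟩, 0⟩ 0 0) (.cut .d 2330170 (.pos 5 .pm ⟨0, 0, 0, 0, 0, 0, 0, 0, 0, ⟨0, 0⟩, 0⟩ 0 0) (.pos 5 .pm ⟨0, 231792494, 0, 0, 0, 0, 0, 0, 0, ⟨0, 0⟩, 0⟩ 0 0)))) (.cut .d 1553447 (.pos 3 .pm ⟨0, 0, 0, 0, 0, 0, 0, 0, 0, ⟨0, 0⟩, 0⟩ 0 0) (.pos 3 .pm ⟨0, 281890170, 0, 0, 0, 0, 0, 0, 0, ⟨0, 0⟩, 0⟩ 0 0))) (.cut .v 268435456 (.cut .d 1553447 (.cut .v 67108864 (.cut .v 33554432 (.pos 30 .pp ⟨120142154, 0, 0, 0, 0, 0, 0, 0, 0, ⟨0, 0⟩, 0⟩ 0 0) (.cut .v 50331648 (.pos 86 .pp ⟨1412475510, 0, 0, 0, 0, 0, 0, 0, 0, ⟨0, 0⟩, 0⟩ 0 0) (.pos 87 .pp ⟨2801461445, 0, 0, 0, 0, 0, 0, 0, 0, ⟨0, 0⟩, 0⟩ 0 0))) (.cut .v 134217728 (.cut .d 776723 (.cut .v 100663296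 (.pos 101 .pp ⟨7745917613, 0, 0, 0, 0, 0, 0, 0, 0, ⟨0, 0⟩, 0⟩ 0 0) (.cut .d 388361 (.void 102 ⟨100000, 0, 0, 0, 0, 0, 0, 0, 0, ⟨0, 0⟩, 0⟩ 0 0) (.pos 102 .pp ⟨13230106302, 0, 0, 0, 0, 0, 0, 0, 0, ⟨0, 0⟩, 0⟩ 0 0))) (.pos 97 .pp ⟨0, 903070782, 0, 0, 0, 0, 0, 0, 0, ⟨0, 0⟩, 0⟩ 0 0)) (.void 98 ⟨35632, 64368, 0, 0, 0, 0, 0, 0, 0, ⟨0, 0⟩, 0⟩ 0 0))) (.pos 95 .pp ⟨0, 421857225, 0, 0, 0, 0, 0, 0, 0, ⟨0, 0⟩, 0⟩ 0 0)) (.void 109 ⟨0, 0, 0, 100000, 0, 0, 0, 0, 0, ⟨0, 0⟩, 0⟩ 0 0)))),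
    by decide +kernel⟩

def covers23 : cell.Covers table row23.1 :=
  ⟨(.cut .d 0 (.cut .v 16777216 (.cut .d (-8388608) (.void 1 ⟨0, 0, 3386693, 30617, 0, 0, 0, 0, 279, ⟨0, 0⟩, 7933456⟩ 0 0) (.cut .d (-4194304) (.pos 1 .mm ⟨0, 0, 0, 0, 0, 167772160000, 0, 0, 0, ⟨0, 0⟩, 0⟩ 0 0) (.cut .d (-2097152) (.pos 1 .mm ⟨0, 0, 0, 0, 0, 167772160000, 0, 0, 0, ⟨0, 0⟩, 0⟩ 0 0) (.cut .d (-1048576) (.void 1 ⟨0, 0, 0, 0, 0, 100000, 0, 0, 0, ⟨0, 0⟩, 0⟩ 0 0) (.cut .d (-524288) (.void 1 ⟨0, 0, 0, 0, 0, 100000, 0, 0, 0, ⟨0, 0⟩, 0⟩ 0 0) (.cut .d (-262144) (.void 1 ⟨0, 0, 0, 0, 0, 100000, 0, 0, 0, ⟨0, 0⟩, 0⟩ 0 0) (.cut .d (-131072) (.void 1 ⟨0, 0, 0, 0, 0, 100000, 0, 0, 0, ⟨0, 0⟩,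 0⟩ 0 0) (.cut .v 8388608 (.cut .v 4194304 (.void 4 ⟨0, 0, 100000, 0, 0, 0, 0, 0, 0, ⟨0, 0⟩, 0⟩ 0 0) (.pos 5 .mm ⟨0, 0, 76677444, 0, 0, 854016556, 0, 0, 0, ⟨0, 0⟩, 0⟩ 0 0)) (.pos 3 .mm ⟨0, 0, 0, 0, 0, 949401371, 0, 0, 0, ⟨0, 0⟩, 0⟩ 0 0))))))))) (.cut .v 268435456 (.cut .v 67108864 (.cut .v 33554432 (.pos 30 .mp ⟨0, 0, 0, 0, 0, 26285576675, 0, 0, 0, ⟨0, 0⟩, 0⟩ 0 0) (.void 83 ⟨100000, 0, 0, 0, 0, 0, 0, 0, 0, ⟨0, 0⟩, 0⟩ 0 0)) (.void 96 ⟨100000, 0, 0, 0, 0, 0, 0, 0, 0, ⟨0, 0⟩, 0⟩ 0 0)) (.void 109 ⟨49940, 0, 0, 2395, 0, 30523, 0, 0, 0, ⟨0, 0⟩, 0⟩ 0 0))) (.cut .v 16777216 (.cut .v 8388608 (.cut .v 4194304 (.cut .v 2097152 (.cut .d 1328514 (.void 6 ⟨0, 0, 100000, 0,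 0, 0, 0, 0, 0, ⟨0, 0⟩, 0⟩ 0 0) (.cut .v 1048576 (.cut .v 524288 (.cut .v 262144 (.pos 164 .pm ⟨0, 0, 11062083, 0, 0, 0, 0, 0, 0, ⟨0, 0⟩, 0⟩ 0 0) (.pos 165 .pm ⟨0, 9428229, 0, 0, 0, 0, 0, 0, 0, ⟨0, 0⟩, 0⟩ 0 0)) (.pos 149 .pm ⟨0, 34110668, 0, 0, 0, 0, 0, 0, 0, ⟨0, 0⟩, 0⟩ 0 0)) (.pos 119 .pm ⟨0, 60958458, 0, 0, 0, 0, 0, 0, 0, ⟨0, 0⟩, 0⟩ 0 0))) (.cut .d 1328514 (.pos 7 .pm ⟨0, 0, 259745981, 0, 0, 0, 0, 0, 0, ⟨0, 0⟩, 0⟩ 0 0) (.cut .d 1992771 (.pos 7 .pm ⟨0, 0, 0, 0, 0, 0, 0, 0, 0, ⟨0, 0⟩, 0⟩ 0 0) (.pos 7 .pm ⟨0, 134200926, 0, 0, 0, 0, 0, 0, 0, ⟨0, 0⟩, 0⟩ 0 0)))) (.cut .d 1328514 (.pos 5 .pm ⟨0, 0, 77217511, 0, 0, 0, 0, 0, 0, ⟨0, 0⟩, 0⟩ 0 0) (.pos 5 .pm ⟨0, 150506728,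 0, 0, 0, 0, 0, 0, 0, ⟨0, 0⟩, 0⟩ 0 0))) (.pos 3 .pm ⟨0, 0, 0, 0, 0, 0, 0, 0, 0, ⟨0, 0⟩, 0⟩ 0 0)) (.cut .v 268435456 (.cut .d 1328514 (.cut .v 67108864 (.cut .v 33554432 (.pos 30 .pp ⟨0, 0, 0, 0, 0, 0, 0, 0, 0, ⟨0, 0⟩, 0⟩ 0 0) (.cut .v 50331648 (.pos 86 .pp ⟨1573364698, 0, 0, 0, 0, 0, 0, 0, 0, ⟨0, 0⟩, 0⟩ 0 0) (.pos 87 .pp ⟨3123434988, 0, 0, 0, 0, 0, 0, 0, 0, ⟨0, 0⟩, 0⟩ 0 0))) (.cut .v 134217728 (.cut .d 664257 (.cut .v 100663296 (.pos 101 .pp ⟨8446075278, 0, 0, 0, 0, 0, 0, 0, 0, ⟨0, 0⟩, 0⟩ 0 0) (.cut .v 117440512 (.pos 116 .pp ⟨13206719913, 0, 0, 0, 0, 0, 0, 0, 0, ⟨0, 0⟩, 0⟩ 0 0) (.pos 117 .pp ⟨17188155329, 0, 0, 0, 0, 0, 0, 0, 0, ⟨0, 0⟩, 0⟩ 0 0))) (.pos 97 .pp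 ⟨0, 834066989, 0, 0, 0, 0, 0, 0, 0, ⟨0, 0⟩, 0⟩ 0 0)) (.void 98 ⟨35267, 64733, 0, 0, 0, 0, 0, 0, 0, ⟨0, 0⟩, 0⟩ 0 0))) (.pos 95 .pp ⟨0, 371642450, 0, 0, 0, 0, 0, 0, 0, ⟨0, 0⟩, 0⟩ 0 0)) (.void 109 ⟨0, 0, 0, 100000, 0, 0, 0, 0, 0, ⟨0, 0⟩, 0⟩ 0 0)))),
    by decide +kernel⟩

def covers24 : cell.Covers table row24.1 :=
  ⟨(.cut .d 0 (.cut .v 16777216 (.cut .d (-8388608) (.pos 1 .mm ⟨0, 0, 0, 0, 0, 167772160000, 0, 0, 0, ⟨0, 0⟩, 0⟩ 0 0) (.cut .d (-4194304) (.pos 1 .mm ⟨0, 0, 0, 0, 0, 167772160000, 0, 0, 0, ⟨0, 0⟩, 0⟩ 0 0) (.cut .d (-2097152) (.void 1 ⟨0, 0, 0, 0, 0, 100000, 0, 0, 0, ⟨0, 0⟩, 0⟩ 0 0) (.cut .d (-1048576) (.void 1 ⟨0, 0, 0, 0, 0, 100000, 0, 0, 0, ⟨0,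 0⟩, 0⟩ 0 0) (.cut .d (-524288) (.void 1 ⟨0, 0, 0, 0, 0, 100000, 0, 0, 0, ⟨0, 0⟩, 0⟩ 0 0) (.cut .d (-262144) (.void 1 ⟨0, 0, 0, 0, 0, 100000, 0, 0, 0, ⟨0, 0⟩, 0⟩ 0 0) (.cut .d (-131072) (.void 1 ⟨0, 0, 0, 0, 0, 100000, 0, 0, 0, ⟨0, 0⟩, 0⟩ 0 0) (.cut .d (-65536) (.void 1 ⟨0, 0, 0, 0, 0, 100000, 0, 0, 0, ⟨0, 0⟩, 0⟩ 0 0) (.cut .v 8388608 (.cut .v 4194304 (.void 4 ⟨0, 0, 100000, 0, 0, 0, 0, 0, 0, ⟨0, 0⟩, 0⟩ 0 0) (.pos 5 .mm ⟨0, 0, 915780874, 0, 0, 0, 0, 0, 0, ⟨0, 0⟩, 0⟩ 0 0)) (.cut .v 12582912 (.cut .d (-32768) (.pos 8 .mm ⟨0, 0, 345326651, 0, 0, 167426833349, 0, 0, 0, ⟨0, 0⟩, 0⟩ 0 0) (.pos 8 .mm ⟨0, 0, 69274502, 0, 0, 999304018, 0, 0, 0, ⟨0, 0⟩, 0⟩ 0 0)) (.pos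 9 .mm ⟨0, 0, 0, 0, 0, 1433407111, 0, 0, 0, ⟨0, 0⟩, 0⟩ 0 0))))))))))) (.cut .v 268435456 (.cut .v 67108864 (.pos 82 .mp ⟨2277048393, 0, 0, 0, 0, 66879141041, 0, 0, 0, ⟨0, 0⟩, 0⟩ 0 0) (.void 96 ⟨100000, 0, 0, 0, 0, 0, 0, 0, 0, ⟨0, 0⟩, 0⟩ 0 0)) (.void 109 ⟨95704, 0, 0, 4296, 0, 0, 0, 0, 0, ⟨0, 0⟩, 0⟩ 0 0))) (.cut .v 16777216 (.cut .v 8388608 (.cut .v 4194304 (.cut .v 2097152 (.cut .d 1113533 (.void 6 ⟨0, 0, 100000, 0, 0, 0, 0, 0, 0, ⟨0, 0⟩, 0⟩ 0 0) (.cut .v 1048576 (.cut .v 524288 (.cut .v 262144 (.pos 164 .pm ⟨0, 0, 11649029, 0, 0, 0, 0, 0, 0, ⟨0, 0⟩, 0⟩ 0 0) (.pos 165 .pm ⟨0, 5995778, 0, 0, 0, 0, 0, 0, 0, ⟨0, 0⟩, 0⟩ 0 0)) (.pos 149 .pm ⟨0, 25647808, 0, 0, 0,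 0, 0, 0, 0, ⟨0, 0⟩, 0⟩ 0 0)) (.pos 119 .pm ⟨0, 39327531, 0, 0, 0, 0, 0, 0, 0, ⟨0, 0⟩, 0⟩ 0 0))) (.cut .d 1113533 (.pos 7 .pm ⟨0, 0, 341612106, 0, 0, 0, 0, 0, 0, ⟨0, 0⟩, 0⟩ 0 0) (.pos 7 .pm ⟨0, 63502067, 0, 0, 0, 0, 0, 0, 0, ⟨0, 0⟩, 0⟩ 0 0))) (.cut .d 1113533 (.pos 5 .pm ⟨0, 0, 126381118, 0, 0, 0, 0, 0, 0, ⟨0, 0⟩, 0⟩ 0 0) (.pos 5 .pm ⟨0, 117937234, 0, 0, 0, 0, 0, 0, 0, ⟨0, 0⟩, 0⟩ 0 0))) (.pos 3 .pm ⟨0, 0, 58611918, 0, 0, 0, 0, 0, 0, ⟨0, 0⟩, 0⟩ 0 0)) (.cut .v 268435456 (.cut .d 1113533 (.cut .v 67108864 (.cut .v 33554432 (.pos 30 .pp ⟨0, 0, 0, 0, 0, 0, 0, 0, 0, ⟨0, 0⟩, 0⟩ 0 0) (.pos 83 .pp ⟨2183905371, 0, 0, 0, 0, 0, 0, 0, 0, ⟨0, 0⟩, 0⟩ 0 0)) (.cut .v 134217728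 (.cut .d 556766 (.cut .v 100663296 (.pos 101 .pp ⟨9334930003, 0, 0, 0, 0, 0, 0, 0, 0, ⟨0, 0⟩, 0⟩ 0 0) (.pos 102 .pp ⟨18221598505, 0, 0, 0, 0, 0, 0, 0, 0, ⟨0, 0⟩, 0⟩ 0 0)) (.pos 97 .pp ⟨0, 796436226, 0, 0, 0, 0, 0, 0, 0, ⟨0, 0⟩, 0⟩ 0 0)) (.void 98 ⟨35008, 64992, 0, 0, 0, 0, 0, 0, 0, ⟨0, 0⟩, 0⟩ 0 0))) (.pos 95 .pp ⟨0, 215977437, 0, 0, 0, 0, 0, 0, 0, ⟨0, 0⟩, 0⟩ 0 0)) (.void 109 ⟨0, 0, 0, 100000, 0, 0, 0, 0, 0, ⟨0, 0⟩, 0⟩ 0 0)))),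
    by decide +kernel⟩

def covers25 : cell.Covers table row25.1 :=
  ⟨(.cut .d 0 (.cut .v 16777216 (.cut .v 8388608 (.pos 2 .mm ⟨0, 0, 167772160000, 0, 0, 0, 0, 0, 0, ⟨0, 0⟩, 0⟩ 0 0) (.cut .d (-8388608) (.void 3 ⟨100000, 0, 0, 0, 0, 0, 0, 0, 0, ⟨0, 0⟩, 0⟩ 0 0) (.cut .d (-4194304) (.void 3 ⟨100000, 0, 0, 0, 0, 0, 0, 0, 0, ⟨0, 0⟩, 0⟩ 0 0) (.cut .d (-2097152) (.void 3 ⟨100000, 0, 0, 0, 0, 0, 0, 0, 0, ⟨0, 0⟩, 0⟩ 0 0) (.cut .v 12582912 (.cut .d (-1048576) (.void 8 ⟨100000, 0, 0, 0, 0, 0, 0, 0, 0, ⟨0, 0⟩, 0⟩ 0 0) (.cut .v 10485760 (.cut .d (-524288) (.void 10 ⟨100000, 0, 0, 0, 0, 0, 0, 0, 0, ⟨0, 0⟩, 0⟩ 0 0) (.cut .v 9437184 (.cut .d (-262144) (.void 112 ⟨0, 0, 0,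 0, 0, 100000, 0, 0, 0, ⟨0, 0⟩, 0⟩ 0 0) (.cut .d (-131072) (.void 112 ⟨0, 0, 0, 0, 0, 100000, 0, 0, 0, ⟨0, 0⟩, 0⟩ 0 0) (.cut .d (-65536) (.void 112 ⟨0, 0, 0, 0, 0, 100000, 0, 0, 0, ⟨0, 0⟩, 0⟩ 0 0) (.cut .s 15171584 (.pos 112 .mm ⟨0, 0, 104936422, 0, 0, 1150034838, 0, 0, 0, ⟨0, 0⟩, 0⟩ 0 0) (.cut .d (-32768) (.pos 112 .mm ⟨0, 0, 471353514, 0, 0, 167300806486, 0, 0, 0, ⟨0, 0⟩, 0⟩ 0 0) (.cut .d (-16384) (.void 112 ⟨0, 0, 0, 0, 0, 100000, 0, 0, 0, ⟨0, 0⟩, 0⟩ 0 0) (.pos 112 .mm ⟨0, 0, 120985084, 0, 0, 1108937170, 0, 0, 0, ⟨0, 0⟩, 0⟩ 0 0))))))) (.pos 113 .mm ⟨0, 0, 0, 0, 0, 1816717956, 0, 0, 0, ⟨0, 0⟩, 0⟩ 0 0))) (.pos 11 .mm ⟨0, 0, 0, 0, 0, 2614839249, 0, 0, 0, ⟨0,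 0⟩, 0⟩ 0 0))) (.pos 9 .mm ⟨0, 0, 0, 0, 0, 4649480904, 0, 0, 0, ⟨0, 0⟩, 0⟩ 0 0)))))) (.cut .v 268435456 (.cut .v 67108864 (.pos 82 .mp ⟨1866858780, 0, 0, 0, 0, 80706336322, 0, 0, 0, ⟨0, 0⟩, 0⟩ 0 0) (.void 96 ⟨100000, 0, 0, 0, 0, 0, 0, 0, 0, ⟨0, 0⟩, 0⟩ 0 0)) (.void 109 ⟨95649, 0, 0, 4351, 0, 0, 0, 0, 0, ⟨0, 0⟩, 0⟩ 0 0))) (.cut .v 16777216 (.cut .v 8388608 (.cut .v 4194304 (.cut .v 2097152 (.cut .v 1048576 (.cut .v 524288 (.cut .v 262144 (.pos 164 .pm ⟨0, 0, 21418000, 0, 0, 0, 0, 0, 0, ⟨0, 0⟩, 0⟩ 0 0) (.pos 165 .pm ⟨0, 0, 28260048, 0, 0, 0, 0, 0, 0, ⟨0, 0⟩, 0⟩ 0 0)) (.pos 149 .pm ⟨0, 0, 39155872, 0, 0, 0, 0, 0, 0, ⟨0, 0⟩, 0⟩ 0 0)) (.pos 119 .pm ⟨0, 0, 58884064,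 0, 0, 0, 0, 0, 0, ⟨0, 0⟩, 0⟩ 0 0)) (.cut .d 948278 (.pos 7 .pm ⟨0, 0, 456954676, 0, 0, 0, 0, 0, 0, ⟨0, 0⟩, 0⟩ 0 0) (.pos 7 .pm ⟨0, 37203815, 0, 0, 0, 0, 0, 0, 0, ⟨0, 0⟩, 0⟩ 0 0))) (.pos 5 .pm ⟨0, 0, 141289692, 0, 0, 0, 0, 0, 0, ⟨0, 0⟩, 0⟩ 0 0)) (.pos 3 .pm ⟨0, 0, 83897052, 0, 0, 0, 0, 0, 0, ⟨0, 0⟩, 0⟩ 0 0)) (.cut .v 268435456 (.cut .d 948278 (.cut .v 67108864 (.cut .v 33554432 (.pos 30 .pp ⟨0, 0, 0, 0, 0, 0, 0, 0, 0, ⟨0, 0⟩, 0⟩ 0 0) (.pos 83 .pp ⟨2405296120, 0, 0, 0, 0, 0, 0, 0, 0, ⟨0, 0⟩, 0⟩ 0 0)) (.cut .v 134217728 (.cut .d 474139 (.cut .v 100663296 (.pos 101 .pp ⟨10312511547, 0, 0, 0, 0, 0, 0, 0, 0, ⟨0, 0⟩, 0⟩ 0 0) (.pos 102 .pp ⟨20177032195, 0, 0, 0, 0,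 0, 0, 0, 0, ⟨0, 0⟩, 0⟩ 0 0)) (.pos 97 .pp ⟨0, 883722270, 0, 0, 0, 0, 0, 0, 0, ⟨0, 0⟩, 0⟩ 0 0)) (.void 98 ⟨34822, 65178, 0, 0, 0, 0, 0, 0, 0, ⟨0, 0⟩, 0⟩ 0 0))) (.pos 95 .pp ⟨0, 54622340, 0, 0, 0, 0, 0, 0, 0, ⟨0, 0⟩, 0⟩ 0 0)) (.void 109 ⟨0, 0, 0, 100000, 0, 0, 0, 0, 0, ⟨0, 0⟩, 0⟩ 0 0)))),
    by decide +kernel⟩

def covers26 : cell.Covers table row26.1 :=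
  ⟨(.cut .d 0 (.cut .v 16777216 (.cut .v 8388608 (.pos 2 .mm ⟨0, 0, 167772160000, 0, 0, 0, 0, 0, 0, ⟨0, 0⟩, 0⟩ 0 0) (.cut .d (-8388608) (.pos 3 .mm ⟨167772160000, 0, 0, 0, 0, 0, 0, 0, 0, ⟨0, 0⟩, 0⟩ 0 0) (.cut .d (-4194304) (.void 3 ⟨100000, 0, 0, 0, 0, 0, 0, 0, 0, ⟨0, 0⟩, 0⟩ 0 0) (.cut .d (-2097152) (.void 3 ⟨100000, 0, 0, 0, 0, 0, 0, 0, 0, ⟨0, 0⟩, 0⟩ 0 0) (.cut .v 12582912 (.cut .d (-1048576) (.void 8 ⟨100000, 0, 0, 0, 0, 0, 0, 0, 0, ⟨0, 0⟩, 0⟩ 0 0) (.cut .v 10485760 (.cut .d (-524288) (.void 10 ⟨100000, 0, 0, 0, 0, 0, 0, 0, 0, ⟨0, 0⟩, 0⟩ 0 0) (.cut .v 9437184 (.cut .d (-262144) (.void 112 ⟨0, 0, 0, 0, 0, 100000, 0, 0, 0, ⟨0, 0⟩, 0⟩ 0 0) (.cut .d (-131072)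 (.pos 112 .mm ⟨0, 0, 432112947, 0, 0, 167340047053, 0, 0, 0, ⟨0, 0⟩, 0⟩ 0 0) (.cut .d (-65536) (.pos 112 .mm ⟨0, 0, 488378135, 0, 0, 167283781865, 0, 0, 0, ⟨0, 0⟩, 0⟩ 0 0) (.cut .d (-32768) (.pos 112 .mm ⟨0, 0, 515524328, 0, 0, 167256635672, 0, 0, 0, ⟨0, 0⟩, 0⟩ 0 0) (.cut .v 8912896 (.cut .v 8650752 (.cut .d (-16384) (.void 166 ⟨0, 0, 0, 0, 0, 100000, 0, 0, 0, ⟨0, 0⟩, 0⟩ 0 0) (.cut .d (-8192) (.pos 166 .mm ⟨0, 0, 536384734, 0, 0, 67586561037, 0, 0, 0, ⟨0, 0⟩, 0⟩ 0 0) (.cut .d (-4096) (.pos 166 .mm ⟨0, 0, 133224406, 0, 0, 65549713265, 0, 0, 0, ⟨0, 0⟩, 0⟩ 0 0) (.cut .d (-2048) (.pos 166 .mm ⟨0, 0, 134867145, 0, 0, 65549719786, 0, 0, 0, ⟨0, 0⟩, 0⟩ 0 0) (.cut .s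 15400960 (.pos 166 .mm ⟨0, 0, 145296605, 0, 0, 1117893268, 0, 0, 0, ⟨0, 0⟩, 0⟩ 0 0) (.cut .s 15466496 (.pos 166 .mm ⟨0, 0, 172626042, 0, 0, 1239492318, 0, 0, 0, ⟨0, 0⟩, 0⟩ 0 0) (.pos 166 .mm ⟨0, 0, 193219856, 0, 0, 1309382806, 0, 0, 0, ⟨0, 0⟩, 0⟩ 0 0))))))) (.pos 167 .mm ⟨0, 0, 0, 0, 0, 1624646068, 0, 0, 0, ⟨0, 0⟩, 0⟩ 0 0)) (.pos 121 .mm ⟨0, 0, 0, 0, 0, 1654494833, 0, 0, 0, ⟨0, 0⟩, 0⟩ 0 0)))))) (.pos 113 .mm ⟨0, 0, 0, 0, 0, 2328102308, 0, 0, 0, ⟨0, 0⟩, 0⟩ 0 0))) (.pos 11 .mm ⟨0, 0, 0, 0, 0, 3362261290, 0, 0, 0, ⟨0, 0⟩, 0⟩ 0 0))) (.pos 9 .mm ⟨0, 0, 0, 0, 0, 6003056439, 0, 0, 0, ⟨0, 0⟩, 0⟩ 0 0)))))) (.cut .v 268435456 (.cut .v 67108864 (.pos 82 .mp ⟨1448445224,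 0, 0, 0, 0, 106324954420, 0, 0, 0, ⟨0, 0⟩, 0⟩ 0 0) (.void 96 ⟨100000, 0, 0, 0, 0, 0, 0, 0, 0, ⟨0, 0⟩, 0⟩ 0 0)) (.void 109 ⟨542187, 0, 0, 14930, 0, 82126, 0, 0, 0, ⟨0, 0⟩, 0⟩ 0 0))) (.cut .v 16777216 (.cut .v 8388608 (.cut .v 4194304 (.cut .v 2097152 (.cut .v 1048576 (.cut .v 524288 (.cut .v 262144 (.cut .v 131072 (.pos 170 .pm ⟨0, 0, 21363634, 0, 0, 0, 0, 0, 0, ⟨0, 0⟩, 0⟩ 0 0) (.pos 171 .pm ⟨0, 0, 28186603, 0, 0, 0, 0, 0, 0, ⟨0, 0⟩, 0⟩ 0 0)) (.pos 165 .pm ⟨0, 0, 38589518, 0, 0, 0, 0, 0, 0, ⟨0, 0⟩, 0⟩ 0 0)) (.pos 149 .pm ⟨0, 0, 58844759, 0, 0, 0, 0, 0, 0, ⟨0, 0⟩, 0⟩ 0 0)) (.pos 119 .pm ⟨0, 0, 89916271, 0, 0, 0, 0, 0, 0, ⟨0, 0⟩, 0⟩ 0 0)) (.pos 7 .pm ⟨0, 0, 137245793,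 0, 0, 0, 0, 0, 0, ⟨0, 0⟩, 0⟩ 0 0)) (.pos 5 .pm ⟨0, 0, 245961938, 0, 0, 0, 0, 0, 0, ⟨0, 0⟩, 0⟩ 0 0)) (.pos 3 .pm ⟨0, 0, 111510492, 0, 0, 0, 0, 0, 0, ⟨0, 0⟩, 0⟩ 0 0)) (.cut .v 268435456 (.cut .d 828061 (.cut .v 67108864 (.pos 82 .pp ⟨1071778507, 0, 0, 0, 0, 0, 0, 0, 0, ⟨0, 0⟩, 0⟩ 0 0) (.cut .v 134217728 (.cut .d 414030 (.cut .v 100663296 (.pos 101 .pp ⟨11595611038, 0, 0, 0, 0, 0, 0, 0, 0, ⟨0, 0⟩, 0⟩ 0 0) (.pos 102 .pp ⟨23039671545, 0, 0, 0, 0, 0, 0, 0, 0, ⟨0, 0⟩, 0⟩ 0 0)) (.pos 97 .pp ⟨0, 1147256359, 0, 0, 0, 0, 0, 0, 0, ⟨0, 0⟩, 0⟩ 0 0)) (.void 98 ⟨34515, 65485, 0, 0, 0, 0, 0, 0, 0, ⟨0, 0⟩, 0⟩ 0 0))) (.pos 95 .pp ⟨0, 0, 0, 0, 0, 0, 0, 0, 0, ⟨0, 0⟩, 0⟩ 0 0)) (.void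 109 ⟨0, 0, 0, 100000, 0, 0, 0, 0, 0, ⟨0, 0⟩, 0⟩ 0 0)))),
    by decide +kernel⟩

def covers27 : cell.Covers table row27.1 :=
  ⟨(.cut .d 0 (.cut .v 16777216 (.cut .v 8388608 (.pos 2 .mm ⟨0, 0, 167772160000, 0, 0, 0, 0, 0, 0, ⟨0, 0⟩, 0⟩ 0 0) (.cut .d (-8388608) (.void 3 ⟨100000, 0, 0, 0, 0, 0, 0, 0, 0, ⟨0, 0⟩, 0⟩ 0 0) (.cut .d (-4194304) (.void 3 ⟨100000, 0, 0, 0, 0, 0, 0, 0, 0, ⟨0, 0⟩, 0⟩ 0 0) (.cut .d (-2097152) (.void 3 ⟨100000, 0, 0, 0, 0, 0, 0, 0, 0, ⟨0, 0⟩, 0⟩ 0 0) (.cut .v 12582912 (.cut .d (-1048576) (.void 8 ⟨100000, 0, 0, 0, 0, 0, 0, 0, 0, ⟨0, 0⟩, 0⟩ 0 0) (.cut .v 10485760 (.cut .d (-524288) (.void 10 ⟨100000, 0, 0, 0, 0, 0, 0, 0, 0, ⟨0, 0⟩, 0⟩ 0 0)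 (.cut .v 9437184 (.cut .d (-262144) (.void 112 ⟨81820, 0, 18180, 0, 0, 0, 0, 0, 0, ⟨0, 0⟩, 0⟩ 0 0) (.cut .v 8912896 (.cut .v 8650752 (.cut .v 8519680 (.void 168 ⟨0, 0, 100000, 0, 0, 0, 0, 0, 0, ⟨0, 0⟩, 0⟩ 0 0) (.cut .d (-131072) (.void 169 ⟨0, 0, 0, 0, 0, 100000, 0, 0, 0, ⟨0, 0⟩, 0⟩ 0 0) (.cut .d (-65536) (.void 169 ⟨0, 0, 0, 0, 0, 100000, 0, 0, 0, ⟨0, 0⟩, 0⟩ 0 0) (.cut .d (-32768) (.void 169 ⟨0, 0, 0, 0, 0, 100000, 0, 0, 0, ⟨0, 0⟩, 0⟩ 0 0) (.cut .d (-16384) (.void 169 ⟨0, 0, 0, 0, 0, 100000, 0, 0, 0, ⟨0, 0⟩, 0⟩ 0 0) (.cut .d (-8192) (.pos 169 .mm ⟨0, 0, 709327015, 0, 0, 86272063514, 0, 0, 0, ⟨0, 0⟩, 0⟩ 0 0) (.cut .d (-4096) (.pos 169 .mm ⟨0, 0, 193409530,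 0, 0, 84966804466, 0, 0, 0, ⟨0, 0⟩, 0⟩ 0 0) (.cut .d (-2048) (.pos 169 .mm ⟨0, 0, 195974529, 0, 0, 84966806619, 0, 0, 0, ⟨0, 0⟩, 0⟩ 0 0) (.cut .s 15654912 (.pos 169 .mm ⟨0, 0, 203685639, 0, 0, 1401465927, 0, 0, 0, ⟨0, 0⟩, 0⟩ 0 0) (.pos 169 .mm ⟨0, 0, 279371746, 0, 0, 1562231943, 0, 0, 0, ⟨0, 0⟩, 0⟩ 0 0)))))))))) (.pos 167 .mm ⟨0, 0, 0, 0, 0, 2443589103, 0, 0, 0, ⟨0, 0⟩, 0⟩ 0 0)) (.pos 121 .mm ⟨0, 0, 0, 0, 0, 2552473176, 0, 0, 0, ⟨0, 0⟩, 0⟩ 0 0))) (.pos 113 .mm ⟨0, 0, 0, 0, 0, 3150024026, 0, 0, 0, ⟨0, 0⟩, 0⟩ 0 0))) (.pos 11 .mm ⟨0, 0, 0, 0, 0, 4540959889, 0, 0, 0, ⟨0, 0⟩, 0⟩ 0 0))) (.pos 9 .mm ⟨0, 0, 0, 0, 0, 8086283230, 0, 0, 0, ⟨0, 0⟩, 0⟩ 0 0)))))) (.cut .v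 268435456 (.cut .v 67108864 (.pos 82 .mp ⟨718439674, 0, 0, 0, 0, 143800117705, 0, 0, 0, ⟨0, 0⟩, 0⟩ 0 0) (.void 96 ⟨100000, 0, 0, 0, 0, 0, 0, 0, 0, ⟨0, 0⟩, 0⟩ 0 0)) (.void 109 ⟨93125, 0, 0, 4364, 0, 0, 0, 0, 0, ⟨0, 0⟩, 0⟩ 0 0))) (.cut .v 16777216 (.cut .v 8388608 (.cut .v 4194304 (.cut .v 2097152 (.cut .v 1048576 (.cut .v 524288 (.cut .v 262144 (.cut .v 131072 (.pos 170 .pm ⟨0, 0, 25372949, 0, 0, 0, 0, 0, 0, ⟨0, 0⟩, 0⟩ 0 0) (.pos 171 .pm ⟨0, 0, 40868144, 0, 0, 0, 0, 0, 0, ⟨0, 0⟩, 0⟩ 0 0)) (.pos 165 .pm ⟨0, 0, 61624958, 0, 0, 0, 0, 0, 0, ⟨0, 0⟩, 0⟩ 0 0)) (.pos 149 .pm ⟨0, 0, 96130770, 0, 0, 0, 0, 0, 0, ⟨0, 0⟩, 0⟩ 0 0)) (.pos 119 .pm ⟨0, 0, 154214807, 0, 0, 0,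 0, 0, 0, ⟨0, 0⟩, 0⟩ 0 0)) (.pos 7 .pm ⟨0, 0, 251979433, 0, 0, 0, 0, 0, 0, ⟨0, 0⟩, 0⟩ 0 0)) (.pos 5 .pm ⟨0, 0, 474024776, 0, 0, 0, 0, 0, 0, ⟨0, 0⟩, 0⟩ 0 0)) (.cut .s 15654912 (.pos 3 .pm ⟨0, 0, 161204977, 0, 0, 0, 0, 0, 0, ⟨0, 0⟩, 0⟩ 0 0) (.pos 3 .pm ⟨0, 0, 197707688, 0, 0, 0, 0, 0, 0, ⟨0, 0⟩, 0⟩ 0 0))) (.cut .v 268435456 (.cut .v 67108864 (.pos 82 .pp ⟨718439674, 0, 0, 0, 0, 0, 0, 0, 0, ⟨0, 0⟩, 0⟩ 0 0) (.cut .v 134217728 (.cut .d 672505 (.cut .d 336252 (.cut .v 100663296 (.pos 101 .pp ⟨14242980824, 0, 0, 0, 0, 0, 0, 0, 0, ⟨0, 0⟩, 0⟩ 0 0) (.pos 102 .pp ⟨28384641771, 0, 0, 0, 0, 0, 0, 0, 0, ⟨0, 0⟩, 0⟩ 0 0)) (.pos 97 .pp ⟨0, 2104456176, 0, 0, 0, 0, 0, 0, 0, ⟨0,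 0⟩, 0⟩ 0 0)) (.pos 97 .pp ⟨0, 0, 0, 0, 0, 0, 0, 0, 0, ⟨0, 0⟩, 0⟩ 0 0)) (.void 98 ⟨33827, 66173, 0, 0, 0, 0, 0, 0, 0, ⟨0, 0⟩, 0⟩ 0 0))) (.void 109 ⟨0, 0, 0, 100000, 0, 0, 0, 0, 0, ⟨0, 0⟩, 0⟩ 0 0)))),
    by decide +kernel⟩

def covers28 : cell.Covers table row28.1 :=
  ⟨(.cut .d 0 (.cut .v 16777216 (.cut .v 8388608 (.pos 2 .mm ⟨0, 0, 167772160000, 0, 0, 0, 0, 0, 0, ⟨0, 0⟩, 0⟩ 0 0) (.cut .d (-8388608) (.pos 3 .mm ⟨167772160000, 0, 0, 0, 0, 0, 0, 0, 0, ⟨0, 0⟩, 0⟩ 0 0) (.cut .d (-4194304) (.void 3 ⟨100000, 0, 0, 0, 0, 0, 0, 0, 0, ⟨0, 0⟩, 0⟩ 0 0) (.cut .d (-2097152) (.void 3 ⟨100000, 0, 0, 0, 0, 0, 0, 0, 0, ⟨0, 0⟩, 0⟩ 0 0) (.cut .v 12582912 (.cut .d (-1048576) (.void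 8 ⟨100000, 0, 0, 0, 0, 0, 0, 0, 0, ⟨0, 0⟩, 0⟩ 0 0) (.cut .v 10485760 (.cut .d (-524288) (.void 10 ⟨100000, 0, 0, 0, 0, 0, 0, 0, 0, ⟨0, 0⟩, 0⟩ 0 0) (.cut .v 9437184 (.cut .d (-262144) (.void 112 ⟨100000, 0, 0, 0, 0, 0, 0, 0, 0, ⟨0, 0⟩, 0⟩ 0 0) (.cut .s 15876096 (.cut .s 15826944 (.cut .v 8912896 (.cut .d (-131072) (.void 120 ⟨0, 0, 0, 0, 0, 100000, 0, 0, 0, ⟨0, 0⟩, 0⟩ 0 0) (.cut .s 15802368 (.pos 120 .mm ⟨0, 0, 295865702, 0, 0, 2133690027, 0, 0, 0, ⟨0, 0⟩, 0⟩ 0 0) (.pos 120 .mm ⟨0, 0, 308930160, 0, 0, 2210624466, 0, 0, 0, ⟨0, 0⟩, 0⟩ 0 0))) (.pos 121 .mm ⟨0, 0, 0, 0, 0, 2744034038, 0, 0, 0, ⟨0, 0⟩, 0⟩ 0 0)) (.pos 112 .mm ⟨0, 0, 312728001, 0, 0, 2720116604, 0,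 0, 0, ⟨0, 0⟩, 0⟩ 0 0)) (.pos 112 .mm ⟨0, 0, 350921042, 0, 0, 3235385689, 0, 0, 0, ⟨0, 0⟩, 0⟩ 0 0))) (.pos 113 .mm ⟨0, 0, 0, 0, 0, 4330012651, 0, 0, 0, ⟨0, 0⟩, 0⟩ 0 0))) (.pos 11 .mm ⟨0, 0, 0, 0, 0, 6199961738, 0, 0, 0, ⟨0, 0⟩, 0⟩ 0 0))) (.pos 9 .mm ⟨0, 0, 0, 0, 0, 10940079437, 0, 0, 0, ⟨0, 0⟩, 0⟩ 0 0)))))) (.cut .d (-8388608) (.void 108 ⟨100000, 0, 0, 0, 0, 0, 0, 0, 0, ⟨0, 0⟩, 0⟩ 0 0) (.cut .v 268435456 (.cut .v 67108864 (.pos 82 .mp ⟨0, 0, 0, 0, 0, 110560785019, 0, 0, 0, ⟨0, 0⟩, 0⟩ 0 0) (.void 96 ⟨100000, 0, 0, 0, 0, 0, 0, 0, 0, ⟨0, 0⟩, 0⟩ 0 0)) (.void 109 ⟨93335, 0, 0, 6665, 0, 0, 0, 0, 0, ⟨0, 0⟩, 0⟩ 0 0)))) (.cut .v 16777216 (.cut .v 8388608 (.cut .v 4194304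 (.cut .v 2097152 (.cut .v 1048576 (.cut .v 524288 (.cut .v 262144 (.cut .v 131072 (.cut .v 65536 (.pos 174 .pm ⟨0, 0, 24948552, 0, 0, 0, 0, 0, 0, ⟨0, 0⟩, 0⟩ 0 0) (.pos 175 .pm ⟨0, 0, 39917137, 0, 0, 0, 0, 0, 0, ⟨0, 0⟩, 0⟩ 0 0)) (.pos 171 .pm ⟨0, 0, 59523829, 0, 0, 0, 0, 0, 0, ⟨0, 0⟩, 0⟩ 0 0)) (.pos 165 .pm ⟨0, 0, 93377557, 0, 0, 0, 0, 0, 0, ⟨0, 0⟩, 0⟩ 0 0)) (.pos 149 .pm ⟨0, 0, 153814617, 0, 0, 0, 0, 0, 0, ⟨0, 0⟩, 0⟩ 0 0)) (.pos 119 .pm ⟨0, 0, 254861071, 0, 0, 0, 0, 0, 0, ⟨0, 0⟩, 0⟩ 0 0)) (.pos 7 .pm ⟨0, 0, 441480185, 0, 0, 0, 0, 0, 0, ⟨0, 0⟩, 0⟩ 0 0)) (.pos 5 .pm ⟨0, 0, 863111117, 0, 0, 0, 0, 0, 0, ⟨0, 0⟩, 0⟩ 0 0)) (.pos 3 .pm ⟨0, 0, 241307710, 0, 0, 0, 0,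 0, 0, ⟨0, 0⟩, 0⟩ 0 0)) (.cut .v 268435456 (.cut .v 67108864 (.pos 82 .pp ⟨0, 0, 0, 0, 0, 0, 0, 0, 0, ⟨0, 0⟩, 0⟩ 0 0) (.cut .v 134217728 (.cut .d 531367 (.cut .d 265683 (.cut .v 100663296 (.pos 101 .pp ⟨18674322903, 0, 0, 0, 0, 0, 0, 0, 0, ⟨0, 0⟩, 0⟩ 0 0) (.pos 102 .pp ⟨37175172695, 2413310679, 0, 0, 0, 0, 0, 0, 0, ⟨0, 0⟩, 0⟩ 0 0)) (.pos 97 .pp ⟨0, 4577231541, 0, 0, 0, 0, 0, 0, 0, ⟨0, 0⟩, 0⟩ 0 0)) (.pos 97 .pp ⟨0, 0, 0, 0, 0, 0, 0, 0, 0, ⟨0, 0⟩, 0⟩ 0 0)) (.void 98 ⟨33731, 66269, 0, 0, 0, 0, 0, 0, 0, ⟨0, 0⟩, 0⟩ 0 0))) (.void 109 ⟨0, 0, 0, 100000, 0, 0, 0, 0, 0, ⟨0, 0⟩, 0⟩ 0 0)))),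
    by decide +kernel⟩

def covers29 : cell.Covers table row29.1 :=
  ⟨(.cut .d 0 (.cut .v 16777216 (.cut .v 8388608 (.void 2 ⟨0, 0, 100000, 0, 0, 0, 0, 0, 0, ⟨0, 0⟩, 0⟩ 0 0) (.cut .d (-8388608) (.void 3 ⟨100000, 0, 0, 0, 0, 0, 0, 0, 0, ⟨0, 0⟩, 0⟩ 0 0) (.cut .d (-4194304) (.void 3 ⟨100000, 0, 0, 0, 0, 0, 0, 0, 0, ⟨0, 0⟩, 0⟩ 0 0) (.cut .d (-2097152) (.void 3 ⟨100000, 0, 0, 0, 0, 0, 0, 0, 0, ⟨0, 0⟩, 0⟩ 0 0) (.cut .v 12582912 (.cut .d (-1048576) (.void 8 ⟨100000, 0, 0, 0, 0, 0, 0, 0, 0, ⟨0, 0⟩, 0⟩ 0 0) (.cut .v 10485760 (.cut .s 16056320 (.cut .d (-524288) (.void 10 ⟨100000, 0, 0, 0, 0, 0, 0, 0, 0, ⟨0, 0⟩, 0⟩ 0 0) (.pos 10 .mm ⟨0, 0, 408193381, 0, 0, 4741729059,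 0, 0, 0, ⟨0, 0⟩, 0⟩ 0 0)) (.pos 10 .mm ⟨0, 0, 492848537, 0, 0, 6780383132, 0, 0, 0, ⟨0, 0⟩, 0⟩ 0 0)) (.pos 11 .mm ⟨0, 0, 0, 0, 0, 8671285804, 0, 0, 0, ⟨0, 0⟩, 0⟩ 0 0))) (.pos 9 .mm ⟨0, 0, 0, 0, 0, 15085195025, 0, 0, 0, ⟨0, 0⟩, 0⟩ 0 0)))))) (.cut .v 4294967296 (.cut .d (-8388608) (.void 108 ⟨100000, 0, 0, 0, 0, 0, 0, 0, 0, ⟨0, 0⟩, 0⟩ 0 0) (.cut .v 268435456 (.cut .v 67108864 (.pos 82 .mp ⟨0, 0, 0, 0, 0, 147404758230, 0, 0, 0, ⟨0, 0⟩, 0⟩ 0 0) (.void 96 ⟨100000, 0, 0, 0, 0, 0, 0, 0, 0, ⟨0, 0⟩, 0⟩ 0 0)) (.void 109 ⟨93216, 0, 0, 6784, 0, 0, 0, 0, 0, ⟨0, 0⟩, 0⟩ 0 0))) (.void 178 ⟨0, 0, 0, 4762, 0, 95238, 0, 0, 0, ⟨0, 0⟩, 0⟩ 0 0))) (.cut .v 16777216 (.cut .v 8388608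 (.cut .v 4194304 (.cut .v 2097152 (.cut .v 1048576 (.cut .v 524288 (.cut .v 262144 (.cut .v 131072 (.cut .v 65536 (.pos 174 .pm ⟨0, 0, 30764972, 0, 0, 0, 0, 0, 0, ⟨0, 0⟩, 0⟩ 0 0) (.pos 175 .pm ⟨0, 0, 53827460, 0, 0, 0, 0, 0, 0, ⟨0, 0⟩, 0⟩ 0 0)) (.pos 171 .pm ⟨0, 0, 84721232, 0, 0, 0, 0, 0, 0, ⟨0, 0⟩, 0⟩ 0 0)) (.pos 165 .pm ⟨0, 0, 140923448, 0, 0, 0, 0, 0, 0, ⟨0, 0⟩, 0⟩ 0 0)) (.pos 149 .pm ⟨0, 0, 237051726, 0, 0, 0, 0, 0, 0, ⟨0, 0⟩, 0⟩ 0 0)) (.pos 119 .pm ⟨0, 0, 406026402, 0, 0, 0, 0, 0, 0, ⟨0, 0⟩, 0⟩ 0 0)) (.pos 7 .pm ⟨0, 0, 728139907, 0, 0, 0, 0, 0, 0, ⟨0, 0⟩, 0⟩ 0 0)) (.pos 5 .pm ⟨0, 0, 1479107525, 0, 0, 0, 0, 0, 0, ⟨0, 0⟩, 0⟩ 0 0)) (.pos 3 .pm ⟨0, 0, 348208169,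 0, 0, 0, 0, 0, 0, ⟨0, 0⟩, 0⟩ 0 0)) (.cut .v 4294967296 (.cut .v 268435456 (.cut .v 67108864 (.pos 82 .pp ⟨0, 0, 0, 0, 0, 0, 0, 0, 0, ⟨0, 0⟩, 0⟩ 0 0) (.cut .v 134217728 (.cut .d 421582 (.cut .d 210791 (.cut .v 100663296 (.pos 101 .pp ⟨25566687580, 0, 0, 0, 0, 0, 0, 0, 0, ⟨0, 0⟩, 0⟩ 0 0) (.cut .d 105395 (.void 102 ⟨100000, 0, 0, 0, 0, 0, 0, 0, 0, ⟨0, 0⟩, 0⟩ 0 0) (.cut .d 158093 (.cut .v 117440512 (.pos 116 .pp ⟨38054365236, 0, 0, 0, 0, 0, 0, 0, 0, ⟨0, 0⟩, 0⟩ 0 0) (.cut .v 125829120 (.pos 150 .pp ⟨41716598225, 0, 0, 0, 0, 0, 0, 0, 0, ⟨0, 0⟩, 0⟩ 0 0) (.cut .v 130023424 (.pos 179 .pp ⟨43594947217, 0, 0, 0, 0, 0, 0, 0, 0, ⟨0, 0⟩, 0⟩ 0 0) (.cut .d 131744 (.void 180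 ⟨100000, 0, 0, 0, 0, 0, 0, 0, 0, ⟨0, 0⟩, 0⟩ 0 0) (.pos 180 .pp ⟨63548143421, 39438993144, 0, 0, 0, 0, 0, 0, 0, ⟨0, 0⟩, 0⟩ 0 0))))) (.pos 102 .pp ⟨26614381386, 19053179043, 0, 0, 0, 0, 0, 0, 0, ⟨0, 0⟩, 0⟩ 0 0)))) (.pos 97 .pp ⟨0, 9464366602, 0, 0, 0, 0, 0, 0, 0, ⟨0, 0⟩, 0⟩ 0 0)) (.pos 97 .pp ⟨0, 0, 0, 0, 0, 0, 0, 0, 0, ⟨0, 0⟩, 0⟩ 0 0)) (.void 98 ⟨33645, 66355, 0, 0, 0, 0, 0, 0, 0, ⟨0, 0⟩, 0⟩ 0 0))) (.void 109 ⟨0, 0, 0, 100000, 0, 0, 0, 0, 0, ⟨0, 0⟩, 0⟩ 0 0)) (.void 178 ⟨0, 0, 0, 100000, 0, 0, 0, 0, 0, ⟨0, 0⟩, 0⟩ 0 0)))),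
    by decide +kernel⟩

def covers30 : cell.Covers table row30.1 :=
  ⟨(.cut .d 0 (.cut .v 16777216 (.cut .v 8388608 (.pos 2 .mm ⟨0, 0, 167772160000, 0, 0, 0, 0, 0, 0, ⟨0, 0⟩, 0⟩ 0 0) (.cut .d (-8388608) (.void 3 ⟨93773, 0, 6044, 0, 0, 0, 0, 0, 0, ⟨0, 0⟩, 0⟩ 0 0) (.cut .d (-4194304) (.void 3 ⟨100000, 0, 0, 0, 0, 0, 0, 0, 0, ⟨0, 0⟩, 0⟩ 0 0) (.cut .v 12582912 (.pos 8 .mm ⟨0, 0, 577692848, 0, 0, 21742212127, 0, 0, 0, ⟨0, 0⟩, 0⟩ 0 0) (.pos 9 .mm ⟨0, 0, 0, 0, 0, 29844691386, 0, 0, 0, ⟨0, 0⟩, 0⟩ 0 0))))) (.cut .v 4294967296 (.cut .v 268435456 (.cut .v 67108864 (.cut .v 33554432 (.pos 30 .mp ⟨0, 0, 0, 0, 0, 166981262034, 0, 0, 0, ⟨0, 0⟩, 0⟩ 0 0) (.void 83 ⟨100000,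 0, 0, 0, 0, 0, 0, 0, 0, ⟨0, 0⟩, 0⟩ 0 0)) (.void 96 ⟨100000, 0, 0, 0, 0, 0, 0, 0, 0, ⟨0, 0⟩, 0⟩ 0 0)) (.void 109 ⟨95376, 0, 0, 4624, 0, 0, 0, 0, 0, ⟨0, 0⟩, 0⟩ 0 0)) (.void 178 ⟨95376, 0, 0, 4624, 0, 0, 0, 0, 0, ⟨0, 0⟩, 0⟩ 0 0))) (.cut .v 16777216 (.cut .v 8388608 (.cut .v 4194304 (.cut .v 2097152 (.cut .v 1048576 (.cut .v 524288 (.cut .v 262144 (.cut .v 131072 (.cut .v 65536 (.pos 174 .pm ⟨0, 0, 38194053, 0, 0, 0, 0, 0, 0, ⟨0, 0⟩, 0⟩ 0 0) (.pos 175 .pm ⟨0, 0, 72880789, 0, 0, 0, 0, 0, 0, ⟨0, 0⟩, 0⟩ 0 0)) (.pos 171 .pm ⟨0, 0, 120694634, 0, 0, 0, 0, 0, 0, ⟨0, 0⟩, 0⟩ 0 0)) (.pos 165 .pm ⟨0, 0, 201934009, 0, 0, 0, 0, 0, 0, ⟨0, 0⟩, 0⟩ 0 0)) (.pos 149 .pm ⟨0, 0, 344252252,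 0, 0, 0, 0, 0, 0, ⟨0, 0⟩, 0⟩ 0 0)) (.pos 119 .pm ⟨0, 0, 591397518, 0, 0, 0, 0, 0, 0, ⟨0, 0⟩, 0⟩ 0 0)) (.pos 7 .pm ⟨0, 0, 1041723902, 0, 0, 0, 0, 0, 0, ⟨0, 0⟩, 0⟩ 0 0)) (.pos 5 .pm ⟨0, 0, 2481920781, 0, 0, 0, 0, 0, 0, ⟨0, 0⟩, 0⟩ 0 0)) (.pos 3 .pm ⟨0, 0, 518546703, 0, 0, 0, 0, 0, 0, ⟨0, 0⟩, 0⟩ 0 0)) (.cut .v 4294967296 (.cut .v 268435456 (.cut .v 67108864 (.pos 82 .pp ⟨0, 0, 0, 0, 0, 0, 0, 0, 0, ⟨0, 0⟩, 0⟩ 0 0) (.cut .v 134217728 (.cut .d 332139 (.cut .d 166069 (.cut .d 83034 (.pos 97 .pp ⟨144810788482, 0, 0, 0, 0, 0, 0, 0, 0, ⟨0, 0⟩, 0⟩ 0 0) (.cut .v 100663296 (.pos 101 .pp ⟨26604706080, 0, 0, 0, 0, 0, 0, 0, 0, ⟨0, 0⟩, 0⟩ 0 0) (.cut .v 117440512 (.pos 116 .pp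 ⟨38211161895, 0, 0, 0, 0, 0, 0, 0, 0, ⟨0, 0⟩, 0⟩ 0 0) (.cut .v 125829120 (.pos 150 .pp ⟨44354194079, 0, 0, 0, 0, 0, 0, 0, 0, ⟨0, 0⟩, 0⟩ 0 0) (.cut .l 671088 (.cut .l 432675 (.cut .l 313468 (.cut .l 253865 (.cut .d 124551 (.cut .v 130023424 (.pos 179 .pp ⟨56895781161, 0, 0, 0, 0, 0, 0, 0, 0, ⟨0, 0⟩, 0⟩ 0 0) (.cut .v 132120576 (.pos 181 .pp ⟨83856365786, 46936299012, 0, 0, 0, 0, 0, 0, 0, ⟨0, 0⟩, 0⟩ 0 0) (.void 182 ⟨33882, 66118, 0, 0, 0, 0, 0, 0, 0, ⟨0, 0⟩, 0⟩ 0 0))) (.cut .v 130023424 (.pos 179 .pp ⟨43183473754, 0, 0, 0, 0, 0, 0, 0, 0, ⟨0, 0⟩, 0⟩ 0 0) (.cut .d 145310 (.cut .d 134930 (.pos 180 .pp ⟨71568162662, 41153990704, 0, 0, 0, 0, 0, 0, 0, ⟨0, 0⟩, 0⟩ 0 0)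 (.pos 180 .pp ⟨63334083147, 38806272165, 0, 0, 0, 0, 0, 0, 0, ⟨0, 0⟩, 0⟩ 0 0)) (.void 180 ⟨0, 100000, 0, 0, 0, 0, 0, 0, 0, ⟨0, 0⟩, 0⟩ 0 0)))) (.pos 151 .pp ⟨67441301743, 27502882846, 0, 0, 0, 0, 0, 0, 0, ⟨0, 0⟩, 0⟩ 0 0)) (.pos 151 .pp ⟨66155290071, 26306265444, 0, 0, 0, 0, 0, 0, 0, ⟨0, 0⟩, 0⟩ 0 0)) (.pos 151 .pp ⟨63589018714, 23912407939, 0, 0, 0, 0, 0, 0, 0, ⟨0, 0⟩, 0⟩ 0 0)) (.pos 151 .pp ⟨58479471094, 19122315110, 0, 0, 0, 0, 0, 0, 0, ⟨0, 0⟩, 0⟩ 0 0)))))) (.pos 97 .pp ⟨0, 18460203177, 0, 0, 0, 0, 0, 0, 0, ⟨0, 0⟩, 0⟩ 0 0)) (.pos 97 .pp ⟨0, 0, 0, 0, 0, 0, 0, 0, 0, ⟨0, 0⟩, 0⟩ 0 0)) (.void 98 ⟨33581, 66419, 0, 0, 0, 0, 0, 0, 0, ⟨0, 0⟩, 0⟩ 0 0))) (.void 109 ⟨0,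 0, 0, 100000, 0, 0, 0, 0, 0, ⟨0, 0⟩, 0⟩ 0 0)) (.void 178 ⟨0, 0, 0, 100000, 0, 0, 0, 0, 0, ⟨0, 0⟩, 0⟩ 0 0)))),
    by decide +kernel⟩

def covers31 : cell.Covers table row31.1 :=
  ⟨(.cut .d 0 (.cut .v 16777216 (.cut .v 8388608 (.pos 2 .mm ⟨0, 0, 167772160000, 0, 0, 0, 0, 0, 0, ⟨0, 0⟩, 0⟩ 0 0) (.pos 3 .mm ⟨0, 0, 993813451, 0, 0, 107124188422, 0, 0, 0, ⟨0, 0⟩, 0⟩ 0 0)) (.cut .v 4294967296 (.cut .v 268435456 (.cut .v 67108864 (.cut .d (-8388608) (.void 82 ⟨100000, 0, 0, 0, 0, 0, 0, 0, 0, ⟨0, 0⟩, 0⟩ 0 0) (.cut .d (-4194304) (.void 82 ⟨100000, 0, 0, 0, 0, 0, 0, 0, 0, ⟨0, 0⟩, 0⟩ 0 0) (.pos 82 .mp ⟨0, 0, 0, 0, 0, 166298473756, 0, 0, 0, ⟨0, 0⟩, 0⟩ 0 0))) (.void 96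 ⟨100000, 0, 0, 0, 0, 0, 0, 0, 0, ⟨0, 0⟩, 0⟩ 0 0)) (.void 109 ⟨97194, 0, 0, 4678, 0, 0, 0, 0, 0, ⟨0, 0⟩, 0⟩ 0 0)) (.void 178 ⟨95349, 0, 0, 4651, 0, 0, 0, 0, 0, ⟨0, 0⟩, 0⟩ 0 0))) (.cut .v 16777216 (.cut .v 8388608 (.cut .v 4194304 (.cut .v 2097152 (.cut .v 1048576 (.cut .v 524288 (.cut .v 262144 (.cut .v 131072 (.cut .v 65536 (.cut .v 32768 (.pos 183 .pm ⟨0, 0, 32763562, 0, 0, 0, 0, 0, 0, ⟨0, 0⟩, 0⟩ 0 0) (.pos 184 .pm ⟨0, 0, 59494318, 0, 0, 0, 0, 0, 0, ⟨0, 0⟩, 0⟩ 0 0)) (.pos 175 .pm ⟨0, 0, 96584235, 0, 0, 0, 0, 0, 0, ⟨0, 0⟩, 0⟩ 0 0)) (.pos 171 .pm ⟨0, 0, 159067859, 0, 0, 0, 0, 0, 0, ⟨0, 0⟩, 0⟩ 0 0)) (.pos 165 .pm ⟨0, 0, 267293976, 0, 0, 0, 0, 0, 0, ⟨0, 0⟩, 0⟩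 0 0)) (.pos 149 .pm ⟨0, 0, 443140625, 0, 0, 0, 0, 0, 0, ⟨0, 0⟩, 0⟩ 0 0)) (.pos 119 .pm ⟨0, 0, 757723469, 0, 0, 0, 0, 0, 0, ⟨0, 0⟩, 0⟩ 0 0)) (.pos 7 .pm ⟨0, 0, 1507108370, 0, 0, 0, 0, 0, 0, ⟨0, 0⟩, 0⟩ 0 0)) (.pos 5 .pm ⟨0, 0, 3835119535, 0, 0, 0, 0, 0, 0, ⟨0, 0⟩, 0⟩ 0 0)) (.pos 3 .pm ⟨0, 0, 993813451, 0, 0, 0, 0, 0, 0, ⟨0, 0⟩, 0⟩ 0 0)) (.cut .v 4294967296 (.cut .v 268435456 (.cut .v 67108864 (.pos 82 .pp ⟨0, 0, 0, 0, 0, 0, 0, 0, 0, ⟨0, 0⟩, 0⟩ 0 0) (.cut .v 134217728 (.cut .d 261881 (.cut .d 130940 (.cut .d 65470 (.pos 97 .pp ⟨167772160000, 0, 0, 0, 0, 0, 0, 0, 0, ⟨0, 0⟩, 0⟩ 0 0) (.cut .v 100663296 (.pos 101 .pp ⟨37656273091, 0, 0, 0, 0, 0, 0, 0, 0, ⟨0, 0⟩, 0⟩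 0 0) (.cut .v 117440512 (.pos 116 .pp ⟨51755576005, 0, 0, 0, 0, 0, 0, 0, 0, ⟨0, 0⟩, 0⟩ 0 0) (.cut .v 125829120 (.pos 150 .pp ⟨56418594865, 0, 0, 0, 0, 0, 0, 0, 0, ⟨0, 0⟩, 0⟩ 0 0) (.cut .d 98205 (.pos 151 .pp ⟨142577399256, 25194760744, 0, 0, 0, 0, 0, 0, 0, ⟨0, 0⟩, 0⟩ 0 0) (.cut .v 130023424 (.pos 179 .pp ⟨58193540674, 0, 0, 0, 0, 0, 0, 0, 0, ⟨0, 0⟩, 0⟩ 0 0) (.pos 180 .pp ⟨90586664576, 63253980273, 0, 0, 0, 0, 0, 0, 0, ⟨0, 0⟩, 0⟩ 0 0))))))) (.pos 97 .pp ⟨0, 29588743500, 0, 0, 0, 0, 0, 0, 0, ⟨0, 0⟩, 0⟩ 0 0)) (.pos 97 .pp ⟨0, 0, 0, 0, 0, 0, 0, 0, 0, ⟨0, 0⟩, 0⟩ 0 0)) (.void 98 ⟨33539, 66461, 0, 0, 0, 0, 0, 0, 0, ⟨0, 0⟩, 0⟩ 0 0))) (.void 109 ⟨0, 0, 0, 100000, 0,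 0, 0, 0, 0, ⟨0, 0⟩, 0⟩ 0 0)) (.void 178 ⟨0, 0, 0, 100000, 0, 0, 0, 0, 0, ⟨0, 0⟩, 0⟩ 0 0)))),
    by decide +kernel⟩

def covers32 : cell.Covers table row32.1 :=
  ⟨(.cut .d 0 (.cut .v 16777216 (.cut .v 8388608 (.void 2 ⟨0, 0, 100000, 0, 0, 0, 0, 0, 0, ⟨0, 0⟩, 0⟩ 0 0) (.pos 3 .mm ⟨0, 0, 2162518763, 0, 0, 139777957939, 0, 0, 0, ⟨0, 0⟩, 0⟩ 0 0)) (.cut .v 4294967296 (.cut .v 268435456 (.cut .v 67108864 (.cut .d (-8388608) (.void 82 ⟨100000, 0, 0, 0, 0, 0, 0, 0, 0, ⟨0, 0⟩, 0⟩ 0 0) (.cut .d (-4194304) (.void 82 ⟨100000, 0, 0, 0, 0, 0, 0, 0, 0, ⟨0, 0⟩, 0⟩ 0 0) (.pos 82 .mp ⟨76756963563, 0, 0, 0, 0, 91015196437, 0, 0, 0, ⟨0, 0⟩, 0⟩ 0 0))) (.void 96 ⟨100000, 0, 0, 0,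 0, 0, 0, 0, 0, ⟨0, 0⟩, 0⟩ 0 0)) (.void 109 ⟨95327, 0, 0, 4673, 0, 0, 0, 0, 0, ⟨0, 0⟩, 0⟩ 0 0)) (.void 178 ⟨95327, 0, 0, 4673, 0, 0, 0, 0, 0, ⟨0, 0⟩, 0⟩ 0 0))) (.cut .v 16777216 (.cut .v 8388608 (.cut .v 4194304 (.cut .v 2097152 (.cut .v 1048576 (.cut .v 524288 (.cut .v 262144 (.cut .v 131072 (.cut .v 65536 (.cut .v 32768 (.pos 183 .pm ⟨0, 0, 40315773, 0, 0, 0, 0, 0, 0, ⟨0, 0⟩, 0⟩ 0 0) (.pos 184 .pm ⟨0, 0, 80300870, 0, 0, 0, 0, 0, 0, ⟨0, 0⟩, 0⟩ 0 0)) (.pos 175 .pm ⟨0, 0, 136132141, 0, 0, 0, 0, 0, 0, ⟨0, 0⟩, 0⟩ 0 0)) (.pos 171 .pm ⟨0, 0, 233255476, 0, 0, 0, 0, 0, 0, ⟨0, 0⟩, 0⟩ 0 0)) (.pos 165 .pm ⟨0, 0, 406858774, 0, 0, 0, 0, 0, 0, ⟨0, 0⟩, 0⟩ 0 0)) (.pos 149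 .pm ⟨0, 0, 719929138, 0, 0, 0, 0, 0, 0, ⟨0, 0⟩, 0⟩ 0 0)) (.pos 119 .pm ⟨0, 0, 1264835373, 0, 0, 0, 0, 0, 0, ⟨0, 0⟩, 0⟩ 0 0)) (.pos 7 .pm ⟨0, 0, 2328820934, 0, 0, 0, 0, 0, 0, ⟨0, 0⟩, 0⟩ 0 0)) (.pos 5 .pm ⟨0, 0, 5260288144, 0, 0, 0, 0, 0, 0, ⟨0, 0⟩, 0⟩ 0 0)) (.pos 3 .pm ⟨0, 0, 2162518763, 0, 0, 0, 0, 0, 0, ⟨0, 0⟩, 0⟩ 0 0)) (.cut .v 4294967296 (.cut .v 268435456 (.cut .v 67108864 (.pos 82 .pp ⟨0, 0, 0, 0, 0, 0, 0, 0, 0, ⟨0, 0⟩, 0⟩ 0 0) (.cut .v 134217728 (.cut .d 209926 (.cut .d 104963 (.pos 97 .pp ⟨118140643860, 5375113425, 0, 0, 0, 0, 0, 0, 0, ⟨0, 0⟩, 0⟩ 0 0) (.pos 97 .pp ⟨0, 37089738333, 0, 0, 0, 0, 0, 0, 0, ⟨0, 0⟩, 0⟩ 0 0)) (.pos 97 .pp ⟨0, 0, 0, 0, 0, 0,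 0, 0, 0, ⟨0, 0⟩, 0⟩ 0 0)) (.void 98 ⟨33496, 66504, 0, 0, 0, 0, 0, 0, 0, ⟨0, 0⟩, 0⟩ 0 0))) (.void 109 ⟨0, 0, 0, 100000, 0, 0, 0, 0, 0, ⟨0, 0⟩, 0⟩ 0 0)) (.void 178 ⟨0, 0, 0, 100000, 0, 0, 0, 0, 0, ⟨0, 0⟩, 0⟩ 0 0)))),
    by decide +kernel⟩

def covers33 : cell.Covers table row33.1 :=
  ⟨(.cut .d 0 (.cut .v 16777216 (.cut .d (-8388608) (.void 1 ⟨0, 0, 0, 0, 0, 100000, 0, 0, 0, ⟨0, 0⟩, 0⟩ 0 0) (.cut .v 8388608 (.pos 2 .mm ⟨0, 0, 167772160000, 0, 0, 0, 0, 0, 0, ⟨0, 0⟩, 0⟩ 0 0) (.pos 3 .mm ⟨0, 0, 3077860180, 0, 0, 108101108210, 0, 0, 0, ⟨0, 0⟩, 0⟩ 0 0))) (.cut .v 4294967296 (.cut .v 268435456 (.cut .v 67108864 (.cut .d (-8388608) (.void 82 ⟨100000, 0, 0, 0, 0, 0,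 0, 0, 0, ⟨0, 0⟩, 0⟩ 0 0) (.cut .v 33554432 (.pos 30 .mp ⟨115342696193, 0, 0, 0, 0, 52429463807, 0, 0, 0, ⟨0, 0⟩, 0⟩ 0 0) (.void 83 ⟨100000, 0, 0, 0, 0, 0, 0, 0, 0, ⟨0, 0⟩, 0⟩ 0 0))) (.void 96 ⟨100000, 0, 0, 0, 0, 0, 0, 0, 0, ⟨0, 0⟩, 0⟩ 0 0)) (.void 109 ⟨95309, 0, 0, 4691, 0, 0, 0, 0, 0, ⟨0, 0⟩, 0⟩ 0 0)) (.void 178 ⟨95309, 0, 0, 4691, 0, 0, 0, 0, 0, ⟨0, 0⟩, 0⟩ 0 0))) (.cut .v 16777216 (.cut .v 8388608 (.cut .v 4194304 (.cut .v 2097152 (.cut .v 1048576 (.cut .v 524288 (.cut .v 262144 (.cut .v 131072 (.cut .v 65536 (.cut .v 32768 (.pos 183 .pm ⟨0, 0, 44256997, 0, 0, 0, 0, 0, 0, ⟨0, 0⟩, 0⟩ 0 0) (.pos 184 .pm ⟨0, 0, 86578374, 0, 0, 0, 0, 0, 0, ⟨0, 0⟩, 0⟩ 0 0)) (.pos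 175 .pm ⟨0, 0, 146859502, 0, 0, 0, 0, 0, 0, ⟨0, 0⟩, 0⟩ 0 0)) (.pos 171 .pm ⟨0, 0, 257563015, 0, 0, 0, 0, 0, 0, ⟨0, 0⟩, 0⟩ 0 0)) (.pos 165 .pm ⟨0, 0, 460833698, 0, 0, 0, 0, 0, 0, ⟨0, 0⟩, 0⟩ 0 0)) (.pos 149 .pm ⟨0, 0, 838750071, 0, 0, 0, 0, 0, 0, ⟨0, 0⟩, 0⟩ 0 0)) (.pos 119 .pm ⟨0, 0, 1572927143, 0, 0, 0, 0, 0, 0, ⟨0, 0⟩, 0⟩ 0 0)) (.pos 7 .pm ⟨0, 0, 3186964489, 0, 0, 0, 0, 0, 0, ⟨0, 0⟩, 0⟩ 0 0)) (.pos 5 .pm ⟨0, 0, 8244355963, 0, 0, 0, 0, 0, 0, ⟨0, 0⟩, 0⟩ 0 0)) (.pos 3 .pm ⟨0, 0, 3077860180, 0, 0, 0, 0, 0, 0, ⟨0, 0⟩, 0⟩ 0 0)) (.cut .v 4294967296 (.cut .v 268435456 (.cut .v 67108864 (.pos 82 .pp ⟨0, 0, 0, 0, 0, 0, 0, 0, 0, ⟨0, 0⟩, 0⟩ 0 0) (.cut .v 134217728 (.cut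 .d 167105 (.cut .d 83552 (.pos 97 .pp ⟨129615206428, 26322723835, 0, 0, 0, 0, 0, 0, 0, ⟨0, 0⟩, 0⟩ 0 0) (.pos 97 .pp ⟨0, 66847862486, 0, 0, 0, 0, 0, 0, 0, ⟨0, 0⟩, 0⟩ 0 0)) (.pos 97 .pp ⟨0, 0, 0, 0, 0, 0, 0, 0, 0, ⟨0, 0⟩, 0⟩ 0 0)) (.void 98 ⟨33463, 66537, 0, 0, 0, 0, 0, 0, 0, ⟨0, 0⟩, 0⟩ 0 0))) (.void 109 ⟨0, 0, 0, 100000, 0, 0, 0, 0, 0, ⟨0, 0⟩, 0⟩ 0 0)) (.void 178 ⟨0, 0, 0, 100000, 0, 0, 0, 0, 0, ⟨0, 0⟩, 0⟩ 0 0)))),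
    by decide +kernel⟩

def covers34 : cell.Covers table row34.1 :=
  ⟨(.cut .d 0 (.cut .v 16777216 (.cut .v 8388608 (.pos 2 .mm ⟨0, 0, 167772160000, 0, 0, 0, 0, 0, 0, ⟨0, 0⟩, 0⟩ 0 0) (.cut .d (-8388608) (.void 3 ⟨0, 0, 0, 0, 0, 1000000000, 0, 0, 0, ⟨0, 0⟩, 0⟩ 0 0) (.pos 3 .mm ⟨0, 0, 11545455915, 0, 0, 132802867337, 0, 0, 0, ⟨0, 0⟩, 0⟩ 0 0))) (.cut .v 4294967296 (.cut .d (-8388608) (.void 108 ⟨0, 0, 0, 0, 0, 1000000000, 0, 0, 0, ⟨0, 0⟩, 0⟩ 0 0) (.cut .v 268435456 (.cut .v 67108864 (.cut .v 33554432 (.cut .d (-4194304) (.void 30 ⟨1000000000, 0, 0, 0, 0, 0, 0, 0, 0, ⟨0, 0⟩, 0⟩ 0 0) (.pos 30 .mp ⟨33521016173, 0, 0, 0, 0, 134251143827, 0, 0, 0, ⟨0, 0⟩, 0⟩ 0 0))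 (.void 83 ⟨199800826, 0, 0, 0, 0, 800199174, 0, 0, 0, ⟨0, 0⟩, 0⟩ 0 0)) (.void 96 ⟨199800826, 0, 0, 0, 0, 800199174, 0, 0, 0, ⟨0, 0⟩, 0⟩ 0 0)) (.void 109 ⟨199800826, 0, 0, 0, 0, 800199174, 0, 0, 0, ⟨0, 0⟩, 0⟩ 0 0))) (.void 178 ⟨95296, 0, 0, 4704, 0, 0, 0, 0, 0, ⟨0, 0⟩, 0⟩ 0 0))) (.cut .v 16777216 (.cut .v 8388608 (.cut .v 4194304 (.cut .v 2097152 (.cut .v 1048576 (.cut .v 524288 (.cut .v 262144 (.cut .v 131072 (.cut .v 65536 (.cut .v 32768 (.pos 183 .pm ⟨0, 0, 46005039, 0, 0, 0, 0, 0, 0, ⟨0, 0⟩, 0⟩ 0 0) (.pos 184 .pm ⟨0, 0, 92110389, 0, 0, 0, 0, 0, 0, ⟨0, 0⟩, 0⟩ 0 0)) (.pos 175 .pm ⟨0, 0, 154988902, 0, 0, 0, 0, 0, 0, ⟨0, 0⟩, 0⟩ 0 0)) (.pos 171 .pm ⟨0, 0, 284595986,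 0, 0, 0, 0, 0, 0, ⟨0, 0⟩, 0⟩ 0 0)) (.pos 165 .pm ⟨0, 0, 552809250, 0, 0, 0, 0, 0, 0, ⟨0, 0⟩, 0⟩ 0 0)) (.pos 149 .pm ⟨0, 0, 1089596394, 0, 0, 0, 0, 0, 0, ⟨0, 0⟩, 0⟩ 0 0)) (.pos 119 .pm ⟨0, 0, 2163948175, 0, 0, 0, 0, 0, 0, ⟨0, 0⟩, 0⟩ 0 0)) (.pos 7 .pm ⟨0, 0, 4315761716, 0, 0, 0, 0, 0, 0, ⟨0, 0⟩, 0⟩ 0 0)) (.pos 5 .pm ⟨0, 0, 8631828707, 0, 0, 0, 0, 0, 0, ⟨0, 0⟩, 0⟩ 0 0)) (.pos 3 .pm ⟨0, 0, 11545455915, 0, 0, 0, 0, 0, 0, ⟨0, 0⟩, 0⟩ 0 0)) (.cut .v 4294967296 (.cut .v 268435456 (.cut .v 67108864 (.pos 82 .pp ⟨0, 0, 0, 0, 0, 0, 0, 0, 0, ⟨0, 0⟩, 0⟩ 0 0) (.cut .v 134217728 (.pos 97 .pp ⟨84863709934, 0, 0, 0, 0, 0, 0, 0, 0, ⟨0, 0⟩, 0⟩ 0 0) (.void 98 ⟨33396, 66604, 0,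 0, 0, 0, 0, 0, 0, ⟨0, 0⟩, 0⟩ 0 0))) (.void 109 ⟨0, 0, 0, 100000, 0, 0, 0, 0, 0, ⟨0, 0⟩, 0⟩ 0 0)) (.void 178 ⟨0, 0, 0, 100000, 0, 0, 0, 0, 0, ⟨0, 0⟩, 0⟩ 0 0)))),
    by decide +kernel⟩

def covers35 : cell.Covers table row35.1 :=
  ⟨(.cut .d 0 (.cut .v 16777216 (.cut .d (-8388608) (.void 1 ⟨0, 0, 0, 0, 0, 1000000000, 0, 0, 0, ⟨0, 0⟩, 0⟩ 0 0) (.cut .v 8388608 (.pos 2 .mm ⟨0, 0, 167772160000, 0, 0, 0, 0, 0, 0, ⟨0, 0⟩, 0⟩ 0 0) (.pos 3 .mm ⟨76916110293, 0, 60117699289, 0, 0, 30738350417, 0, 0, 0, ⟨0, 0⟩, 0⟩ 0 0))) (.cut .v 4294967296 (.cut .d (-8388608) (.void 108 ⟨0, 0, 0, 0, 0, 1000000000, 0, 0, 0, ⟨0, 0⟩, 0⟩ 0 0) (.cut .v 268435456 (.cut .v 67108864 (.cut .d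 (-4194304) (.void 82 ⟨1000000000, 0, 0, 0, 0, 0, 0, 0, 0, ⟨0, 0⟩, 0⟩ 0 0) (.cut .v 33554432 (.pos 30 .mp ⟨157917350921, 0, 0, 0, 0, 9854809079, 0, 0, 0, ⟨0, 0⟩, 0⟩ 0 0) (.void 83 ⟨941260761, 0, 0, 0, 0, 58739239, 0, 0, 0, ⟨0, 0⟩, 0⟩ 0 0))) (.void 96 ⟨941260761, 0, 0, 0, 0, 58739239, 0, 0, 0, ⟨0, 0⟩, 0⟩ 0 0)) (.void 109 ⟨93089, 0, 0, 6911, 0, 0, 0, 0, 0, ⟨0, 0⟩, 0⟩ 0 0))) (.void 178 ⟨99867, 0, 0, 115, 0, 0, 0, 0, 0, ⟨0, 0⟩, 0⟩ 0 0))) (.cut .v 16777216 (.cut .v 8388608 (.cut .v 4194304 (.cut .v 2097152 (.cut .v 1048576 (.cut .v 524288 (.cut .v 262144 (.cut .v 131072 (.cut .v 65536 (.cut .v 32768 (.pos 183 .pm ⟨0, 0, 67435796, 0, 0, 0, 0, 0, 0, ⟨0, 0⟩, 0⟩ 0 0)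 (.pos 184 .pm ⟨0, 0, 157355725, 0, 0, 0, 0, 0, 0, ⟨0, 0⟩, 0⟩ 0 0)) (.pos 175 .pm ⟨0, 0, 289603224, 0, 0, 0, 0, 0, 0, ⟨0, 0⟩, 0⟩ 0 0)) (.pos 171 .pm ⟨0, 0, 543856930, 0, 0, 0, 0, 0, 0, ⟨0, 0⟩, 0⟩ 0 0)) (.pos 165 .pm ⟨0, 0, 1036763733, 0, 0, 0, 0, 0, 0, ⟨0, 0⟩, 0⟩ 0 0)) (.pos 149 .pm ⟨0, 0, 1995017657, 0, 0, 0, 0, 0, 0, ⟨0, 0⟩, 0⟩ 0 0)) (.pos 119 .pm ⟨0, 0, 3833574069, 0, 0, 0, 0, 0, 0, ⟨0, 0⟩, 0⟩ 0 0)) (.pos 7 .pm ⟨0, 0, 7275322368, 0, 0, 0, 0, 0, 0, ⟨0, 0⟩, 0⟩ 0 0)) (.pos 5 .pm ⟨0, 0, 13434210398, 0, 0, 0, 0, 0, 0, ⟨0, 0⟩, 0⟩ 0 0)) (.pos 3 .pm ⟨0, 0, 25091183498, 0, 0, 0, 0, 0, 0, ⟨0, 0⟩, 0⟩ 0 0)) (.cut .v 4294967296 (.cut .v 268435456 (.pos 95 .pp ⟨0, 0, 0,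 0, 0, 0, 0, 0, 0, ⟨0, 0⟩, 0⟩ 0 0) (.cut .s 16588800 (.void 109 ⟨0, 0, 0, 100000, 0, 0, 0, 0, 0, ⟨0, 0⟩, 0⟩ 0 0) (.void 109 ⟨0, 0, 0, 100000, 0, 0, 0, 0, 0, ⟨0, 0⟩, 0⟩ 0 0))) (.void 178 ⟨0, 0, 0, 100000, 0, 0, 0, 0, 0, ⟨0, 0⟩, 0⟩ 0 0)))),
    by decide +kernel⟩

def covers36 : cell.Covers table row36.1 :=
  ⟨(.cut .d 0 (.cut .v 16777216 (.cut .d (-8388608) (.void 1 ⟨0, 0, 0, 0, 0, 1000000000, 0, 0, 0, ⟨0, 0⟩, 0⟩ 0 0) (.cut .d (-4194304) (.void 1 ⟨0, 0, 0, 0, 0, 1000000000, 0, 0, 0, ⟨0, 0⟩, 0⟩ 0 0) (.cut .v 8388608 (.void 2 ⟨0, 0, 100000, 0, 0, 0, 0, 0, 0, ⟨0, 0⟩, 0⟩ 0 0) (.pos 3 .mm ⟨40384508925, 0, 38921816040, 0, 0, 88465835035, 0, 0, 0, ⟨0, 0⟩, 0⟩ 0 0))))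 (.cut .v 4294967296 (.cut .v 268435456 (.cut .d (-8388608) (.void 95 ⟨0, 0, 0, 0, 0, 1000000000, 0, 0, 0, ⟨0, 0⟩, 0⟩ 0 0) (.cut .v 67108864 (.cut .d (-4194304) (.void 82 ⟨100000, 0, 0, 0, 0, 0, 0, 0, 0, ⟨0, 0⟩, 0⟩ 0 0) (.cut .v 33554432 (.cut .d (-2097152) (.void 30 ⟨1000000000, 0, 0, 0, 0, 0, 0, 0, 0, ⟨0, 0⟩, 0⟩ 0 0) (.pos 30 .mp ⟨167772160000, 0, 0, 0, 0, 0, 0, 0, 0, ⟨0, 0⟩, 0⟩ 0 0)) (.void 83 ⟨100000, 0, 0, 0, 0, 0, 0, 0, 0, ⟨0, 0⟩, 0⟩ 0 0))) (.void 96 ⟨100000, 0, 0, 0, 0, 0, 0, 0, 0, ⟨0, 0⟩, 0⟩ 0 0))) (.void 109 ⟨95274, 0, 0, 4726, 0, 0, 0, 0, 0, ⟨0, 0⟩, 0⟩ 0 0)) (.void 178 ⟨94869, 0, 0, 244, 0, 4887, 0, 0, 0, ⟨0, 0⟩, 0⟩ 0 0))) (.cut .v 16777216 (.cut .v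 8388608 (.cut .v 4194304 (.cut .v 2097152 (.cut .v 1048576 (.cut .v 524288 (.cut .v 262144 (.cut .v 131072 (.cut .v 65536 (.cut .v 32768 (.cut .v 16384 (.cut .v 8192 (.pos 189 .pm ⟨0, 0, 41563712, 0, 0, 0, 0, 0, 0, ⟨0, 0⟩, 0⟩ 0 0) (.pos 190 .pm ⟨0, 0, 85255274, 0, 0, 0, 0, 0, 0, ⟨0, 0⟩, 0⟩ 0 0)) (.pos 188 .pm ⟨0, 0, 146791988, 0, 0, 0, 0, 0, 0, ⟨0, 0⟩, 0⟩ 0 0)) (.pos 184 .pm ⟨0, 0, 261943333, 0, 0, 0, 0, 0, 0, ⟨0, 0⟩, 0⟩ 0 0)) (.pos 175 .pm ⟨0, 0, 479369528, 0, 0, 0, 0, 0, 0, ⟨0, 0⟩, 0⟩ 0 0)) (.pos 171 .pm ⟨0, 0, 922452730, 0, 0, 0, 0, 0, 0, ⟨0, 0⟩, 0⟩ 0 0)) (.pos 165 .pm ⟨0, 0, 1828769950, 0, 0, 0, 0, 0, 0, ⟨0, 0⟩, 0⟩ 0 0)) (.pos 149 .pm ⟨0, 0, 3641604326,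 0, 0, 0, 0, 0, 0, ⟨0, 0⟩, 0⟩ 0 0)) (.pos 119 .pm ⟨0, 0, 7268072818, 0, 0, 0, 0, 0, 0, ⟨0, 0⟩, 0⟩ 0 0)) (.pos 7 .pm ⟨0, 0, 14524208767, 0, 0, 0, 0, 0, 0, ⟨0, 0⟩, 0⟩ 0 0)) (.pos 5 .pm ⟨0, 0, 29091824140, 0, 0, 0, 0, 0, 0, ⟨0, 0⟩, 0⟩ 0 0)) (.pos 3 .pm ⟨0, 0, 32032660592, 0, 0, 0, 0, 0, 0, ⟨0, 0⟩, 0⟩ 0 0)) (.cut .v 4294967296 (.cut .v 268435456 (.cut .v 67108864 (.pos 82 .pp ⟨0, 0, 0, 0, 0, 0, 0, 0, 0, ⟨0, 0⟩, 0⟩ 0 0) (.cut .v 134217728 (.pos 97 .pp ⟨167772160000, 0, 0, 0, 0, 0, 0, 0, 0, ⟨0, 0⟩, 0⟩ 0 0) (.void 98 ⟨33398, 66602, 0, 0, 0, 0, 0, 0, 0, ⟨0, 0⟩, 0⟩ 0 0))) (.void 109 ⟨0, 0, 0, 100000, 0, 0, 0, 0, 0, ⟨0, 0⟩, 0⟩ 0 0)) (.void 178 ⟨0, 0, 0, 100000, 0, 0,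 0, 0, 0, ⟨0, 0⟩, 0⟩ 0 0)))),
    by decide +kernel⟩

def covers37 : cell.Covers table row37.1 :=
  ⟨(.cut .d 0 (.cut .v 16777216 (.cut .d (-8388608) (.void 1 ⟨0, 0, 100000, 0, 0, 0, 0, 0, 0, ⟨0, 0⟩, 0⟩ 0 0) (.cut .d (-4194304) (.void 1 ⟨0, 0, 100000, 0, 0, 0, 0, 0, 0, ⟨0, 0⟩, 0⟩ 0 0) (.cut .v 8388608 (.void 2 ⟨0, 0, 100000, 0, 0, 0, 0, 0, 0, ⟨0, 0⟩, 0⟩ 0 0) (.pos 3 .mm ⟨95498653319, 0, 48324143099, 0, 0, 23949363583, 0, 0, 0, ⟨0, 0⟩, 0⟩ 0 0)))) (.cut .v 4294967296 (.cut .d (-8388608) (.void 108 ⟨0, 0, 0, 0, 0, 1000000000, 0, 0, 0, ⟨0, 0⟩, 0⟩ 0 0) (.cut .v 268435456 (.cut .v 67108864 (.cut .d (-4194304) (.void 82 ⟨1000000000, 0, 0, 0, 0, 0, 0, 0, 0, ⟨0, 0⟩,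 0⟩ 0 0) (.cut .v 33554432 (.cut .d (-2097152) (.void 30 ⟨1000000000, 0, 0, 0, 0, 0, 0, 0, 0, ⟨0, 0⟩, 0⟩ 0 0) (.cut .v 25165824 (.pos 31 .mp ⟨139975497879, 0, 0, 0, 0, 27796662121, 0, 0, 0, ⟨0, 0⟩, 0⟩ 0 0) (.void 32 ⟨834318983, 0, 0, 0, 0, 165681017, 0, 0, 0, ⟨0, 0⟩, 0⟩ 0 0))) (.void 83 ⟨834318983, 0, 0, 0, 0, 165681017, 0, 0, 0, ⟨0, 0⟩, 0⟩ 0 0))) (.void 96 ⟨834318983, 0, 0, 0, 0, 165681017, 0, 0, 0, ⟨0, 0⟩, 0⟩ 0 0)) (.void 109 ⟨834318983, 0, 0, 0, 0, 165681017, 0, 0, 0, ⟨0, 0⟩, 0⟩ 0 0))) (.void 178 ⟨834318983, 0, 0, 0, 0, 165681017, 0, 0, 0, ⟨0, 0⟩, 0⟩ 0 0))) (.cut .v 16777216 (.cut .v 8388608 (.cut .v 4194304 (.cut .v 2097152 (.cut .v 1048576 (.cut .v 524288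 (.cut .v 262144 (.cut .v 131072 (.cut .v 65536 (.cut .v 32768 (.cut .v 16384 (.cut .v 8192 (.pos 189 .pm ⟨0, 0, 48219893, 0, 0, 0, 0, 0, 0, ⟨0, 0⟩, 0⟩ 0 0) (.pos 190 .pm ⟨0, 0, 102960852, 0, 0, 0, 0, 0, 0, ⟨0, 0⟩, 0⟩ 0 0)) (.pos 188 .pm ⟨0, 0, 176789578, 0, 0, 0, 0, 0, 0, ⟨0, 0⟩, 0⟩ 0 0)) (.pos 184 .pm ⟨0, 0, 308051753, 0, 0, 0, 0, 0, 0, ⟨0, 0⟩, 0⟩ 0 0)) (.pos 175 .pm ⟨0, 0, 552625837, 0, 0, 0, 0, 0, 0, ⟨0, 0⟩, 0⟩ 0 0)) (.pos 171 .pm ⟨0, 0, 1050503024, 0, 0, 0, 0, 0, 0, ⟨0, 0⟩, 0⟩ 0 0)) (.pos 165 .pm ⟨0, 0, 2060154137, 0, 0, 0, 0, 0, 0, ⟨0, 0⟩, 0⟩ 0 0)) (.pos 149 .pm ⟨0, 0, 4053512804, 0, 0, 0, 0, 0, 0, ⟨0, 0⟩, 0⟩ 0 0)) (.pos 119 .pm ⟨0, 0, 7964445269, 0, 0,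 0, 0, 0, 0, ⟨0, 0⟩, 0⟩ 0 0)) (.pos 7 .pm ⟨0, 0, 15546029697, 0, 0, 0, 0, 0, 0, ⟨0, 0⟩, 0⟩ 0 0)) (.pos 5 .pm ⟨0, 0, 29910698176, 0, 0, 0, 0, 0, 0, ⟨0, 0⟩, 0⟩ 0 0)) (.pos 3 .pm ⟨0, 0, 32032966389, 0, 0, 0, 0, 0, 0, ⟨0, 0⟩, 0⟩ 0 0)) (.cut .v 4294967296 (.cut .v 268435456 (.cut .v 67108864 (.pos 82 .pp ⟨0, 0, 0, 0, 0, 0, 0, 0, 0, ⟨0, 0⟩, 0⟩ 0 0) (.cut .v 134217728 (.pos 97 .pp ⟨167772160000, 0, 0, 0, 0, 0, 0, 0, 0, ⟨0, 0⟩, 0⟩ 0 0) (.void 98 ⟨33398, 66602, 0, 0, 0, 0, 0, 0, 0, ⟨0, 0⟩, 0⟩ 0 0))) (.void 109 ⟨0, 0, 0, 100000, 0, 0, 0, 0, 0, ⟨0, 0⟩, 0⟩ 0 0)) (.void 178 ⟨0, 0, 0, 100000, 0, 0, 0, 0, 0, ⟨0, 0⟩, 0⟩ 0 0)))),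
    by decide +kernel⟩

def covers38 : cell.Covers table row38.1 :=
  ⟨(.cut .d 0 (.cut .v 16777216 (.cut .d (-8388608) (.void 1 ⟨0, 0, 2389, 0, 0, 97611, 0, 0, 0, ⟨0, 0⟩, 0⟩ 0 0) (.cut .d (-4194304) (.void 1 ⟨0, 0, 0, 0, 0, 1000000000, 0, 0, 0, ⟨0, 0⟩, 0⟩ 0 0) (.cut .d (-2097152) (.void 1 ⟨0, 0, 332, 0, 0, 99668, 0, 0, 0, ⟨0, 0⟩, 0⟩ 0 0) (.cut .v 8388608 (.void 2 ⟨0, 0, 100000, 0, 0, 0, 0, 0, 0, ⟨0, 0⟩, 0⟩ 0 0) (.cut .d (-1048576) (.void 3 ⟨100000, 0, 0, 0, 0, 0, 0, 0, 0, ⟨0, 0⟩, 0⟩ 0 0) (.pos 3 .mm ⟨129259717914, 0, 38512442086, 0, 0, 0, 0, 0, 0, ⟨0, 0⟩, 0⟩ 0 0)))))) (.cut .v 4294967296 (.cut .v 268435456 (.cut .d (-8388608) (.void 95 ⟨17959, 0, 1027, 1166,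 0, 48557, 0, 45630, 0, ⟨(-1), 9352170⟩, 0⟩ 0 128) (.cut .v 67108864 (.cut .d (-4194304) (.void 82 ⟨100000, 0, 0, 0, 0, 0, 0, 0, 0, ⟨0, 0⟩, 0⟩ 0 0) (.cut .v 33554432 (.cut .d (-2097152) (.void 30 ⟨100000, 0, 0, 0, 0, 0, 0, 0, 0, ⟨0, 0⟩, 0⟩ 0 0) (.cut .d (-1048576) (.void 30 ⟨100000, 0, 0, 0, 0, 0, 0, 0, 0, ⟨0, 0⟩, 0⟩ 0 0) (.cut .d (-524288) (.void 30 ⟨100000, 0, 0, 0, 0, 0, 0, 0, 0, ⟨0, 0⟩, 0⟩ 0 0) (.cut .v 25165824 (.cut .v 20971520 (.pos 33 .mp ⟨167772160000, 0, 0, 0, 0, 0, 0, 0, 0, ⟨0, 0⟩, 0⟩ 0 0) (.void 34 ⟨100000, 0, 0, 0, 0, 0, 0, 0, 0, ⟨0, 0⟩, 0⟩ 0 0)) (.void 32 ⟨100000, 0, 0, 0, 0, 0, 0, 0, 0, ⟨0, 0⟩, 0⟩ 0 0))))) (.void 83 ⟨100000, 0, 0, 0, 0, 0, 0,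 0, 0, ⟨0, 0⟩, 0⟩ 0 0))) (.void 96 ⟨100000, 0, 0, 0, 0, 0, 0, 0, 0, ⟨0, 0⟩, 0⟩ 0 0))) (.cut .d (-8388608) (.cut .s 16678912 (.void 109 ⟨17440, 0, 14, 0, 0, 23883, 0, 58677, 0, ⟨(-1), 9352170⟩, 0⟩ 0 128) (.void 109 ⟨17440, 0, 14, 0, 0, 23883, 0, 58677, 0, ⟨(-1), 9352170⟩, 0⟩ 0 128)) (.void 109 ⟨93061, 0, 0, 6939, 0, 0, 0, 0, 0, ⟨0, 0⟩, 0⟩ 0 0))) (.void 178 ⟨0, 0, 0, 4687, 0, 85585, 0, 0, 0, ⟨0, 0⟩, 0⟩ 0 0))) (.cut .v 16777216 (.cut .v 8388608 (.cut .v 4194304 (.cut .v 2097152 (.cut .v 1048576 (.cut .v 524288 (.cut .v 262144 (.cut .v 131072 (.cut .v 65536 (.cut .v 32768 (.cut .v 16384 (.cut .v 8192 (.cut .v 4096 (.pos 191 .pm ⟨0, 0, 43567042, 0, 0, 0, 0, 0, 0,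 ⟨0, 0⟩, 0⟩ 0 0) (.pos 192 .pm ⟨0, 0, 92282694, 0, 0, 0, 0, 0, 0, ⟨0, 0⟩, 0⟩ 0 0)) (.pos 190 .pm ⟨0, 0, 155241664, 0, 0, 0, 0, 0, 0, ⟨0, 0⟩, 0⟩ 0 0)) (.pos 188 .pm ⟨0, 0, 268047159, 0, 0, 0, 0, 0, 0, ⟨0, 0⟩, 0⟩ 0 0)) (.pos 184 .pm ⟨0, 0, 475250797, 0, 0, 0, 0, 0, 0, ⟨0, 0⟩, 0⟩ 0 0)) (.pos 175 .pm ⟨0, 0, 865660507, 0, 0, 0, 0, 0, 0, ⟨0, 0⟩, 0⟩ 0 0)) (.pos 171 .pm ⟨0, 0, 1649335969, 0, 0, 0, 0, 0, 0, ⟨0, 0⟩, 0⟩ 0 0)) (.pos 165 .pm ⟨0, 0, 3191847919, 0, 0, 0, 0, 0, 0, ⟨0, 0⟩, 0⟩ 0 0)) (.pos 149 .pm ⟨0, 0, 6170966749, 0, 0, 0, 0, 0, 0, ⟨0, 0⟩, 0⟩ 0 0)) (.pos 119 .pm ⟨0, 0, 11824545487, 0, 0, 0, 0, 0, 0, ⟨0, 0⟩, 0⟩ 0 0)) (.pos 7 .pm ⟨0, 0, 22208931816, 0, 0, 0, 0,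 0, 0, ⟨0, 0⟩, 0⟩ 0 0)) (.pos 5 .pm ⟨0, 0, 40192525675, 0, 0, 0, 0, 0, 0, ⟨0, 0⟩, 0⟩ 0 0)) (.pos 3 .pm ⟨0, 0, 40335009249, 0, 0, 0, 0, 0, 0, ⟨0, 0⟩, 0⟩ 0 0)) (.cut .v 4294967296 (.cut .v 268435456 (.cut .v 67108864 (.pos 82 .pp ⟨0, 0, 0, 0, 0, 0, 0, 0, 0, ⟨0, 0⟩, 0⟩ 0 0) (.cut .d 57740 (.cut .v 134217728 (.cut .s 16678912 (.pos 97 .pp ⟨167772160000, 0, 0, 0, 0, 0, 0, 0, 0, ⟨0, 0⟩, 0⟩ 0 0) (.cut .s 16687104 (.pos 97 .pp ⟨167772160000, 0, 0, 0, 0, 0, 0, 0, 0, ⟨0, 0⟩, 0⟩ 0 0) (.cut .d 28870 (.cut .d 14435 (.cut .d 7217 (.void 97 ⟨1000000000, 0, 0, 0, 0, 0, 0, 0, 0, ⟨0, 0⟩, 0⟩ 0 0) (.pos 97 .pp ⟨167772160000, 0, 0, 0, 0, 0, 0, 0, 0, ⟨0, 0⟩, 0⟩ 0 0)) (.pos 97 .pp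 ⟨167772160000, 0, 0, 0, 0, 0, 0, 0, 0, ⟨0, 0⟩, 0⟩ 0 0)) (.pos 97 .pp ⟨0, 158414668729, 0, 0, 0, 0, 0, 0, 0, ⟨0, 0⟩, 0⟩ 0 0)))) (.void 98 ⟨33426, 66574, 0, 0, 0, 0, 0, 0, 0, ⟨0, 0⟩, 0⟩ 0 0)) (.pos 96 .pp ⟨0, 99990564599, 0, 67781595401, 0, 0, 0, 0, 0, ⟨0, 0⟩, 0⟩ 0 0))) (.void 109 ⟨0, 595990208, 0, 404009792, 0, 0, 0, 0, 0, ⟨0, 0⟩, 0⟩ 0 0)) (.void 178 ⟨0, 0, 38427, 61573, 0, 0, 0, 0, 0, ⟨0, 0⟩, 0⟩ 0 0)))),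
    by decide +kernel⟩

def covers39 : cell.Covers table row39.1 :=
  ⟨(.cut .d 0 (.cut .v 16777216 (.cut .d (-8388608) (.void 1 ⟨0, 0, 100000, 0, 0, 0, 0, 0, 0, ⟨0, 0⟩, 0⟩ 0 0) (.cut .d (-4194304) (.void 1 ⟨0, 0, 100000, 0, 0, 0, 0, 0, 0, ⟨0, 0⟩, 0⟩ 0 0) (.cut .d (-2097152) (.void 1 ⟨0, 0, 100000, 0, 0, 0, 0, 0, 0, ⟨0, 0⟩, 0⟩ 0 0) (.cut .d (-1048576) (.void 1 ⟨0, 0, 100000, 0, 0, 0, 0, 0, 0, ⟨0, 0⟩, 0⟩ 0 0) (.cut .d (-524288) (.void 1 ⟨0, 0, 100000, 0, 0, 0, 0, 0, 0, ⟨0, 0⟩, 0⟩ 0 0) (.cut .d (-262144) (.void 1 ⟨0, 0, 100000, 0, 0, 0, 0, 0, 0, ⟨0, 0⟩, 0⟩ 0 0) (.cut .d (-131072) (.void 1 ⟨0, 0, 100000, 0, 0, 0, 0, 0, 0, ⟨0, 0⟩, 0⟩ 0 0) (.cut .v 8388608 (.cut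 .s 16703488 (.void 2 ⟨0, 0, 1000000000, 0, 0, 0, 0, 0, 0, ⟨0, 0⟩, 0⟩ 0 0) (.void 2 ⟨0, 0, 1000000000, 0, 0, 0, 0, 0, 0, ⟨0, 0⟩, 0⟩ 0 0)) (.pos 3 .mm ⟨148902587411, 0, 0, 0, 0, 18869572589, 0, 0, 0, ⟨0, 0⟩, 0⟩ 0 0))))))))) (.cut .v 4294967296 (.cut .d (-8388608) (.void 108 ⟨100000, 0, 153, 0, 0, 0, 0, 0, 0, ⟨0, 0⟩, 0⟩ 0 0) (.cut .v 268435456 (.cut .v 67108864 (.cut .d (-4194304) (.void 82 ⟨1000000000, 0, 0, 0, 0, 0, 0, 0, 0, ⟨0, 0⟩, 0⟩ 0 0) (.cut .d (-2097152) (.void 82 ⟨1000000000, 0, 0, 0, 0, 0, 0, 0, 0, ⟨0, 0⟩, 0⟩ 0 0) (.cut .v 33554432 (.cut .d (-1048576) (.void 30 ⟨1000000000, 0, 0, 0, 0, 0, 0, 0, 0, ⟨0, 0⟩, 0⟩ 0 0) (.cut .d (-524288) (.void 30 ⟨1000000000,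 0, 0, 0, 0, 0, 0, 0, 0, ⟨0, 0⟩, 0⟩ 0 0) (.cut .d (-262144) (.void 30 ⟨1000000000, 0, 0, 0, 0, 0, 0, 0, 0, ⟨0, 0⟩, 0⟩ 0 0) (.cut .d (-131072) (.void 30 ⟨1000000000, 0, 0, 0, 0, 0, 0, 0, 0, ⟨0, 0⟩, 0⟩ 0 0) (.cut .d (-65536) (.void 30 ⟨1000000000, 0, 0, 0, 0, 0, 0, 0, 0, ⟨0, 0⟩, 0⟩ 0 0) (.cut .d (-32768) (.void 30 ⟨1000000000, 0, 0, 0, 0, 0, 0, 0, 0, ⟨0, 0⟩, 0⟩ 0 0) (.pos 30 .mp ⟨167772160000, 0, 0, 0, 0, 0, 0, 0, 0, ⟨0, 0⟩, 0⟩ 0 0))))))) (.void 83 ⟨1000000000, 0, 0, 0, 0, 0, 0, 0, 0, ⟨0, 0⟩, 0⟩ 0 0)))) (.void 96 ⟨1000000000, 0, 0, 0, 0, 0, 0, 0, 0, ⟨0, 0⟩, 0⟩ 0 0)) (.void 109 ⟨1000000000, 0, 0, 0, 0, 0, 0, 0, 0, ⟨0, 0⟩, 0⟩ 0 0))) (.void 178 ⟨1000000000, 0, 0,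 0, 0, 0, 0, 0, 0, ⟨0, 0⟩, 0⟩ 0 0))) (.cut .v 16777216 (.cut .v 8388608 (.cut .v 4194304 (.cut .v 2097152 (.cut .v 1048576 (.cut .v 524288 (.cut .v 262144 (.cut .v 131072 (.cut .v 65536 (.cut .v 32768 (.cut .v 16384 (.cut .v 8192 (.cut .v 4096 (.pos 191 .pm ⟨0, 0, 56475545, 0, 0, 0, 0, 0, 0, ⟨0, 0⟩, 0⟩ 0 0) (.pos 192 .pm ⟨0, 0, 127650001, 0, 0, 0, 0, 0, 0, ⟨0, 0⟩, 0⟩ 0 0)) (.pos 190 .pm ⟨0, 0, 222628836, 0, 0, 0, 0, 0, 0, ⟨0, 0⟩, 0⟩ 0 0)) (.pos 188 .pm ⟨0, 0, 398168360, 0, 0, 0, 0, 0, 0, ⟨0, 0⟩, 0⟩ 0 0)) (.pos 184 .pm ⟨0, 0, 721478591, 0, 0, 0, 0, 0, 0, ⟨0, 0⟩, 0⟩ 0 0)) (.pos 175 .pm ⟨0, 0, 1318722713, 0, 0, 0, 0, 0, 0, ⟨0, 0⟩, 0⟩ 0 0)) (.pos 171 .pm ⟨0, 0,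 2526876192, 0, 0, 0, 0, 0, 0, ⟨0, 0⟩, 0⟩ 0 0)) (.pos 165 .pm ⟨0, 0, 4957705495, 0, 0, 0, 0, 0, 0, ⟨0, 0⟩, 0⟩ 0 0)) (.pos 149 .pm ⟨0, 0, 9715862577, 0, 0, 0, 0, 0, 0, ⟨0, 0⟩, 0⟩ 0 0)) (.pos 119 .pm ⟨0, 0, 18927640216, 0, 0, 0, 0, 0, 0, ⟨0, 0⟩, 0⟩ 0 0)) (.pos 7 .pm ⟨0, 0, 36392973940, 0, 0, 0, 0, 0, 0, ⟨0, 0⟩, 0⟩ 0 0)) (.pos 5 .pm ⟨0, 0, 68241531144, 0, 0, 0, 0, 0, 0, ⟨0, 0⟩, 0⟩ 0 0)) (.pos 3 .pm ⟨0, 0, 65413286285, 0, 0, 0, 0, 0, 0, ⟨0, 0⟩, 0⟩ 0 0)) (.cut .v 4294967296 (.cut .v 268435456 (.cut .v 67108864 (.pos 82 .pp ⟨0, 0, 0, 0, 0, 0, 0, 0, 0, ⟨0, 0⟩, 0⟩ 0 0) (.cut .d 41162 (.cut .v 134217728 (.cut .d 20581 (.cut .d 10290 (.cut .d 5145 (.void 97 ⟨1000000000,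 0, 0, 0, 0, 0, 0, 0, 0, ⟨0, 0⟩, 0⟩ 0 0) (.pos 97 .pp ⟨167772160000, 0, 0, 0, 0, 0, 0, 0, 0, ⟨0, 0⟩, 0⟩ 0 0)) (.pos 97 .pp ⟨167772160000, 0, 0, 0, 0, 0, 0, 0, 0, ⟨0, 0⟩, 0⟩ 0 0)) (.pos 97 .pp ⟨0, 155010770972, 0, 12761389028, 0, 0, 0, 0, 0, ⟨0, 0⟩, 0⟩ 0 0)) (.void 98 ⟨33393, 66607, 0, 0, 0, 0, 0, 0, 0, ⟨0, 0⟩, 0⟩ 0 0)) (.pos 96 .pp ⟨0, 69199889679, 0, 98572270321, 0, 0, 0, 0, 0, ⟨0, 0⟩, 0⟩ 0 0))) (.void 109 ⟨0, 0, 0, 100000, 0, 0, 0, 0, 0, ⟨0, 0⟩, 0⟩ 0 0)) (.void 178 ⟨0, 0, 0, 100000, 0, 0, 0, 0, 0, ⟨0, 0⟩, 0⟩ 0 0)))),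
    by decide +kernel⟩

def covers40 : cell.Covers table row40.1 :=
  ⟨(.cut .d 0 (.cut .v 16777216 (.cut .d (-8388608) (.void 1 ⟨0, 0, 100000, 0, 0, 0, 0, 0, 0, ⟨0, 0⟩, 0⟩ 0 0) (.cut .d (-4194304) (.void 1 ⟨0, 0, 100000, 0, 0, 0, 0, 0, 0, ⟨0, 0⟩, 0⟩ 0 0) (.cut .d (-2097152) (.void 1 ⟨0, 0, 100000, 0, 0, 0, 0, 0, 0, ⟨0, 0⟩, 0⟩ 0 0) (.cut .d (-1048576) (.void 1 ⟨0, 0, 100000, 0, 0, 0, 0, 0, 0, ⟨0, 0⟩, 0⟩ 0 0) (.cut .d (-524288) (.void 1 ⟨0, 0, 100000, 0, 0, 0, 0, 0, 0, ⟨0, 0⟩, 0⟩ 0 0) (.cut .d (-262144) (.void 1 ⟨0, 0, 100000, 0, 0, 0, 0, 0, 0, ⟨0, 0⟩, 0⟩ 0 0) (.cut .d (-131072) (.void 1 ⟨0, 0, 100000, 0, 0, 0, 0, 0, 0, ⟨0, 0⟩, 0⟩ 0 0) (.cut .d (-65536) (.void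 1 ⟨0, 0, 100000, 0, 0, 0, 0, 0, 0, ⟨0, 0⟩, 0⟩ 0 0) (.cut .v 8388608 (.cut .s 16719872 (.void 2 ⟨0, 0, 1000000000, 0, 0, 0, 0, 0, 0, ⟨0, 0⟩, 0⟩ 0 0) (.void 2 ⟨0, 0, 1000000000, 0, 0, 0, 0, 0, 0, ⟨0, 0⟩, 0⟩ 0 0)) (.cut .d (-32768) (.void 3 ⟨1000000000, 0, 0, 0, 0, 0, 0, 0, 0, ⟨0, 0⟩, 0⟩ 0 0) (.pos 3 .mm ⟨144341782088, 0, 0, 0, 0, 23430377912, 0, 0, 0, ⟨0, 0⟩, 0⟩ 0 0))))))))))) (.cut .v 4294967296 (.cut .d (-8388608) (.void 108 ⟨0, 0, 0, 0, 0, 1000000000, 0, 0, 0, ⟨0, 0⟩, 0⟩ 0 0) (.cut .v 268435456 (.cut .v 67108864 (.cut .d (-4194304) (.void 82 ⟨1000000000, 0, 0, 0, 0, 0, 0, 0, 0, ⟨0, 0⟩, 0⟩ 0 0) (.cut .d (-2097152) (.void 82 ⟨1000000000, 0, 0, 0, 0, 0, 0, 0,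 0, ⟨0, 0⟩, 0⟩ 0 0) (.cut .v 33554432 (.cut .d (-1048576) (.void 30 ⟨1000000000, 0, 0, 0, 0, 0, 0, 0, 0, ⟨0, 0⟩, 0⟩ 0 0) (.cut .d (-524288) (.void 30 ⟨1000000000, 0, 0, 0, 0, 0, 0, 0, 0, ⟨0, 0⟩, 0⟩ 0 0) (.cut .d (-262144) (.void 30 ⟨1000000000, 0, 0, 0, 0, 0, 0, 0, 0, ⟨0, 0⟩, 0⟩ 0 0) (.cut .d (-131072) (.void 30 ⟨1000000000, 0, 0, 0, 0, 0, 0, 0, 0, ⟨0, 0⟩, 0⟩ 0 0) (.cut .d (-65536) (.void 30 ⟨1000000000, 0, 0, 0, 0, 0, 0, 0, 0, ⟨0, 0⟩, 0⟩ 0 0) (.cut .d (-32768) (.void 30 ⟨1000000000, 0, 0, 0, 0, 0, 0, 0, 0, ⟨0, 0⟩, 0⟩ 0 0) (.cut .d (-16384) (.void 30 ⟨1000000000, 0, 0, 0, 0, 0, 0, 0, 0, ⟨0, 0⟩, 0⟩ 0 0) (.pos 30 .mp ⟨167772160000, 0, 0, 0, 0, 0, 0, 0, 0, ⟨0,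 0⟩, 0⟩ 0 0)))))))) (.void 83 ⟨1000000000, 0, 0, 0, 0, 0, 0, 0, 0, ⟨0, 0⟩, 0⟩ 0 0)))) (.void 96 ⟨1000000000, 0, 0, 0, 0, 0, 0, 0, 0, ⟨0, 0⟩, 0⟩ 0 0)) (.void 109 ⟨1000000000, 0, 0, 0, 0, 0, 0, 0, 0, ⟨0, 0⟩, 0⟩ 0 0))) (.void 178 ⟨1000000000, 0, 0, 0, 0, 0, 0, 0, 0, ⟨0, 0⟩, 0⟩ 0 0))) (.cut .v 16777216 (.cut .v 8388608 (.cut .v 4194304 (.cut .v 2097152 (.cut .v 1048576 (.cut .v 524288 (.cut .v 262144 (.cut .v 131072 (.cut .v 65536 (.cut .v 32768 (.cut .v 16384 (.cut .v 8192 (.cut .v 4096 (.cut .v 2048 (.pos 193 .pm ⟨0, 0, 48363706, 0, 0, 0, 0, 0, 0, ⟨0, 0⟩, 0⟩ 0 0) (.pos 194 .pm ⟨0, 0, 106272561, 0, 0, 0, 0, 0, 0, ⟨0, 0⟩, 0⟩ 0 0)) (.pos 192 .pm ⟨0, 0, 183965584,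 0, 0, 0, 0, 0, 0, ⟨0, 0⟩, 0⟩ 0 0)) (.pos 190 .pm ⟨0, 0, 325882262, 0, 0, 0, 0, 0, 0, ⟨0, 0⟩, 0⟩ 0 0)) (.pos 188 .pm ⟨0, 0, 590183542, 0, 0, 0, 0, 0, 0, ⟨0, 0⟩, 0⟩ 0 0)) (.pos 184 .pm ⟨0, 0, 1078731033, 0, 0, 0, 0, 0, 0, ⟨0, 0⟩, 0⟩ 0 0)) (.pos 175 .pm ⟨0, 0, 1999593581, 0, 0, 0, 0, 0, 0, ⟨0, 0⟩, 0⟩ 0 0)) (.pos 171 .pm ⟨0, 0, 3845921118, 0, 0, 0, 0, 0, 0, ⟨0, 0⟩, 0⟩ 0 0)) (.pos 165 .pm ⟨0, 0, 7526641738, 0, 0, 0, 0, 0, 0, ⟨0, 0⟩, 0⟩ 0 0)) (.pos 149 .pm ⟨0, 0, 14683243025, 0, 0, 0, 0, 0, 0, ⟨0, 0⟩, 0⟩ 0 0)) (.pos 119 .pm ⟨0, 0, 28396063528, 0, 0, 0, 0, 0, 0, ⟨0, 0⟩, 0⟩ 0 0)) (.pos 7 .pm ⟨0, 0, 53958381302, 0, 0, 0, 0, 0, 0, ⟨0, 0⟩, 0⟩ 0 0)) (.pos 5 .pm ⟨0, 0,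 99266365879, 0, 0, 0, 0, 0, 0, ⟨0, 0⟩, 0⟩ 0 0)) (.pos 3 .pm ⟨0, 0, 92169482849, 0, 0, 0, 0, 0, 0, ⟨0, 0⟩, 0⟩ 0 0)) (.cut .v 4294967296 (.cut .v 268435456 (.cut .v 67108864 (.pos 82 .pp ⟨0, 0, 0, 0, 0, 0, 0, 0, 0, ⟨0, 0⟩, 0⟩ 0 0) (.cut .d 32898 (.cut .v 134217728 (.cut .d 16449 (.cut .d 8224 (.cut .d 4112 (.void 97 ⟨1000000000, 0, 0, 0, 0, 0, 0, 0, 0, ⟨0, 0⟩, 0⟩ 0 0) (.pos 97 .pp ⟨167772160000, 0, 0, 0, 0, 0, 0, 0, 0, ⟨0, 0⟩, 0⟩ 0 0)) (.pos 97 .pp ⟨167772160000, 0, 0, 0, 0, 0, 0, 0, 0, ⟨0, 0⟩, 0⟩ 0 0)) (.pos 97 .pp ⟨0, 141353576804, 0, 26418583196, 0, 0, 0, 0, 0, ⟨0, 0⟩, 0⟩ 0 0)) (.cut .v 201326592 (.cut .l 671088 (.void 195 ⟨90926, 0, 0, 9074, 0, 0, 0, 0, 0,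 ⟨0, 0⟩, 0⟩ 0 0) (.cut .l 909501 (.void 195 ⟨59357, 36546, 0, 4097, 0, 0, 0, 0, 0, ⟨0, 0⟩, 0⟩ 0 0) (.cut .d 16449 (.cut .d 8224 (.void 195 ⟨100000, 0, 0, 0, 0, 0, 0, 0, 0, ⟨0, 0⟩, 0⟩ 0 0) (.cut .v 167772160 (.pos 197 .pp ⟨5304219901, 0, 0, 162467940099, 0, 0, 0, 0, 0, ⟨0, 0⟩, 0⟩ 0 0) (.void 198 ⟨0, 0, 0, 100000, 0, 0, 0, 0, 0, ⟨0, 0⟩, 0⟩ 0 0))) (.void 195 ⟨0, 0, 0, 100000, 0, 0, 0, 0, 0, ⟨0, 0⟩, 0⟩ 0 0)))) (.void 196 ⟨0, 0, 0, 100000, 0, 0, 0, 0, 0, ⟨0, 0⟩, 0⟩ 0 0))) (.pos 96 .pp ⟨0, 16609691464, 0, 151162468536, 0, 0, 0, 0, 0, ⟨0, 0⟩, 0⟩ 0 0))) (.void 109 ⟨0, 0, 0, 100000, 0, 0, 0, 0, 0, ⟨0, 0⟩, 0⟩ 0 0)) (.void 178 ⟨0, 0, 0, 100000, 0, 0, 0, 0, 0, ⟨0, 0⟩, 0⟩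 0 0)))),
    by decide +kernel⟩

def covers41 : cell.Covers table row41.1 :=
  ⟨(.cut .d 0 (.cut .v 16777216 (.cut .d (-8388608) (.void 1 ⟨0, 0, 100000, 0, 0, 0, 0, 0, 0, ⟨0, 0⟩, 0⟩ 0 0) (.cut .d (-4194304) (.void 1 ⟨0, 0, 100000, 0, 0, 0, 0, 0, 0, ⟨0, 0⟩, 0⟩ 0 0) (.cut .d (-2097152) (.void 1 ⟨0, 0, 0, 0, 0, 1000000000, 0, 0, 0, ⟨0, 0⟩, 0⟩ 0 0) (.cut .d (-1048576) (.void 1 ⟨0, 0, 0, 0, 0, 1000000000, 0, 0, 0, ⟨0, 0⟩, 0⟩ 0 0) (.cut .d (-524288) (.void 1 ⟨0, 0, 0, 0, 0, 1000000000, 0, 0, 0, ⟨0, 0⟩, 0⟩ 0 0) (.cut .d (-262144) (.void 1 ⟨0, 0, 0, 0, 0, 1000000000, 0, 0, 0, ⟨0, 0⟩, 0⟩ 0 0) (.cut .d (-131072) (.void 1 ⟨0, 0, 100000, 0, 0, 0, 0, 0, 0, ⟨0, 0⟩, 0⟩ 0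 0) (.cut .d (-65536) (.void 1 ⟨0, 0, 100000, 0, 0, 0, 0, 0, 0, ⟨0, 0⟩, 0⟩ 0 0) (.cut .v 8388608 (.void 2 ⟨0, 0, 100000, 0, 0, 0, 0, 0, 0, ⟨0, 0⟩, 0⟩ 0 0) (.cut .d (-32768) (.void 3 ⟨1000000000, 0, 0, 0, 0, 0, 0, 0, 0, ⟨0, 0⟩, 0⟩ 0 0) (.cut .d (-16384) (.void 3 ⟨1000000000, 0, 0, 0, 0, 0, 0, 0, 0, ⟨0, 0⟩, 0⟩ 0 0) (.pos 3 .mm ⟨167772160000, 0, 0, 0, 0, 0, 0, 0, 0, ⟨0, 0⟩, 0⟩ 0 0)))))))))))) (.cut .d (-8388608) (.void 177 ⟨53985, 0, 0, 0, 0, 0, 0, 46015, 0, ⟨(-1), 9352170⟩, 0⟩ 0 128) (.cut .v 4294967296 (.cut .v 268435456 (.cut .v 67108864 (.cut .d (-4194304) (.void 82 ⟨1000000000, 0, 0, 0, 0, 0, 0, 0, 0, ⟨0, 0⟩, 0⟩ 0 0) (.cut .d (-2097152) (.void 82 ⟨1000000000,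 0, 0, 0, 0, 0, 0, 0, 0, ⟨0, 0⟩, 0⟩ 0 0) (.cut .d (-1048576) (.void 82 ⟨1000000000, 0, 0, 0, 0, 0, 0, 0, 0, ⟨0, 0⟩, 0⟩ 0 0) (.cut .v 33554432 (.cut .d (-524288) (.void 30 ⟨1000000000, 0, 0, 0, 0, 0, 0, 0, 0, ⟨0, 0⟩, 0⟩ 0 0) (.cut .d (-262144) (.void 30 ⟨1000000000, 0, 0, 0, 0, 0, 0, 0, 0, ⟨0, 0⟩, 0⟩ 0 0) (.cut .d (-131072) (.void 30 ⟨1000000000, 0, 0, 0, 0, 0, 0, 0, 0, ⟨0, 0⟩, 0⟩ 0 0) (.cut .d (-65536) (.void 30 ⟨1000000000, 0, 0, 0, 0, 0, 0, 0, 0, ⟨0, 0⟩, 0⟩ 0 0) (.cut .d (-32768) (.void 30 ⟨1000000000, 0, 0, 0, 0, 0, 0, 0, 0, ⟨0, 0⟩, 0⟩ 0 0) (.cut .d (-16384) (.void 30 ⟨1000000000, 0, 0, 0, 0, 0, 0, 0, 0, ⟨0, 0⟩, 0⟩ 0 0) (.cut .d (-8192) (.void 30 ⟨1000000000,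 0, 0, 0, 0, 0, 0, 0, 0, ⟨0, 0⟩, 0⟩ 0 0) (.pos 30 .mp ⟨167772160000, 0, 0, 0, 0, 0, 0, 0, 0, ⟨0, 0⟩, 0⟩ 0 0)))))))) (.void 83 ⟨1000000000, 0, 0, 0, 0, 0, 0, 0, 0, ⟨0, 0⟩, 0⟩ 0 0))))) (.void 96 ⟨1000000000, 0, 0, 0, 0, 0, 0, 0, 0, ⟨0, 0⟩, 0⟩ 0 0)) (.void 109 ⟨1000000000, 0, 0, 0, 0, 0, 0, 0, 0, ⟨0, 0⟩, 0⟩ 0 0)) (.void 178 ⟨99219, 0, 0, 781, 0, 0, 0, 0, 0, ⟨0, 0⟩, 0⟩ 0 0)))) (.cut .v 16777216 (.cut .v 8388608 (.cut .v 4194304 (.cut .v 2097152 (.cut .v 1048576 (.cut .v 524288 (.cut .v 262144 (.cut .v 131072 (.cut .v 65536 (.cut .v 32768 (.cut .v 16384 (.cut .v 8192 (.cut .v 4096 (.cut .v 2048 (.pos 193 .pm ⟨0, 0, 75028188, 0, 0, 0, 0, 0, 0, ⟨0, 0⟩, 0⟩ 0 0) (.pos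 194 .pm ⟨0, 0, 173154592, 0, 0, 0, 0, 0, 0, ⟨0, 0⟩, 0⟩ 0 0)) (.pos 192 .pm ⟨0, 0, 303850569, 0, 0, 0, 0, 0, 0, ⟨0, 0⟩, 0⟩ 0 0)) (.pos 190 .pm ⟨0, 0, 548450444, 0, 0, 0, 0, 0, 0, ⟨0, 0⟩, 0⟩ 0 0)) (.pos 188 .pm ⟨0, 0, 1002968786, 0, 0, 0, 0, 0, 0, ⟨0, 0⟩, 0⟩ 0 0)) (.pos 184 .pm ⟨0, 0, 1840745057, 0, 0, 0, 0, 0, 0, ⟨0, 0⟩, 0⟩ 0 0)) (.pos 175 .pm ⟨0, 0, 3481070335, 0, 0, 0, 0, 0, 0, ⟨0, 0⟩, 0⟩ 0 0)) (.pos 171 .pm ⟨0, 0, 6789513136, 0, 0, 0, 0, 0, 0, ⟨0, 0⟩, 0⟩ 0 0)) (.pos 165 .pm ⟨0, 0, 13286495888, 0, 0, 0, 0, 0, 0, ⟨0, 0⟩, 0⟩ 0 0)) (.pos 149 .pm ⟨0, 0, 25672855333, 0, 0, 0, 0, 0, 0, ⟨0, 0⟩, 0⟩ 0 0)) (.pos 119 .pm ⟨0, 0, 48930449479, 0, 0, 0, 0, 0, 0, ⟨0, 0⟩,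 0⟩ 0 0)) (.pos 7 .pm ⟨0, 0, 90880519228, 0, 0, 0, 0, 0, 0, ⟨0, 0⟩, 0⟩ 0 0)) (.pos 5 .pm ⟨0, 0, 161342377680, 0, 0, 0, 0, 0, 0, ⟨0, 0⟩, 0⟩ 0 0)) (.pos 3 .pm ⟨0, 0, 144293164763, 0, 0, 0, 0, 0, 0, ⟨0, 0⟩, 0⟩ 0 0)) (.cut .v 4294967296 (.cut .v 268435456 (.cut .v 67108864 (.pos 82 .pp ⟨0, 0, 0, 0, 0, 0, 0, 0, 0, ⟨0, 0⟩, 0⟩ 0 0) (.cut .d 24649 (.cut .v 134217728 (.cut .d 12324 (.cut .d 6162 (.cut .d 3081 (.void 97 ⟨1000000000, 0, 0, 0, 0, 0, 0, 0, 0, ⟨0, 0⟩, 0⟩ 0 0) (.cut .d 4621 (.cut .d 3851 (.void 97 ⟨1000000000, 0, 0, 0, 0, 0, 0, 0, 0, ⟨0, 0⟩, 0⟩ 0 0) (.pos 97 .pp ⟨167772160000, 0, 0, 0, 0, 0, 0, 0, 0, ⟨0, 0⟩, 0⟩ 0 0)) (.pos 97 .pp ⟨167772160000, 0, 0, 0, 0,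 0, 0, 0, 0, ⟨0, 0⟩, 0⟩ 0 0))) (.pos 97 .pp ⟨167772160000, 0, 0, 0, 0, 0, 0, 0, 0, ⟨0, 0⟩, 0⟩ 0 0)) (.pos 97 .pp ⟨0, 113694871064, 0, 54077288936, 0, 0, 0, 0, 0, ⟨0, 0⟩, 0⟩ 0 0)) (.cut .v 201326592 (.cut .d 12324 (.cut .d 6162 (.void 195 ⟨100000, 0, 0, 0, 0, 0, 0, 0, 0, ⟨0, 0⟩, 0⟩ 0 0) (.cut .v 167772160 (.cut .l 671088 (.void 197 ⟨90921, 0, 0, 9079, 0, 0, 0, 0, 0, ⟨0, 0⟩, 0⟩ 0 0) (.cut .v 150994944 (.pos 199 .pp ⟨0, 0, 0, 167772160000, 0, 0, 0, 0, 0, ⟨0, 0⟩, 0⟩ 0 0) (.void 200 ⟨0, 0, 0, 100000, 0, 0, 0, 0, 0, ⟨0, 0⟩, 0⟩ 0 0))) (.void 198 ⟨0, 0, 0, 100000, 0, 0, 0, 0, 0, ⟨0, 0⟩, 0⟩ 0 0))) (.void 195 ⟨0, 0, 0, 100000, 0, 0, 0, 0, 0, ⟨0, 0⟩, 0⟩ 0 0)) (.void 196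 ⟨0, 0, 0, 100000, 0, 0, 0, 0, 0, ⟨0, 0⟩, 0⟩ 0 0))) (.cut .v 134217728 (.pos 97 .pp ⟨0, 0, 0, 0, 0, 0, 0, 0, 0, ⟨0, 0⟩, 0⟩ 0 0) (.void 98 ⟨0, 0, 0, 100000, 0, 0, 0, 0, 0, ⟨0, 0⟩, 0⟩ 0 0)))) (.void 109 ⟨0, 0, 0, 100000, 0, 0, 0, 0, 0, ⟨0, 0⟩, 0⟩ 0 0)) (.void 178 ⟨0, 0, 0, 100000, 0, 0, 0, 0, 0, ⟨0, 0⟩, 0⟩ 0 0)))),
    by decide +kernel⟩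

def covers42 : cell.Covers table row42.1 :=
  ⟨(.cut .d 0 (.cut .v 16777216 (.cut .d (-8388608) (.void 1 ⟨0, 0, 100000, 0, 0, 0, 0, 0, 0, ⟨0, 0⟩, 0⟩ 0 0) (.cut .d (-4194304) (.void 1 ⟨0, 0, 100000, 0, 0, 0, 0, 0, 0, ⟨0, 0⟩, 0⟩ 0 0) (.cut .v 8388608 (.cut .s 16750592 (.void 2 ⟨0, 0, 100000, 0, 0, 0, 0, 0, 0, ⟨0, 0⟩, 0⟩ 0 0) (.void 2 ⟨0, 0, 100000, 0, 0, 0, 0, 0, 0, ⟨0, 0⟩, 0⟩ 0 0)) (.cut .d (-2097152) (.void 3 ⟨1000000000, 0, 0, 0, 0, 0, 0, 0, 0, ⟨0, 0⟩, 0⟩ 0 0) (.cut .d (-1048576) (.void 3 ⟨1000000000, 0, 0, 0, 0, 0, 0, 0, 0, ⟨0, 0⟩, 0⟩ 0 0) (.cut .d (-524288) (.void 3 ⟨1000000000, 0, 0, 0, 0, 0, 0, 0, 0, ⟨0, 0⟩, 0⟩ 0 0) (.cut .d (-262144) (.void 3 ⟨1000000000,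 0, 0, 0, 0, 0, 0, 0, 0, ⟨0, 0⟩, 0⟩ 0 0) (.cut .d (-131072) (.void 3 ⟨1000000000, 0, 0, 0, 0, 0, 0, 0, 0, ⟨0, 0⟩, 0⟩ 0 0) (.cut .d (-65536) (.void 3 ⟨1000000000, 0, 0, 0, 0, 0, 0, 0, 0, ⟨0, 0⟩, 0⟩ 0 0) (.cut .d (-32768) (.void 3 ⟨1000000000, 0, 0, 0, 0, 0, 0, 0, 0, ⟨0, 0⟩, 0⟩ 0 0) (.cut .d (-16384) (.void 3 ⟨1000000000, 0, 0, 0, 0, 0, 0, 0, 0, ⟨0, 0⟩, 0⟩ 0 0) (.pos 3 .mm ⟨167772160000, 0, 0, 0, 0, 0, 0, 0, 0, ⟨0, 0⟩, 0⟩ 0 0)))))))))))) (.cut .v 4294967296 (.cut .d (-8388608) (.void 108 ⟨0, 0, 0, 0, 0, 1000000000, 0, 0, 0, ⟨0, 0⟩, 0⟩ 0 0) (.cut .v 268435456 (.cut .v 67108864 (.cut .d (-4194304) (.void 82 ⟨1000000000, 0, 0, 0, 0, 0, 0, 0, 0, ⟨0, 0⟩, 0⟩ 0 0) (.cut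 .d (-2097152) (.void 82 ⟨1000000000, 0, 0, 0, 0, 0, 0, 0, 0, ⟨0, 0⟩, 0⟩ 0 0) (.cut .d (-1048576) (.void 82 ⟨1000000000, 0, 0, 0, 0, 0, 0, 0, 0, ⟨0, 0⟩, 0⟩ 0 0) (.cut .d (-524288) (.void 82 ⟨1000000000, 0, 0, 0, 0, 0, 0, 0, 0, ⟨0, 0⟩, 0⟩ 0 0) (.cut .d (-262144) (.void 82 ⟨1000000000, 0, 0, 0, 0, 0, 0, 0, 0, ⟨0, 0⟩, 0⟩ 0 0) (.cut .d (-131072) (.void 82 ⟨1000000000, 0, 0, 0, 0, 0, 0, 0, 0, ⟨0, 0⟩, 0⟩ 0 0) (.cut .v 33554432 (.cut .d (-65536) (.void 30 ⟨1000000000, 0, 0, 0, 0, 0, 0, 0, 0, ⟨0, 0⟩, 0⟩ 0 0) (.cut .d (-32768) (.void 30 ⟨1000000000, 0, 0, 0, 0, 0, 0, 0, 0, ⟨0, 0⟩, 0⟩ 0 0) (.cut .d (-16384) (.void 30 ⟨1000000000, 0, 0, 0, 0, 0, 0, 0, 0, ⟨0, 0⟩, 0⟩ 0 0)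 (.cut .d (-8192) (.void 30 ⟨1000000000, 0, 0, 0, 0, 0, 0, 0, 0, ⟨0, 0⟩, 0⟩ 0 0) (.pos 30 .mp ⟨167772160000, 0, 0, 0, 0, 0, 0, 0, 0, ⟨0, 0⟩, 0⟩ 0 0))))) (.void 83 ⟨1000000000, 0, 0, 0, 0, 0, 0, 0, 0, ⟨0, 0⟩, 0⟩ 0 0)))))))) (.void 96 ⟨1000000000, 0, 0, 0, 0, 0, 0, 0, 0, ⟨0, 0⟩, 0⟩ 0 0)) (.void 109 ⟨1000000000, 0, 0, 0, 0, 0, 0, 0, 0, ⟨0, 0⟩, 0⟩ 0 0))) (.void 178 ⟨95203, 0, 0, 4797, 0, 0, 0, 0, 0, ⟨0, 0⟩, 0⟩ 0 0))) (.cut .v 16777216 (.cut .v 8388608 (.cut .v 4194304 (.cut .v 2097152 (.cut .v 1048576 (.cut .v 524288 (.cut .v 262144 (.cut .v 131072 (.cut .v 65536 (.cut .v 32768 (.cut .v 16384 (.cut .d 16417 (.cut .l 671088 (.cut .s 16750592 (.void 187 ⟨0, 0, 100000,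 0, 0, 0, 0, 0, 0, ⟨0, 0⟩, 0⟩ 0 0) (.void 187 ⟨0, 0, 100000, 0, 0, 0, 0, 0, 0, ⟨0, 0⟩, 0⟩ 0 0)) (.void 187 ⟨0, 0, 100000, 0, 0, 0, 0, 0, 0, ⟨0, 0⟩, 0⟩ 0 0)) (.cut .v 8192 (.cut .v 4096 (.cut .v 2048 (.pos 193 .pm ⟨0, 0, 60903653, 0, 0, 0, 0, 0, 0, ⟨0, 0⟩, 0⟩ 0 0) (.pos 194 .pm ⟨0, 0, 150598236, 0, 0, 0, 0, 0, 0, ⟨0, 0⟩, 0⟩ 0 0)) (.pos 192 .pm ⟨0, 0, 285140125, 0, 0, 0, 0, 0, 0, ⟨0, 0⟩, 0⟩ 0 0)) (.pos 190 .pm ⟨0, 0, 554223951, 0, 0, 0, 0, 0, 0, ⟨0, 0⟩, 0⟩ 0 0))) (.pos 188 .pm ⟨0, 0, 1228316339, 0, 0, 0, 0, 0, 0, ⟨0, 0⟩, 0⟩ 0 0)) (.pos 184 .pm ⟨0, 0, 2286481791, 0, 0, 0, 0, 0, 0, ⟨0, 0⟩, 0⟩ 0 0)) (.pos 175 .pm ⟨0, 0, 4376640902, 0, 0, 0, 0, 0, 0, ⟨0, 0⟩, 0⟩ 0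 0)) (.pos 171 .pm ⟨0, 0, 8636593102, 0, 0, 0, 0, 0, 0, ⟨0, 0⟩, 0⟩ 0 0)) (.pos 165 .pm ⟨0, 0, 17257232006, 0, 0, 0, 0, 0, 0, ⟨0, 0⟩, 0⟩ 0 0)) (.pos 149 .pm ⟨0, 0, 34498713977, 0, 0, 0, 0, 0, 0, ⟨0, 0⟩, 0⟩ 0 0)) (.pos 119 .pm ⟨0, 0, 68982494566, 0, 0, 0, 0, 0, 0, ⟨0, 0⟩, 0⟩ 0 0)) (.pos 7 .pm ⟨0, 0, 137953322333, 0, 0, 0, 0, 0, 0, ⟨0, 0⟩, 0⟩ 0 0)) (.pos 5 .pm ⟨0, 0, 167772160000, 0, 0, 0, 0, 0, 0, ⟨0, 0⟩, 0⟩ 0 0)) (.pos 3 .pm ⟨0, 0, 167772160000, 0, 0, 0, 0, 0, 0, ⟨0, 0⟩, 0⟩ 0 0)) (.cut .v 4294967296 (.cut .v 268435456 (.cut .s 16750592 (.cut .s 16747520 (.cut .v 67108864 (.pos 82 .pp ⟨0, 0, 0, 0, 0, 0, 0, 0, 0, ⟨0, 0⟩, 0⟩ 0 0) (.cut .v 134217728 (.cut .s 16745984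 (.cut .s 16745216 (.cut .s 16744832 (.cut .d 16417 (.cut .d 8208 (.cut .d 4104 (.void 97 ⟨1000000000, 0, 0, 0, 0, 0, 0, 0, 0, ⟨0, 0⟩, 0⟩ 0 0) (.pos 97 .pp ⟨167772160000, 0, 0, 0, 0, 0, 0, 0, 0, ⟨0, 0⟩, 0⟩ 0 0)) (.pos 97 .pp ⟨0, 0, 0, 130441851395, 0, 0, 0, 0, 0, ⟨0, 0⟩, 0⟩ 0 0)) (.pos 97 .pp ⟨0, 0, 0, 0, 0, 0, 0, 0, 0, ⟨0, 0⟩, 0⟩ 0 0)) (.pos 97 .pp ⟨167772160000, 0, 0, 0, 0, 0, 0, 0, 0, ⟨0, 0⟩, 0⟩ 0 0)) (.pos 97 .pp ⟨167772160000, 0, 0, 0, 0, 0, 0, 0, 0, ⟨0, 0⟩, 0⟩ 0 0)) (.pos 97 .pp ⟨167772160000, 0, 0, 0, 0, 0, 0, 0, 0, ⟨0, 0⟩, 0⟩ 0 0)) (.cut .v 201326592 (.cut .l 671088 (.void 195 ⟨90916, 0, 0, 9084, 0, 0, 0, 0, 0, ⟨0, 0⟩, 0⟩ 0 0) (.cut .l 909501 (.void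 195 ⟨90916, 0, 0, 9084, 0, 0, 0, 0, 0, ⟨0, 0⟩, 0⟩ 0 0) (.cut .l 1028708 (.void 195 ⟨90916, 0, 0, 9084, 0, 0, 0, 0, 0, ⟨0, 0⟩, 0⟩ 0 0) (.cut .s 16745984 (.cut .d 16417 (.cut .d 8208 (.cut .s 16745216 (.cut .v 167772160 (.cut .d 4104 (.void 197 ⟨1000000000, 0, 0, 0, 0, 0, 0, 0, 0, ⟨0, 0⟩, 0⟩ 0 0) (.cut .d 6156 (.void 197 ⟨100000, 0, 0, 0, 0, 0, 0, 0, 0, ⟨0, 0⟩, 0⟩ 0 0) (.pos 197 .pp ⟨0, 0, 0, 167772160000, 0, 0, 0, 0, 0, ⟨0, 0⟩, 0⟩ 0 0))) (.cut .v 184549376 (.cut .v 176160768 (.cut .v 171966464 (.void 205 ⟨90260, 0, 0, 9740, 0, 0, 0, 0, 0, ⟨0, 0⟩, 0⟩ 0 0) (.void 206 ⟨90260, 0, 0, 9740, 0, 0, 0, 0, 0, ⟨0, 0⟩, 0⟩ 0 0)) (.void 204 ⟨90260, 0, 0, 9740, 0, 0, 0, 0,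 0, ⟨0, 0⟩, 0⟩ 0 0)) (.void 202 ⟨90260, 0, 0, 9740, 0, 0, 0, 0, 0, ⟨0, 0⟩, 0⟩ 0 0))) (.cut .v 167772160 (.pos 197 .pp ⟨167772160000, 0, 0, 0, 0, 0, 0, 0, 0, ⟨0, 0⟩, 0⟩ 0 0) (.void 198 ⟨90892, 0, 0, 9108, 0, 0, 0, 0, 0, ⟨0, 0⟩, 0⟩ 0 0))) (.void 195 ⟨0, 0, 0, 100000, 0, 0, 0, 0, 0, ⟨0, 0⟩, 0⟩ 0 0)) (.void 195 ⟨0, 0, 0, 100000, 0, 0, 0, 0, 0, ⟨0, 0⟩, 0⟩ 0 0)) (.pos 195 .pp ⟨0, 0, 0, 167772160000, 0, 0, 0, 0, 0, ⟨0, 0⟩, 0⟩ 0 0))))) (.void 196 ⟨0, 0, 0, 1000000000, 0, 0, 0, 0, 0, ⟨0, 0⟩, 0⟩ 0 0)))) (.pos 95 .pp ⟨0, 0, 0, 0, 0, 0, 0, 0, 0, ⟨0, 0⟩, 0⟩ 0 0)) (.pos 95 .pp ⟨0, 0, 0, 0, 0, 0, 0, 0, 0, ⟨0, 0⟩, 0⟩ 0 0)) (.cut .s 16750592 (.void 109 ⟨0, 0, 0, 100000, 0, 0,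 0, 0, 0, ⟨0, 0⟩, 0⟩ 0 0) (.void 109 ⟨0, 0, 0, 100000, 0, 0, 0, 0, 0, ⟨0, 0⟩, 0⟩ 0 0))) (.void 178 ⟨0, 0, 0, 100000, 0, 0, 0, 0, 0, ⟨0, 0⟩, 0⟩ 0 0)))),
    by decide +kernel⟩

def covers43 : cell.Covers table row43.1 :=
  ⟨(.cut .d 0 (.cut .v 16777216 (.cut .d (-8388608) (.void 1 ⟨0, 0, 100000, 0, 0, 0, 0, 0, 0, ⟨0, 0⟩, 0⟩ 0 0) (.cut .d (-4194304) (.void 1 ⟨0, 0, 0, 0, 0, 1000000000, 0, 0, 0, ⟨0, 0⟩, 0⟩ 0 0) (.cut .d (-2097152) (.void 1 ⟨0, 0, 0, 0, 0, 49642, 0, 0, 0, ⟨0, 0⟩, 0⟩ 0 0) (.cut .d (-1048576) (.void 1 ⟨0, 0, 0, 0, 0, 100000, 0, 0, 0, ⟨0, 0⟩, 0⟩ 0 0) (.cut .d (-524288) (.void 1 ⟨0, 0, 0, 0, 0, 1000000000, 0, 0, 0, ⟨0, 0⟩, 0⟩ 0 0) (.cut .v 8388608 (.cut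 .s 16760832 (.void 2 ⟨0, 0, 100000, 0, 0, 0, 0, 0, 0, ⟨0, 0⟩, 0⟩ 0 0) (.void 2 ⟨0, 0, 100000, 0, 0, 0, 0, 0, 0, ⟨0, 0⟩, 0⟩ 0 0)) (.cut .d (-262144) (.void 3 ⟨1000000000, 0, 0, 0, 0, 0, 0, 0, 0, ⟨0, 0⟩, 0⟩ 0 0) (.cut .d (-131072) (.void 3 ⟨1000000000, 0, 0, 0, 0, 0, 0, 0, 0, ⟨0, 0⟩, 0⟩ 0 0) (.cut .d (-65536) (.void 3 ⟨1000000000, 0, 0, 0, 0, 0, 0, 0, 0, ⟨0, 0⟩, 0⟩ 0 0) (.cut .d (-32768) (.void 3 ⟨1000000000, 0, 0, 0, 0, 0, 0, 0, 0, ⟨0, 0⟩, 0⟩ 0 0) (.pos 3 .mm ⟨167772160000, 0, 0, 0, 0, 0, 0, 0, 0, ⟨0, 0⟩, 0⟩ 0 0))))))))))) (.cut .d (-8388608) (.void 177 ⟨100000, 0, 273, 136, 0, 0, 0, 0, 0, ⟨0, 0⟩, 0⟩ 0 0) (.cut .v 4294967296 (.cut .v 268435456 (.cut .v 67108864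 (.cut .d (-4194304) (.void 82 ⟨1000000000, 0, 0, 0, 0, 0, 0, 0, 0, ⟨0, 0⟩, 0⟩ 0 0) (.cut .d (-2097152) (.void 82 ⟨1000000000, 0, 0, 0, 0, 0, 0, 0, 0, ⟨0, 0⟩, 0⟩ 0 0) (.cut .d (-1048576) (.void 82 ⟨1000000000, 0, 0, 0, 0, 0, 0, 0, 0, ⟨0, 0⟩, 0⟩ 0 0) (.cut .d (-524288) (.void 82 ⟨1000000000, 0, 0, 0, 0, 0, 0, 0, 0, ⟨0, 0⟩, 0⟩ 0 0) (.cut .d (-262144) (.void 82 ⟨1000000000, 0, 0, 0, 0, 0, 0, 0, 0, ⟨0, 0⟩, 0⟩ 0 0) (.cut .d (-131072) (.void 82 ⟨1000000000, 0, 0, 0, 0, 0, 0, 0, 0, ⟨0, 0⟩, 0⟩ 0 0) (.cut .d (-65536) (.void 82 ⟨1000000000, 0, 0, 0, 0, 0, 0, 0, 0, ⟨0, 0⟩, 0⟩ 0 0) (.cut .d (-32768) (.void 82 ⟨1000000000, 0, 0, 0, 0, 0, 0, 0, 0, ⟨0, 0⟩, 0⟩ 0 0) (.pos 82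 .mp ⟨167772160000, 0, 0, 0, 0, 0, 0, 0, 0, ⟨0, 0⟩, 0⟩ 0 0))))))))) (.void 96 ⟨1000000000, 0, 0, 0, 0, 0, 0, 0, 0, ⟨0, 0⟩, 0⟩ 0 0)) (.void 109 ⟨1000000000, 0, 0, 0, 0, 0, 0, 0, 0, ⟨0, 0⟩, 0⟩ 0 0)) (.cut .v 68719476736 (.cut .s 16760832 (.void 207 ⟨1000000000, 0, 0, 0, 0, 0, 0, 0, 0, ⟨0, 0⟩, 0⟩ 0 0) (.void 207 ⟨1000000000, 0, 0, 0, 0, 0, 0, 0, 0, ⟨0, 0⟩, 0⟩ 0 0)) (.void 208 ⟨1000000000, 0, 0, 0, 0, 0, 0, 0, 0, ⟨0, 0⟩, 0⟩ 0 0))))) (.cut .v 16777216 (.pos 1 .pm ⟨0, 0, 16058868, 0, 0, 0, 0, 0, 0, ⟨0, 0⟩, 0⟩ 0 0) (.cut .v 4294967296 (.cut .v 268435456 (.pos 95 .pp ⟨0, 0, 0, 0, 0, 0, 0, 0, 0, ⟨0, 0⟩, 0⟩ 0 0) (.cut .s 16760832 (.void 109 ⟨0, 0, 0, 100000, 0, 0, 0,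 0, 0, ⟨0, 0⟩, 0⟩ 0 0) (.void 109 ⟨0, 0, 0, 100000, 0, 0, 0, 0, 0, ⟨0, 0⟩, 0⟩ 0 0))) (.void 178 ⟨0, 0, 0, 100000, 0, 0, 0, 0, 0, ⟨0, 0⟩, 0⟩ 0 0)))),
    by decide +kernel⟩

def covers44 : cell.Covers table row44.1 :=
  ⟨(.cut .d 0 (.cut .v 16777216 (.cut .d (-8388608) (.void 1 ⟨0, 0, 0, 0, 0, 1000000000, 0, 0, 0, ⟨0, 0⟩, 0⟩ 0 0) (.cut .d (-4194304) (.void 1 ⟨0, 0, 117265, 0, 0, 0, 0, 0, 0, ⟨0, 0⟩, 0⟩ 0 0) (.cut .d (-2097152) (.void 1 ⟨0, 0, 0, 0, 0, 1000000000, 0, 0, 0, ⟨0, 0⟩, 0⟩ 0 0) (.cut .d (-1048576) (.void 1 ⟨0, 0, 0, 0, 0, 1000000000, 0, 0, 0, ⟨0, 0⟩, 0⟩ 0 0) (.cut .d (-524288) (.void 1 ⟨0, 0, 0, 0, 0, 1000000000, 0, 0, 0, ⟨0, 0⟩, 0⟩ 0 0) (.cut .d (-262144)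 (.void 1 ⟨0, 0, 0, 0, 0, 1000000000, 0, 0, 0, ⟨0, 0⟩, 0⟩ 0 0) (.cut .d (-131072) (.void 1 ⟨0, 0, 0, 0, 0, 1000000000, 0, 0, 0, ⟨0, 0⟩, 0⟩ 0 0) (.cut .d (-65536) (.void 1 ⟨0, 0, 0, 0, 0, 1000000000, 0, 0, 0, ⟨0, 0⟩, 0⟩ 0 0) (.cut .d (-32768) (.void 1 ⟨0, 0, 0, 0, 0, 1000000000, 0, 0, 0, ⟨0, 0⟩, 0⟩ 0 0) (.cut .d (-16384) (.void 1 ⟨0, 0, 100000, 0, 0, 0, 0, 0, 0, ⟨0, 0⟩, 0⟩ 0 0) (.cut .v 8388608 (.cut .s 16766976 (.void 2 ⟨0, 0, 1000000000, 0, 0, 0, 0, 0, 0, ⟨0, 0⟩, 0⟩ 0 0) (.void 2 ⟨0, 0, 100000, 0, 0, 0, 0, 0, 0, ⟨0, 0⟩, 0⟩ 0 0)) (.pos 3 .mm ⟨167772160000, 0, 0, 0, 0, 0, 0, 0, 0, ⟨0, 0⟩, 0⟩ 0 0)))))))))))) (.cut .v 4294967296 (.cut .d (-8388608) (.void 108 ⟨0,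 0, 0, 0, 0, 1000000000, 0, 0, 0, ⟨0, 0⟩, 0⟩ 0 0) (.cut .v 268435456 (.cut .d (-4194304) (.void 95 ⟨1000000000, 0, 0, 0, 0, 0, 0, 0, 0, ⟨0, 0⟩, 0⟩ 0 0) (.cut .v 67108864 (.cut .d (-2097152) (.void 82 ⟨1000000000, 0, 0, 0, 0, 0, 0, 0, 0, ⟨0, 0⟩, 0⟩ 0 0) (.cut .d (-1048576) (.void 82 ⟨1000000000, 0, 0, 0, 0, 0, 0, 0, 0, ⟨0, 0⟩, 0⟩ 0 0) (.cut .d (-524288) (.void 82 ⟨1000000000, 0, 0, 0, 0, 0, 0, 0, 0, ⟨0, 0⟩, 0⟩ 0 0) (.cut .d (-262144) (.void 82 ⟨1000000000, 0, 0, 0, 0, 0, 0, 0, 0, ⟨0, 0⟩, 0⟩ 0 0) (.cut .d (-131072) (.void 82 ⟨1000000000, 0, 0, 0, 0, 0, 0, 0, 0, ⟨0, 0⟩, 0⟩ 0 0) (.cut .d (-65536) (.void 82 ⟨1000000000, 0, 0, 0, 0, 0, 0, 0, 0, ⟨0, 0⟩, 0⟩ 0 0) (.cut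 .d (-32768) (.void 82 ⟨1000000000, 0, 0, 0, 0, 0, 0, 0, 0, ⟨0, 0⟩, 0⟩ 0 0) (.cut .d (-16384) (.void 82 ⟨1000000000, 0, 0, 0, 0, 0, 0, 0, 0, ⟨0, 0⟩, 0⟩ 0 0) (.pos 82 .mp ⟨167772160000, 0, 0, 0, 0, 0, 0, 0, 0, ⟨0, 0⟩, 0⟩ 0 0))))))))) (.void 96 ⟨1000000000, 0, 0, 0, 0, 0, 0, 0, 0, ⟨0, 0⟩, 0⟩ 0 0))) (.void 109 ⟨1000000000, 0, 0, 0, 0, 0, 0, 0, 0, ⟨0, 0⟩, 0⟩ 0 0))) (.void 178 ⟨1000000000, 0, 0, 0, 0, 0, 0, 0, 0, ⟨0, 0⟩, 0⟩ 0 0))) (.cut .v 16777216 (.pos 1 .pm ⟨0, 0, 16028630, 0, 0, 0, 0, 0, 0, ⟨0, 0⟩, 0⟩ 0 0) (.cut .v 4294967296 (.cut .v 268435456 (.pos 95 .pp ⟨0, 0, 0, 0, 0, 0, 0, 0, 0, ⟨0, 0⟩, 0⟩ 0 0) (.void 109 ⟨0, 0, 0, 100000, 0, 0, 0, 0, 0, ⟨0, 0⟩, 0⟩ 0 0))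 (.void 178 ⟨0, 0, 0, 100000, 0, 0, 0, 0, 0, ⟨0, 0⟩, 0⟩ 0 0)))),
    by decide +kernel⟩

def covers45 : cell.Covers table row45.1 :=
  ⟨(.cut .d 0 (.cut .v 16777216 (.cut .d (-8388608) (.void 1 ⟨0, 0, 0, 0, 0, 1000000000, 0, 0, 0, ⟨0, 0⟩, 0⟩ 0 0) (.cut .d (-4194304) (.void 1 ⟨0, 0, 0, 0, 0, 1000000000, 0, 0, 0, ⟨0, 0⟩, 0⟩ 0 0) (.cut .d (-2097152) (.cut .s 16771072 (.void 1 ⟨0, 0, 0, 0, 0, 1000000000, 0, 0, 0, ⟨0, 0⟩, 0⟩ 0 0) (.void 1 ⟨0, 0, 100000, 0, 0, 0, 0, 0, 0, ⟨0, 0⟩, 0⟩ 0 0)) (.cut .d (-1048576) (.void 1 ⟨0, 0, 0, 0, 0, 1000000000, 0, 0, 0, ⟨0, 0⟩, 0⟩ 0 0) (.cut .d (-524288) (.void 1 ⟨0, 0, 0, 0, 0, 1000000000, 0, 0, 0, ⟨0, 0⟩, 0⟩ 0 0) (.cut .d (-262144)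 (.void 1 ⟨0, 0, 0, 0, 0, 1000000000, 0, 0, 0, ⟨0, 0⟩, 0⟩ 0 0) (.cut .d (-131072) (.void 1 ⟨0, 0, 0, 0, 0, 1000000000, 0, 0, 0, ⟨0, 0⟩, 0⟩ 0 0) (.cut .d (-65536) (.void 1 ⟨0, 0, 0, 0, 0, 1000000000, 0, 0, 0, ⟨0, 0⟩, 0⟩ 0 0) (.cut .d (-32768) (.cut .s 16771072 (.void 1 ⟨0, 0, 0, 0, 0, 1000000000, 0, 0, 0, ⟨0, 0⟩, 0⟩ 0 0) (.void 1 ⟨0, 0, 100000, 0, 0, 0, 0, 0, 0, ⟨0, 0⟩, 0⟩ 0 0)) (.cut .d (-16384) (.cut .s 16771072 (.void 1 ⟨0, 0, 0, 0, 0, 1000000000, 0, 0, 0, ⟨0, 0⟩, 0⟩ 0 0) (.void 1 ⟨0, 0, 100000, 0, 0, 0, 0, 0, 0, ⟨0, 0⟩, 0⟩ 0 0)) (.cut .d (-8192) (.void 1 ⟨0, 0, 0, 0, 0, 1000000000, 0, 0, 0, ⟨0, 0⟩, 0⟩ 0 0) (.cut .v 8388608 (.void 2 ⟨0, 0, 1000000000, 0, 0,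 0, 0, 0, 0, ⟨0, 0⟩, 0⟩ 0 0) (.pos 3 .mm ⟨167772160000, 0, 0, 0, 0, 0, 0, 0, 0, ⟨0, 0⟩, 0⟩ 0 0))))))))))))) (.cut .v 4294967296 (.cut .d (-8388608) (.void 108 ⟨0, 0, 0, 0, 0, 1000000000, 0, 0, 0, ⟨0, 0⟩, 0⟩ 0 0) (.cut .v 268435456 (.cut .d (-4194304) (.void 95 ⟨1000000000, 0, 0, 0, 0, 0, 0, 0, 0, ⟨0, 0⟩, 0⟩ 0 0) (.cut .v 67108864 (.cut .d (-2097152) (.void 82 ⟨1000000000, 0, 0, 0, 0, 0, 0, 0, 0, ⟨0, 0⟩, 0⟩ 0 0) (.cut .d (-1048576) (.void 82 ⟨1000000000, 0, 0, 0, 0, 0, 0, 0, 0, ⟨0, 0⟩, 0⟩ 0 0) (.cut .d (-524288) (.void 82 ⟨1000000000, 0, 0, 0, 0, 0, 0, 0, 0, ⟨0, 0⟩, 0⟩ 0 0) (.cut .d (-262144) (.void 82 ⟨1000000000, 0, 0, 0, 0, 0, 0, 0, 0, ⟨0, 0⟩, 0⟩ 0 0) (.cut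 .d (-131072) (.void 82 ⟨1000000000, 0, 0, 0, 0, 0, 0, 0, 0, ⟨0, 0⟩, 0⟩ 0 0) (.cut .d (-65536) (.void 82 ⟨1000000000, 0, 0, 0, 0, 0, 0, 0, 0, ⟨0, 0⟩, 0⟩ 0 0) (.cut .d (-32768) (.void 82 ⟨1000000000, 0, 0, 0, 0, 0, 0, 0, 0, ⟨0, 0⟩, 0⟩ 0 0) (.cut .d (-16384) (.void 82 ⟨1000000000, 0, 0, 0, 0, 0, 0, 0, 0, ⟨0, 0⟩, 0⟩ 0 0) (.cut .d (-8192) (.void 82 ⟨1000000000, 0, 0, 0, 0, 0, 0, 0, 0, ⟨0, 0⟩, 0⟩ 0 0) (.pos 82 .mp ⟨167772160000, 0, 0, 0, 0, 0, 0, 0, 0, ⟨0, 0⟩, 0⟩ 0 0)))))))))) (.void 96 ⟨1000000000, 0, 0, 0, 0, 0, 0, 0, 0, ⟨0, 0⟩, 0⟩ 0 0))) (.void 109 ⟨1000000000, 0, 0, 0, 0, 0, 0, 0, 0, ⟨0, 0⟩, 0⟩ 0 0))) (.cut .v 68719476736 (.cut .d (-8388608) (.void 207 ⟨52495,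 0, 1, 0, 0, 0, 0, 47506, 0, ⟨(-1), 9352170⟩, 0⟩ 0 128) (.void 207 ⟨209665, 0, 0, 14780, 0, 0, 0, 0, 0, ⟨0, 0⟩, 0⟩ 0 0)) (.void 208 ⟨95240, 0, 0, 4760, 0, 0, 0, 0, 0, ⟨0, 0⟩, 0⟩ 0 0)))) (.cut .v 16777216 (.pos 1 .pm ⟨0, 0, 15981339, 0, 0, 0, 0, 0, 0, ⟨0, 0⟩, 0⟩ 0 0) (.cut .v 4294967296 (.cut .v 268435456 (.pos 95 .pp ⟨0, 0, 0, 0, 0, 0, 0, 0, 0, ⟨0, 0⟩, 0⟩ 0 0) (.cut .s 16771072 (.void 109 ⟨0, 0, 0, 100000, 0, 0, 0, 0, 0, ⟨0, 0⟩, 0⟩ 0 0) (.void 109 ⟨0, 0, 0, 100000, 0, 0, 0, 0, 0, ⟨0, 0⟩, 0⟩ 0 0))) (.void 178 ⟨0, 0, 0, 100000, 0, 0, 0, 0, 0, ⟨0, 0⟩, 0⟩ 0 0)))),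
    by decide +kernel⟩

end Vale.Agent.P237.Petty.Cor.Grid.N19.Low
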